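import Vale.Agent.P290.MathlibUsed
import Vale.Agent.P290.Defs

set_option linter.all false

namespace AFastff4b30x5a
theorem a0 : IsTopologicalRing ℂ := inferInstance
theorem a1 : ContinuousSMul ℂ ℂ := inferInstance
theorem a2 : IsTopologicalSemiring ℂ := inferInstance
theorem a3 : ContinuousAdd ℂ := inferInstance
theorem a4 : IsSemitopologicalRing ℂ := inferInstance
theorem a5 : IsSemitopologicalSemiring ℂ := inferInstance
theorem a6 : IsModuleTopology ℂ ℂ := inferInstance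
@[reducible] noncomputable def a7 {x1 : ℕ} : Module ℝ (Fin x1 → ℂ) := inferInstance
@[reducible] noncomputable def a8 {x1 : ℕ} : Module ℝ ((Fin x1 → ℂ) →L[ℝ] Fin x1 → ℂ) := inferInstance
theorem a9 : ContinuousSMul ℝ ℂ := inferInstance
@[reducible] noncomputable def a10 : Module ℝ ℂ := inferInstance
@[reducible] def a11 : DistribMulAction ℂ ℂ := inferInstance
theorem a12 : SecondCountableTopology ℂ := inferInstance
@[reducible] noncomputable def a13 : DistribMulAction ℝ ℂ := inferInstance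
@[reducible] def a14 : SMulZeroClass ℂ ℂ := inferInstance
theorem a15 : ContinuousConstSMul ℂ ℂ := inferInstance
theorem a16 : TopologicalSpace.SeparableSpace ℂ := inferInstance
theorem a17 : SigmaCompactSpace ℂ := inferInstance
theorem a18 {x1 : ℕ} : OpensMeasurableSpace (Fin x1 → ℂ) := inferInstance
theorem a19 : CharZero ℝ := inferInstance
@[reducible] noncomputable def a20 {x1 : ℕ} : MeasureTheory.MeasureSpace (Fin x1 → ℂ) := inferInstance
theorem a21 : ContinuousMul ℂ := inferInstance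
theorem a22 : LocallyCompactSpace ℂ := inferInstance
@[reducible] noncomputable def a23 : MeasureTheory.MeasureSpace ℂ := inferInstance
theorem a24 : IsTopologicalAddGroup ℂ := inferInstance
@[reducible] noncomputable def a25 {x1 : ℂ × Vale.Agent.P290.C2} : AddCommMonoid (TangentSpace (modelWithCornersSelf ℂ (ℂ × Vale.Agent.P290.C2)) x1) := inferInstance
@[reducible] noncomputable def a26 : SMulZeroClass ℝ ℂ := inferInstance
theorem a27 : SeparatelyContinuousMul ℂ := inferInstance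
@[reducible] noncomputable def a28 : Module ℝ (ℂ × ℂ) := inferInstance
theorem a29 {x1 : ℕ} : ContinuousConstSMul ℝ (Fin x1 → ℂ) := inferInstance
theorem a30 {x1 : ℕ} : ContinuousAdd (Fin x1 → ℂ) := inferInstance
theorem a31 : IsTopologicalDivisionRing ℂ := inferInstance
theorem a32 : WeaklyLocallyCompactSpace ℂ := inferInstance
@[reducible] def a33 : SMulZeroClass ℂ Vale.Agent.P290.C2 := inferInstance
@[reducible] noncomputable def a34 : DistribSMul ℝ ℂ := inferInstance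
@[reducible] noncomputable def a35 {x1 : Type} [x2 : TopologicalSpace x1] [x3 : ChartedSpace Vale.Agent.P290.C2 x1] {x4 : (Fin 4 → ℤ) → ℂ × Vale.Agent.P290.C2 → x1} {x5 : Fin 4 → ℤ} {x6 : ℂ × Vale.Agent.P290.C2} : AddCommMonoid (TangentSpace (modelWithCornersSelf ℂ Vale.Agent.P290.C2) (x4 x5 x6)) := inferInstance
@[reducible] noncomputable def a36 {x1 : ℕ} : TopologicalSpace ((Fin x1 → ℂ) →L[ℝ] Fin x1 → ℂ) := inferInstance
theorem a37 : IsCancelMulZero ℂ := inferInstance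
theorem a38 {x1 : ℕ} : LinearMap.CompatibleSMul (Fin x1 → ℂ) ℂ ℝ ℂ := inferInstance
theorem a39 {x1 : ℕ} : ContinuousSMul ℝ (Fin x1 → ℂ) := inferInstance
theorem a40 : IsBoundedSMul ℂ ℂ := inferInstance
theorem a41 : ContinuousSMul ℂ (ℂ × ℂ) := inferInstance
theorem a42 : PosMulReflectLT ℝ := inferInstance
theorem a43 : PosMulReflectLE ℝ := inferInstance
theorem a44 : IsRightCancelAdd ℂ := inferInstance
@[reducible] noncomputable def a45 {x1 : ℂ × Vale.Agent.P290.C2} : Module ℂ (TangentSpace (modelWithCornersSelf ℂ (ℂ × Vale.Agent.P290.C2)) x1) := inferInstance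
theorem a46 {x1 : ℕ} : SMulCommClass ℝ ℝ (Fin x1 → ℂ) := inferInstance
@[reducible] noncomputable def a47 {x1 : ℕ} : SMulZeroClass ℝ (Fin x1 → ℂ) := inferInstance
theorem a48 : IsLeftCancelMulZero ℂ := inferInstance
@[reducible] noncomputable def a49 {x1 : ℂ × Vale.Agent.P290.C2} : AddCommGroup (TangentSpace (modelWithCornersSelf ℂ (ℂ × Vale.Agent.P290.C2)) x1) := inferInstance
@[reducible] noncomputable def a50 {x1 : ℂ × Vale.Agent.P290.C2} : TopologicalSpace (TangentSpace (modelWithCornersSelf ℂ (ℂ × Vale.Agent.P290.C2)) x1) := inferInstance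
@[reducible] noncomputable def a51 : MulAction ℝ ℂ := inferInstance
@[reducible] noncomputable def a52 {x1 : ℕ} : SMul ℂ ((Fin x1 → ℂ) →L[ℝ] ℂ) := inferInstance
@[reducible] noncomputable def a53 : SMulZeroClass ℝ Vale.Agent.P290.C2 := inferInstance
theorem a54 : SMulCommClass ℝ ℂ ℂ := inferInstance
@[reducible] noncomputable def a55 {x1 : ℕ} : DistribSMul ℝ (Fin x1 → ℂ) := inferInstance
@[reducible] noncomputable def a56 {x1 : ℕ} : SMul ℂ ((Fin x1 → ℂ) →L[ℝ] Fin x1 → ℂ) := inferInstance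
theorem a57 {x1 : ℕ} : LinearMap.CompatibleSMul (Fin x1 → Fin x1 → ℂ) ℂ ℝ ℂ := inferInstance
theorem a58 : PosMulStrictMono ℝ := inferInstance
theorem a59 : Module.Flat ℂ ℂ := inferInstance
theorem a60 : SeparatelyContinuousAdd ℂ := inferInstance
@[reducible] def a61 {x1 : Type} [x2 : NormedAddCommGroup x1] [x3 : NormedSpace ℂ x1] : Module ℂ (x1 × ℂ) := inferInstance
@[reducible] noncomputable def a62 {x1 : ℕ} : DistribMulAction ℝ (Fin x1 → ℂ) := inferInstance
@[reducible] noncomputable def a63 {x1 : ℕ} : NormedSpace ℝ (Fin x1 → ℂ) := inferInstance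
theorem a64 {x1 : ℕ} : ContinuousConstSMul ℂ (Fin x1 → ℂ) := inferInstance
@[reducible] noncomputable def a65 {x1 : Type} [x2 : TopologicalSpace x1] [x3 : ChartedSpace Vale.Agent.P290.C2 x1] {x4 : (Fin 4 → ℤ) → ℂ × Vale.Agent.P290.C2 → x1} {x5 : Fin 4 → ℤ} {x6 : ℂ × Vale.Agent.P290.C2} : Module ℂ (TangentSpace (modelWithCornersSelf ℂ Vale.Agent.P290.C2) (x4 x5 x6)) := inferInstance
theorem a66 : ContinuousAdd (ℂ × ℂ) := inferInstance
@[reducible] noncomputable def a67 : DistribSMul ℝ Vale.Agent.P290.C2 := inferInstance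
@[reducible] def a68 : DistribSMul ℂ Vale.Agent.P290.C2 := inferInstance
@[reducible] noncomputable def a69 : SMul ℝ ℂ := inferInstance
theorem a70 : CovariantClass ℝ ℝ (Function.swap fun x1 x2 => x1 + x2) fun x1 x2 => x1 ≤ x2 := inferInstance
@[reducible] noncomputable def a71 {x1 : Type} [x2 : TopologicalSpace x1] [x3 : ChartedSpace Vale.Agent.P290.C2 x1] {x4 : (Fin 4 → ℤ) → ℂ × Vale.Agent.P290.C2 → x1} {x5 : Fin 4 → ℤ} {x6 : ℂ × Vale.Agent.P290.C2} : AddCommGroup (TangentSpace (modelWithCornersSelf ℂ Vale.Agent.P290.C2) (x4 x5 x6)) := inferInstance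
@[reducible] noncomputable def a72 {x1 : Type} [x2 : TopologicalSpace x1] [x3 : ChartedSpace Vale.Agent.P290.C2 x1] {x4 : (Fin 4 → ℤ) → ℂ × Vale.Agent.P290.C2 → x1} {x5 : Fin 4 → ℤ} {x6 : ℂ × Vale.Agent.P290.C2} : TopologicalSpace (TangentSpace (modelWithCornersSelf ℂ Vale.Agent.P290.C2) (x4 x5 x6)) := inferInstance
theorem a73 {x1 : ℕ} : IsTopologicalAddGroup (Fin x1 → ℂ) := inferInstance
theorem a74 : PosSMulMono ℝ ℝ := inferInstance
theorem a75 : IsBoundedSMul ℝ ℂ := inferInstance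
@[reducible] noncomputable def a76 : DistribMulAction ℝ Vale.Agent.P290.C2 := inferInstance
theorem a77 : AddRightReflectLE ℝ := inferInstance
@[reducible] noncomputable def a78 {x1 : ℕ} : AddCommMonoid ((Fin x1 → ℂ) →L[ℝ] Fin x1 → ℂ) := inferInstance
@[reducible] def a79 {x1 : Type} {x2 : Type} [x3 : NormedAddCommGroup x1] [x4 : NormedAddCommGroup x2] [x5 : NormedSpace ℂ x1] [x6 : NormedSpace ℂ x2] : Module ℂ (x1 × x2) := inferInstance
theorem a80 : UniformContinuousConstSMul ℂ ℂ := inferInstance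
@[reducible] def a81 {x1 : ℕ} : DistribSMul ℂ (Fin x1 → ℂ) := inferInstance
@[reducible] noncomputable def a82 {x1 : ℕ} {x2 : Fin x1} : SemigroupAction ℝ ((fun a => ℂ) x2) := inferInstance
@[reducible] def a83 : DistribMulAction ℂ Vale.Agent.P290.C2 := inferInstance
theorem a84 : Module.IsTorsionFree ℂ ℂ := inferInstance
@[reducible] noncomputable def a85 {x1 : ℕ} : TopologicalSpace ((Fin x1 → ℂ) →L[ℝ] ℂ) := inferInstance
@[reducible] noncomputable def a86 {x1 : ℕ} {x2 : Fin x1} : MulAction ℝ ((fun a => ℂ) x2) := inferInstance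
@[reducible] noncomputable def a87 {x1 : ℕ} {x2 : Fin x1} : DistribMulAction ℝ ((fun a => ℂ) x2) := inferInstance
@[reducible] noncomputable def a88 {x1 : Type} [x2 : NormedAddCommGroup x1] [x3 : NormedSpace ℂ x1] : NormedSpace ℂ (x1 × ℂ) := inferInstance
end AFastff4b30x5a
attribute [local instance] AFastff4b30x5a.a0 AFastff4b30x5a.a1 AFastff4b30x5a.a2 AFastff4b30x5a.a3
  AFastff4b30x5a.a4 AFastff4b30x5a.a5 AFastff4b30x5a.a6 AFastff4b30x5a.a7 AFastff4b30x5a.a8
  AFastff4b30x5a.a9 AFastff4b30x5a.a10 AFastff4b30x5a.a11 AFastff4b30x5a.a12 AFastff4b30x5a.a13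
  AFastff4b30x5a.a14 AFastff4b30x5a.a15 AFastff4b30x5a.a16 AFastff4b30x5a.a17 AFastff4b30x5a.a18
  AFastff4b30x5a.a19 AFastff4b30x5a.a20 AFastff4b30x5a.a21 AFastff4b30x5a.a22 AFastff4b30x5a.a23
  AFastff4b30x5a.a24 AFastff4b30x5a.a25 AFastff4b30x5a.a26 AFastff4b30x5a.a27 AFastff4b30x5a.a28
  AFastff4b30x5a.a29 AFastff4b30x5a.a30 AFastff4b30x5a.a31 AFastff4b30x5a.a32 AFastff4b30x5a.a33
  AFastff4b30x5a.a34 AFastff4b30x5a.a35 AFastff4b30x5a.a36 AFastff4b30x5a.a37 AFastff4b30x5a.a38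
  AFastff4b30x5a.a39 AFastff4b30x5a.a40 AFastff4b30x5a.a41 AFastff4b30x5a.a42 AFastff4b30x5a.a43
  AFastff4b30x5a.a44 AFastff4b30x5a.a45 AFastff4b30x5a.a46 AFastff4b30x5a.a47 AFastff4b30x5a.a48
  AFastff4b30x5a.a49 AFastff4b30x5a.a50 AFastff4b30x5a.a51 AFastff4b30x5a.a52 AFastff4b30x5a.a53
  AFastff4b30x5a.a54 AFastff4b30x5a.a55 AFastff4b30x5a.a56 AFastff4b30x5a.a57 AFastff4b30x5a.a58
  AFastff4b30x5a.a59 AFastff4b30x5a.a60 AFastff4b30x5a.a61 AFastff4b30x5a.a62 AFastff4b30x5a.a63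
  AFastff4b30x5a.a64 AFastff4b30x5a.a65 AFastff4b30x5a.a66 AFastff4b30x5a.a67 AFastff4b30x5a.a68
  AFastff4b30x5a.a69 AFastff4b30x5a.a70 AFastff4b30x5a.a71 AFastff4b30x5a.a72 AFastff4b30x5a.a73
  AFastff4b30x5a.a74 AFastff4b30x5a.a75 AFastff4b30x5a.a76 AFastff4b30x5a.a77 AFastff4b30x5a.a78
  AFastff4b30x5a.a79 AFastff4b30x5a.a80 AFastff4b30x5a.a81 AFastff4b30x5a.a82 AFastff4b30x5a.a83
  AFastff4b30x5a.a84 AFastff4b30x5a.a85 AFastff4b30x5a.a86 AFastff4b30x5a.a87 AFastff4b30x5a.a88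
namespace AFastff4b30x5b
theorem a0 {x1 : Nat} : @MeasureTheory.IsFiniteMeasureOnCompacts (Fin x1 → Complex) (@MeasureTheory.MeasureSpace.toMeasurableSpace (Fin x1 → Complex) (@MeasureTheory.MeasureSpace.pi (Fin x1) (Fin.fintype x1) (fun a => Complex) fun i => @measureSpaceOfInnerProductSpace Complex Complex.instNormedAddCommGroup instInnerProductSpaceRealComplex Complex.instFiniteDimensionalReal Complex.measurableSpace Complex.borelSpace)) (@Pi.topologicalSpace (Fin x1) (fun a => Complex) fun i => @UniformSpace.toTopologicalSpace Complex (@PseudoMetricSpace.toUniformSpace Complex (@SeminormedRing.toPseudoMetricSpace Complex (@SeminormedCommRing.toSeminormedRing Complex (@NormedCommRing.toSeminormedCommRing Complex (@CommCStarAlgebra.toNormedCommRing Complex instCommCStarAlgebraComplex)))))) (@MeasureTheory.volume (Fin x1 → Complex) (@MeasureTheory.MeasureSpace.pi (Fin x1) (Fin.fintype x1) (fun a => Complex) fun i => @measureSpaceOfInnerProductSpace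 Complex Complex.instNormedAddCommGroup instInnerProductSpaceRealComplex Complex.instFiniteDimensionalReal Complex.measurableSpace Complex.borelSpace)) := inferInstance
theorem a1 {x1 : Type} [x2 : NormedAddCommGroup x1] [x3 : NormedSpace ℂ x1] : ContinuousSMul ℂ (x1 × ℂ) := inferInstance
theorem a2 : Module.Free ℝ ℂ := inferInstance
theorem a3 : Module.Flat ℝ ℂ := inferInstance
theorem a4 : Module.FaithfullyFlat ℝ ℂ := inferInstance
theorem a5 {x1 : Nat} : @MeasureTheory.Measure.IsAddHaarMeasure (Fin x1 → Complex) (@Pi.addGroup (Fin x1) (fun a => Complex) fun i => @SeminormedAddGroup.toAddGroup ((fun a => Complex) i) ((fun i => @SeminormedAddCommGroup.toSeminormedAddGroup ((fun a => Complex) i) (@NormedAddCommGroup.toSeminormedAddCommGroup ((fun a => Complex) i) ((fun i => Complex.instNormedAddCommGroup) i))) i)) (@Pi.topologicalSpace (Fin x1) (fun a => Complex) fun i => @UniformSpace.toTopologicalSpace ((fun a => Complex) i) ((fun i =>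 @PseudoEMetricSpace.toUniformSpace ((fun a => Complex) i) ((fun b => @PseudoMetricSpace.toPseudoEMetricSpace ((fun a => Complex) b) ((fun b => @SeminormedAddGroup.toPseudoMetricSpace ((fun a => Complex) b) ((fun i => @SeminormedAddCommGroup.toSeminormedAddGroup ((fun a => Complex) i) (@NormedAddCommGroup.toSeminormedAddCommGroup ((fun a => Complex) i) ((fun i => Complex.instNormedAddCommGroup) i))) b)) b)) i)) i)) (@MeasureTheory.MeasureSpace.toMeasurableSpace (Fin x1 → Complex) (@MeasureTheory.MeasureSpace.pi (Fin x1) (Fin.fintype x1) (fun a => Complex) fun i => @measureSpaceOfInnerProductSpace Complex Complex.instNormedAddCommGroup instInnerProductSpaceRealComplex Complex.instFiniteDimensionalReal Complex.measurableSpace Complex.borelSpace)) (@MeasureTheory.volume (Fin x1 → Complex) (@MeasureTheory.MeasureSpace.pi (Fin x1) (Fin.fintype x1) (fun a => Complex) fun i => @measureSpaceOfInnerProductSpace Complex Complex.instNormedAddCommGroup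 instInnerProductSpaceRealComplex Complex.instFiniteDimensionalReal Complex.measurableSpace Complex.borelSpace)) := inferInstance
theorem a6 {x1 : Type} [x2 : NormedAddCommGroup x1] {x3 : Type} [x4 : NormedAddCommGroup x3] [x5 : NormedSpace ℂ x1] [x6 : NormedSpace ℂ x3] : ZeroHomClass (x1 →L[ℂ] x3) x1 x3 := inferInstance
theorem a7 : ZeroHomClass ((Fin 4 → ℝ) →ₗ[ℝ] Vale.Agent.P290.C2) (Fin 4 → ℝ) Vale.Agent.P290.C2 := inferInstance
theorem a8 {x1 : Type} [x2 : NormedAddCommGroup x1] {x3 : Type} [x4 : NormedAddCommGroup x3] [x5 : NormedSpace ℂ x1] [x6 : NormedSpace ℂ x3] : AddMonoidHomClass (x1 →L[ℂ] x3) x1 x3 := inferInstance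
theorem a9 {x1 : Type} [x2 : NormedAddCommGroup x1] {x3 : Type} [x4 : NormedAddCommGroup x3] [x5 : NormedSpace ℂ x1] [x6 : NormedSpace ℂ x3] : DistribMulActionSemiHomClass (x1 →L[ℂ] x3) (⇑(RingHom.id ℂ)) x1 x3 := inferInstance
end AFastff4b30x5b
attribute [local instance] AFastff4b30x5b.a0 AFastff4b30x5b.a1 AFastff4b30x5b.a2 AFastff4b30x5b.a3
  AFastff4b30x5b.a4 AFastff4b30x5b.a5 AFastff4b30x5b.a6 AFastff4b30x5b.a7 AFastff4b30x5b.a8
  AFastff4b30x5b.a9
section

section

open Set Filter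
open scoped Manifold ContDiff Topology

namespace Vale.Agent.P290

/-- `h` is holomorphic on a neighbourhood of the set `S` (vector valued case). -/
def HolNear {V W : Type} [NormedAddCommGroup V] [NormedSpace ℂ V] [NormedAddCommGroup W]
    [NormedSpace ℂ W] (S : Set V) (h : V → W) : Prop :=
  ∀ᶠ z in 𝓝ˢ S, DifferentiableAt ℂ h z

/-- `f` is holomorphic on a neighbourhood of the set `S` (manifold valued case). -/
def MHolNear (E : Type) {V X : Type} [NormedAddCommGroup V] [NormedSpace ℂ V]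
    [NormedAddCommGroup E] [NormedSpace ℂ E] [TopologicalSpace X] [ChartedSpace E X]
    (S : Set V) (f : V → X) : Prop :=
  ∀ᶠ z in 𝓝ˢ S, MDifferentiableAt 𝓘(ℂ, V) 𝓘(ℂ, E) f z

end Vale.Agent.P290
end
end

section

section

open Set Filter Metric
open scoped Topology

namespace Vale.Agent.P290

/-- additive splitting property -/
def Split {V : Type} [NormedAddCommGroup V] [NormedSpace ℂ V] (S' S'' : Set V) : Prop :=
  ∀ h : V → ℂ, HolNear (S' ∩ S'') h →
    ∃ h' h'' : V → ℂ, HolNear S' h' ∧ HolNear S'' h'' ∧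
      h =ᶠ[𝓝ˢ (S' ∩ S'')] fun z => h' z - h'' z

/-- compact convex sets -/
def Good {V : Type} [NormedAddCommGroup V] [NormedSpace ℂ V] (S : Set V) : Prop :=
  IsCompact S ∧ Convex ℝ S

end Vale.Agent.P290
end
end

section

section

open Set Filter Metric
open scoped Topology

namespace Vale.Agent.P290

/-- second order estimate in one variable -/
theorem norm_sub_sub_smul_deriv_le {F : Type} [NormedAddCommGroup F] [NormedSpace ℂ F]
    {g : ℂ → F} {R M : ℝ} (hR : 0 < R) (hg : DifferentiableOn ℂ g (ball 0 R))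
    (hM : ∀ ζ ∈ ball (0 : ℂ) R, ‖g ζ - g 0‖ ≤ M) {ζ : ℂ} (hζ : ζ ∈ ball (0 : ℂ) R) :
    ‖g ζ - g 0 - ζ • deriv g 0‖ ≤ 2 * M * (‖ζ‖ / R) ^ 2 := by
  have h0 : (0 : ℂ) ∈ ball (0 : ℂ) R := mem_ball_self hR
  have hd0 : DifferentiableAt ℂ g 0 := hg.differentiableAt (isOpen_ball.mem_nhds h0)
  have hmaps : MapsTo g (ball 0 R) (closedBall (g 0) M) := fun ζ hζ => by
    rw [mem_closedBall, dist_eq_norm]; exact hM ζ hζ
  have hder : ‖deriv g 0‖ ≤ M / R := by
    have := Complex.norm_fderiv_le_div_of_mapsTo_ball hg hmaps hR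
    rwa [← norm_deriv_eq_norm_fderiv] at this
  have hM0 : 0 ≤ M := (norm_nonneg _).trans (hM 0 h0)
  set G : ℂ → F := fun ζ => g ζ - ζ • deriv g 0 with hG
  have hGd : DifferentiableOn ℂ G (ball 0 R) :=
    hg.sub ((differentiableOn_id).smul_const _)
  have hG0 : G 0 = g 0 := by simp [hG]
  have hGm : MapsTo G (ball 0 R) (closedBall (G 0) (2 * M)) := by
    intro ξ hξ
    rw [mem_closedBall, dist_eq_norm, hG0]
    have h1 : G ξ - g 0 = (g ξ - g 0) - ξ • deriv g 0 := by simp only [hG]; abel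
    rw [h1]
    calc ‖(g ξ - g 0) - ξ • deriv g 0‖ ≤ ‖g ξ - g 0‖ + ‖ξ • deriv g 0‖ := norm_sub_le _ _
      _ ≤ M + R * (M / R) := by
        gcongr
        · exact hM ξ hξ
        · rw [norm_smul]
          have : ‖ξ‖ ≤ R := by
            have := mem_ball_zero_iff.1 hξ
            exact this.le
          (clear * - this hder hR; gcongr)
      _ = 2 * M := by field_simp; ring
  have hlo : (G · - G 0) =o[𝓝 0] (fun w : ℂ => ‖w - 0‖ ^ 1) := by
    have := hd0.hasDerivAt.isLittleO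
    simp only [sub_zero, pow_one]
    refine (this.norm_right).congr' ?_ ?_
    · filter_upwards with w
      simp only [sub_zero, hG, zero_smul]; abel
    · filter_upwards with w
      simp
  have := Complex.dist_le_mul_div_pow_of_mapsTo_ball_of_isLittleO hGd hGm hlo hζ
  rw [dist_eq_norm, hG0, dist_zero_right] at this
  have h2 : G ζ - g 0 = g ζ - g 0 - ζ • deriv g 0 := by simp only [hG]; abel
  rw [h2] at this
  simpa only [ge_iff_le, Nat.reduceAdd] using this

theorem norm_deriv_le_of_bound {F : Type} [NormedAddCommGroup F] [NormedSpace ℂ F]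
    {g : ℂ → F} {R M : ℝ} (hR : 0 < R) (hg : DifferentiableOn ℂ g (ball 0 R))
    (hM : ∀ ζ ∈ ball (0 : ℂ) R, ‖g ζ - g 0‖ ≤ M) : ‖deriv g 0‖ ≤ M / R := by
  have hmaps : MapsTo g (ball 0 R) (closedBall (g 0) M) := fun ζ hζ => by
    rw [mem_closedBall, dist_eq_norm]; exact hM ζ hζ
  have := Complex.norm_fderiv_le_div_of_mapsTo_ball hg hmaps hR
  rwa [← norm_deriv_eq_norm_fderiv] at this

section gateaux

variable {V F : Type} [NormedAddCommGroup V] [NormedSpace ℂ V] [NormedAddCommGroup F]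
  [NormedSpace ℂ F]

/-- directional derivative -/
noncomputable def dirD (f : V → F) (z h : V) : F := deriv (fun ζ : ℂ => f (z + ζ • h)) 0

theorem dirD_smul (f : V → F) (z h : V) (c : ℂ) : dirD f z (c • h) = c • dirD f z h := by
  unfold dirD
  have : (fun ζ : ℂ => f (z + ζ • c • h)) = fun ζ : ℂ => (fun ξ : ℂ => f (z + ξ • h)) (c * ζ) := by
    funext ζ
    simp only [smul_smul, mul_comm]
  rw [this]
  have := deriv_comp_mul_left c (fun ξ : ℂ => f (z + ξ • h)) 0
  simpa only [mul_zero] using this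

theorem line_differentiableAt {U : Set V} {f : V → F}
    (hl : ∀ z ∈ U, ∀ h : V, DifferentiableAt ℂ (fun ζ : ℂ => f (z + ζ • h)) 0)
    {z h : V} {ζ : ℂ} (hz : z + ζ • h ∈ U) :
    DifferentiableAt ℂ (fun ξ : ℂ => f (z + ξ • h)) ζ := by
  have h1 := hl _ hz h
  have h2 : (fun ξ : ℂ => f (z + ξ • h)) =
      (fun ξ : ℂ => f (z + ζ • h + ξ • h)) ∘ (fun ξ : ℂ => ξ - ζ) := by
    funext ξ
    simp only [Function.comp]
    congr 1
    rw [add_assoc, ← add_smul]
    congr 2
    ring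
  rw [h2]
  apply DifferentiableAt.comp
  · simpa only [sub_self] using h1
  · fun_prop

theorem exists_gateaux_radius {U : Set V} (hU : IsOpen U) {f : V → F} (hc : ContinuousOn f U)
    {z : V} (hz : z ∈ U) : ∃ r > 0, ball z (2 * r) ⊆ U ∧
      ∀ y ∈ ball z r, ∀ h : V, ‖h‖ ≤ 1 → ∀ ζ ∈ ball (0 : ℂ) r, ‖f (y + ζ • h) - f y‖ ≤ 2 := by
  have h1 : ∀ᶠ y in 𝓝 z, ‖f y - f z‖ < 1 := by
    have := (hc.continuousAt (hU.mem_nhds hz))
    have := this.eventually (ball_mem_nhds (f z) one_pos)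
    filter_upwards [this] with y hy
    rwa [dist_eq_norm] at hy
  obtain ⟨ρ, hρ, hρs⟩ := Metric.mem_nhds_iff.1 (inter_mem (hU.mem_nhds hz) h1)
  refine ⟨ρ / 2, by positivity, ?_, ?_⟩
  · have : 2 * (ρ / 2) = ρ := by ring
    rw [this]
    exact fun y hy => (hρs hy).1
  · intro y hy h hh ζ hζ
    have hy' : y ∈ ball z ρ := by
      rw [mem_ball] at hy ⊢; linarith only [hy, hρ]
    have hy2 : y + ζ • h ∈ ball z ρ := by
      rw [mem_ball] at hy ⊢
      rw [mem_ball_zero_iff] at hζ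
      calc dist (y + ζ • h) z ≤ dist (y + ζ • h) y + dist y z := dist_triangle _ _ _
        _ = ‖ζ‖ * ‖h‖ + dist y z := by simp only [dist_eq_norm, add_sub_cancel_left, norm_smul]
        _ ≤ ‖ζ‖ * 1 + dist y z := by (clear * - hh; gcongr)
        _ < ρ := by linarith only [hζ, hy]
    have e1 := (hρs hy').2
    have e2 := (hρs hy2).2
    simp only [Set.mem_ofPred_eq] at e1 e2
    calc ‖f (y + ζ • h) - f y‖ = ‖(f (y + ζ • h) - f z) - (f y - f z)‖ := by congr 1; abel
      _ ≤ ‖f (y + ζ • h) - f z‖ + ‖f y - f z‖ := norm_sub_le _ _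
      _ ≤ 2 := by linarith only [e1, e2]

/-- Gateaux holomorphic + continuous implies Frechet holomorphic. -/
theorem differentiableOn_of_continuousOn_of_line 
    {U : Set V} (hU : IsOpen U) {f : V → F} (hc : ContinuousOn f U)
    (hl : ∀ z ∈ U, ∀ h : V, DifferentiableAt ℂ (fun ζ : ℂ => f (z + ζ • h)) 0) :
    DifferentiableOn ℂ f U := by
  intro z hz
  obtain ⟨r, hr, hrU, hrb⟩ := exists_gateaux_radius hU hc hz
  have hsub : ∀ y ∈ ball z r, ∀ h : V, ‖h‖ ≤ 1 → ∀ ζ ∈ ball (0 : ℂ) r, y + ζ • h ∈ U := by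
    intro y hy h hh ζ hζ
    apply hrU
    rw [mem_ball] at hy ⊢
    rw [mem_ball_zero_iff] at hζ
    calc dist (y + ζ • h) z ≤ dist (y + ζ • h) y + dist y z := dist_triangle _ _ _
      _ = ‖ζ‖ * ‖h‖ + dist y z := by simp only [dist_eq_norm, add_sub_cancel_left, norm_smul]
      _ ≤ ‖ζ‖ * 1 + dist y z := by (clear * - hh; gcongr)
      _ < 2 * r := by linarith only [hy, hζ]
  have hdiff : ∀ y ∈ ball z r, ∀ h : V, ‖h‖ ≤ 1 →
      DifferentiableOn ℂ (fun ζ : ℂ => f (y + ζ • h)) (ball 0 r) := fun y hy h hh ζ hζ =>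
    (line_differentiableAt hl (hsub y hy h hh ζ hζ)).differentiableWithinAt
  have hest : ∀ y ∈ ball z r, ∀ h : V, ‖h‖ ≤ 1 → ∀ ζ ∈ ball (0 : ℂ) r,
      ‖f (y + ζ • h) - f y - ζ • dirD f y h‖ ≤ 2 * 2 * (‖ζ‖ / r) ^ 2 := by
    intro y hy h hh ζ hζ
    have := norm_sub_sub_smul_deriv_le (M := 2) hr (hdiff y hy h hh)
      (by intro ξ hξ; simpa only [zero_smul, add_zero] using hrb y hy h hh ξ hξ) hζ
    simpa only [dirD, ge_iff_le, zero_smul, add_zero] using this
  have hbd : ∀ y ∈ ball z r, ∀ h : V, ‖h‖ ≤ 1 → ‖dirD f y h‖ ≤ 2 / r := by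
    intro y hy h hh
    exact norm_deriv_le_of_bound hr (hdiff y hy h hh)
      (by intro ξ hξ; simpa only [zero_smul, add_zero] using hrb y hy h hh ξ hξ)
  have hzb : z ∈ ball z r := mem_ball_self hr
  -- continuity of the directional derivative
  have hcont : ∀ h : V, ‖h‖ ≤ 1 → ContinuousAt (fun y => dirD f y h) z := by
    intro h hh
    rw [Metric.continuousAt_iff']
    intro ε hε
    have key : ∀ᶠ y in 𝓝 z, ∀ ζ ∈ sphere (0 : ℂ) (r / 2),
        ‖f (y + ζ • h) - f (z + ζ • h)‖ < ε / 2 * (r / 2) := by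
      apply (isCompact_sphere (0 : ℂ) (r / 2)).eventually_forall_of_forall_eventually
      intro ζ hζ
      have hζ' : ζ ∈ ball (0 : ℂ) r := by
        rw [mem_sphere_zero_iff_norm] at hζ
        rw [mem_ball_zero_iff, hζ]; linarith only [hr]
      have hm := hsub z hzb h hh ζ hζ'
      have hcf := hc.continuousAt (hU.mem_nhds hm)
      have c1 : ContinuousAt (fun p : V × ℂ => f (p.1 + p.2 • h)) (z, ζ) :=
        ContinuousAt.comp (f := fun p : V × ℂ => p.1 + p.2 • h) hcf (by fun_prop)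
      have c2 : ContinuousAt (fun p : V × ℂ => f (z + p.2 • h)) (z, ζ) :=
        ContinuousAt.comp (f := fun p : V × ℂ => z + p.2 • h) hcf (by fun_prop)
      have c3 := (c1.sub c2).norm
      have : (fun p : V × ℂ => ‖f (p.1 + p.2 • h) - f (z + p.2 • h)‖) (z, ζ) < ε / 2 * (r / 2) := by
        simp only [sub_self, norm_zero]; (clear * - hε hr; positivity)
      have := c3.eventually (gt_mem_nhds this)
      exact this
    filter_upwards [key, ball_mem_nhds z hr] with y hy hyb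
    rw [dist_eq_norm]
    have hd1 := hdiff y hyb h hh
    have hd2 := hdiff z hzb h hh
    have h0 : (0 : ℂ) ∈ ball (0 : ℂ) r := mem_ball_self hr
    have e : dirD f y h - dirD f z h = deriv (fun ζ : ℂ => f (y + ζ • h) - f (z + ζ • h)) 0 := by
      unfold dirD
      rw [deriv_fun_sub]
      · exact hd1.differentiableAt (isOpen_ball.mem_nhds h0)
      · exact hd2.differentiableAt (isOpen_ball.mem_nhds h0)
    rw [e]
    have hle : ‖deriv (fun ζ : ℂ => f (y + ζ • h) - f (z + ζ • h)) 0‖ ≤ (ε / 2 * (r / 2)) / (r / 2) := by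
      apply Complex.norm_deriv_le_of_forall_mem_sphere_norm_le (by positivity)
      · apply DifferentiableOn.diffContOnCl
        refine (hd1.sub hd2).mono ?_
        refine closure_ball_subset_closedBall.trans ?_
        exact closedBall_subset_ball (by linarith only [hr])
      · intro ζ hζ
        exact (hy ζ hζ).le
    calc _ ≤ _ := hle
      _ = ε / 2 := by (clear * - hr hε; field_simp)
      _ < ε := by linarith only [hε]
  -- additivity for small vectors
  have hadd : ∀ h1 h2 : V, ‖h1‖ ≤ 1 / 2 → ‖h2‖ ≤ 1 / 2 →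
      dirD f z (h1 + h2) = dirD f z h1 + dirD f z h2 := by
    intro h1 h2 hh1 hh2
    have hh12 : ‖h1 + h2‖ ≤ 1 := (norm_add_le _ _).trans (by linarith only [hh2, hh1])
    have hlim : Tendsto (fun t : ℝ => ‖dirD f z (h1 + h2) - dirD f z h1 - dirD f (z + (t : ℂ) • h1) h2‖)
        (𝓝[>] 0) (𝓝 ‖dirD f z (h1 + h2) - dirD f z h1 - dirD f z h2‖) := by
      have : Tendsto (fun t : ℝ => z + (t : ℂ) • h1) (𝓝[>] 0) (𝓝 z) := by
        have : ContinuousAt (fun t : ℝ => z + (t : ℂ) • h1) 0 := by (clear * -; fun_prop)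
        have := this.tendsto
        simp only [Complex.ofReal_zero, zero_smul, add_zero] at this
        exact this.mono_left nhdsWithin_le_nhds
      have := (hcont h2 (by linarith only [hh2])).tendsto.comp this
      exact (tendsto_const_nhds.sub this).norm
    have hlim2 : Tendsto (fun t : ℝ => 3 * (2 * 2 * (t / r ^ 2))) (𝓝[>] 0) (𝓝 0) := by
      have : ContinuousAt (fun t : ℝ => 3 * (2 * 2 * (t / r ^ 2))) 0 := by (clear * -; fun_prop)
      have := this.tendsto
      simp only [zero_div, mul_zero] at this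
      exact this.mono_left nhdsWithin_le_nhds
    have hle : ∀ᶠ t : ℝ in 𝓝[>] 0,
        ‖dirD f z (h1 + h2) - dirD f z h1 - dirD f (z + (t : ℂ) • h1) h2‖ ≤ 3 * (2 * 2 * (t / r ^ 2)) := by
      filter_upwards [Ioo_mem_nhdsGT hr] with t ht
      have ht0 : 0 < t := ht.1
      have htr : t < r := ht.2
      have htb : (t : ℂ) ∈ ball (0 : ℂ) r := by
        rw [mem_ball_zero_iff, Complex.norm_real, Real.norm_of_nonneg ht0.le]; exact htr
      have hnt : ‖(t : ℂ)‖ = t := by rw [Complex.norm_real, Real.norm_of_nonneg ht0.le]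
      have hy : z + (t : ℂ) • h1 ∈ ball z r := by
        rw [mem_ball, dist_eq_norm, add_sub_cancel_left, norm_smul, hnt]
        calc t * ‖h1‖ ≤ t * (1 / 2) := by (clear * - hh1 ht0; gcongr)
          _ < r := by linarith only [htr, ht0]
      have E1 := hest z hzb (h1 + h2) hh12 t htb
      have E2 := hest z hzb h1 (by linarith only [hh1]) t htb
      have E3 := hest _ hy h2 (by linarith only [hh2]) t htb
      rw [hnt] at E1 E2 E3
      have hid : (t : ℂ) • (dirD f z (h1 + h2) - dirD f z h1 - dirD f (z + (t : ℂ) • h1) h2) =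
          -(f (z + (t : ℂ) • (h1 + h2)) - f z - (t : ℂ) • dirD f z (h1 + h2)) +
          (f (z + (t : ℂ) • h1) - f z - (t : ℂ) • dirD f z h1) +
          (f (z + (t : ℂ) • h1 + (t : ℂ) • h2) - f (z + (t : ℂ) • h1) -
            (t : ℂ) • dirD f (z + (t : ℂ) • h1) h2) := by
        rw [smul_add, ← add_assoc]
        simp only [smul_sub]
        abel
      have hn : t * ‖dirD f z (h1 + h2) - dirD f z h1 - dirD f (z + (t : ℂ) • h1) h2‖ ≤
          3 * (2 * 2 * (t / r) ^ 2) := by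
        rw [← hnt, ← norm_smul, hnt, hid]
        refine (norm_add₃_le).trans ?_
        rw [norm_neg]
        linarith only [E1, E2, E3]
      have : t * ‖dirD f z (h1 + h2) - dirD f z h1 - dirD f (z + (t : ℂ) • h1) h2‖ ≤
          t * (3 * (2 * 2 * (t / r ^ 2))) := by
        refine hn.trans (le_of_eq ?_)
        rw [div_pow]; ring
      exact le_of_mul_le_mul_left this ht0
    have := le_of_tendsto_of_tendsto hlim hlim2 hle
    have : dirD f z (h1 + h2) - dirD f z h1 - dirD f z h2 = 0 := norm_le_zero_iff.1 this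
    rw [sub_sub, sub_eq_zero] at this
    exact this
  have hadd' : ∀ h1 h2 : V, dirD f z (h1 + h2) = dirD f z h1 + dirD f z h2 := by
    intro h1 h2
    set c : ℝ := 2 * (‖h1‖ + ‖h2‖ + 1) with hc'
    have hcpos : 0 < c := by (clear * -; positivity)
    have hcne : (c : ℂ) ≠ 0 := by exact_mod_cast hcpos.ne'
    have hs : ∀ h : V, ‖h‖ ≤ ‖h1‖ + ‖h2‖ + 1 → ‖(c : ℂ)⁻¹ • h‖ ≤ 1 / 2 := by
      intro h hh
      rw [norm_smul, norm_inv, Complex.norm_real, Real.norm_of_nonneg hcpos.le, inv_mul_le_iff₀ hcpos]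
      rw [hc']; linarith only [hh]
    have := hadd ((c : ℂ)⁻¹ • h1) ((c : ℂ)⁻¹ • h2) (hs h1 (by linarith only [norm_nonneg h2]))
      (hs h2 (by linarith [norm_nonneg h1]))
    rw [← smul_add, dirD_smul, dirD_smul, dirD_smul, ← smul_add] at this
    have h3 := congrArg (fun x => (c : ℂ) • x) this
    simpa [smul_smul, hcne] using h3
  let Lz : V →ₗ[ℂ] F :=
    { toFun := dirD f z
      map_add' := hadd'
      map_smul' := fun c h => dirD_smul f z h c }
  have hLb : ∀ h : V, ‖Lz h‖ ≤ 2 / r * ‖h‖ := by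
    intro h
    rcases eq_or_ne h 0 with rfl | hh
    · simp
    have hn : (‖h‖ : ℂ) ≠ 0 := by exact_mod_cast (norm_ne_zero_iff.2 hh)
    have h1 : h = (‖h‖ : ℂ) • ((‖h‖ : ℂ)⁻¹ • h) := by rw [smul_smul, mul_inv_cancel₀ hn, one_smul]
    have h2 : ‖(‖h‖ : ℂ)⁻¹ • h‖ ≤ 1 := by
      rw [norm_smul, norm_inv, Complex.norm_real, norm_norm, inv_mul_cancel₀ (norm_ne_zero_iff.2 hh)]
    have h3 : Lz h = (‖h‖ : ℂ) • dirD f z ((‖h‖ : ℂ)⁻¹ • h) := by
      rw [← dirD_smul, ← h1]; rfl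
    rw [h3, norm_smul, Complex.norm_real, norm_norm, mul_comm]
    exact mul_le_mul_of_nonneg_right (hbd z hzb _ h2) (norm_nonneg _)
  set Lc : V →L[ℂ] F := Lz.mkContinuous (2 / r) hLb with hLc
  have hfd : HasFDerivAt f Lc z := by
    rw [hasFDerivAt_iff_isLittleO_nhds_zero]
    have hO : (fun h => f (z + h) - f z - Lc h) =O[𝓝 0] fun h : V => ‖h‖ ^ 2 := by
      refine Asymptotics.IsBigO.of_bound (4 / r ^ 2) ?_
      filter_upwards [ball_mem_nhds (0 : V) hr] with h hh
      rw [mem_ball_zero_iff] at hh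
      rcases eq_or_ne h 0 with rfl | hh0
      · simp
      have hn : (‖h‖ : ℂ) ≠ 0 := by exact_mod_cast (norm_ne_zero_iff.2 hh0)
      have h1 : h = (‖h‖ : ℂ) • ((‖h‖ : ℂ)⁻¹ • h) := by
        rw [smul_smul, mul_inv_cancel₀ hn, one_smul]
      have h2 : ‖(‖h‖ : ℂ)⁻¹ • h‖ ≤ 1 := by
        rw [norm_smul, norm_inv, Complex.norm_real, norm_norm, inv_mul_cancel₀ (norm_ne_zero_iff.2 hh0)]
      have h3 : Lc h = (‖h‖ : ℂ) • dirD f z ((‖h‖ : ℂ)⁻¹ • h) := by
        rw [← dirD_smul, ← h1]; rfl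
      have := hest z hzb _ h2 (‖h‖ : ℂ) (by simpa using hh)
      rw [← h3, ← h1] at this
      simp only [Complex.norm_real, norm_norm] at this
      rw [norm_pow, norm_norm]
      calc _ ≤ _ := this
        _ = 4 / r ^ 2 * ‖h‖ ^ 2 := by rw [div_pow]; ring
    exact hO.trans_isLittleO (Asymptotics.isLittleO_norm_pow_id one_lt_two)
  exact hfd.differentiableAt.differentiableWithinAt

end gateaux


section more

variable {V F : Type} [NormedAddCommGroup V] [NormedSpace ℂ V] [NormedAddCommGroup F]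
  [NormedSpace ℂ F]

/-- locally uniform limits -/
theorem differentiableOn_of_tendstoLocallyUniformlyOn {α : Type} [CompleteSpace F]
    {φ : Filter α} [NeBot φ] {G : α → V → F} {f : V → F} {U : Set V} (hU : IsOpen U)
    (hG : TendstoLocallyUniformlyOn G f φ U) (hd : ∀ᶠ n in φ, DifferentiableOn ℂ (G n) U) :
    DifferentiableOn ℂ f U := by
  apply differentiableOn_of_continuousOn_of_line hU
  · exact hG.continuousOn (hd.frequently.mono fun n hn => hn.continuousOn)
  · intro z hz h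
    set W : Set ℂ := {ζ | z + ζ • h ∈ U} with hW
    have hcont : Continuous (fun ζ : ℂ => z + ζ • h) := by fun_prop
    have hWo : IsOpen W := hU.preimage hcont
    have h0 : (0 : ℂ) ∈ W := by simpa [hW] using hz
    have h1 : TendstoLocallyUniformlyOn (fun n => G n ∘ (fun ζ : ℂ => z + ζ • h))
        (f ∘ (fun ζ : ℂ => z + ζ • h)) φ W :=
      hG.comp _ (fun ζ hζ => hζ) hcont.continuousOn
    have h2 : ∀ᶠ n in φ, DifferentiableOn ℂ (G n ∘ (fun ζ : ℂ => z + ζ • h)) W := by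
      filter_upwards [hd] with n hn
      apply hn.comp
      · fun_prop
      · exact fun ζ hζ => hζ
    have h3 := h1.differentiableOn h2 hWo
    exact h3.differentiableAt (hWo.mem_nhds h0)

theorem line_diff_of_differentiableOn {U : Set V} (hU : IsOpen U) {f : V → F}
    (hf : DifferentiableOn ℂ f U) :
    ∀ z ∈ U, ∀ h : V, DifferentiableAt ℂ (fun ζ : ℂ => f (z + ζ • h)) 0 := by
  intro z hz h
  have h1 : DifferentiableAt ℂ f (z + (0 : ℂ) • h) := by
    simpa using hf.differentiableAt (hU.mem_nhds hz)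
  exact DifferentiableAt.comp (f := fun ζ : ℂ => z + ζ • h) (0 : ℂ) h1 (by fun_prop)

theorem dirD_eq_fderiv {f : V → F} {z : V} (hf : DifferentiableAt ℂ f z) (h : V) :
    dirD f z h = fderiv ℂ f z h := by
  unfold dirD
  have h1 : HasFDerivAt f (fderiv ℂ f z) (z + (0 : ℂ) • h) := by
    simpa only [zero_smul, add_zero] using hf.hasFDerivAt
  have h2 : HasDerivAt (fun ζ : ℂ => z + ζ • h) h 0 := by
    have := ((hasDerivAt_id (0 : ℂ)).smul_const h).const_add z
    simpa only [hasDerivAt_const_add_iff, id_eq, one_smul] using this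
  exact (h1.comp_hasDerivAt (0 : ℂ) h2).deriv

/-- derivative in a fixed direction is holomorphic -/
theorem differentiableOn_fderiv_apply [CompleteSpace F] {U : Set V} (hU : IsOpen U) {f : V → F}
    (hf : DifferentiableOn ℂ f U) (h : V) :
    DifferentiableOn ℂ (fun z => fderiv ℂ f z h) U := by
  -- reduce to small vectors
  wlog hh : ‖h‖ ≤ 1 generalizing h
  · have hn : ‖h‖ ≠ 0 := by
      intro h0; apply hh; rw [h0]; exact zero_le_one
    have hn' : (‖h‖ : ℂ) ≠ 0 := by exact_mod_cast hn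
    have h2 : ‖(‖h‖ : ℂ)⁻¹ • h‖ ≤ 1 := by
      rw [norm_smul, norm_inv, Complex.norm_real, norm_norm, inv_mul_cancel₀ hn]
    have := (this _ h2).const_smul (‖h‖ : ℂ)
    refine this.congr fun z hz => ?_
    simp [smul_smul, hn']
  intro z hz
  have hl := line_diff_of_differentiableOn hU hf
  obtain ⟨r, hr, hrU, hrb⟩ := exists_gateaux_radius hU hf.continuousOn hz
  have hsub : ∀ y ∈ ball z r, ∀ ζ ∈ ball (0 : ℂ) r, y + ζ • h ∈ U := by
    intro y hy ζ hζ
    apply hrU
    rw [mem_ball] at hy ⊢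
    rw [mem_ball_zero_iff] at hζ
    calc dist (y + ζ • h) z ≤ dist (y + ζ • h) y + dist y z := dist_triangle _ _ _
      _ = ‖ζ‖ * ‖h‖ + dist y z := by simp only [dist_eq_norm, add_sub_cancel_left, norm_smul]
      _ ≤ ‖ζ‖ * 1 + dist y z := by (clear * - hh; gcongr)
      _ < 2 * r := by linarith
  have hest : ∀ y ∈ ball z r, ∀ ζ ∈ ball (0 : ℂ) r,
      ‖f (y + ζ • h) - f y - ζ • fderiv ℂ f y h‖ ≤ 2 * 2 * (‖ζ‖ / r) ^ 2 := by
    intro y hy ζ hζ
    have hyU : y ∈ U := by simpa using hsub y hy 0 (mem_ball_self hr)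
    have := norm_sub_sub_smul_deriv_le (M := 2) (g := fun ζ : ℂ => f (y + ζ • h)) hr
      (fun ζ hζ => (line_differentiableAt hl (hsub y hy ζ hζ)).differentiableWithinAt)
      (by intro ξ hξ; simpa only [zero_smul, add_zero] using hrb y hy h hh ξ hξ) hζ
    rw [← dirD_eq_fderiv (hf.differentiableAt (hU.mem_nhds hyU))]
    simpa only [dirD, ge_iff_le, zero_smul, add_zero] using this
  set q : ℂ → V → F := fun t y => t⁻¹ • (f (y + t • h) - f y) with hq
  have hlim : TendstoUniformlyOn q (fun y => fderiv ℂ f y h) (𝓝[≠] 0) (ball z r) := by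
    rw [Metric.tendstoUniformlyOn_iff]
    intro ε hε
    have hsmall : ∀ᶠ t : ℂ in 𝓝[≠] 0, 4 * (‖t‖ / r ^ 2) < ε := by
      have : ContinuousAt (fun t : ℂ => 4 * (‖t‖ / r ^ 2)) 0 := by (clear * -; fun_prop)
      have := this.eventually (gt_mem_nhds (show 4 * (‖(0 : ℂ)‖ / r ^ 2) < ε by simpa only [norm_zero, zero_div, mul_zero, gt_iff_lt] using hε))
      exact this.filter_mono nhdsWithin_le_nhds
    filter_upwards [hsmall, nhdsWithin_le_nhds (ball_mem_nhds (0 : ℂ) hr), self_mem_nhdsWithin]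
      with t ht htb ht0 y hy
    have ht0' : t ≠ 0 := ht0
    rw [dist_eq_norm, ← norm_neg]
    have : -(fderiv ℂ f y h - q t y) = t⁻¹ • (f (y + t • h) - f y - t • fderiv ℂ f y h) := by
      simp only [hq, smul_sub, smul_smul, inv_mul_cancel₀ ht0', one_smul]
      abel
    rw [this, norm_smul, norm_inv]
    have h1 := hest y hy t htb
    have htn : 0 < ‖t‖ := norm_pos_iff.2 ht0'
    calc ‖t‖⁻¹ * _ ≤ ‖t‖⁻¹ * (2 * 2 * (‖t‖ / r) ^ 2) := by (clear * - h1 ht0'; gcongr)
      _ = 4 * (‖t‖ / r ^ 2) := by field_simp; ring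
      _ < ε := ht
  have hqd : ∀ᶠ t : ℂ in 𝓝[≠] 0, DifferentiableOn ℂ (q t) (ball z r) := by
    filter_upwards [nhdsWithin_le_nhds (ball_mem_nhds (0 : ℂ) hr)] with t ht
    have h1 : DifferentiableOn ℂ (fun y => f (y + t • h)) (ball z r) := by
      apply hf.comp (by fun_prop)
      intro y hy
      exact hsub y hy t ht
    have h2 : DifferentiableOn ℂ f (ball z r) := hf.mono fun y hy => by
      simpa only [zero_smul, add_zero] using hsub y hy 0 (mem_ball_self hr)
    exact (h1.sub h2).const_smul _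
  have h3 := differentiableOn_of_tendstoLocallyUniformlyOn isOpen_ball
    hlim.tendstoLocallyUniformlyOn hqd
  exact (h3.differentiableAt (isOpen_ball.mem_nhds (mem_ball_self hr))).differentiableWithinAt

/-- holomorphic implies smooth, finite dimensional domain. -/
theorem contDiffOn_of_differentiableOn [FiniteDimensional ℂ V]
    [CompleteSpace F] {U : Set V} (hU : IsOpen U) {f : V → F} (hf : DifferentiableOn ℂ f U)
    (n : ℕ) : ContDiffOn ℂ n f U := by
  induction n generalizing f with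
  | zero => exact contDiffOn_zero.2 hf.continuousOn
  | succ n ih =>
    have : ((n + 1 : ℕ) : WithTop ℕ∞) = (n : WithTop ℕ∞) + 1 := by push_cast; rfl
    rw [this, contDiffOn_succ_iff_fderiv_of_isOpen hU]
    refine ⟨hf, ?_, ?_⟩
    · intro h; exact absurd h (by simp)
    · rw [contDiffOn_clm_apply]
      intro h
      exact ih (differentiableOn_fderiv_apply hU hf h)

theorem differentiableOn_fderiv [FiniteDimensional ℂ V]
    [CompleteSpace F] {U : Set V} (hU : IsOpen U) {f : V → F} (hf : DifferentiableOn ℂ f U) :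
    DifferentiableOn ℂ (fderiv ℂ f) U := by
  have h2 := contDiffOn_of_differentiableOn hU hf 2
  have : ((2 : ℕ) : WithTop ℕ∞) = (1 : WithTop ℕ∞) + 1 := by norm_num
  rw [this, contDiffOn_succ_iff_fderiv_of_isOpen hU] at h2
  exact h2.2.2.differentiableOn one_ne_zero

/-- partial derivative in a complex direction is holomorphic in the parameter -/
theorem differentiableAt_deriv_of_prod [CompleteSpace F]
    {G : V × ℂ → F} {z₀ : V} {w₀ : ℂ} (hG : ∀ᶠ p in 𝓝 (z₀, w₀), DifferentiableAt ℂ G p) :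
    DifferentiableAt ℂ (fun z => deriv (fun w => G (z, w)) w₀) z₀ := by
  obtain ⟨W, hWs, hWo, hW⟩ := _root_.eventually_nhds_iff.1 hG
  have hGd : DifferentiableOn ℂ G W := fun p hp => (hWs p hp).differentiableWithinAt
  have h1 := differentiableOn_fderiv_apply hWo hGd ((0 : V), (1 : ℂ))
  have h2 : DifferentiableAt ℂ (fun z : V => fderiv ℂ G (z, w₀) ((0 : V), (1 : ℂ))) z₀ := by
    have h3 := h1.differentiableAt (hWo.mem_nhds hW)
    exact DifferentiableAt.comp (f := fun z : V => (z, w₀)) z₀ h3 (by fun_prop)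
  refine h2.congr_of_eventuallyEq ?_
  have hc : ContinuousAt (fun z : V => (z, w₀)) z₀ := by fun_prop
  filter_upwards [hc.eventually (hWo.mem_nhds hW)] with z hz
  have h4 : HasFDerivAt G (fderiv ℂ G (z, w₀)) (z, w₀) := (hWs _ hz).hasFDerivAt
  have h5 : HasDerivAt (fun w : ℂ => (z, w)) ((0 : V), (1 : ℂ)) w₀ :=
    (hasDerivAt_const w₀ z).prodMk (hasDerivAt_id w₀)
  exact (h4.comp_hasDerivAt w₀ h5).deriv

/-- integrals depending holomorphically on a parameter, global in time -/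
theorem differentiableOn_intervalIntegral_aux [CompleteSpace F]
    {U : Set V} (hU : IsOpen U) {G : V → ℝ → F} {a b : ℝ}
    (hc : ContinuousOn (fun p : V × ℝ => G p.1 p.2) (U ×ˢ univ))
    (hd : ∀ t, DifferentiableOn ℂ (fun z => G z t) U) :
    DifferentiableOn ℂ (fun z => ∫ t in a..b, G z t) U := by
  have hcat : ∀ z ∈ U, ∀ t, ContinuousAt (fun p : V × ℝ => G p.1 p.2) (z, t) := fun z hz t =>
    hc.continuousAt ((hU.prod isOpen_univ).mem_nhds ⟨hz, mem_univ _⟩)
  have hct : ∀ z ∈ U, Continuous (fun t => G z t) := fun z hz => by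
    rw [continuous_iff_continuousAt]
    intro t
    exact ContinuousAt.comp (f := fun t : ℝ => (z, t)) (hcat z hz t) (by fun_prop)
  have hint : ∀ z ∈ U, IntervalIntegrable (fun t => G z t) MeasureTheory.volume a b :=
    fun z hz => (hct z hz).intervalIntegrable a b
  apply differentiableOn_of_continuousOn_of_line hU
  · intro z hz
    apply ContinuousAt.continuousWithinAt
    rw [Metric.continuousAt_iff']
    intro ε hε
    have key : ∀ᶠ y in 𝓝 z, ∀ t ∈ uIcc a b, ‖G y t - G z t‖ < ε / (|b - a| + 1) := by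
      apply isCompact_uIcc.eventually_forall_of_forall_eventually
      intro t _
      have c1 := hcat z hz t
      have c2 : ContinuousAt (fun p : V × ℝ => G z p.2) (z, t) :=
        ContinuousAt.comp (f := fun p : V × ℝ => p.2) (hct z hz).continuousAt (by fun_prop)
      have c3 := (c1.sub c2).norm
      exact c3.eventually (gt_mem_nhds (by simp only [Pi.sub_apply, sub_self, norm_zero]; (clear * - hε; positivity)))
    filter_upwards [key, hU.mem_nhds hz] with y hy hyU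
    rw [dist_eq_norm, ← intervalIntegral.integral_sub (hint y hyU) (hint z hz)]
    have := intervalIntegral.norm_integral_le_of_norm_le_const (a := a) (b := b)
      (f := fun t => G y t - G z t) (C := ε / (|b - a| + 1))
      (fun t ht => (hy t (uIoc_subset_uIcc ht)).le)
    refine this.trans_lt ?_
    rw [div_mul_eq_mul_div, div_lt_iff₀ (by (clear * -; positivity))]
    linarith only [hε]
  · intro z hz h
    -- radius
    have hWo : IsOpen {ζ : ℂ | z + ζ • h ∈ U} := hU.preimage (by fun_prop)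
    have h0 : (0 : ℂ) ∈ {ζ : ℂ | z + ζ • h ∈ U} := by simpa using hz
    obtain ⟨ρ', hρ', hρs'⟩ := Metric.isOpen_iff.1 hWo 0 h0
    set ρ := ρ' / 4 with hρ_def
    have hρ : 0 < ρ := by (clear * - hρ'; positivity)
    have hρs : ∀ ζ ∈ closedBall (0 : ℂ) (2 * ρ), z + ζ • h ∈ U := by
      intro ζ hζ
      apply hρs'
      rw [mem_closedBall] at hζ
      rw [mem_ball]; linarith only [hζ, hρ, hρ_def]
    set H : ℂ → ℝ → F := fun ζ t => G (z + ζ • h) t with hH
    have hHd : ∀ t, ∀ ζ ∈ closedBall (0 : ℂ) (2 * ρ), DifferentiableAt ℂ (fun ζ => H ζ t) ζ := by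
      intro t ζ hζ
      exact line_differentiableAt (f := fun z => G z t) (line_diff_of_differentiableOn hU (hd t))
        (hρs ζ hζ)
    have hHc : ∀ ζ ∈ closedBall (0 : ℂ) (2 * ρ), ∀ t,
        ContinuousAt (fun p : ℂ × ℝ => H p.1 p.2) (ζ, t) := by
      intro ζ hζ t
      exact ContinuousAt.comp (f := fun p : ℂ × ℝ => (z + p.1 • h, p.2)) (x := (ζ, t))
        (hcat _ (hρs ζ hζ) t) (by fun_prop)
    have hHt : ∀ ζ ∈ closedBall (0 : ℂ) (2 * ρ), Continuous (H ζ) := fun ζ hζ => hct _ (hρs ζ hζ)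
    -- bound
    obtain ⟨M, hM⟩ : ∃ M, ∀ ζ ∈ closedBall (0 : ℂ) (2 * ρ), ∀ t ∈ uIcc a b, ‖H ζ t‖ ≤ M := by
      have hcomp : IsCompact (closedBall (0 : ℂ) (2 * ρ) ×ˢ uIcc a b) :=
        (isCompact_closedBall _ _).prod isCompact_uIcc
      have : ContinuousOn (fun p : ℂ × ℝ => H p.1 p.2) (closedBall (0 : ℂ) (2 * ρ) ×ˢ uIcc a b) :=
        fun p hp => (hHc p.1 hp.1 p.2).continuousWithinAt
      obtain ⟨M, hM⟩ := hcomp.exists_bound_of_continuousOn this
      exact ⟨M, fun ζ hζ t ht => hM (ζ, t) ⟨hζ, ht⟩⟩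
    have hsub : closedBall (0 : ℂ) ρ ⊆ closedBall (0 : ℂ) (2 * ρ) :=
      closedBall_subset_closedBall (by linarith only [hρ])
    have h0' : (0 : ℂ) ∈ closedBall (0 : ℂ) (2 * ρ) := by simp only [mem_closedBall, dist_self, Nat.ofNat_pos, mul_nonneg_iff_of_pos_left, hρ.le]
    -- continuity in t of the derivative
    have hD : Continuous (fun t => deriv (fun ζ => H ζ t) 0) := by
      rw [continuous_iff_continuousAt]
      intro t
      rw [Metric.continuousAt_iff']
      intro ε hε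
      have key : ∀ᶠ s in 𝓝 t, ∀ ζ ∈ sphere (0 : ℂ) ρ, ‖H ζ s - H ζ t‖ < ε / 2 * ρ := by
        apply (isCompact_sphere (0 : ℂ) ρ).eventually_forall_of_forall_eventually
        intro ζ hζ
        have hζ' : ζ ∈ closedBall (0 : ℂ) (2 * ρ) := hsub (sphere_subset_closedBall hζ)
        have c1 : ContinuousAt (fun p : ℝ × ℂ => H p.2 p.1) (t, ζ) :=
          ContinuousAt.comp (f := fun p : ℝ × ℂ => (p.2, p.1)) (x := (t, ζ))
            (hHc ζ hζ' t) (by fun_prop)
        have c2 : ContinuousAt (fun p : ℝ × ℂ => H p.2 t) (t, ζ) :=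
          ContinuousAt.comp (f := fun p : ℝ × ℂ => (p.2, t)) (x := (t, ζ))
            (hHc ζ hζ' t) (by fun_prop)
        have c3 := (c1.sub c2).norm
        exact c3.eventually (gt_mem_nhds (by simp only [Pi.sub_apply, sub_self, norm_zero]; (clear * - hε hρ'; positivity)))
      filter_upwards [key] with s hs
      rw [dist_eq_norm]
      have e : deriv (fun ζ => H ζ s) 0 - deriv (fun ζ => H ζ t) 0 =
          deriv (fun ζ => H ζ s - H ζ t) 0 :=
        (deriv_fun_sub (hHd s 0 h0') (hHd t 0 h0')).symm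
      rw [e]
      have hle : ‖deriv (fun ζ => H ζ s - H ζ t) 0‖ ≤ (ε / 2 * ρ) / ρ := by
        apply Complex.norm_deriv_le_of_forall_mem_sphere_norm_le hρ
        · apply DifferentiableOn.diffContOnCl
          intro ζ hζ
          have hζ' := hsub (closure_ball_subset_closedBall hζ)
          exact ((hHd s ζ hζ').sub (hHd t ζ hζ')).differentiableWithinAt
        · intro ζ hζ
          exact (hs ζ hζ).le
      calc _ ≤ _ := hle
        _ = ε / 2 := by (clear * - hρ hε; field_simp)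
        _ < ε := by linarith only [hε]
    have hbound : ∀ t ∈ uIcc a b, ∀ x ∈ ball (0 : ℂ) ρ, ‖deriv (fun ζ => H ζ t) x‖ ≤ M / ρ := by
      intro t ht x hx
      have hx' : closedBall x ρ ⊆ closedBall (0 : ℂ) (2 * ρ) := by
        apply closedBall_subset_closedBall'
        rw [mem_ball] at hx; linarith only [hx]
      apply Complex.norm_deriv_le_of_forall_mem_sphere_norm_le hρ
      · apply DifferentiableOn.diffContOnCl
        intro ζ hζ
        exact (hHd t ζ (hx' (closure_ball_subset_closedBall hζ))).differentiableWithinAt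
      · intro ζ hζ
        exact hM ζ (hx' (sphere_subset_closedBall hζ)) t ht
    have := intervalIntegral.hasDerivAt_integral_of_dominated_loc_of_deriv_le
      (μ := MeasureTheory.volume) (a := a) (b := b) (𝕜 := ℂ)
      (F := H) (F' := fun x t => deriv (fun ζ => H ζ t) x) (x₀ := (0 : ℂ)) (s := ball 0 ρ)
      (bound := fun _ => M / ρ) (ball_mem_nhds _ hρ) ?_ ?_ ?_ ?_ ?_ ?_
    · exact this.2.differentiableAt
    · filter_upwards [closedBall_mem_nhds (0 : ℂ) (by (clear * - hρ'; positivity) : 0 < 2 * ρ)] with ζ hζ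
      exact (hHt ζ hζ).aestronglyMeasurable
    · exact (hHt 0 h0').intervalIntegrable a b
    · exact hD.aestronglyMeasurable
    · filter_upwards with t ht x hx
      exact hbound t (uIoc_subset_uIcc ht) x hx
    · exact intervalIntegrable_const
    · filter_upwards with t ht x hx
      exact (hHd t x (hsub (ball_subset_closedBall hx))).hasDerivAt

/-- integrals depending holomorphically on a parameter -/
theorem differentiableOn_intervalIntegral [CompleteSpace F]
    {U : Set V} (hU : IsOpen U) {G : V → ℝ → F} {a b : ℝ}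
    (hc : ContinuousOn (fun p : V × ℝ => G p.1 p.2) (U ×ˢ uIcc a b))
    (hd : ∀ t ∈ uIcc a b, DifferentiableOn ℂ (fun z => G z t) U) :
    DifferentiableOn ℂ (fun z => ∫ t in a..b, G z t) U := by
  set p : ℝ → ℝ := fun t => max (min a b) (min (max a b) t) with hp
  have hpc : Continuous p := by (clear * -; fun_prop)
  have hpm : ∀ t, p t ∈ uIcc a b := by
    intro t
    simp only [hp, uIcc, mem_Icc]
    constructor
    · exact le_max_left _ _
    · exact max_le (min_le_max) (min_le_left _ _)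
  have hpe : ∀ t ∈ uIcc a b, p t = t := by
    intro t ht
    simp only [uIcc, mem_Icc] at ht
    simp only [hp]
    rw [min_eq_right ht.2, max_eq_right ht.1]
  have h1 := differentiableOn_intervalIntegral_aux (a := a) (b := b) hU (G := fun z t => G z (p t))
    (by
      have : ContinuousOn (fun q : V × ℝ => (q.1, p q.2)) (U ×ˢ univ) := by (clear * - hpc; fun_prop)
      exact hc.comp this fun q hq => ⟨hq.1, hpm _⟩)
    (fun t => hd _ (hpm t))
  refine h1.congr fun z hz => ?_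
  apply intervalIntegral.integral_congr
  intro t ht
  simp [hpe t ht]

end more

end Vale.Agent.P290
end
end

section

section

open Set Filter Metric
open scoped Manifold ContDiff Topology

namespace Vale.Agent.P290

theorem contDiffAt_of_eventually {V F : Type} [NormedAddCommGroup V] [NormedSpace ℂ V]
    [FiniteDimensional ℂ V] [NormedAddCommGroup F] [NormedSpace ℂ F] [CompleteSpace F]
    {f : V → F} {z : V} (h : ∀ᶠ p in 𝓝 z, DifferentiableAt ℂ f p) (n : ℕ) :
    ContDiffAt ℂ n f z := by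
  obtain ⟨W, hWs, hWo, hW⟩ := _root_.eventually_nhds_iff.1 h
  exact (contDiffOn_of_differentiableOn hWo
    (fun p hp => (hWs p hp).differentiableWithinAt) n).contDiffAt (hWo.mem_nhds hW)

section

variable {V W E : Type} [NormedAddCommGroup V] [NormedSpace ℂ V] [FiniteDimensional ℂ V]
  [NormedAddCommGroup W] [NormedSpace ℂ W] [FiniteDimensional ℂ W]
  [NormedAddCommGroup E] [NormedSpace ℂ E] [FiniteDimensional ℂ E]

theorem local_unique (G : V × W → E) (z₀ : V)
    (hG : ∀ᶠ p in 𝓝 (z₀, (0 : W)), DifferentiableAt ℂ G p)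
    (P : V → W →L[ℂ] W) (hP : ContinuousAt P z₀)
    (hker : ∀ u, fderiv ℂ G (z₀, 0) (0, u) = 0 → P z₀ u = 0) :
    ∃ N ∈ 𝓝 z₀, ∃ η > 0, ∀ z ∈ N, ∀ w₁ w₂ : W, ‖w₁‖ < η → ‖w₂‖ < η → P z w₁ = w₁ →
      P z w₂ = w₂ → G (z, w₁) = G (z, w₂) → w₁ = w₂ := by
  have : CompleteSpace E := FiniteDimensional.complete ℂ E
  set G' := fderiv ℂ G (z₀, 0) with hG'
  have hs : HasStrictFDerivAt G G' (z₀, 0) :=
    (contDiffAt_of_eventually hG 1).hasStrictFDerivAt one_ne_zero
  set L : W →ₗ[ℂ] E × W :=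
    ((G' ∘L ContinuousLinearMap.inr ℂ V W).prod
      (ContinuousLinearMap.id ℂ W - P z₀) : W →L[ℂ] E × W).toLinearMap with hL
  have hLa : ∀ u, L u = (G' (0, u), u - P z₀ u) := fun u => by simp only [hL, ContinuousLinearMap.coe_prod, ContinuousLinearMap.toLinearMap_comp, ContinuousLinearMap.coe_inr, ContinuousLinearMap.toLinearMap_sub, ContinuousLinearMap.coe_id, LinearMap.prod_apply, LinearMap.coe_comp, ContinuousLinearMap.coe_coe, LinearMap.coe_inr, Function.prod_apply, Function.comp_apply, LinearMap.sub_apply, LinearMap.id_coe, id_eq]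
  have hLker : LinearMap.ker L = ⊥ := by
    rw [LinearMap.ker_eq_bot']
    intro u hu
    rw [hLa, Prod.mk_eq_zero] at hu
    have := hker u hu.1
    rw [this, sub_zero] at hu
    exact hu.2
  obtain ⟨K, hK, hanti⟩ := L.exists_antilipschitzWith hLker
  have hbd : ∀ u : W, ‖u‖ ≤ K * ‖L u‖ := fun u => by
    have := hanti.le_mul_dist u 0
    simpa only [ge_iff_le, dist_eq_norm, sub_zero, map_zero] using this
  have hKpos : (0 : ℝ) < K := hK
  set c : ℝ := 1 / (2 * K) with hc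
  have hcpos : 0 < c := by positivity
  have h1 := hs.isLittleO.def hcpos
  -- neighbourhood of `((z₀,0),(z₀,0))`
  obtain ⟨r, hr, hr1⟩ := Metric.eventually_nhds_iff_ball.1 h1
  have h2 : ∀ᶠ z in 𝓝 z₀, ‖P z - P z₀‖ < c := by
    have := hP.eventually (ball_mem_nhds (P z₀) hcpos)
    filter_upwards [this] with y hy
    rwa [dist_eq_norm] at hy
  refine ⟨ball z₀ r ∩ {z | ‖P z - P z₀‖ < c}, inter_mem (ball_mem_nhds _ hr) h2, r, hr, ?_⟩
  rintro z ⟨hz1, hz2⟩ w₁ w₂ hw₁ hw₂ hP1 hP2 hGG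
  have h3 := hr1 ((z, w₁), (z, w₂)) (by
    rw [mem_ball, Prod.dist_eq, Prod.dist_eq, Prod.dist_eq]
    simp only [dist_zero_right]
    exact max_lt (max_lt hz1 hw₁) (max_lt hz1 hw₂))
  simp only [hGG, sub_self, zero_sub, norm_neg] at h3
  have h4 : ((z, w₁) : V × W) - (z, w₂) = (0, w₁ - w₂) := by simp
  rw [h4] at h3
  have h5 : ‖((0 : V), w₁ - w₂)‖ = ‖w₁ - w₂‖ := by
    rw [Prod.norm_def]; simp only [norm_zero, norm_nonneg, sup_of_le_right]
  rw [h5] at h3
  have h6 : ‖(w₁ - w₂) - P z₀ (w₁ - w₂)‖ ≤ c * ‖w₁ - w₂‖ := by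
    have : (w₁ - w₂) - P z₀ (w₁ - w₂) = (P z - P z₀) (w₁ - w₂) := by
      rw [sub_apply, map_sub (P z), hP1, hP2]
    rw [this]
    refine (ContinuousLinearMap.le_opNorm _ _).trans ?_
    gcongr
    exact hz2.le
  have h7 := hbd (w₁ - w₂)
  have h8 : ‖L (w₁ - w₂)‖ ≤ c * ‖w₁ - w₂‖ := by
    rw [hLa, Prod.norm_def]
    exact max_le h3 h6
  have h9 : ‖w₁ - w₂‖ ≤ K * (c * ‖w₁ - w₂‖) := h7.trans (by (clear * - h8 hK; gcongr))
  have h10 : (K : ℝ) * (c * ‖w₁ - w₂‖) = ‖w₁ - w₂‖ / 2 := by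
    rw [hc]; (clear * - hK; field_simp)
  rw [h10] at h9
  have h11 : ‖w₁ - w₂‖ = 0 := by
    have := norm_nonneg (w₁ - w₂)
    linarith only [this, h9]
  exact sub_eq_zero.1 (norm_eq_zero.1 h11)

theorem local_exists (G : V × W → E) (z₀ : V)
    (hG : ∀ᶠ p in 𝓝 (z₀, (0 : W)), DifferentiableAt ℂ G p)
    (P : V → W →L[ℂ] W) (hP : ∀ᶠ z in 𝓝 z₀, DifferentiableAt ℂ P z)
    (hidem : ∀ᶠ z in 𝓝 z₀, ∀ u, P z (P z u) = P z u)
    (hsurj : ∀ y, ∃ u, fderiv ℂ G (z₀, 0) (0, P z₀ u) = y) :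
    ∃ ŵ : V × E → W, ŵ (z₀, G (z₀, 0)) = 0 ∧ ∀ᶠ p in 𝓝 (z₀, G (z₀, 0)),
      DifferentiableAt ℂ ŵ p ∧ G (p.1, ŵ p) = p.2 ∧ P p.1 (ŵ p) = ŵ p := by
  have : CompleteSpace E := FiniteDimensional.complete ℂ E
  have : CompleteSpace V := FiniteDimensional.complete ℂ V
  have : CompleteSpace W := FiniteDimensional.complete ℂ W
  set G' := fderiv ℂ G (z₀, 0) with hG'
  have hGc : ContDiffAt ℂ 1 G (z₀, 0) := contDiffAt_of_eventually hG 1
  have hPc : ContDiffAt ℂ 1 P z₀ := contDiffAt_of_eventually hP 1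
  obtain ⟨R₀, hR₀⟩ : ∃ R₀ : E →L[ℂ] W,
      (G' ∘L ContinuousLinearMap.inr ℂ V W ∘L P z₀) ∘L R₀ = ContinuousLinearMap.id ℂ E := by
    apply ContinuousLinearMap.exists_rightInverse_of_surjective
    rw [LinearMap.range_eq_top]
    intro y
    obtain ⟨u, hu⟩ := hsurj y
    exact ⟨u, by simpa using hu⟩
  set y₀ := G (z₀, 0) with hy₀
  set F : (V × E) × E → E := fun q => G (q.1.1, P q.1.1 (R₀ q.2)) - q.1.2 with hF
  have hinner : ContDiffAt ℂ 1 (fun q : (V × E) × E => ((q.1.1, P q.1.1 (R₀ q.2)) : V × W))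
      ((z₀, y₀), 0) := by
    have hPc' : ContDiffAt ℂ 1 (fun q : (V × E) × E => P q.1.1) ((z₀, y₀), 0) :=
      ContDiffAt.comp (f := fun q : (V × E) × E => q.1.1) (g := P) _ hPc (by (clear * -; fun_prop))
    exact ContDiffAt.prodMk (by fun_prop) (hPc'.clm_apply (by (clear * -; fun_prop)))
  have hFc : ContDiffAt ℂ 1 F ((z₀, y₀), 0) := by
    have hGc' : ContDiffAt ℂ 1 (fun q : (V × E) × E => G (q.1.1, P q.1.1 (R₀ q.2)))
        ((z₀, y₀), 0) := by
      apply ContDiffAt.comp (f := fun q : (V × E) × E => ((q.1.1, P q.1.1 (R₀ q.2)) : V × W))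
        (g := G) _ _ hinner
      simpa using hGc
    exact hGc'.sub (by fun_prop)
  have hF0 : F ((z₀, y₀), 0) = 0 := by simp [hF, hy₀]
  have hid : fderiv ℂ F ((z₀, y₀), 0) ∘L ContinuousLinearMap.inr ℂ (V × E) E =
      ContinuousLinearMap.id ℂ E := by
    have hd1 : HasFDerivAt F (fderiv ℂ F ((z₀, y₀), 0)) ((z₀, y₀), 0) :=
      (hFc.differentiableAt one_ne_zero).hasFDerivAt
    have hd2 : HasFDerivAt (fun u : E => F ((z₀, y₀), u))
        (fderiv ℂ F ((z₀, y₀), 0) ∘L ContinuousLinearMap.inr ℂ (V × E) E) 0 :=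
      HasFDerivAt.comp (f := fun u : E => (((z₀, y₀), u) : (V × E) × E)) (0 : E) hd1
        (hasFDerivAt_prodMk_right _ _)
    have hd3 : HasFDerivAt (fun u : E => F ((z₀, y₀), u))
        ((G' ∘L ContinuousLinearMap.inr ℂ V W ∘L P z₀) ∘L R₀) 0 := by
      have e1 : HasFDerivAt (fun u : E => ((z₀, P z₀ (R₀ u)) : V × W))
          (ContinuousLinearMap.inr ℂ V W ∘L (P z₀ ∘L R₀)) 0 := by
        exact HasFDerivAt.comp (g := fun w : W => ((z₀, w) : V × W)) (0 : E)
          (hasFDerivAt_prodMk_right _ _) ((P z₀ ∘L R₀).hasFDerivAt)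
      have e2 : HasFDerivAt G G' (z₀, P z₀ (R₀ 0)) := by
        simpa only [map_zero] using (hGc.differentiableAt one_ne_zero).hasFDerivAt
      have e3 := HasFDerivAt.comp (f := fun u : E => ((z₀, P z₀ (R₀ u)) : V × W)) (0 : E) e2 e1
      exact e3.sub_const y₀
    rw [hd2.unique hd3, hR₀]
  have hinv : (fderiv ℂ F ((z₀, y₀), 0) ∘L
      ContinuousLinearMap.inr ℂ (V × E) E).IsInvertible := by
    rw [hid]
    exact ⟨ContinuousLinearEquiv.refl ℂ E, rfl⟩
  set û := hFc.implicitFunction one_ne_zero hinv with hû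
  have hu0 : û (z₀, y₀) = 0 := hFc.implicitFunction_apply_self one_ne_zero hinv
  have hu1 : ∀ᶠ x in 𝓝 (z₀, y₀), F (x, û x) = F ((z₀, y₀), 0) :=
    hFc.eventually_apply_implicitFunction one_ne_zero hinv
  have hu2 : ContDiffAt ℂ 1 û (z₀, y₀) := hFc.contDiffAt_implicitFunction one_ne_zero hinv
  have hu3 : ∀ᶠ x in 𝓝 (z₀, y₀), DifferentiableAt ℂ û x := by
    have := hu2.eventually (by simp)
    filter_upwards [this] with x hx
    exact hx.differentiableAt one_ne_zero
  have hfst : Tendsto (fun p : V × E => p.1) (𝓝 (z₀, y₀)) (𝓝 z₀) :=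
    (continuous_fst.tendsto (z₀, y₀))
  refine ⟨fun p => P p.1 (R₀ (û p)), by simp only [hu0, map_zero], ?_⟩
  filter_upwards [hu1, hu3, hfst.eventually hP, hfst.eventually hidem] with p h1 h2 h3 h4
  refine ⟨?_, ?_, h4 _⟩
  · have h3' : DifferentiableAt ℂ (fun p : V × E => P p.1) p :=
      DifferentiableAt.comp (f := fun p : V × E => p.1) (g := P) p h3 (by fun_prop)
    exact h3'.clm_apply (R₀.differentiableAt.comp p h2)
  · rw [hF0] at h1
    simp only [hF] at h1
    exact sub_eq_zero.1 h1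

end

section

variable {E X V W : Type} [NormedAddCommGroup E] [NormedSpace ℂ E]
    [FiniteDimensional ℂ E] [TopologicalSpace X]
    [ChartedSpace E X] [IsManifold 𝓘(ℂ, E) 1 X] [NormedAddCommGroup V] [NormedSpace ℂ V]
    [FiniteDimensional ℂ V] [NormedAddCommGroup W] [NormedSpace ℂ W] [FiniteDimensional ℂ W]

omit [FiniteDimensional ℂ E] [FiniteDimensional ℂ V] in
/-- composing a holomorphic map into `X` with a chart -/
theorem differentiableAt_chart_comp {e : OpenPartialHomeomorph X E} (he : e ∈ atlas E X)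
    {F : V → X} {z : V} (hF : MDifferentiableAt 𝓘(ℂ, V) 𝓘(ℂ, E) F z) (hz : F z ∈ e.source) :
    DifferentiableAt ℂ (fun z => e (F z)) z := by
  have h1 : MDifferentiableAt 𝓘(ℂ, E) 𝓘(ℂ, E) e (F z) := mdifferentiableAt_atlas he hz
  exact (h1.comp z hF).differentiableAt

theorem manifold_local (S : V × W → X) (f : V → X) (z₀ : V)
    (hS : ∀ᶠ p in 𝓝 (z₀, (0 : W)), MDifferentiableAt 𝓘(ℂ, V × W) 𝓘(ℂ, E) S p)
    (hS0 : S (z₀, 0) = f z₀)
    (P : V → W →L[ℂ] W) (hP : ∀ᶠ z in 𝓝 z₀, DifferentiableAt ℂ P z)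
    (D : W →L[ℂ] E) (hD : D = mfderiv 𝓘(ℂ, W) 𝓘(ℂ, E) (fun w => S (z₀, w)) 0)
    (hsurj : Function.Surjective D) (hDP : ∀ u, D (P z₀ u) = D u)
    (hker : ∀ u, D u = 0 → P z₀ u = 0)
    (hidem : ∀ᶠ z in 𝓝 z₀, ∀ u, P z (P z u) = P z u) :
    ∃ N ∈ 𝓝 z₀, ∃ η > 0, (∀ z ∈ N, ∀ w₁ w₂ : W, ‖w₁‖ < η → ‖w₂‖ < η → P z w₁ = w₁ →
      P z w₂ = w₂ → S (z, w₁) = S (z, w₂) → w₁ = w₂) ∧
      ∀ η' > 0, ∃ 𝒱 : Set (V × X), IsOpen 𝒱 ∧ (z₀, f z₀) ∈ 𝒱 ∧ ∃ w' : V × X → W,
        (∀ p ∈ 𝒱, S (p.1, w' p) = p.2 ∧ P p.1 (w' p) = w' p ∧ ‖w' p‖ < η') ∧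
        ∀ (g : V → X) (z : V), MDifferentiableAt 𝓘(ℂ, V) 𝓘(ℂ, E) g z → (z, g z) ∈ 𝒱 →
          DifferentiableAt ℂ (fun z => w' (z, g z)) z := by
  set e := chartAt E (S (z₀, 0)) with he
  have hes : S (z₀, 0) ∈ e.source := mem_chart_source E _
  set G : V × W → E := fun p => e (S p) with hG
  have hSc : ∀ᶠ p in 𝓝 (z₀, (0 : W)), S p ∈ e.source :=
    hS.self_of_nhds.continuousAt.eventually (e.open_source.mem_nhds hes)
  have hGd : ∀ᶠ p in 𝓝 (z₀, (0 : W)), DifferentiableAt ℂ G p := by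
    filter_upwards [hS, hSc] with p h1 h2
    exact differentiableAt_chart_comp (chart_mem_atlas E _) h1 h2
  have hDG : ∀ u, fderiv ℂ G (z₀, 0) (0, u) = D u := by
    intro u
    have h1 : HasFDerivAt (fun w : W => G (z₀, w))
        (fderiv ℂ G (z₀, 0) ∘L ContinuousLinearMap.inr ℂ V W) 0 :=
      HasFDerivAt.comp (f := fun w : W => ((z₀, w) : V × W)) (0 : W)
        hGd.self_of_nhds.hasFDerivAt (hasFDerivAt_prodMk_right _ _)
    have h2 : MDifferentiableAt 𝓘(ℂ, W) 𝓘(ℂ, E) (fun w => S (z₀, w)) 0 := by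
      have h3 : MDifferentiableAt 𝓘(ℂ, W) 𝓘(ℂ, V × W) (fun w : W => ((z₀, w) : V × W)) 0 := by
        apply DifferentiableAt.mdifferentiableAt
        fun_prop
      exact MDifferentiableAt.comp (g := S) (f := fun w : W => ((z₀, w) : V × W)) (0 : W)
        hS.self_of_nhds h3
    have h4 : D = fderiv ℂ (fun w : W => G (z₀, w)) 0 := by
      rw [hD, h2.mfderiv]
      simp only [writtenInExtChartAt, extChartAt, OpenPartialHomeomorph.extend, modelWithCornersSelf_partialEquiv, PartialEquiv.trans_refl, OpenPartialHomeomorph.toFun_eq_coe, OpenPartialHomeomorph.coe_toPartialEquiv_symm, modelWithCornersSelf_coe, range_id, fderivWithin_univ]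
      rfl
    rw [h4, h1.fderiv]
    simp only [ContinuousLinearMap.comp_apply, ContinuousLinearMap.inr_apply]
  obtain ⟨N, hN, η, hη, hu⟩ := local_unique G z₀ hGd P hP.self_of_nhds.continuousAt
    (fun u hu => hker u (by rw [← hDG]; exact hu))
  refine ⟨N, hN, η, hη, fun z hz w₁ w₂ h1 h2 h3 h4 h5 => hu z hz w₁ w₂ h1 h2 h3 h4
    (by simp only [hG, h5]), ?_⟩
  intro η' hη'
  obtain ⟨ŵ, hŵ0, hŵ⟩ := local_exists G z₀ hGd P hP hidem (by
    intro y
    obtain ⟨u, hu⟩ := hsurj y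
    exact ⟨u, by rw [hDG, hDP, hu]⟩)
  -- continuity of `ŵ` at the base point
  have hŵc : ContinuousAt ŵ (z₀, G (z₀, 0)) := hŵ.self_of_nhds.1.continuousAt
  have hŵn : ∀ᶠ p in 𝓝 (z₀, G (z₀, 0)), ‖ŵ p‖ < η' := by
    have := hŵc.norm
    rw [ContinuousAt, hŵ0, norm_zero] at this
    exact this.eventually (gt_mem_nhds hη')
  have hŵS : ∀ᶠ p in 𝓝 (z₀, G (z₀, 0)), S (p.1, ŵ p) ∈ e.source := by
    have h1 : Tendsto (fun p : V × E => ((p.1, ŵ p) : V × W)) (𝓝 (z₀, G (z₀, 0)))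
        (𝓝 (z₀, 0)) := by
      have : ContinuousAt (fun p : V × E => ((p.1, ŵ p) : V × W)) (z₀, G (z₀, 0)) :=
        continuousAt_fst.prodMk hŵc
      rw [ContinuousAt, hŵ0] at this
      exact this
    exact h1.eventually hSc
  obtain ⟨T, hT, hTo, hTm⟩ := _root_.eventually_nhds_iff.1 (hŵ.and (hŵn.and hŵS))
  refine ⟨(univ ×ˢ e.source) ∩ (fun p : V × X => ((p.1, e p.2) : V × E)) ⁻¹' T, ?_, ?_,
    fun p => ŵ (p.1, e p.2), ?_, ?_⟩
  · apply ContinuousOn.isOpen_inter_preimage _ (isOpen_univ.prod e.open_source) hTo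
    exact continuousOn_fst.prodMk (e.continuousOn.comp continuousOn_snd fun p hp => hp.2)
  · rw [← hS0]
    exact ⟨⟨mem_univ _, hes⟩, hTm⟩
  · rintro ⟨z, x⟩ ⟨⟨-, hx⟩, hT'⟩
    obtain ⟨⟨-, h2, h3⟩, h4, h5⟩ := hT _ hT'
    refine ⟨?_, h3, h4⟩
    simp only [hG] at h2
    exact e.injOn h5 hx h2
  · rintro g z hg ⟨⟨-, hx⟩, hT'⟩
    have h1 := (hT _ hT').1.1
    have h2 : DifferentiableAt ℂ (fun z => e (g z)) z :=
      differentiableAt_chart_comp (chart_mem_atlas E _) hg hx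
    exact DifferentiableAt.comp (g := ŵ) (f := fun z => ((z, e (g z)) : V × E)) z h1
      (differentiableAt_id.prodMk h2)

end

/-- Inverse function theorem with parameters: solve `S (z, w z) = g z` for `g` close to
`f = S (·, 0)` near the compact set `K`. `P z` is a projector (up to equivalence) whose kernel is the
kernel of the derivative of `S (z, ·)` at `0`. -/
theorem exists_solution {E X V J : Type} [NormedAddCommGroup E] [NormedSpace ℂ E]
    [FiniteDimensional ℂ E] [TopologicalSpace X] [T2Space X]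
    [ChartedSpace E X] [IsManifold 𝓘(ℂ, E) 1 X] [NormedAddCommGroup V] [NormedSpace ℂ V]
    [FiniteDimensional ℂ V] [Fintype J] {K : Set V} (hK : IsCompact K)
    (S : V × (J → ℂ) → X) (f : V → X) (hS : MHolNear E (K ×ˢ {(0 : J → ℂ)}) S)
    (hS0 : ∀ᶠ z in 𝓝ˢ K, S (z, 0) = f z)
    (P : V → (J → ℂ) →L[ℂ] (J → ℂ)) (hP : HolNear K P)
    (D : V → (J → ℂ) →L[ℂ] E)
    (hD : ∀ z, D z = mfderiv 𝓘(ℂ, J → ℂ) 𝓘(ℂ, E) (fun w => S (z, w)) 0)
    (hsurj : ∀ᶠ z in 𝓝ˢ K, Function.Surjective (D z))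
    (hDP : ∀ᶠ z in 𝓝ˢ K, ∀ u, D z (P z u) = D z u)
    (hker : ∀ᶠ z in 𝓝ˢ K, ∀ u, D z u = 0 → P z u = 0)
    (δ : ℝ) (hδ : 0 < δ) :
    ∃ 𝒪 : Set (V × X), IsOpen 𝒪 ∧ (∀ z ∈ K, (z, f z) ∈ 𝒪) ∧
      ∀ g : V → X, MHolNear E K g → (∀ z ∈ K, (z, g z) ∈ 𝒪) →
        ∃ w : V → (J → ℂ), HolNear K w ∧ ∀ᶠ z in 𝓝ˢ K, ‖w z‖ < δ ∧ S (z, w z) = g z := by
  classical
  have hidem : ∀ᶠ z in 𝓝ˢ K, ∀ u, P z (P z u) = P z u := by
    filter_upwards [hDP, hker] with z h1 h2 u
    have : P z (P z u - u) = 0 := h2 _ (by rw [map_sub, h1, sub_self])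
    rwa [map_sub, sub_eq_zero] at this
  have hloc : ∀ z₀ ∈ K, ∃ N ∈ 𝓝 z₀, ∃ η > 0, (∀ z ∈ N, ∀ w₁ w₂ : J → ℂ, ‖w₁‖ < η → ‖w₂‖ < η →
      P z w₁ = w₁ → P z w₂ = w₂ → S (z, w₁) = S (z, w₂) → w₁ = w₂) ∧
      ∀ η' > 0, ∃ 𝒱 : Set (V × X), IsOpen 𝒱 ∧ (z₀, f z₀) ∈ 𝒱 ∧ ∃ w' : V × X → (J → ℂ),
        (∀ p ∈ 𝒱, S (p.1, w' p) = p.2 ∧ P p.1 (w' p) = w' p ∧ ‖w' p‖ < η') ∧
        ∀ (g : V → X) (z : V), MDifferentiableAt 𝓘(ℂ, V) 𝓘(ℂ, E) g z → (z, g z) ∈ 𝒱 →
          DifferentiableAt ℂ (fun z => w' (z, g z)) z := by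
    intro z₀ hz₀
    have hle : 𝓝 z₀ ≤ 𝓝ˢ K := nhds_le_nhdsSet hz₀
    refine manifold_local S f z₀ ?_ (hS0.filter_mono hle).self_of_nhds P (hP.filter_mono hle) (D z₀)
      (hD z₀) (hsurj.filter_mono hle).self_of_nhds (hDP.filter_mono hle).self_of_nhds
      (hker.filter_mono hle).self_of_nhds (hidem.filter_mono hle)
    have hmem : (z₀, (0 : J → ℂ)) ∈ K ×ˢ {(0 : J → ℂ)} := ⟨hz₀, rfl⟩
    exact Filter.Eventually.filter_mono (nhds_le_nhdsSet hmem) hS
  choose! N hN η hη huniq hex using hloc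
  -- uniform uniqueness
  obtain ⟨t, htK, htc⟩ := hK.elim_nhds_subcover (fun z => interior (N z))
    (fun z hz => interior_mem_nhds.2 (hN z hz))
  obtain ⟨η₀, hη₀, hη₀t⟩ : ∃ η₀ > 0, ∀ z ∈ t, η₀ ≤ η z := by
    rcases t.eq_empty_or_nonempty with h | h
    · exact ⟨1, one_pos, by simp only [h, Finset.notMem_empty, IsEmpty.forall_iff, implies_true]⟩
    · obtain ⟨z, hz, hzm⟩ := t.exists_min_image η h
      exact ⟨η z, hη z (htK z hz), hzm⟩
  set 𝒩 : Set V := ⋃ z ∈ t, interior (N z) with h𝒩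
  have h𝒩o : IsOpen 𝒩 := isOpen_biUnion fun z _ => isOpen_interior
  have huni : ∀ z ∈ 𝒩, ∀ w₁ w₂ : J → ℂ, ‖w₁‖ < η₀ → ‖w₂‖ < η₀ →
      P z w₁ = w₁ → P z w₂ = w₂ → S (z, w₁) = S (z, w₂) → w₁ = w₂ := by
    intro z hz w₁ w₂ h1 h2
    obtain ⟨z', hz', hzN⟩ := mem_iUnion₂.1 hz
    exact huniq z' (htK z' hz') z (interior_subset hzN) w₁ w₂ (h1.trans_le (hη₀t z' hz'))
      (h2.trans_le (hη₀t z' hz'))
  have hmin : 0 < min η₀ δ := lt_min hη₀ hδ
  have hex' : ∀ z₀ ∈ K, ∃ 𝒱 : Set (V × X), IsOpen 𝒱 ∧ (z₀, f z₀) ∈ 𝒱 ∧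
      ∃ w' : V × X → (J → ℂ),
        (∀ p ∈ 𝒱, S (p.1, w' p) = p.2 ∧ P p.1 (w' p) = w' p ∧ ‖w' p‖ < min η₀ δ) ∧
        ∀ (g : V → X) (z : V), MDifferentiableAt 𝓘(ℂ, V) 𝓘(ℂ, E) g z → (z, g z) ∈ 𝒱 →
          DifferentiableAt ℂ (fun z => w' (z, g z)) z := fun z₀ hz₀ => hex z₀ hz₀ _ hmin
  choose! 𝒱 h𝒱o h𝒱m w' hw' hw'd using hex'
  refine ⟨(𝒩 ×ˢ univ) ∩ ⋃ z ∈ K, 𝒱 z, ?_, ?_, ?_⟩
  · exact (h𝒩o.prod isOpen_univ).inter (isOpen_biUnion h𝒱o)
  · intro z hz
    exact ⟨⟨htc hz, mem_univ _⟩, mem_iUnion₂.2 ⟨z, hz, h𝒱m z hz⟩⟩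
  · intro g hg hgO
    set 𝒪 := (𝒩 ×ˢ (univ : Set X)) ∩ ⋃ z ∈ K, 𝒱 z with h𝒪
    have h𝒪o : IsOpen 𝒪 := (h𝒩o.prod isOpen_univ).inter (isOpen_biUnion h𝒱o)
    have hgc : ∀ᶠ z in 𝓝ˢ K, MDifferentiableAt 𝓘(ℂ, V) 𝓘(ℂ, E) g z ∧ (z, g z) ∈ 𝒪 := by
      refine hg.and ?_
      rw [eventually_nhdsSet_iff_forall]
      intro z hz
      have h1 : ContinuousAt g z := (hg.filter_mono (nhds_le_nhdsSet hz)).self_of_nhds.continuousAt
      exact (continuousAt_id.prodMk h1).eventually (h𝒪o.mem_nhds (hgO z hz))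
    -- the solution
    set w : V → J → ℂ := fun z => if h : ∃ u : J → ℂ, ‖u‖ < min η₀ δ ∧ P z u = u ∧ S (z, u) = g z
      then h.choose else 0 with hw
    have hwe : ∀ z, ∀ z₀ ∈ K, z ∈ 𝒩 → (z, g z) ∈ 𝒱 z₀ → w z = w' z₀ (z, g z) := by
      intro z z₀ hz₀ hz𝒩 hz
      obtain ⟨h1, h2, h3⟩ := hw' z₀ hz₀ _ hz
      have hh : ∃ u : J → ℂ, ‖u‖ < min η₀ δ ∧ P z u = u ∧ S (z, u) = g z := ⟨_, h3, h2, h1⟩
      simp only [hw, dif_pos hh]
      obtain ⟨k1, k2, k3⟩ := hh.choose_spec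
      exact huni z hz𝒩 _ _ (k1.trans_le (min_le_left _ _)) (h3.trans_le (min_le_left _ _)) k2 h2
        (k3.trans h1.symm)
    refine ⟨w, ?_, ?_⟩
    · obtain ⟨T, hTo, hKT, hT⟩ := mem_nhdsSet_iff_exists.1 hgc
      refine mem_nhdsSet_iff_exists.2 ⟨T, hTo, hKT, ?_⟩
      intro z hz
      obtain ⟨-, h2⟩ := hT hz
      obtain ⟨z₀, hz₀, hz₁⟩ := mem_iUnion₂.1 h2.2
      have h3 : ContinuousAt g z := (hT hz).1.continuousAt
      have h4 : ∀ᶠ y in 𝓝 z, (y, g y) ∈ 𝒱 z₀ :=
        (continuousAt_id.prodMk h3).eventually ((h𝒱o z₀ hz₀).mem_nhds hz₁)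
      have h5 : ∀ᶠ y in 𝓝 z, y ∈ 𝒩 := h𝒩o.mem_nhds h2.1.1
      have h6 : w =ᶠ[𝓝 z] fun y => w' z₀ (y, g y) := by
        filter_upwards [h4, h5] with y hy1 hy2
        exact hwe y z₀ hz₀ hy2 hy1
      exact (hw'd z₀ hz₀ g z (hT hz).1 hz₁).congr_of_eventuallyEq h6
    · filter_upwards [hgc] with z hz
      obtain ⟨z₀, hz₀, hz₁⟩ := mem_iUnion₂.1 hz.2.2
      rw [hwe z z₀ hz₀ hz.2.1.1 hz₁]
      obtain ⟨h1, h2, h3⟩ := hw' z₀ hz₀ _ hz₁
      exact ⟨h3.trans_le (min_le_right _ _), h1⟩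

end Vale.Agent.P290
end
end

section

section

namespace Vale.Agent.P290.CF

open MeasureTheory Set Filter Topology

noncomputable section

variable {m : ℕ} {F : Type*} [NormedAddCommGroup F] [NormedSpace ℂ F]

/-- The antiholomorphic part of a real linear map in the direction of the `k`-th coordinate. -/
def db (k : Fin m) (A : (Fin m → ℂ) →L[ℝ] F) : F :=
  (2 : ℂ)⁻¹ • (A (Pi.single k 1) + Complex.I • A (Pi.single k Complex.I))

theorem db_add (k : Fin m) (A B : (Fin m → ℂ) →L[ℝ] F) : db k (A + B) = db k A + db k B := by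
  simp only [db, add_apply, smul_add]; abel

theorem db_zero (k : Fin m) : db k (0 : (Fin m → ℂ) →L[ℝ] F) = 0 := by simp [db]

theorem db_sum (k : Fin m) {ι : Type*} (s : Finset ι) (A : ι → (Fin m → ℂ) →L[ℝ] F) :
    db k (∑ i ∈ s, A i) = ∑ i ∈ s, db k (A i) := by
  classical
  induction s using Finset.induction_on with
  | empty => simp only [Finset.sum_empty, db_zero]
  | insert a s ha ih => rw [Finset.sum_insert ha, Finset.sum_insert ha, db_add, ih]

theorem db_smul (k : Fin m) (c : ℂ) (A : (Fin m → ℂ) →L[ℝ] F) : db k (c • A) = c • db k A := by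
  simp only [db, smul_apply, smul_add, smul_smul]
  congr 2
  · ring
  · ring

theorem db_restrictScalars (k : Fin m) (A : (Fin m → ℂ) →L[ℂ] F) :
    db k (A.restrictScalars ℝ) = 0 := by
  have h : (Pi.single k Complex.I : Fin m → ℂ) = Complex.I • Pi.single k 1 := by
    rw [← Pi.single_smul]; simp
  simp only [db, ContinuousLinearMap.coe_restrictScalars', h, map_smul, smul_smul,
    Complex.I_mul_I]
  simp only [neg_smul, one_smul, add_neg_cancel, smul_zero]

theorem db_comp {G : Type*} [NormedAddCommGroup G] [NormedSpace ℂ G]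
    (k : Fin m) (L : F →L[ℂ] G) (A : (Fin m → ℂ) →L[ℝ] F) :
    db k ((L.restrictScalars ℝ).comp A) = L (db k A) := by
  simp [db]

/-- Determinant as a continuous multilinear map in the rows. -/
def detC (m : ℕ) : ContinuousMultilinearMap ℂ (fun _ : Fin m => (Fin m → ℂ)) ℂ where
  toMultilinearMap := (Matrix.detRowAlternating (n := Fin m) (R := ℂ)).toMultilinearMap
  cont := by
    have : Continuous (fun M : Matrix (Fin m) (Fin m) ℂ => M.det) := continuous_id.matrix_det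
    exact this

theorem detC_apply (M : Fin m → Fin m → ℂ) : detC m M = Matrix.det (Matrix.of M) := rfl

/-- The matrix of antiholomorphic derivatives of `Q`, row `l` being the `l`-th derivative. -/
def dbQ (Q : (Fin m → ℂ) → (Fin m → ℂ)) (w : Fin m → ℂ) : Fin m → Fin m → ℂ :=
  fun l => db l (fderiv ℝ Q w)

/-- The minor-type functions. -/
def Vf (Q : (Fin m → ℂ) → (Fin m → ℂ)) (k : Fin m) (w : Fin m → ℂ) : ℂ :=
  detC m (Function.update (dbQ Q w) k (Q w))

/-- The pairing function. -/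
def Pf (Q : (Fin m → ℂ) → (Fin m → ℂ)) (z w : Fin m → ℂ) : ℂ := Q w ⬝ᵥ (w - z)

theorem cramer_id (A : Fin m → Fin m → ℂ) (q : Fin m → ℂ) :
    ∑ k, detC m (Function.update A k q) • A k = detC m A • q := by
  have h := Matrix.mulVec_cramer (Matrix.of A).transpose q
  funext j
  have h2 := congrFun h j
  simp only [Matrix.mulVec, dotProduct, Matrix.transpose_apply, Matrix.of_apply,
    Matrix.cramer_transpose_apply, Matrix.det_transpose, Pi.smul_apply, smul_eq_mul] at h2
  simp only [detC_apply, Finset.sum_apply, Pi.smul_apply, smul_eq_mul]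
  rw [← h2]
  refine Finset.sum_congr rfl fun k _ => ?_
  rw [mul_comm]
  rfl

theorem antisymm_sum {T : Fin m → Fin m → ℂ} (h : ∀ k l, k ≠ l → T k l = - T l k)
    (h0 : ∀ k, T k k = 0) : ∑ k, ∑ l, T k l = 0 := by
  have h1 : ∑ k, ∑ l, T k l = - ∑ k, ∑ l, T k l := by
    conv_lhs => rw [Finset.sum_comm]
    rw [← Finset.sum_neg_distrib]
    refine Finset.sum_congr rfl fun k _ => ?_
    rw [← Finset.sum_neg_distrib]
    refine Finset.sum_congr rfl fun l _ => ?_
    by_cases hkl : k = l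
    · subst hkl; simp [h0]
    · rw [h k l hkl]; simp
  have h2 : (2 : ℂ) * ∑ k, ∑ l, T k l = 0 := by
    rw [two_mul]; nth_rewrite 1 [h1]; ring
  simpa only [mul_eq_zero, OfNat.ofNat_ne_zero, false_or] using h2

/-- Row `l` of the derivative of `dbQ`. -/
theorem hasFDerivAt_dbQ {Q : (Fin m → ℂ) → (Fin m → ℂ)} (hQ : ContDiff ℝ 2 Q) (w : Fin m → ℂ)
    (l : Fin m) :
    HasFDerivAt (fun w => dbQ Q w l)
      ((2 : ℂ)⁻¹ • ((fderiv ℝ (fderiv ℝ Q) w).flip (Pi.single l 1) +
        Complex.I • (fderiv ℝ (fderiv ℝ Q) w).flip (Pi.single l Complex.I))) w := by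
  have h1 : HasFDerivAt (fderiv ℝ Q) (fderiv ℝ (fderiv ℝ Q) w) w := by
    have : ContDiff ℝ 1 (fderiv ℝ Q) := hQ.fderiv_right (by norm_num)
    exact (this.differentiable (by norm_num)).differentiableAt.hasFDerivAt
  have h2 : ∀ v : Fin m → ℂ, HasFDerivAt (fun w => fderiv ℝ Q w v)
      ((fderiv ℝ (fderiv ℝ Q) w).flip v) w := by
    intro v
    have := h1.clm_apply (hasFDerivAt_const v w)
    simpa only [hasFDerivAt_pi', ContinuousLinearMap.comp_zero, zero_add] using this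
  have := ((h2 (Pi.single l 1)).add ((h2 (Pi.single l Complex.I)).const_smul Complex.I)).const_smul
    ((2 : ℂ)⁻¹)
  exact this

theorem db_dbQ_symm {Q : (Fin m → ℂ) → (Fin m → ℂ)} (hQ : ContDiff ℝ 2 Q) (w : Fin m → ℂ)
    (k l : Fin m) :
    db k ((2 : ℂ)⁻¹ • ((fderiv ℝ (fderiv ℝ Q) w).flip (Pi.single l 1) +
        Complex.I • (fderiv ℝ (fderiv ℝ Q) w).flip (Pi.single l Complex.I))) =
    db l ((2 : ℂ)⁻¹ • ((fderiv ℝ (fderiv ℝ Q) w).flip (Pi.single k 1) +
        Complex.I • (fderiv ℝ (fderiv ℝ Q) w).flip (Pi.single k Complex.I))) := by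
  have hs : ∀ u v, fderiv ℝ (fderiv ℝ Q) w u v = fderiv ℝ (fderiv ℝ Q) w v u := by
    intro u v
    have := (hQ.contDiffAt (x := w)).isSymmSndFDerivAt (by simp)
    exact this u v
  simp only [db, smul_apply, add_apply, ContinuousLinearMap.flip_apply, smul_add, smul_smul]
  rw [hs (Pi.single k 1) (Pi.single l 1), hs (Pi.single k Complex.I) (Pi.single l Complex.I),
    hs (Pi.single k 1) (Pi.single l Complex.I), hs (Pi.single k Complex.I) (Pi.single l 1)]
  ring_nf

/-- Piola type identity: the divergence of the minor functions. -/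
theorem hasFDerivAt_Vf {Q : (Fin m → ℂ) → (Fin m → ℂ)} (hQ : ContDiff ℝ 2 Q) (w : Fin m → ℂ) :
    ∃ D : Fin m → ((Fin m → ℂ) →L[ℝ] ℂ), (∀ k, HasFDerivAt (Vf Q k) (D k) w) ∧
      ∑ k, db k (D k) = m * detC m (dbQ Q w) := by
  classical
  set B : Fin m → ((Fin m → ℂ) →L[ℝ] (Fin m → ℂ)) := fun l =>
    ((2 : ℂ)⁻¹ • ((fderiv ℝ (fderiv ℝ Q) w).flip (Pi.single l 1) +
        Complex.I • (fderiv ℝ (fderiv ℝ Q) w).flip (Pi.single l Complex.I))) with hB
  have hQd : HasFDerivAt Q (fderiv ℝ Q w) w :=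
    (hQ.differentiable (by norm_num)).differentiableAt.hasFDerivAt
  -- derivative of the rows
  have hrow : ∀ k, HasFDerivAt (fun w => Function.update (dbQ Q w) k (Q w))
      (ContinuousLinearMap.pi (Function.update B k (fderiv ℝ Q w))) w := by
    intro k
    rw [hasFDerivAt_pi]
    intro l
    by_cases hl : l = k
    · subst hl
      simpa only [Function.update_self, hasFDerivAt_pi'] using hQd
    · simp only [Function.update_of_ne hl]
      exact hasFDerivAt_dbQ hQ w l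
  refine ⟨fun k => (((detC m).linearDeriv (Function.update (dbQ Q w) k (Q w))).restrictScalars
    ℝ).comp (ContinuousLinearMap.pi (Function.update B k (fderiv ℝ Q w))), ?_, ?_⟩
  · intro k
    have h1 := ((detC m).hasFDerivAt (Function.update (dbQ Q w) k (Q w))).restrictScalars ℝ
    exact h1.comp w (hrow k)
  · have key : ∀ k, db k ((((detC m).linearDeriv (Function.update (dbQ Q w) k
        (Q w))).restrictScalars ℝ).comp
        (ContinuousLinearMap.pi (Function.update B k (fderiv ℝ Q w)))) =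
        ∑ l, detC m (Function.update (Function.update (dbQ Q w) k (Q w)) l
          (db k (Function.update B k (fderiv ℝ Q w) l))) := by
      intro k
      rw [db_comp, ContinuousMultilinearMap.linearDeriv_apply]
      refine Finset.sum_congr rfl fun l _ => ?_
      congr 2
    simp only [key]
    have split : ∀ k, ∑ l, detC m (Function.update (Function.update (dbQ Q w) k (Q w)) l
          (db k (Function.update B k (fderiv ℝ Q w) l))) = detC m (dbQ Q w) +
        ∑ l, (if l = k then 0 else detC m (Function.update (Function.update (dbQ Q w) k (Q w)) l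
          (db k (B l)))) := by
      intro k
      rw [← Finset.add_sum_erase _ _ (Finset.mem_univ k)]
      rw [← Finset.add_sum_erase Finset.univ (fun l => if l = k then (0:ℂ) else _)
        (Finset.mem_univ k)]
      simp only [if_true, zero_add]
      congr 1
      · congr 1
        simp only [Function.update_self, Function.update_idem]
        have : db k (fderiv ℝ Q w) = dbQ Q w k := rfl
        rw [this, Function.update_eq_self]
      · refine Finset.sum_congr rfl fun l hl => ?_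
        have hlk : l ≠ k := Finset.ne_of_mem_erase hl
        rw [if_neg hlk, Function.update_of_ne hlk]
    simp only [split]
    rw [Finset.sum_add_distrib]
    have hz : ∑ k, ∑ l, (if l = k then (0:ℂ) else
        detC m (Function.update (Function.update (dbQ Q w) k (Q w)) l (db k (B l)))) = 0 := by
      refine antisymm_sum (T := fun k l => (if l = k then (0:ℂ) else
        detC m (Function.update (Function.update (dbQ Q w) k (Q w)) l (db k (B l))))) ?_ ?_
      · intro k l hkl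
        simp only [if_neg hkl, if_neg (Ne.symm hkl)]
        rw [hB]
        simp only []
        rw [db_dbQ_symm hQ w k l]
        set H := db l ((2 : ℂ)⁻¹ • ((fderiv ℝ (fderiv ℝ Q) w).flip (Pi.single k 1) +
          Complex.I • (fderiv ℝ (fderiv ℝ Q) w).flip (Pi.single k Complex.I)))
        have := (Matrix.detRowAlternating (n := Fin m) (R := ℂ)).map_swap
          (Function.update (Function.update (dbQ Q w) l (Q w)) k H) hkl
        have e : (Function.update (Function.update (dbQ Q w) l (Q w)) k H) ∘ Equiv.swap k l =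
          Function.update (Function.update (dbQ Q w) k (Q w)) l H := by
          funext i
          by_cases hi : i = k
          · subst hi
            simp [hkl, Ne.symm hkl]
          · by_cases hi' : i = l
            · subst hi'
              simp
            · simp [Equiv.swap_apply_of_ne_of_ne hi hi', hi, hi']
        rw [e] at this
        exact this
      · intro k; simp
    rw [hz]
    simp only [Finset.sum_const, Finset.card_univ, Fintype.card_fin, nsmul_eq_mul, add_zero]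

/-- The main pointwise divergence identity. -/
theorem main_identity {Q : (Fin m → ℂ) → (Fin m → ℂ)} (hQ : ContDiff ℝ 2 Q) {g : (Fin m → ℂ) → ℂ}
    {w z : Fin m → ℂ} {g' : (Fin m → ℂ) →L[ℂ] ℂ} (hg : HasFDerivAt g g' w) (s : ℂ) :
    ∃ D : Fin m → ((Fin m → ℂ) →L[ℝ] ℂ),
      (∀ k, HasFDerivAt (fun w => g w * Complex.exp (-s * Pf Q z w) * Vf Q k w) (D k) w) ∧
      ∑ k, db k (D k) = g w * Complex.exp (-s * Pf Q z w) * (m - s * Pf Q z w) *
        detC m (dbQ Q w) := by
  obtain ⟨DV, hDV, hsum⟩ := hasFDerivAt_Vf hQ w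
  have hQd : HasFDerivAt Q (fderiv ℝ Q w) w :=
    (hQ.differentiable (by norm_num)).differentiableAt.hasFDerivAt
  have hgR : HasFDerivAt g (g'.restrictScalars ℝ) w := hg.restrictScalars ℝ
  -- the derivative of the pairing
  obtain ⟨P', hP', hdbP⟩ : ∃ P' : (Fin m → ℂ) →L[ℝ] ℂ, HasFDerivAt (Pf Q z) P' w ∧
      ∀ k, db k P' = dbQ Q w k ⬝ᵥ (w - z) := by
    have hj : ∀ j : Fin m, HasFDerivAt (fun w => Q w j * (w - z) j)
        (Q w j • ((ContinuousLinearMap.proj j : (Fin m → ℂ) →L[ℂ] ℂ).restrictScalars ℝ) +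
        (w - z) j • (((ContinuousLinearMap.proj j :
          (Fin m → ℂ) →L[ℂ] ℂ).restrictScalars ℝ).comp (fderiv ℝ Q w))) w := by
      intro j
      have h1 : HasFDerivAt (fun w => Q w j) (((ContinuousLinearMap.proj j :
          (Fin m → ℂ) →L[ℂ] ℂ).restrictScalars ℝ).comp (fderiv ℝ Q w)) w :=
        ((ContinuousLinearMap.proj j : (Fin m → ℂ) →L[ℂ] ℂ).restrictScalars
          ℝ).hasFDerivAt.comp w hQd
      have h2 : HasFDerivAt (fun w : Fin m → ℂ => (w - z) j)
          ((ContinuousLinearMap.proj j : (Fin m → ℂ) →L[ℂ] ℂ).restrictScalars ℝ) w := by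
        have h3 := ((ContinuousLinearMap.proj j : (Fin m → ℂ) →L[ℂ] ℂ).restrictScalars
          ℝ).hasFDerivAt (x := w)
        have h4 := h3.sub_const (z j)
        exact h4
      exact h1.mul h2
    refine ⟨∑ j, (Q w j • ((ContinuousLinearMap.proj j :
        (Fin m → ℂ) →L[ℂ] ℂ).restrictScalars ℝ) +
        (w - z) j • (((ContinuousLinearMap.proj j :
          (Fin m → ℂ) →L[ℂ] ℂ).restrictScalars ℝ).comp (fderiv ℝ Q w))), ?_, ?_⟩
    · have := HasFDerivAt.fun_sum (u := Finset.univ) (fun j _ => hj j)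
      exact this
    · intro k
      rw [db_sum]
      simp only [dotProduct]
      refine Finset.sum_congr rfl fun j _ => ?_
      rw [db_add, db_smul, db_smul, db_restrictScalars, db_comp]
      simp only [smul_eq_mul, ContinuousLinearMap.proj_apply, mul_zero, zero_add]
      rw [mul_comm]
      rfl
  have hE : HasFDerivAt (fun w => Complex.exp (-s * Pf Q z w))
      (Complex.exp (-s * Pf Q z w) • (-s) • P') w := (hP'.const_mul (-s)).cexp
  refine ⟨fun k => (g w * Complex.exp (-s * Pf Q z w)) • DV k + Vf Q k w •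
    (g w • (Complex.exp (-s * Pf Q z w) • (-s) • P') +
      Complex.exp (-s * Pf Q z w) • (g'.restrictScalars ℝ)), ?_, ?_⟩
  · intro k
    exact (hgR.mul hE).mul (hDV k)
  · simp only [db_add, db_smul, db_restrictScalars, hdbP, smul_zero, add_zero]
    rw [Finset.sum_add_distrib, ← Finset.smul_sum, hsum]
    have hc := cramer_id (dbQ Q w) (Q w)
    have h2 : ∑ k, Vf Q k w * (dbQ Q w k ⬝ᵥ (w - z)) = detC m (dbQ Q w) * Pf Q z w := by
      have : (∑ k, detC m (Function.update (dbQ Q w) k (Q w)) • dbQ Q w k) ⬝ᵥ (w - z) =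
        (detC m (dbQ Q w) • Q w) ⬝ᵥ (w - z) := by rw [hc]
      rw [sum_dotProduct, smul_dotProduct] at this
      simp only [smul_dotProduct, smul_eq_mul] at this
      exact this
    simp only [smul_eq_mul]
    have h3 : ∑ k, Vf Q k w * (g w * (Complex.exp (-s * Pf Q z w) * (-s *
        (dbQ Q w k ⬝ᵥ (w - z))))) = g w * Complex.exp (-s * Pf Q z w) * (-s) *
        ∑ k, Vf Q k w * (dbQ Q w k ⬝ᵥ (w - z)) := by
      rw [Finset.mul_sum]
      refine Finset.sum_congr rfl fun k _ => ?_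
      ring
    rw [h3, h2]
    ring

end

end Vale.Agent.P290.CF
end
end

section

section

namespace Vale.Agent.P290.CF

open MeasureTheory Set Filter Topology

noncomputable section

variable {m : ℕ}

theorem contDiff_dbQ {Q : (Fin m → ℂ) → (Fin m → ℂ)} (hQ : ContDiff ℝ 2 Q) (l : Fin m) :
    ContDiff ℝ 1 (fun w => dbQ Q w l) := by
  have h1 : ContDiff ℝ 1 (fderiv ℝ Q) := hQ.fderiv_right (by norm_num)
  unfold dbQ db
  exact ((h1.clm_apply contDiff_const).add ((h1.clm_apply contDiff_const).const_smul _)).const_smul _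

theorem contDiff_detC_comp {n : WithTop ℕ∞} {R : (Fin m → ℂ) → Fin m → (Fin m → ℂ)}
    (hR : ∀ l, ContDiff ℝ n (fun w => R w l)) : ContDiff ℝ n (fun w => detC m (R w)) := by
  have h1 : ContDiff ℝ n (fun x => detC m x) := (detC m).contDiff.restrict_scalars ℝ
  exact h1.comp (contDiff_pi.2 hR)

theorem contDiff_detQ {Q : (Fin m → ℂ) → (Fin m → ℂ)} (hQ : ContDiff ℝ 2 Q) :
    ContDiff ℝ 1 (fun w => detC m (dbQ Q w)) :=
  contDiff_detC_comp (contDiff_dbQ hQ)

theorem contDiff_Vf {Q : (Fin m → ℂ) → (Fin m → ℂ)} (hQ : ContDiff ℝ 2 Q) (k : Fin m) :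
    ContDiff ℝ 1 (Vf Q k) := by
  refine contDiff_detC_comp fun l => ?_
  by_cases hl : l = k
  · subst hl
    simpa using hQ.of_le (by norm_num)
  · simp only [Function.update_of_ne hl]
    exact contDiff_dbQ hQ l

theorem contDiff_Pf {Q : (Fin m → ℂ) → (Fin m → ℂ)} {n : WithTop ℕ∞} (hQ : ContDiff ℝ n Q)
    (z : Fin m → ℂ) : ContDiff ℝ n (Pf Q z) := by
  unfold Pf dotProduct
  refine ContDiff.sum fun j _ => ?_
  refine ContDiff.mul ?_ ?_
  · exact contDiff_pi.1 hQ j
  · exact contDiff_pi.1 (contDiff_id.sub contDiff_const) j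

theorem continuousOn_db {A : (Fin m → ℂ) → ((Fin m → ℂ) →L[ℝ] ℂ)} {V : Set (Fin m → ℂ)}
    (hA : ContinuousOn A V) (k : Fin m) : ContinuousOn (fun w => db k (A w)) V := by
  have h1 : ContinuousOn (fun w => A w (Pi.single k 1)) V := hA.clm_apply continuousOn_const
  have h2 : ContinuousOn (fun w => A w (Pi.single k Complex.I)) V :=
    hA.clm_apply continuousOn_const
  have h3 : ContinuousOn (fun w => A w (Pi.single k 1) + Complex.I • A w (Pi.single k Complex.I)) V :=
    h1.add (h2.const_smul Complex.I)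
  exact h3.const_smul ((2 : ℂ)⁻¹)

/-- Integration by parts for `db`. -/
theorem ibp {χ G : (Fin m → ℂ) → ℂ} (hχ : ContDiff ℝ 1 χ) (hc : HasCompactSupport χ)
    {V : Set (Fin m → ℂ)} (hV : IsOpen V) (hs : tsupport χ ⊆ V) (hG : ContDiffOn ℝ 1 G V)
    (k : Fin m) :
    ∫ w, χ w * db k (fderiv ℝ G w) = - ∫ w, db k (fderiv ℝ χ w) * G w := by
  have hGc : ContinuousOn G V := hG.continuousOn
  have hG' : ContinuousOn (fderiv ℝ G) V := hG.continuousOn_fderiv_of_isOpen hV le_rfl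
  have hχ' : Continuous (fderiv ℝ χ) := hχ.continuous_fderiv one_ne_zero
  have i1 : ∀ v, Integrable (fun w => fderiv ℝ χ w v * G w) := by
    intro v
    have hsupp : tsupport (fun w => fderiv ℝ χ w v * G w) ⊆ tsupport χ := by
      refine (tsupport_mul_subset_left).trans ?_
      exact tsupport_fderiv_apply_subset ℝ v
    refine Continuous.integrable_of_hasCompactSupport ?_ ?_
    · refine ContinuousOn.continuous_of_tsupport_subset ?_ hV (hsupp.trans hs)
      exact ((hχ'.clm_apply continuous_const).continuousOn).mul hGc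
    · exact hc.mono' (subset_tsupport _ |>.trans hsupp)
  have i2 : ∀ v, Integrable (fun w => χ w * fderiv ℝ G w v) := by
    intro v
    have hsupp : tsupport (fun w => χ w * fderiv ℝ G w v) ⊆ tsupport χ :=
      tsupport_mul_subset_left
    refine Continuous.integrable_of_hasCompactSupport ?_ ?_
    · refine ContinuousOn.continuous_of_tsupport_subset ?_ hV (hsupp.trans hs)
      exact hχ.continuous.continuousOn.mul (hG'.clm_apply continuousOn_const)
    · exact hc.mono' (subset_tsupport _ |>.trans hsupp)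
  have i3 : Integrable (fun w => χ w * G w) := by
    have hsupp : tsupport (fun w => χ w * G w) ⊆ tsupport χ :=
      tsupport_mul_subset_left
    refine Continuous.integrable_of_hasCompactSupport ?_ ?_
    · refine ContinuousOn.continuous_of_tsupport_subset ?_ hV (hsupp.trans hs)
      exact hχ.continuous.continuousOn.mul hGc
    · exact hc.mono' (subset_tsupport _ |>.trans hsupp)
  have key : ∀ v, ∫ w, χ w * fderiv ℝ G w v = - ∫ w, fderiv ℝ χ w v * G w := by
    intro v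
    refine integral_mul_fderiv_eq_neg_fderiv_mul_of_integrable (i1 v) (i2 v) i3 ?_ ?_
    · intro x _
      exact (hχ.differentiable one_ne_zero).differentiableAt
    · intro x hx
      exact (hG.differentiableOn one_ne_zero).differentiableAt (hV.mem_nhds (hs hx))
  have e1 : ∀ w, χ w * db k (fderiv ℝ G w) = (2 : ℂ)⁻¹ * (χ w * fderiv ℝ G w (Pi.single k 1)) +
      (2 : ℂ)⁻¹ * Complex.I * (χ w * fderiv ℝ G w (Pi.single k Complex.I)) := by
    intro w; simp only [db, smul_eq_mul]; ring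
  have e2 : ∀ w, db k (fderiv ℝ χ w) * G w = (2 : ℂ)⁻¹ * (fderiv ℝ χ w (Pi.single k 1) * G w) +
      (2 : ℂ)⁻¹ * Complex.I * (fderiv ℝ χ w (Pi.single k Complex.I) * G w) := by
    intro w; simp only [db, smul_eq_mul]; ring
  simp only [e1, e2]
  rw [integral_add ((i2 _).const_mul _) ((i2 _).const_mul _),
    integral_add ((i1 _).const_mul _) ((i1 _).const_mul _), integral_const_mul, integral_const_mul,
    integral_const_mul, integral_const_mul, key, key]
  ring

/-- derivative in `s` of the integral of `a * exp (-s * P)` -/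
theorem hasDerivAt_J {a P : (Fin m → ℂ) → ℂ} (ha : Continuous a) (hac : HasCompactSupport a)
    (hP : Continuous P) (s₀ : ℝ) :
    HasDerivAt (fun s : ℝ => ∫ w, a w * Complex.exp (-(s : ℂ) * P w))
      (∫ w, a w * (-P w * Complex.exp (-(s₀ : ℂ) * P w))) s₀ := by
  have hcont : ∀ s : ℝ, Continuous (fun w => a w * Complex.exp (-(s : ℂ) * P w)) := fun s =>
    ha.mul (Complex.continuous_exp.comp (continuous_const.mul hP))
  have hcont' : ∀ s : ℝ, Continuous (fun w => a w * (-P w * Complex.exp (-(s : ℂ) * P w))) :=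
    fun s => ha.mul (hP.neg.mul (Complex.continuous_exp.comp (continuous_const.mul hP)))
  refine (hasDerivAt_integral_of_dominated_loc_of_deriv_le (𝕜 := ℝ)
    (F := fun s : ℝ => fun w => a w * Complex.exp (-(s : ℂ) * P w))
    (F' := fun s : ℝ => fun w => a w * (-P w * Complex.exp (-(s : ℂ) * P w)))
    (bound := fun w => ‖a w‖ * (‖P w‖ * Real.exp ((|s₀| + 1) * ‖P w‖)))
    (Metric.ball_mem_nhds s₀ one_pos) ?_ ?_ ?_ ?_ ?_ ?_).2
  · exact Eventually.of_forall fun s => (hcont s).aestronglyMeasurable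
  · exact (hcont s₀).integrable_of_hasCompactSupport (hac.mul_right)
  · exact (hcont' s₀).aestronglyMeasurable
  · refine ae_of_all _ fun w s hs => ?_
    rw [norm_mul, norm_mul, norm_neg, Complex.norm_exp]
    gcongr
    have h1 : |s| ≤ |s₀| + 1 := by
      have := abs_sub_abs_le_abs_sub s s₀
      have h2 : |s - s₀| < 1 := by simpa only [Metric.mem_ball, Real.dist_eq] using hs
      linarith
    calc (-(s : ℂ) * P w).re ≤ ‖-(s : ℂ) * P w‖ := Complex.re_le_norm _
      _ = |s| * ‖P w‖ := by rw [norm_mul, norm_neg, Complex.norm_real, Real.norm_eq_abs]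
      _ ≤ (|s₀| + 1) * ‖P w‖ := by gcongr
  · refine Continuous.integrable_of_hasCompactSupport ?_ ?_
    · exact ha.norm.mul (hP.norm.mul (Real.continuous_exp.comp (continuous_const.mul hP.norm)))
    · exact hac.norm.mul_right
  · refine ae_of_all _ fun w s _ => ?_
    have h1 : HasDerivAt (fun s : ℝ => -(s : ℂ) * P w) (-P w) s := by
      have := (Complex.ofRealCLM.hasDerivAt (x := s)).neg.mul_const (P w)
      simpa only [neg_mul, Pi.neg_apply, Complex.ofRealCLM_apply, Complex.ofReal_one, one_mul] using this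
    have h2 := h1.cexp.const_mul (a w)
    rw [mul_comm (Complex.exp _) (-P w)] at h2
    exact h2

/-- the key formula for fixed `s` -/
theorem key_s {Q : (Fin m → ℂ) → (Fin m → ℂ)} (hQ : ContDiff ℝ 2 Q) {χ g : (Fin m → ℂ) → ℂ}
    (hχ : ContDiff ℝ 1 χ) (hc : HasCompactSupport χ) {V : Set (Fin m → ℂ)} (hV : IsOpen V)
    (hs : tsupport χ ⊆ V) (hg : DifferentiableOn ℂ g V) (hg1 : ContDiffOn ℝ 1 g V)
    (z : Fin m → ℂ) (s : ℂ) :
    ∫ w, χ w * (g w * Complex.exp (-s * Pf Q z w) * (m - s * Pf Q z w) * detC m (dbQ Q w)) =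
    - ∫ w, ∑ k, db k (fderiv ℝ χ w) * (g w * Complex.exp (-s * Pf Q z w) * Vf Q k w) := by
  have hE : ContDiff ℝ 1 (fun w => Complex.exp (-s * Pf Q z w)) :=
    (contDiff_const.mul (contDiff_Pf (hQ.of_le (by norm_num)) z)).cexp
  have hG : ∀ k, ContDiffOn ℝ 1 (fun w => g w * Complex.exp (-s * Pf Q z w) * Vf Q k w) V :=
    fun k => (hg1.mul hE.contDiffOn).mul (contDiff_Vf hQ k).contDiffOn
  have hχ' : Continuous (fderiv ℝ χ) := hχ.continuous_fderiv one_ne_zero
  have e1 : ∀ w, χ w * (g w * Complex.exp (-s * Pf Q z w) * (m - s * Pf Q z w) *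
      detC m (dbQ Q w)) = ∑ k, χ w * db k (fderiv ℝ
        (fun w => g w * Complex.exp (-s * Pf Q z w) * Vf Q k w) w) := by
    intro w
    by_cases hw : w ∈ V
    · have hgw : HasFDerivAt g (fderiv ℂ g w) w :=
        (hg.differentiableAt (hV.mem_nhds hw)).hasFDerivAt
      obtain ⟨D, hD, hsum⟩ := main_identity hQ (z := z) hgw s
      rw [← Finset.mul_sum]
      congr 1
      rw [← hsum]
      refine Finset.sum_congr rfl fun k _ => ?_
      rw [(hD k).fderiv]
    · have : χ w = 0 := by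
        by_contra h
        exact hw (hs (subset_tsupport _ h))
      simp only [this, neg_mul, zero_mul, Finset.sum_const_zero]
  have int1 : ∀ k, Integrable (fun w => χ w * db k (fderiv ℝ
        (fun w => g w * Complex.exp (-s * Pf Q z w) * Vf Q k w) w)) := by
    intro k
    have hsupp : tsupport (fun w => χ w * db k (fderiv ℝ
        (fun w => g w * Complex.exp (-s * Pf Q z w) * Vf Q k w) w)) ⊆ tsupport χ :=
      tsupport_mul_subset_left
    refine Continuous.integrable_of_hasCompactSupport ?_ ?_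
    · refine ContinuousOn.continuous_of_tsupport_subset ?_ hV (hsupp.trans hs)
      have h2 := (hG k).continuousOn_fderiv_of_isOpen hV le_rfl
      exact hχ.continuous.continuousOn.mul (continuousOn_db h2 k)
    · exact hc.mono' (subset_tsupport _ |>.trans hsupp)
  have int2 : ∀ k, Integrable (fun w => db k (fderiv ℝ χ w) *
      (g w * Complex.exp (-s * Pf Q z w) * Vf Q k w)) := by
    intro k
    have hsupp0 : tsupport (fun w => db k (fderiv ℝ χ w)) ⊆ tsupport χ := by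
      refine closure_minimal ?_ (isClosed_tsupport _)
      intro w hw
      refine tsupport_fderiv_subset ℝ (subset_tsupport _ ?_)
      intro h0
      apply hw
      simp only [db, h0, zero_apply, smul_eq_mul, mul_zero, add_zero]
    have hsupp : tsupport (fun w => db k (fderiv ℝ χ w) *
      (g w * Complex.exp (-s * Pf Q z w) * Vf Q k w)) ⊆ tsupport χ :=
      (tsupport_mul_subset_left).trans hsupp0
    refine Continuous.integrable_of_hasCompactSupport ?_ ?_
    · refine ContinuousOn.continuous_of_tsupport_subset ?_ hV (hsupp.trans hs)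
      exact ContinuousOn.mul (continuousOn_db hχ'.continuousOn k) (hG k).continuousOn
    · exact hc.mono' (subset_tsupport _ |>.trans hsupp)
  simp only [e1]
  rw [integral_finsetSum _ (fun k _ => int1 k), integral_finsetSum _ (fun k _ => int2 k),
    ← Finset.sum_neg_distrib]
  refine Finset.sum_congr rfl fun k _ => ?_
  exact ibp hχ hc hV hs (hG k) k

end

end Vale.Agent.P290.CF
end
end

section

section

namespace Vale.Agent.P290.CF

open MeasureTheory Set Filter Topology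

noncomputable section

variable {m : ℕ}

/-- squared euclidean norm -/
def nsq (u : Fin m → ℂ) : ℝ := ∑ j, ‖u j‖ ^ 2

theorem nsq_nonneg (u : Fin m → ℂ) : 0 ≤ nsq u := Finset.sum_nonneg fun _ _ => by positivity

theorem continuous_nsq : Continuous (nsq (m := m)) := by unfold nsq; fun_prop

theorem nsq_smul (r : ℝ) (u : Fin m → ℂ) : nsq (r • u) = r ^ 2 * nsq u := by
  unfold nsq
  rw [Finset.mul_sum]
  refine Finset.sum_congr rfl fun j _ => ?_
  rw [Pi.smul_apply, norm_smul, mul_pow, Real.norm_eq_abs, sq_abs]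

theorem norm_sq_le_nsq (u : Fin m → ℂ) : ‖u‖ ^ 2 ≤ nsq u := by
  have h : ‖u‖ ≤ Real.sqrt (nsq u) := by
    rw [pi_norm_le_iff_of_nonneg (Real.sqrt_nonneg _)]
    intro j
    apply Real.le_sqrt_of_sq_le
    exact Finset.single_le_sum (f := fun j => ‖u j‖ ^ 2) (fun _ _ => by (clear * -; positivity))
      (Finset.mem_univ j)
  calc ‖u‖ ^ 2 ≤ (Real.sqrt (nsq u)) ^ 2 := by gcongr
    _ = nsq u := Real.sq_sqrt (nsq_nonneg u)

theorem integrable_gauss {c : ℝ} (hc : 0 < c) :
    Integrable (fun u : Fin m → ℂ => Real.exp (-c * nsq u)) := by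
  have h1 : Integrable (fun u : ℂ => Real.exp (-c * ‖u‖ ^ 2)) := by
    have := GaussianFourier.integrable_cexp_neg_mul_sq_norm_add (V := ℂ) (b := (c : ℂ))
      (by simpa only [Complex.ofReal_re] using hc) 0 0
    have h2 := this.norm
    refine h2.congr (ae_of_all _ fun v => ?_)
    simp only [zero_mul, add_zero, Complex.norm_exp]
    congr 1
    rw [← Complex.ofReal_neg, ← Complex.ofReal_pow, ← Complex.ofReal_mul, Complex.ofReal_re]
  have h3 : Integrable (fun x : Fin m → ℂ => ∏ i, Real.exp (-c * ‖x i‖ ^ 2)) :=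
    Integrable.fintype_prod (f := fun (_ : Fin m) (u : ℂ) => Real.exp (-c * ‖u‖ ^ 2))
      (fun _ => h1)
  refine h3.congr (ae_of_all _ fun u => ?_)
  simp only [nsq, Finset.mul_sum, Real.exp_sum]

/-- the normalising constant -/
def c0 (m : ℕ) : ℂ := ∫ u : Fin m → ℂ, Complex.exp (-((nsq u : ℝ) : ℂ))

theorem c0_ne_zero (m : ℕ) : c0 m ≠ 0 := by
  have h1 : c0 m = ((∫ u : Fin m → ℂ, Real.exp (-1 * nsq u) : ℝ) : ℂ) := by
    unfold c0
    refine Eq.trans ?_ integral_complex_ofReal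
    refine integral_congr_ae (ae_of_all _ fun u => ?_)
    simp only [neg_mul, one_mul, Complex.ofReal_exp, Complex.ofReal_neg]
  rw [h1]
  have h2 : 0 < ∫ u : Fin m → ℂ, Real.exp (-1 * nsq u) :=
    integral_exp_pos (integrable_gauss one_pos)
  exact_mod_cast h2.ne'

theorem tendsto_lim {a P : (Fin m → ℂ) → ℂ} (ha : Continuous a) (hac : HasCompactSupport a)
    (hP : Continuous P) (z : Fin m → ℂ)
    (hPz : ∀ᶠ w in 𝓝 z, P w = ((nsq (w - z) : ℝ) : ℂ)) {c : ℝ} (hc : 0 < c)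
    (hPc : ∀ w ∈ tsupport a, c * nsq (w - z) ≤ (P w).re) :
    Tendsto (fun s : ℝ => (s : ℂ) ^ m * ∫ w, a w * Complex.exp (-(s : ℂ) * P w)) atTop
      (𝓝 (c0 m * a z)) := by
  obtain ⟨M, hM⟩ := ha.norm.bddAbove_range_of_hasCompactSupport hac.norm
  have hM' : ∀ w, ‖a w‖ ≤ M := fun w => hM ⟨w, rfl⟩
  -- rewrite by scaling
  have hscale : ∀ s : ℝ, 0 < s → (s : ℂ) ^ m * ∫ w, a w * Complex.exp (-(s : ℂ) * P w) =
      ∫ v, a (z + (Real.sqrt s)⁻¹ • v) *
        Complex.exp (-(s : ℂ) * P (z + (Real.sqrt s)⁻¹ • v)) := by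
    intro s hs
    have h1 := Measure.integral_comp_smul (volume : Measure (Fin m → ℂ))
      (fun x => a (z + x) * Complex.exp (-(s : ℂ) * P (z + x))) (Real.sqrt s)⁻¹
    rw [h1, integral_add_left_eq_self (μ := (volume : Measure (Fin m → ℂ)))
      (fun x => a x * Complex.exp (-(s : ℂ) * P x)) z]
    have h2 : Module.finrank ℝ (Fin m → ℂ) = 2 * m := by
      rw [Module.finrank_pi_fintype]
      simp only [Complex.finrank_real_complex, Finset.sum_const, Finset.card_univ, Fintype.card_fin, smul_eq_mul, mul_comm]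
    rw [h2, pow_mul, inv_pow, Real.sq_sqrt hs.le, inv_pow, inv_inv, abs_of_pos (by positivity)]
    rw [Complex.real_smul]
    push_cast
    rfl
  have hev : (fun s : ℝ => (s : ℂ) ^ m * ∫ w, a w * Complex.exp (-(s : ℂ) * P w)) =ᶠ[atTop]
      fun s => ∫ v, a (z + (Real.sqrt s)⁻¹ • v) *
        Complex.exp (-(s : ℂ) * P (z + (Real.sqrt s)⁻¹ • v)) := by
    filter_upwards [eventually_gt_atTop 0] with s hs using hscale s hs
  rw [tendsto_congr' hev]
  have hlim : c0 m * a z = ∫ v : Fin m → ℂ, a z * Complex.exp (-((nsq v : ℝ) : ℂ)) := by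
    rw [integral_const_mul, mul_comm]; rfl
  rw [hlim]
  refine tendsto_integral_filter_of_dominated_convergence
    (fun v => M * Real.exp (-c * nsq v)) ?_ ?_ ?_ ?_
  · refine Eventually.of_forall fun s => ?_
    refine Continuous.aestronglyMeasurable ?_
    have h1 : Continuous (fun v : Fin m → ℂ => z + (Real.sqrt s)⁻¹ • v) := by fun_prop
    exact (ha.comp h1).mul (Complex.continuous_exp.comp (continuous_const.mul (hP.comp h1)))
  · filter_upwards [eventually_gt_atTop 0] with s hs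
    refine ae_of_all _ fun v => ?_
    by_cases hv : z + (Real.sqrt s)⁻¹ • v ∈ tsupport a
    · have h1 := hPc _ hv
      rw [add_sub_cancel_left, nsq_smul, inv_pow, Real.sq_sqrt hs.le] at h1
      rw [norm_mul, Complex.norm_exp]
      refine mul_le_mul (hM' _) (Real.exp_le_exp.2 ?_) (Real.exp_pos _).le
        ((norm_nonneg _).trans (hM' z))
      · have : (-(s : ℂ) * P (z + (Real.sqrt s)⁻¹ • v)).re = -s * (P (z + (Real.sqrt s)⁻¹ • v)).re := by
          rw [← Complex.ofReal_neg, Complex.re_ofReal_mul]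
        rw [this]
        have h2 : c * nsq v ≤ s * (P (z + (Real.sqrt s)⁻¹ • v)).re := by
          calc c * nsq v = s * (c * (s⁻¹ * nsq v)) := by (clear * - hs hc; field_simp)
            _ ≤ _ := by (clear * - h1 hs; gcongr)
        linarith only [h2]
    · have : a (z + (Real.sqrt s)⁻¹ • v) = 0 := image_eq_zero_of_notMem_tsupport hv
      rw [this, zero_mul, norm_zero]
      have : 0 ≤ M := (norm_nonneg _).trans (hM' z)
      (clear * - this; positivity)
  · exact (integrable_gauss hc).const_mul M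
  · refine ae_of_all _ fun v => ?_
    have hR : Tendsto (fun s : ℝ => z + (Real.sqrt s)⁻¹ • v) atTop (𝓝 z) := by
      have h1 : Tendsto (fun s : ℝ => (Real.sqrt s)⁻¹) atTop (𝓝 0) :=
        tendsto_inv_atTop_zero.comp Real.tendsto_sqrt_atTop
      have h2 := (h1.smul_const v).const_add z
      simpa only [zero_smul, add_zero] using h2
    refine Tendsto.mul ((ha.tendsto z).comp hR) ?_
    refine Tendsto.congr' ?_ tendsto_const_nhds
    filter_upwards [hR.eventually hPz, eventually_gt_atTop 0] with s hs hs0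
    rw [hs, add_sub_cancel_left, nsq_smul, inv_pow, Real.sq_sqrt hs0.le]
    congr 1
    rw [neg_mul, ← Complex.ofReal_mul, ← mul_assoc, mul_inv_cancel₀ hs0.ne', one_mul]

end

end Vale.Agent.P290.CF
end
end

section

section

namespace Vale.Agent.P290.CF

open MeasureTheory Set Filter Topology

noncomputable section

variable {m : ℕ}

/-- product measure used for the kernel -/
def μK (m : ℕ) : Measure (ℝ × (Fin m → ℂ)) :=
  ((volume : Measure ℝ).restrict (Ioi 0)).prod (volume : Measure (Fin m → ℂ))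

theorem ae_pos (m : ℕ) : ∀ᵐ p ∂(μK m), 0 < p.1 := by
  have h : μK m = ((volume : Measure ℝ).prod (volume : Measure (Fin m → ℂ))).restrict
      (Ioi 0 ×ˢ univ) := by
    rw [← Measure.prod_restrict, Measure.restrict_univ]; rfl
  rw [h]
  filter_upwards [ae_restrict_mem (measurableSet_Ioi.prod MeasurableSet.univ)] with p hp
  exact hp.1

theorem integrable_pow_exp (n : ℕ) {c : ℝ} (hc : 0 < c) :
    Integrable (fun s : ℝ => s ^ n * Real.exp (-c * s)) (volume.restrict (Ioi 0)) := by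
  have h := integrableOn_rpow_mul_exp_neg_mul_rpow (p := 1) (s := n) (b := c)
    (lt_of_lt_of_le (by norm_num) (Nat.cast_nonneg n)) one_pos hc
  refine Integrable.congr h ?_
  filter_upwards [ae_restrict_mem measurableSet_Ioi] with s hs
  simp only [Real.rpow_natCast, Real.rpow_one, neg_mul]

theorem integrable_dom (n : ℕ) {c : ℝ} (hc : 0 < c) {B : (Fin m → ℂ) → ℝ} (hB : Continuous B)
    (hBc : HasCompactSupport B) :
    Integrable (fun p : ℝ × (Fin m → ℂ) => (p.1 ^ n * Real.exp (-c * p.1)) * B p.2) (μK m) :=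
  (integrable_pow_exp n hc).mul_prod (hB.integrable_of_hasCompactSupport hBc)

/-- the integrand of the kernel -/
def ker (n : ℕ) (B P : (Fin m → ℂ) → ℂ) (p : ℝ × (Fin m → ℂ)) : ℂ :=
  (p.1 : ℂ) ^ n * (B p.2 * Complex.exp (-(p.1 : ℂ) * P p.2))

theorem continuous_ker (n : ℕ) {B P : (Fin m → ℂ) → ℂ} (hB : Continuous B) (hP : Continuous P) :
    Continuous (ker n B P) := by
  unfold ker; fun_prop

theorem norm_ker_le (n : ℕ) {B P : (Fin m → ℂ) → ℂ} {c : ℝ}
    (hPc : ∀ w ∈ tsupport B, c ≤ (P w).re) {p : ℝ × (Fin m → ℂ)} (hp : 0 < p.1) :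
    ‖ker n B P p‖ ≤ (p.1 ^ n * Real.exp (-c * p.1)) * ‖B p.2‖ := by
  unfold ker
  by_cases hw : p.2 ∈ tsupport B
  · rw [norm_mul, norm_mul, norm_pow, Complex.norm_real, Real.norm_of_nonneg hp.le,
      Complex.norm_exp, mul_assoc, mul_comm ‖B p.2‖]
    have h1 : (-(p.1 : ℂ) * P p.2).re = -p.1 * (P p.2).re := by
      rw [← Complex.ofReal_neg, Complex.re_ofReal_mul]
    rw [h1]
    have h2 : c * p.1 ≤ p.1 * (P p.2).re := by
      rw [mul_comm]; exact mul_le_mul_of_nonneg_left (hPc _ hw) hp.le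
    have h3 : Real.exp (-p.1 * (P p.2).re) ≤ Real.exp (-c * p.1) :=
      Real.exp_le_exp.2 (by linarith only [h2])
    gcongr
  · rw [image_eq_zero_of_notMem_tsupport hw]; simp only [neg_mul, zero_mul, mul_zero, norm_zero, Std.le_refl]

theorem integrable_ker (n : ℕ) {B P : (Fin m → ℂ) → ℂ} (hB : Continuous B)
    (hBc : HasCompactSupport B) (hP : Continuous P) {c : ℝ} (hc : 0 < c)
    (hPc : ∀ w ∈ tsupport B, c ≤ (P w).re) : Integrable (ker n B P) (μK m) := by
  refine Integrable.mono' (integrable_dom n hc hB.norm hBc.norm)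
    (continuous_ker n hB hP).aestronglyMeasurable ?_
  filter_upwards [ae_pos m] with p hp
  exact norm_ker_le n hPc hp

/-- The representation formula. -/
theorem rep_formula (hm : 0 < m) {Q : (Fin m → ℂ) → (Fin m → ℂ)} (hQ : ContDiff ℝ 2 Q)
    {χ g : (Fin m → ℂ) → ℂ}
    (hχ : ContDiff ℝ 1 χ) (hχc : HasCompactSupport χ) {V : Set (Fin m → ℂ)} (hV : IsOpen V)
    (hs : tsupport χ ⊆ V) (hg : DifferentiableOn ℂ g V) (hg1 : ContDiffOn ℝ 1 g V)
    {z : Fin m → ℂ} (hχz : χ z = 1)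
    (hQz : ∀ᶠ w in 𝓝 z, ∀ j, Q w j = star (w j - z j))
    {c : ℝ} (hc : 0 < c) (hPc : ∀ w ∈ tsupport χ, c * nsq (w - z) ≤ (Pf Q z w).re)
    {c' : ℝ} (hc' : 0 < c') (hPc' : ∀ w ∈ tsupport (fderiv ℝ χ), c' ≤ (Pf Q z w).re) :
    c0 m * g z = - ∫ p, ker (m - 1) (fun w => ∑ k, db k (fderiv ℝ χ w) * (g w * Vf Q k w))
      (Pf Q z) p ∂(μK m) := by
  set P := Pf Q z with hPdef
  have hP : Continuous P := (contDiff_Pf hQ z).continuous
  set B : (Fin m → ℂ) → ℂ := fun w => ∑ k, db k (fderiv ℝ χ w) * (g w * Vf Q k w) with hBdef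
  set a : (Fin m → ℂ) → ℂ := fun w => χ w * (g w * detC m (dbQ Q w)) with hadef
  have hχ' : Continuous (fderiv ℝ χ) := hχ.continuous_fderiv one_ne_zero
  have hsuppa : tsupport a ⊆ tsupport χ := tsupport_mul_subset_left
  have ha : Continuous a := by
    refine ContinuousOn.continuous_of_tsupport_subset ?_ hV (hsuppa.trans hs)
    exact hχ.continuous.continuousOn.mul (hg.continuousOn.mul (contDiff_detQ hQ).continuous.continuousOn)
  have hac : HasCompactSupport a := hχc.mono' (subset_tsupport _ |>.trans hsuppa)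
  have hsuppB : tsupport B ⊆ tsupport (fderiv ℝ χ) := by
    refine closure_mono ?_
    intro w hw h0
    apply hw
    have h0' : fderiv ℝ χ w = 0 := h0
    simp only [hBdef, db, smul_eq_mul, h0', zero_apply, mul_zero, add_zero, zero_mul, Finset.sum_const_zero]
  have hsuppB' : tsupport B ⊆ tsupport χ := hsuppB.trans (tsupport_fderiv_subset ℝ)
  have hB : Continuous B := by
    refine ContinuousOn.continuous_of_tsupport_subset ?_ hV (hsuppB'.trans hs)
    refine continuousOn_finsetSum _ fun k _ => ?_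
    exact (continuousOn_db hχ'.continuousOn k).mul
      (hg.continuousOn.mul (contDiff_Vf hQ k).continuous.continuousOn)
  have hBc : HasCompactSupport B := hχc.mono' (subset_tsupport _ |>.trans hsuppB')
  have hint : Integrable (ker (m - 1) B P) (μK m) :=
    integrable_ker (m - 1) hB hBc hP hc' fun w hw => hPc' w (hsuppB hw)
  -- the function of `s`
  set J : ℝ → ℂ := fun s => ∫ w, a w * Complex.exp (-(s : ℂ) * P w) with hJ
  set R : ℝ → ℂ := fun s => ∫ w, B w * Complex.exp (-(s : ℂ) * P w) with hR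
  have hkey : ∀ s : ℝ, (m : ℂ) * J s + s * (∫ w, a w * (-P w * Complex.exp (-(s : ℂ) * P w))) =
      - R s := by
    intro s
    have h1 := key_s hQ hχ hχc hV hs hg hg1 z (s : ℂ)
    have h2 : R s = ∫ w, ∑ k, db k (fderiv ℝ χ w) *
        (g w * Complex.exp (-(s : ℂ) * Pf Q z w) * Vf Q k w) := by
      refine integral_congr_ae (ae_of_all _ fun w => ?_)
      simp only [hBdef, Finset.sum_mul]
      refine Finset.sum_congr rfl fun k _ => ?_
      ring
    rw [h2, ← h1, hJ, ← integral_const_mul, ← integral_const_mul, ← integral_add]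
    · refine integral_congr_ae (ae_of_all _ fun w => ?_)
      simp only [hadef]
      ring
    · refine Integrable.const_mul ?_ _
      exact (ha.mul (Complex.continuous_exp.comp
        (continuous_const.mul hP))).integrable_of_hasCompactSupport (hac.mul_right)
    · refine Integrable.const_mul ?_ _
      exact (ha.mul (hP.neg.mul (Complex.continuous_exp.comp
        (continuous_const.mul hP)))).integrable_of_hasCompactSupport (hac.mul_right)
  have hderiv : ∀ s : ℝ, HasDerivAt (fun s : ℝ => (s : ℂ) ^ m * J s)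
      (- ((s : ℂ) ^ (m - 1) * R s)) s := by
    intro s
    have h1 := hasDerivAt_J ha hac hP s
    have h2 : HasDerivAt (fun s : ℝ => (s : ℂ) ^ m) ((m : ℂ) * (s : ℂ) ^ (m - 1)) s := by
      have := (hasDerivAt_pow m (s : ℂ)).comp_ofReal
      exact this
    have h3 := h2.mul h1
    have h4 : (s : ℂ) ^ m = (s : ℂ) ^ (m - 1) * s := by
      rw [← pow_succ, Nat.sub_add_cancel hm]
    have h5 : (- ((s : ℂ) ^ (m - 1) * R s)) = (m : ℂ) * (s : ℂ) ^ (m - 1) *
        (∫ (w : Fin m → ℂ), a w * Complex.exp (-(s : ℂ) * P w)) +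
        (s : ℂ) ^ m * ∫ (w : Fin m → ℂ), a w * (-P w * Complex.exp (-(s : ℂ) * P w)) := by
      rw [h4]
      have := hkey s
      linear_combination (-(s:ℂ) ^ (m - 1)) * this
    rw [h5]
    exact h3
  have hRint : IntegrableOn (fun s : ℝ => - ((s : ℂ) ^ (m - 1) * R s)) (Ioi 0) := by
    have h1 := hint.integral_prod_left
    have h2 : Integrable (fun s : ℝ => ((s : ℂ) ^ (m - 1) * R s)) (volume.restrict (Ioi 0)) := by
      refine h1.congr (ae_of_all _ fun s => ?_)
      simp only [ker, hR]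
      rw [integral_const_mul]
    exact h2.neg
  have hlim : Tendsto (fun s : ℝ => (s : ℂ) ^ m * J s) atTop (𝓝 (c0 m * a z)) := by
    refine tendsto_lim ha hac hP z ?_ hc fun w hw => hPc w (hsuppa hw)
    filter_upwards [hQz] with w hw
    simp only [hPdef, Pf, dotProduct, nsq, Pi.sub_apply, hw]
    push_cast
    refine Finset.sum_congr rfl fun j _ => ?_
    rw [← Complex.conj_mul']
    rfl
  have hFTC := integral_Ioi_of_hasDerivAt_of_tendsto
    (f := fun s : ℝ => (s : ℂ) ^ m * J s) (a := 0)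
    ((hderiv 0).continuousAt.continuousWithinAt) (fun s _ => hderiv s) hRint hlim
  have haz : a z = g z := by
    simp only [hadef, hχz, one_mul]
    have hdet : detC m (dbQ Q z) = 1 := by
      have hQ' : HasFDerivAt Q (ContinuousLinearMap.pi fun j =>
          (Complex.conjCLE : ℂ →L[ℝ] ℂ).comp
            ((ContinuousLinearMap.proj j : (Fin m → ℂ) →L[ℝ] ℂ))) z := by
        have h0 : HasFDerivAt (fun w : Fin m → ℂ => fun j => star (w j - z j))
            (ContinuousLinearMap.pi fun j => (Complex.conjCLE : ℂ →L[ℝ] ℂ).comp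
              ((ContinuousLinearMap.proj j : (Fin m → ℂ) →L[ℝ] ℂ))) z := by
          rw [hasFDerivAt_pi]
          intro j
          have h5 : HasFDerivAt (fun w : Fin m → ℂ => w j - z j)
              (ContinuousLinearMap.proj j : (Fin m → ℂ) →L[ℝ] ℂ) z :=
            ((ContinuousLinearMap.proj j : (Fin m → ℂ) →L[ℝ] ℂ).hasFDerivAt).sub_const (z j)
          exact ((Complex.conjCLE : ℂ →L[ℝ] ℂ).hasFDerivAt).comp z h5
        refine h0.congr_of_eventuallyEq ?_
        filter_upwards [hQz] with w hw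
        funext j
        exact hw j
      have hdb : dbQ Q z = fun l j => if l = j then 1 else 0 := by
        funext l j
        simp only [dbQ, db, hQ'.fderiv]
        simp only [ContinuousLinearMap.coe_pi', ContinuousLinearMap.comp_apply,
          ContinuousLinearMap.proj_apply, Pi.smul_apply, Pi.add_apply, smul_eq_mul]
        by_cases hlj : l = j
        · subst hlj
          simp
          norm_num
        · simp [hlj, Ne.symm hlj]
      rw [hdb, detC_apply]
      have : (Matrix.of fun l j : Fin m => if l = j then (1:ℂ) else 0) = 1 := by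
        ext l j; simp [Matrix.one_apply]
      rw [this, Matrix.det_one]
    rw [hdet, mul_one]
  rw [haz] at hFTC
  have h0 : ((0 : ℝ) : ℂ) ^ m * J 0 = 0 := by
    rw [Complex.ofReal_zero, zero_pow hm.ne', zero_mul]
  rw [h0, sub_zero, integral_neg] at hFTC
  rw [← hFTC]
  congr 1
  unfold μK
  rw [integral_prod _ hint]
  refine integral_congr_ae (ae_of_all _ fun s => ?_)
  simp only [ker, hR]
  rw [integral_const_mul]

end

end Vale.Agent.P290.CF
end
end

section

section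

open Set Filter Metric
open scoped Topology

namespace Vale.Agent.P290

/-- gluing of germs along two compact sets -/
theorem exists_glue {V α : Type} [NormedAddCommGroup V] {S' S'' : Set V}
    (h' : IsCompact S') (h'' : IsCompact S'') (u' u'' : V → α)
    (h : u' =ᶠ[𝓝ˢ (S' ∩ S'')] u'') :
    ∃ u : V → α, u =ᶠ[𝓝ˢ S'] u' ∧ u =ᶠ[𝓝ˢ S''] u'' := by
  classical
  obtain ⟨N, hNo, hSN, hN⟩ := mem_nhdsSet_iff_exists.1 h
  have hd : Disjoint (S' \ N) S'' := by
    rw [Set.disjoint_left]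
    intro x hx hx''
    exact hx.2 (hSN ⟨hx.1, hx''⟩)
  obtain ⟨A, B, hAo, hBo, hA, hB, hAB⟩ :=
    SeparatedNhds.of_isCompact_isCompact (h'.diff hNo) h'' hd
  -- N' := A ∪ N, N'' := B ; intersection ⊆ N
  refine ⟨fun z => if z ∈ B then u'' z else u' z, ?_, ?_⟩
  · have : A ∪ N ∈ 𝓝ˢ S' := by
      rw [(hAo.union hNo).mem_nhdsSet]
      intro x hx
      by_cases hxN : x ∈ N
      · exact Or.inr hxN
      · exact Or.inl (hA ⟨hx, hxN⟩)
    filter_upwards [this] with z hz
    by_cases hzB : z ∈ B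
    · have hzN : z ∈ N := by
        rcases hz with hz | hz
        · exact absurd hzB (Set.disjoint_left.1 hAB hz)
        · exact hz
      have := hN hzN
      simp only [Set.mem_ofPred_eq] at this
      simp [hzB, this]
    · simp [hzB]
  · have : B ∈ 𝓝ˢ S'' := (hBo.mem_nhdsSet).2 hB
    filter_upwards [this] with z hz
    simp [hz]

end Vale.Agent.P290
end
end

section

section

open Set Filter Metric
open scoped Topology

namespace Vale.Agent.P290.K

section
variable {V : Type} [NormedAddCommGroup V] [NormedSpace ℂ V] [FiniteDimensional ℂ V]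

variable (V) in
/-- a quadratic function -/
theorem exists_quad : ∃ q : V → ℝ, Continuous q ∧ (∀ x, 0 ≤ q x) ∧ ConvexOn ℝ univ q ∧
    (∀ x y, q ((1 / 2 : ℝ) • (x + y)) = (q x + q y) / 2 - q (x - y) / 4) ∧
    ∃ c > 0, ∀ x, c * ‖x‖ ^ 2 ≤ q x := by
  have : FiniteDimensional ℝ V := FiniteDimensional.complexToReal V
  let e : V ≃L[ℝ] EuclideanSpace ℝ (Fin (Module.finrank ℝ V)) := toEuclidean
  refine ⟨fun x => ‖e x‖ ^ 2, by continuity, fun x => by positivity, ?_, ?_, ?_⟩
  · have h1 : ConvexOn ℝ univ (fun x : V => ‖e x‖) :=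
      (convexOn_norm convex_univ).comp_linearMap e.toLinearEquiv.toLinearMap
    exact h1.pow (fun x _ => norm_nonneg _) 2
  · intro x y
    simp only [map_smul, map_add, map_sub, norm_smul]
    have h := parallelogram_law_with_norm ℝ (e x) (e y)
    rw [mul_pow, Real.norm_eq_abs, abs_of_pos (by norm_num : (0 : ℝ) < 1 / 2)]
    linarith
  · set L : ℝ := ‖(e.symm : EuclideanSpace ℝ (Fin (Module.finrank ℝ V)) →L[ℝ] V)‖ + 1 with hL
    have hL0 : 0 < L := by positivity
    refine ⟨(L ^ 2)⁻¹, by positivity, fun x => ?_⟩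
    have h1 : ‖x‖ ≤ L * ‖e x‖ := by
      have h2 := (e.symm : EuclideanSpace ℝ (Fin (Module.finrank ℝ V)) →L[ℝ] V).le_opNorm (e x)
      have h3 : (e.symm : EuclideanSpace ℝ (Fin (Module.finrank ℝ V)) →L[ℝ] V) (e x) = x :=
        e.symm_apply_apply x
      rw [h3] at h2
      refine h2.trans ?_
      have : 0 ≤ ‖e x‖ := norm_nonneg _
      linarith only [this]
    rw [inv_mul_le_iff₀ (by positivity), ← mul_pow]
    exact pow_le_pow_left₀ (norm_nonneg _) h1 2

omit [FiniteDimensional ℂ V] in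
theorem convexOn_infDist {S : Set V} (hS : Convex ℝ S) (hne : S.Nonempty) :
    ConvexOn ℝ univ (fun x => infDist x S) := by
  refine ⟨convex_univ, fun x _ y _ a b ha hb hab => ?_⟩
  simp only [smul_eq_mul]
  refine le_of_forall_pos_lt_add fun ε hε => ?_
  obtain ⟨p, hp, hxp⟩ := (infDist_lt_iff hne).1 (lt_add_of_pos_right (infDist x S) hε)
  obtain ⟨q, hq, hyq⟩ := (infDist_lt_iff hne).1 (lt_add_of_pos_right (infDist y S) hε)
  have h1 : infDist (a • x + b • y) S ≤ dist (a • x + b • y) (a • p + b • q) :=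
    infDist_le_dist_of_mem (hS hp hq ha hb hab)
  have h2 : dist (a • x + b • y) (a • p + b • q) ≤ a * dist x p + b * dist y q := by
    rw [dist_eq_norm, dist_eq_norm, dist_eq_norm]
    have : a • x + b • y - (a • p + b • q) = a • (x - p) + b • (y - q) := by
      rw [smul_sub, smul_sub]; abel
    rw [this]
    refine (norm_add_le _ _).trans ?_
    rw [norm_smul, norm_smul, Real.norm_of_nonneg ha, Real.norm_of_nonneg hb]
  have h3 : a * dist x p + b * dist y q < a * infDist x S + b * infDist y S + ε := by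
    rcases ha.eq_or_lt with h | h
    · have hb1 : b = 1 := by rw [← h] at hab; linarith only [hab]
      rw [← h, hb1]; linarith only [hyq]
    · nlinarith only [hxp, h, hyq, hb, hab, hε]
  linarith only [h1, h2, h3]

omit [NormedSpace ℂ V] [FiniteDimensional ℂ V] in
theorem mem_cthickening_of_infDist {S : Set V} (hne : S.Nonempty) {x : V} {δ : ℝ} (hδ : 0 ≤ δ)
    (h : infDist x S ≤ δ) : x ∈ cthickening δ S := by
  rw [mem_cthickening_iff, ENNReal.le_ofReal_iff_toReal_le (infEDist_ne_top hne) hδ]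
  exact h

omit [FiniteDimensional ℂ V] in
/-- Adding a point `a` to a convex set between two level sets of a strongly convex function
changes the set only near `a`. -/
theorem cap_small {φ q : V → ℝ} {ε c t η : ℝ} (hε : 0 < ε) (hc : 0 < c)
    (hφ : ConvexOn ℝ univ φ) (hq : ∀ x, c * ‖x‖ ^ 2 ≤ q x)
    (hs : ∀ x y, φ ((1 / 2 : ℝ) • (x + y)) ≤ (φ x + φ y) / 2 - ε * q (x - y) / 4)
    {L : Set V} (hL : Good L) (hLne : L.Nonempty) (hL1 : {x | φ x ≤ t} ⊆ L)
    (hL2 : L ⊆ {x | φ x ≤ t + η}) {a : V}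
    (ha : φ a ≤ t + η) {x : V} (hx : x ∈ convexHull ℝ (insert a L)) (hxL : x ∉ L) :
    ‖x - a‖ ^ 2 ≤ 4 * η / (ε * c) := by
  rw [convexHull_insert hLne, hL.2.convexHull_eq] at hx
  obtain ⟨y, hy, hxy⟩ : ∃ y ∈ L, x ∈ segment ℝ a y := by
    simpa only [convexJoin, mem_singleton_iff, iUnion_iUnion_eq_left, mem_iUnion, exists_prop] using hx
  have hφx : φ x ≤ t + η := by
    have h1 : Convex ℝ {x | φ x ≤ t + η} := by
      have := hφ.convex_le (t + η)
      simpa only [mem_univ, true_and] using this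
    exact h1.segment_subset ha (hL2 hy) hxy
  -- the midpoint of `a` and `x` is not in `L`
  have hmid : (1 / 2 : ℝ) • (a + x) ∉ L := by
    intro hm
    apply hxL
    obtain ⟨α, β, hα, hβ, hαβ, rfl⟩ := hxy
    -- x = α a + β y, m = (1+α)/2 a + β/2 y
    rcases hα.eq_or_lt with h0 | h0
    · have : β = 1 := by rw [← h0] at hαβ; linarith only [hαβ]
      rw [← h0, this]; simpa using hy
    · have h5 : (2 * α / (1 + α)) • ((1 / 2 : ℝ) • (a + (α • a + β • y))) +
          ((1 - α) / (1 + α)) • y = α • a + β • y := by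
        have h6 : 1 + α ≠ 0 := by (clear * - h0; positivity)
        have h7 : β = 1 - α := by linarith only [hαβ]
        rw [h7]
        simp only [smul_add, smul_smul]
        have e1 : 2 * α / (1 + α) * (1 / 2) + 2 * α / (1 + α) * (1 / 2 * α) = α := by
          (clear * - h6 h0; field_simp)
        have e2 : 2 * α / (1 + α) * (1 / 2 * (1 - α)) + (1 - α) / (1 + α) = 1 - α := by
          field_simp; ring
        calc _ = (2 * α / (1 + α) * (1 / 2) + 2 * α / (1 + α) * (1 / 2 * α)) • a +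
              (2 * α / (1 + α) * (1 / 2 * (1 - α)) + (1 - α) / (1 + α)) • y := by module
          _ = _ := by rw [e1, e2]
      rw [← h5]
      have hα1 : α ≤ 1 := by linarith only [hβ, hαβ]
      refine hL.2 hm hy (by (clear * - h0; positivity)) (div_nonneg (by linarith only [hβ, hαβ]) (by (clear * - h0; positivity))) ?_
      field_simp
      ring
  have h1 : t < φ ((1 / 2 : ℝ) • (a + x)) := by
    by_contra h
    exact hmid (hL1 (not_lt.1 h))
  have h2 := hs a x
  have h3 := hq (a - x)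
  rw [norm_sub_rev, le_div_iff₀ (by positivity)]
  nlinarith only [ha, hφx, h1, h2, h3, hε]

/-- one step of the exhaustion -/
def Step (W : Set V) (ρ : ℝ) (K₁ K₂ : Set V) : Prop :=
  Good K₁ ∧ Good K₂ ∧ K₂ ⊆ W ∧ ∃ a ∈ W, ∃ B, Good B ∧ B ⊆ closedBall a ρ ∧ K₂ = K₁ ∪ B

omit [FiniteDimensional ℂ V] in
theorem good_convexHull_insert {L : Set V} (hL : Good L) (hLne : L.Nonempty) (a : V) :
    Good (convexHull ℝ (insert a L)) := by
  refine ⟨?_, convex_convexHull _ _⟩
  rw [convexHull_insert hLne, hL.2.convexHull_eq]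
  have h1 : convexJoin ℝ {a} L = (fun p : ℝ × V => (1 - p.1) • a + p.1 • p.2) '' (Icc 0 1 ×ˢ L) := by
    ext x
    simp only [convexJoin, mem_singleton_iff, iUnion_iUnion_eq_left, mem_iUnion, exists_prop,
      segment_eq_image, mem_image, mem_prod, Prod.exists]
    constructor
    · rintro ⟨y, hy, θ, hθ, rfl⟩; exact ⟨θ, y, ⟨hθ, hy⟩, rfl⟩
    · rintro ⟨θ, y, ⟨hθ, hy⟩, rfl⟩; exact ⟨y, hy, θ, hθ, rfl⟩
  rw [h1]
  exact (isCompact_Icc.prod hL.1).image (by fun_prop)

omit [FiniteDimensional ℂ V] in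
/-- adding finitely many points one by one -/
theorem add_points {W : Set V} {ρ : ℝ} {S : Set V} (hSc : Convex ℝ S) (hSW : S ⊆ W)
    {L₀ : Set V}
    (hcap : ∀ L : Set V, Good L → L.Nonempty → L₀ ⊆ L → L ⊆ S → ∀ a ∈ S,
      ∀ x ∈ convexHull ℝ (insert a L), x ∉ L → dist x a ≤ ρ) (hL₀ : Good L₀) (hne : L₀.Nonempty) (hL₀S : L₀ ⊆ S) (P : Finset V) :
    ↑P ⊆ S → ∃ L, Good L ∧ L₀ ⊆ L ∧ ↑P ⊆ L ∧ L ⊆ S ∧ Relation.ReflTransGen (Step W ρ) L₀ L := by
  classical
  induction P using Finset.induction_on with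
  | empty => exact fun _ => ⟨L₀, hL₀, Subset.rfl, by simp only [Finset.coe_empty, empty_subset], hL₀S, Relation.ReflTransGen.refl⟩
  | insert a P _ ih =>
    intro hP
    rw [Finset.coe_insert, insert_subset_iff] at hP
    obtain ⟨L, hL, hL₀L, hPL, hLS, hchain⟩ := ih hP.2
    have hLne : L.Nonempty := hne.mono hL₀L
    have hins : insert a L ⊆ convexHull ℝ (insert a L) := subset_convexHull ℝ _
    have hLL : L ⊆ convexHull ℝ (insert a L) := (subset_insert a L).trans hins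
    have haL : a ∈ convexHull ℝ (insert a L) := hins (mem_insert a L)
    have hgood := good_convexHull_insert hL hLne a
    have hsub : convexHull ℝ (insert a L) ⊆ S :=
      convexHull_min (insert_subset_iff.2 ⟨hP.1, hLS⟩) hSc
    refine ⟨convexHull ℝ (insert a L), hgood, hL₀L.trans hLL, ?_, hsub, hchain.tail ?_⟩
    · rw [Finset.coe_insert, insert_subset_iff]
      exact ⟨haL, hPL.trans hLL⟩
    · refine ⟨hL, hgood, hsub.trans hSW, a, hSW hP.1, convexHull ℝ (insert a L) ∩ closedBall a ρ,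
        ⟨hgood.1.inter_right isClosed_closedBall, hgood.2.inter (convex_closedBall a ρ)⟩,
        inter_subset_right, ?_⟩
      ext x
      constructor
      · intro hx
        by_cases hxL : x ∈ L
        · exact Or.inl hxL
        · exact Or.inr ⟨hx, hcap L hL hLne hL₀L hLS a hP.1 x hx hxL⟩
      · rintro (hx | hx)
        · exact hLL hx
        · exact hx.1

theorem exists_chain {K K' W W₀ : Set V} (hK : Good K) (hK' : Good K') (hne : K.Nonempty)
    (hKK' : K ⊆ K') (hW : IsOpen W) (hK'W : K' ⊆ W) (hW₀ : IsOpen W₀) (hKW₀ : K ⊆ W₀)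
    {ρ : ℝ} (hρ : 0 < ρ) :
    ∃ L₀ L₁ : Set V, Good L₀ ∧ K ⊆ L₀ ∧ L₀ ⊆ W₀ ∧ L₀ ⊆ W ∧ K' ⊆ L₁ ∧
      Relation.ReflTransGen (Step W ρ) L₀ L₁ := by
  have : ProperSpace V := FiniteDimensional.proper ℂ V
  obtain ⟨q, hqc, hq0, hqconv, hqp, c, hc, hqb⟩ := exists_quad V
  have hne' : K'.Nonempty := hne.mono hKK'
  obtain ⟨δ₁, hδ₁, hs₁⟩ := hK.1.exists_cthickening_subset_open (hW₀.inter hW)
    (subset_inter hKW₀ (hKK'.trans hK'W))
  obtain ⟨δ₂, hδ₂, hs₂⟩ := hK'.1.exists_cthickening_subset_open hW hK'W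
  obtain ⟨T, hT⟩ : ∃ T : ℝ, ∀ x ∈ K', infDist x K ≤ T := by
    obtain ⟨x, -, hx⟩ := hK'.1.exists_isMaxOn hne' (continuous_infDist_pt K).continuousOn
    exact ⟨infDist x K, fun y hy => hx hy⟩
  obtain ⟨Q, hQ⟩ : ∃ Q : ℝ, ∀ x ∈ K', q x ≤ Q := by
    obtain ⟨x, -, hx⟩ := hK'.1.exists_isMaxOn hne' hqc.continuousOn
    exact ⟨q x, fun y hy => hx hy⟩
  have hT0 : 0 ≤ T := by
    obtain ⟨x, hx⟩ := hne'
    exact infDist_nonneg.trans (hT x hx)
  have hQ0 : 0 ≤ Q := by
    obtain ⟨x, hx⟩ := hne'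
    exact (hq0 x).trans (hQ x hx)
  set M : ℝ := (T + 2) / δ₂ with hM
  have hM0 : 0 < M := by (clear * - hT0 hδ₂; (clear * - hT0 hδ₂; positivity))
  set ε : ℝ := min δ₁ 1 / (Q + 1) with hεdef
  have hε : 0 < ε := by
    have : 0 < min δ₁ 1 := lt_min hδ₁ one_pos
    (clear * - hδ₁ hQ0; (clear * - hδ₁ hQ0; positivity))
  have hεQ : ε * Q ≤ min δ₁ 1 := by
    rw [hεdef, div_mul_eq_mul_div, div_le_iff₀ (by (clear * - hQ0; positivity))]
    have : 0 < min δ₁ 1 := lt_min hδ₁ one_pos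
    linarith
  set g : V → ℝ := fun x => max (infDist x K) (M * infDist x K') with hg
  have hgconv : ConvexOn ℝ univ g :=
    (convexOn_infDist hK.2 hne).sup ((convexOn_infDist hK'.2 hne').smul hM0.le)
  have hgc : Continuous g := by
    have h1 := continuous_infDist_pt K
    have h2 := continuous_infDist_pt K'
    exact h1.max (continuous_const.mul h2)
  set φ : V → ℝ := fun x => g x + ε * q x with hφ
  have hφc : Continuous φ := hgc.add (continuous_const.mul hqc)
  have hφconv : ConvexOn ℝ univ φ := hgconv.add (hqconv.smul hε.le)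
  have hg0 : ∀ x, 0 ≤ g x := fun x => infDist_nonneg.trans (le_max_left _ _)
  have hs : ∀ x y, φ ((1 / 2 : ℝ) • (x + y)) ≤ (φ x + φ y) / 2 - ε * q (x - y) / 4 := by
    intro x y
    have h1 := hgconv.2 (mem_univ x) (mem_univ y) (by norm_num : (0 : ℝ) ≤ 1 / 2)
      (by norm_num : (0 : ℝ) ≤ 1 / 2) (by norm_num)
    rw [← smul_add, smul_eq_mul, smul_eq_mul] at h1
    simp only [hφ]
    rw [hqp x y]
    linarith
  have hgood : ∀ t, Good {x | φ x ≤ t} := by
    intro t
    refine ⟨?_, ?_⟩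
    · refine (isCompact_closedBall (0 : V) (|t| / (ε * c) + 1)).of_isClosed_subset
        (isClosed_le hφc continuous_const) ?_
      intro x hx
      simp only [mem_ofPred_eq] at hx
      rw [mem_closedBall_zero_iff]
      by_contra hlt
      push Not at hlt
      have h1 : 0 ≤ |t| / (ε * c) := by (clear * - hδ₁ hQ0 hc; (clear * - hδ₁ hQ0 hc; positivity))
      have h2 : ‖x‖ ≤ ‖x‖ ^ 2 := by (by_contra nlg; linarith only [mul_pos (sub_pos.2 (not_le.1 nlg)) (sub_pos.2 (not_le.1 nlg)), mul_nonneg (sq_nonneg (‖x‖ : ℝ)) (sub_nonneg.2 h1), mul_nonneg (sq_nonneg (‖x‖ : ℝ)) (le_of_lt (sub_pos.2 hlt)), mul_nonneg (sq_nonneg (‖x‖ : ℝ)) (le_of_lt (sub_pos.2 (not_le.1 nlg)))])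
      have h3 : ε * c * ‖x‖ ≤ t := by
        have := hqb x
        have h4 := hg0 x
        simp only [hφ] at hx
        nlinarith only [h4, hx, this, hε, hQ0, hc, mul_le_mul_of_nonneg_left h2           (by positivity : 0 ≤ ε * c)]
      have h5 : ‖x‖ ≤ |t| / (ε * c) := by
        rw [le_div_iff₀ (by (clear * - hδ₁ hQ0 hc; (clear * - hδ₁ hQ0 hc; positivity)))]
        linarith only [le_abs_self t, h3]
      linarith only [hlt, h5]
    · have := hφconv.convex_le t
      simpa only [mem_univ, true_and] using this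
  have hK'φ : ∀ x ∈ K', φ x ≤ T + 1 := by
    intro x hx
    have h1 := hT x hx
    have h2 := hQ x hx
    have h3 : g x ≤ T := by
      refine max_le h1 ?_
      rw [infDist_zero_of_mem hx, mul_zero]; exact hT0
    have h4 : ε * q x ≤ 1 :=
      (mul_le_mul_of_nonneg_left h2 hε.le).trans (hεQ.trans (min_le_right _ _))
    simp only [hφ]
    linarith only [h3, h4]
  have hKφ : ∀ x ∈ K, φ x ≤ δ₁ := by
    intro x hx
    have h2 := hQ x (hKK' hx)
    have h3 : g x ≤ 0 := by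
      refine max_le (by rw [infDist_zero_of_mem hx]) ?_
      rw [infDist_zero_of_mem (hKK' hx), mul_zero]
    have h4 : ε * q x ≤ δ₁ :=
      (mul_le_mul_of_nonneg_left h2 hε.le).trans (hεQ.trans (min_le_left _ _))
    simp only [hφ]
    linarith only [h3, h4]
  have hφ1 : ∀ x, φ x ≤ δ₁ → x ∈ W₀ ∩ W := by
    intro x hx
    apply hs₁
    refine mem_cthickening_of_infDist hne hδ₁.le ?_
    have h1 : infDist x K ≤ g x := le_max_left _ _
    have h2 : 0 ≤ ε * q x := mul_nonneg hε.le (hq0 x)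
    simp only [hφ] at hx
    linarith only [h1, h2, hx]
  have hφ2 : ∀ x, φ x ≤ T + 2 → x ∈ W := by
    intro x hx
    apply hs₂
    refine mem_cthickening_of_infDist hne' hδ₂.le ?_
    have h1 : M * infDist x K' ≤ g x := le_max_right _ _
    have h2 : 0 ≤ ε * q x := mul_nonneg hε.le (hq0 x)
    simp only [hφ] at hx
    have h3 : M * infDist x K' ≤ M * δ₂ := by
      rw [hM, div_mul_cancel₀ _ hδ₂.ne', ← hM]; linarith only [h1, h2, hx]
    exact le_of_mul_le_mul_left h3 hM0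
  set η : ℝ := min (1 / 2) (ρ ^ 2 * (ε * c) / 8) with hη
  have hη0 : 0 < η := lt_min (by norm_num) (by (clear * - hρ hδ₁ hQ0 hc; (clear * - hρ hδ₁ hQ0 hc; positivity)))
  have hη1 : η ≤ 1 / 2 := min_le_left _ _
  have hη2 : 4 * (2 * η) / (ε * c) ≤ ρ ^ 2 := by
    rw [div_le_iff₀ (by (clear * - hδ₁ hQ0 hc; positivity))]
    have : η ≤ ρ ^ 2 * (ε * c) / 8 := min_le_right _ _
    linarith only [this]
  -- the induction
  have hind : ∀ j : ℕ, δ₁ + (j + 1 : ℕ) * η ≤ T + 2 ∨ j = 0 → ∃ A : Set V, Good A ∧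
      {x | φ x ≤ δ₁ + j * η} ⊆ A ∧ A ⊆ {x | φ x ≤ δ₁ + (j + 1 : ℕ) * η} ∧
      Relation.ReflTransGen (Step W ρ) {x | φ x ≤ δ₁} A := by
    intro j
    induction j with
    | zero =>
      intro _
      refine ⟨{x | φ x ≤ δ₁}, hgood _, ?_, ?_, Relation.ReflTransGen.refl⟩
      · intro x hx; simpa only [mem_ofPred_eq, CharP.cast_eq_zero, zero_mul, add_zero] using hx
      · intro x hx
        simp only [mem_ofPred_eq] at hx ⊢
        push_cast
        linarith only [hx, hη0]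
    | succ j ih =>
      intro hj
      have hj' : δ₁ + (j + 1 + 1 : ℕ) * η ≤ T + 2 := by
        rcases hj with h | h
        · exact h
        · exact absurd h (Nat.succ_ne_zero j)
      push_cast at hj'
      obtain ⟨A, hA, hA1, hA2, hA3⟩ := ih (Or.inl (by push_cast; linarith only [hj', hη0]))
      have hAne : A.Nonempty := by
        obtain ⟨x, hx⟩ := hne
        refine ⟨x, hA1 ?_⟩
        have := hKφ x hx
        simp only [mem_ofPred_eq]
        have h2 : 0 ≤ (j : ℝ) * η := by (clear * - hρ hδ₁ hQ0 hc; (clear * - hρ hδ₁ hQ0 hc; positivity))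
        linarith only [h2, this]
      set S : Set V := {x | φ x ≤ δ₁ + j * η + 2 * η} with hS
      have hSW : S ⊆ W := by
        intro x hx
        refine hφ2 x ?_
        simp only [hS, mem_ofPred_eq] at hx
        linarith only [hj', hx]
      obtain ⟨P, hP1, hP2⟩ := (hgood (δ₁ + j * η + η)).2
        |>.exists_subset_interior_convexHull_finset_of_isCompact (t := S)
        (hgood (δ₁ + j * η + η)).1 (by
          refine mem_nhdsSet_iff_forall.2 fun x hx => ?_
          have h1 : ∀ᶠ y in 𝓝 x, φ y < δ₁ + j * η + 2 * η := by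
            refine hφc.continuousAt.eventually (isOpen_Iio.mem_nhds ?_)
            simp only [mem_ofPred_eq] at hx
            simp only [mem_Iio]
            linarith only [hx, hη0]
          filter_upwards [h1] with y hy
          exact hy.le)
      have hP3 : (P : Set V) ⊆ S := (subset_convexHull ℝ _).trans hP2
      have hcap : ∀ L : Set V, Good L → L.Nonempty → A ⊆ L → L ⊆ S → ∀ a ∈ S,
          ∀ x ∈ convexHull ℝ (insert a L), x ∉ L → dist x a ≤ ρ := by
        intro L hL hLne hAL hLS a ha x hx hxL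
        have h1 : ‖x - a‖ ^ 2 ≤ 4 * (2 * η) / (ε * c) :=
          cap_small (φ := φ) (q := q) (t := δ₁ + j * η) (η := 2 * η) hε hc hφconv hqb hs hL hLne
            (hA1.trans hAL) hLS ha hx hxL
        rw [dist_eq_norm]
        exact abs_le_of_sq_le_sq' (h1.trans hη2) hρ.le |>.2
      have hAS : A ⊆ S := by
        intro x hx
        have := hA2 hx
        simp only [mem_ofPred_eq] at this
        simp only [hS, mem_ofPred_eq]
        push_cast at this
        linarith only [hη0, this]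
      obtain ⟨L, hL, hAL, hPL, hLS, hchain⟩ := add_points (W := W) (ρ := ρ) (hgood _).2 hSW hcap
        hA hAne hAS P hP3
      refine ⟨L, hL, ?_, ?_, hA3.trans hchain⟩
      · intro x hx
        have h1 : x ∈ interior (convexHull ℝ (P : Set V)) := by
          apply hP1
          simp only [mem_ofPred_eq] at hx ⊢
          push_cast at hx
          linarith only [hx]
        exact convexHull_min hPL hL.2 (interior_subset h1)
      · intro x hx
        have := hLS hx
        simp only [hS, mem_ofPred_eq] at this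
        simp only [mem_ofPred_eq]
        push_cast
        linarith only [this]
  obtain ⟨N, hN⟩ : ∃ N : ℕ, N = ⌈(T + 1 - δ₁) / η⌉₊ := ⟨_, rfl⟩
  have hN1 : T + 1 ≤ δ₁ + N * η := by
    have h1 : (T + 1 - δ₁) / η ≤ N := by rw [hN]; exact Nat.le_ceil _
    rw [div_le_iff₀ hη0] at h1
    linarith only [h1]
  have hN2 : δ₁ + (N + 1 : ℕ) * η ≤ T + 2 ∨ N = 0 := by
    by_cases h0 : N = 0
    · exact Or.inr h0
    · left
      have h1 : 0 < (T + 1 - δ₁) / η := by
        by_contra h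
        push Not at h
        exact h0 (by rw [hN, Nat.ceil_eq_zero]; exact h)
      have h2 : (N : ℝ) < (T + 1 - δ₁) / η + 1 := by rw [hN]; exact Nat.ceil_lt_add_one h1.le
      have h3 : (N : ℝ) * η < T + 1 - δ₁ + η := by
        have := mul_lt_mul_of_pos_right h2 hη0
        rw [add_mul, div_mul_cancel₀ _ hη0.ne', one_mul] at this
        exact this
      push_cast
      linarith only [h3, hη1]
  obtain ⟨A, hA, hA1, hA2, hA3⟩ := hind N hN2
  refine ⟨{x | φ x ≤ δ₁}, A, hgood _, hKφ, fun x hx => (hφ1 x hx).1, fun x hx => (hφ1 x hx).2, ?_,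
    hA3⟩
  intro x hx
  apply hA1
  simp only [mem_ofPred_eq]
  exact (hK'φ x hx).trans hN1

end

end Vale.Agent.P290.K
end
end

section

section

open Set Filter Metric
open scoped Manifold Topology

namespace Vale.Agent.P290

/-- A holomorphic line bundle on `X` given by a cocycle `γ`, together with a fibrewise additive
flow `φ` parametrised by the line bundle. -/
structure LineFlow (E X : Type) [NormedAddCommGroup E] [NormedSpace ℂ E] [TopologicalSpace X]
    [ChartedSpace E X] where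
  A : Type
  U : A → Set X
  isOpen_U : ∀ a, IsOpen (U a)
  cover : ∀ x, ∃ a, x ∈ U a
  φ : A → X → ℂ → X
  φ_mem : ∀ a x w, x ∈ U a → φ a x w ∈ U a
  φ_zero : ∀ a x, x ∈ U a → φ a x 0 = x
  φ_add : ∀ a x w w', x ∈ U a → φ a (φ a x w) w' = φ a x (w + w')
  φ_hol : ∀ (a : A) (V : Type) [NormedAddCommGroup V] [NormedSpace ℂ V] (F : V → X) (w : V → ℂ)
    (z : V), MDifferentiableAt 𝓘(ℂ, V) 𝓘(ℂ, E) F z → DifferentiableAt ℂ w z → F z ∈ U a →
    MDifferentiableAt 𝓘(ℂ, V) 𝓘(ℂ, E) (fun z => φ a (F z) (w z)) z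
  γ : A → A → X → ℂ
  γ_hol : ∀ (a b : A) (V : Type) [NormedAddCommGroup V] [NormedSpace ℂ V] (F : V → X)
    (z : V), MDifferentiableAt 𝓘(ℂ, V) 𝓘(ℂ, E) F z → F z ∈ U a → F z ∈ U b →
    DifferentiableAt ℂ (fun z => γ a b (F z)) z
  γ_ne : ∀ a b x, x ∈ U a → x ∈ U b → γ a b x ≠ 0
  γ_coc : ∀ a b c x, x ∈ U a → x ∈ U b → x ∈ U c → γ a c x = γ b c x * γ a b x
  γ_inv : ∀ a b x w, x ∈ U a → x ∈ U b → γ a b (φ a x w) = γ a b x
  φ_trans : ∀ a b x w, x ∈ U a → x ∈ U b → φ a x w = φ b x (γ a b x * w)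

section

variable {E X V : Type} [NormedAddCommGroup E] [NormedSpace ℂ E] [TopologicalSpace X]
  [ChartedSpace E X] [NormedAddCommGroup V] [NormedSpace ℂ V]

/-- `e` is a holomorphic section of the pulled back line bundle near `Q`. -/
def Sec (L : LineFlow E X) (Q : Set V) (F : V → X) (e : L.A → V → ℂ) : Prop :=
  ∀ᶠ z in 𝓝ˢ Q, ∀ a, F z ∈ L.U a → DifferentiableAt ℂ (e a) z ∧
    ∀ b, F z ∈ L.U b → e b z = L.γ a b (F z) * e a z

/-- elementary move -/
def Move (L : LineFlow E X) (Q : Set V) (F F' : V → X) : Prop :=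
  ∃ e : L.A → V → ℂ, Sec L Q F e ∧
    ∀ᶠ z in 𝓝ˢ Q, ∀ a, F z ∈ L.U a → F' z = L.φ a (F z) (e a z)

/-- reachability by finitely many moves -/
inductive Reach {J : Type} (𝓛 : J → LineFlow E X) (Q : Set V) : (V → X) → (V → X) → Prop
  | refl {f g : V → X} (h : f =ᶠ[𝓝ˢ Q] g) : Reach 𝓛 Q f g
  | step {f g h : V → X} (j : J) (h₁ : Reach 𝓛 Q f g) (h₂ : Move (𝓛 j) Q g h) : Reach 𝓛 Q f h

end

/-- `F` factors near `Q` through a holomorphic map from some `ℂ^N` -/
def Factor (E : Type) {X V : Type} [NormedAddCommGroup E] [NormedSpace ℂ E] [TopologicalSpace X]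
    [ChartedSpace E X] [NormedAddCommGroup V] [NormedSpace ℂ V] (Q : Set V) (F : V → X) : Prop :=
  ∃ (W : Type) (_ : NormedAddCommGroup W) (_ : NormedSpace ℂ W) (_ : FiniteDimensional ℂ W)
    (Ψ : W → X) (c : V → W), MDifferentiable 𝓘(ℂ, W) 𝓘(ℂ, E) Ψ ∧ HolNear Q c ∧
      F =ᶠ[𝓝ˢ Q] fun z => Ψ (c z)

end Vale.Agent.P290
end
end

section

section

open Set Filter Metric
open scoped Manifold ContDiff Topology NNReal

namespace Vale.Agent.P290

theorem hasDerivAt_radial {E : Type} [NormedAddCommGroup E] [NormedSpace ℂ E] [CompleteSpace E]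
    {δ : ℝ} {g : ℂ → E} (hg : DifferentiableOn ℂ g (ball 0 δ)) {w : ℂ}
    (hw : w ∈ ball (0 : ℂ) δ) :
    HasDerivAt (fun w : ℂ => w • ∫ s in (0 : ℝ)..1, g (s • w)) (g w) w := by
  obtain ⟨F, hF⟩ := hg.isExactOn_ball
  have hs : ∀ w ∈ ball (0 : ℂ) δ, ∀ s ∈ Icc (0 : ℝ) 1, s • w ∈ ball (0 : ℂ) δ := by
    intro w hw s hs
    rw [mem_ball_zero_iff] at hw ⊢
    rw [norm_smul, Real.norm_of_nonneg hs.1]
    calc s * ‖w‖ ≤ 1 * ‖w‖ := by gcongr; exact hs.2
      _ < δ := by simpa using hw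
  have key : ∀ w ∈ ball (0 : ℂ) δ, w • ∫ s in (0 : ℝ)..1, g (s • w) = F w - F 0 := by
    intro w hw
    rw [← intervalIntegral.integral_smul]
    have h1 : ∀ s ∈ uIcc (0 : ℝ) 1, HasDerivAt (fun s : ℝ => F (s • w)) (w • g (s • w)) s := by
      intro s hs'
      rw [uIcc_of_le zero_le_one] at hs'
      have h2 := hF _ (hs w hw s hs')
      have h3 : HasDerivAt (fun s : ℝ => (s • w : ℂ)) w s := by
        simpa using (hasDerivAt_id s).smul_const w
      exact h2.scomp s h3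
    have h4 : ContinuousOn (fun s : ℝ => w • g (s • w)) (uIcc (0 : ℝ) 1) := by
      rw [uIcc_of_le zero_le_one]
      have h5 : ContinuousOn (fun s : ℝ => (s • w : ℂ)) (Icc (0 : ℝ) 1) := by (clear * -; fun_prop)
      exact continuousOn_const.smul (hg.continuousOn.comp h5 (fun s hs' => hs w hw s hs'))
    have := intervalIntegral.integral_eq_sub_of_hasDerivAt h1 h4.intervalIntegrable
    simpa only [Complex.real_smul, intervalIntegral.integral_smul, one_smul, zero_smul] using this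
  have h6 : HasDerivAt (fun w => F w - F 0) (g w) w := (hF w hw).sub_const _
  refine h6.congr_of_eventuallyEq ?_
  filter_upwards [isOpen_ball.mem_nhds hw] with y hy using key y hy

/-- Picard iterates -/
noncomputable def picY {E : Type} [NormedAddCommGroup E] [NormedSpace ℂ E] (v : E → E) :
    ℕ → E × ℂ → E
  | 0 => fun p => p.1
  | (n + 1) => fun p => p.1 + p.2 • ∫ s in (0 : ℝ)..1, v (picY v n (p.1, s • p.2))

theorem picY_succ {E : Type} [NormedAddCommGroup E] [NormedSpace ℂ E] (v : E → E) (n : ℕ)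
    (p : E × ℂ) :
    picY v (n + 1) p = p.1 + p.2 • ∫ s in (0 : ℝ)..1, v (picY v n (p.1, s • p.2)) := rfl

/-- local holomorphic flow of a holomorphic vector field -/
theorem exists_local_flow {E : Type} [NormedAddCommGroup E] [NormedSpace ℂ E]
    [FiniteDimensional ℂ E] {O : Set E} (hO : IsOpen O) {v : E → E} (hv : DifferentiableOn ℂ v O)
    {y₀ : E} (hy₀ : y₀ ∈ O) :
    ∃ r > 0, ∃ δ > 0, ∃ ψ : E × ℂ → E, DifferentiableOn ℂ ψ (ball y₀ r ×ˢ ball 0 δ) ∧
      (∀ y ∈ ball y₀ r, ψ (y, 0) = y) ∧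
      (∀ y ∈ ball y₀ r, ∀ w ∈ ball (0 : ℂ) δ, ψ (y, w) ∈ O ∧
        HasDerivAt (fun w => ψ (y, w)) (v (ψ (y, w))) w) := by
  have hcs : CompleteSpace E := FiniteDimensional.complete ℂ E
  have hcd : ContDiffAt ℂ 1 v y₀ := by
    have := (contDiffOn_of_differentiableOn hO hv 1).contDiffAt (hO.mem_nhds hy₀)
    simpa using this
  obtain ⟨L, t, ht, hL⟩ := hcd.exists_lipschitzOnWith
  have hvc : ContinuousOn v O := hv.continuousOn
  have hb : ∀ᶠ y in 𝓝 y₀, ‖v y‖ < ‖v y₀‖ + 1 := by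
    have h1 : ContinuousAt (fun y => ‖v y‖) y₀ := (hvc.continuousAt (hO.mem_nhds hy₀)).norm
    exact h1.eventually_lt continuousAt_const (by simp)
  obtain ⟨ε, hε, hball⟩ := Metric.mem_nhds_iff.1
    (inter_mem (inter_mem ht (hO.mem_nhds hy₀)) hb)
  have hLip : ∀ y ∈ ball y₀ ε, ∀ y' ∈ ball y₀ ε, ‖v y - v y'‖ ≤ L * ‖y - y'‖ := by
    intro y hy y' hy'
    have := hL.dist_le_mul y (hball hy).1.1 y' (hball hy').1.1
    simpa only [ge_iff_le, dist_eq_norm] using this
  have hOb : ball y₀ ε ⊆ O := fun y hy => (hball hy).1.2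
  set M := ‖v y₀‖ + 1 with hM
  have hMpos : 0 < M := by (clear * -; positivity)
  have hMb : ∀ y ∈ ball y₀ ε, ‖v y‖ ≤ M := fun y hy => le_of_lt (hball hy).2
  set R := ε / 2 with hR
  have hRpos : 0 < R := by positivity
  set δ := min (R / M) (1 / (2 * ((L : ℝ) + 1))) with hδ
  have hδpos : 0 < δ := by
    have : 0 < R / M := by (clear * - hε; positivity)
    have : (0 : ℝ) < 1 / (2 * ((L : ℝ) + 1)) := by (clear * -; positivity)
    exact lt_min ‹_› ‹_›
  have hδM : δ * M ≤ R := by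
    have : δ ≤ R / M := min_le_left _ _
    rwa [le_div_iff₀ hMpos] at this
  have hδL : δ * L ≤ 1 / 2 := by
    have h1 : δ ≤ 1 / (2 * ((L : ℝ) + 1)) := min_le_right _ _
    have h2 : δ * ((L : ℝ) + 1) ≤ 1 / 2 := by
      calc δ * ((L : ℝ) + 1) ≤ 1 / (2 * ((L : ℝ) + 1)) * ((L : ℝ) + 1) := by (clear * - h1; gcongr)
        _ = 1 / 2 := by (clear * -; field_simp)
    linarith only [h2, hδpos]
  set D : Set (E × ℂ) := ball y₀ R ×ˢ ball 0 δ with hD
  have hDo : IsOpen D := isOpen_ball.prod isOpen_ball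
  have hsD : ∀ p ∈ D, ∀ s ∈ Icc (0 : ℝ) 1, (p.1, s • p.2) ∈ D := by
    rintro p ⟨hp1, hp2⟩ s hs
    refine ⟨hp1, ?_⟩
    rw [mem_ball_zero_iff] at hp2 ⊢
    rw [norm_smul, Real.norm_of_nonneg hs.1]
    calc s * ‖p.2‖ ≤ 1 * ‖p.2‖ := by gcongr; exact hs.2
      _ < δ := by simpa using hp2
  have hclose : ∀ p ∈ D, ∀ z : E, ‖z - p.1‖ ≤ ‖p.2‖ * M → z ∈ ball y₀ ε := by
    rintro p ⟨hp1, hp2⟩ z hz
    rw [mem_ball_zero_iff] at hp2
    rw [mem_ball, dist_eq_norm] at hp1 ⊢
    have h1 : ‖p.2‖ * M ≤ δ * M := by gcongr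
    calc ‖z - y₀‖ = ‖(z - p.1) + (p.1 - y₀)‖ := by congr 1; abel
      _ ≤ ‖z - p.1‖ + ‖p.1 - y₀‖ := norm_add_le _ _
      _ < R + R := by linarith only [h1, hz, hp1, hδM]
      _ = ε := by rw [hR]; ring
  -- the invariants of the iteration
  have inv : ∀ n, DifferentiableOn ℂ (picY v n) D ∧
      ∀ p ∈ D, ‖picY v n p - p.1‖ ≤ ‖p.2‖ * M := by
    intro n
    induction n with
    | zero =>
      refine ⟨?_, fun p hp => ?_⟩
      · exact differentiable_fst.differentiableOn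
      · simp only [picY, sub_self, norm_zero]; (clear * -; (clear * -; positivity))
    | succ n ih =>
      obtain ⟨ihd, ihb⟩ := ih
      have hmem : ∀ p ∈ D, picY v n p ∈ ball y₀ ε := fun p hp => hclose p hp _ (ihb p hp)
      refine ⟨?_, fun p hp => ?_⟩
      · have hint : DifferentiableOn ℂ
            (fun p : E × ℂ => ∫ s in (0 : ℝ)..1, v (picY v n (p.1, s • p.2))) D := by
          apply differentiableOn_intervalIntegral hDo
            (G := fun (p : E × ℂ) (s : ℝ) => v (picY v n (p.1, s • p.2)))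
          · rw [uIcc_of_le zero_le_one]
            refine hvc.comp (ihd.continuousOn.comp
              (f := fun q : (E × ℂ) × ℝ => (q.1.1, q.2 • q.1.2)) ?_ ?_) ?_
            · (clear * -; fun_prop)
            · exact fun q hq => hsD q.1 hq.1 q.2 hq.2
            · exact fun q hq => hOb (hmem _ (hsD q.1 hq.1 q.2 hq.2))
          · intro s hs
            rw [uIcc_of_le zero_le_one] at hs
            refine hv.comp (ihd.comp (f := fun q : E × ℂ => (q.1, s • q.2)) ?_ ?_) ?_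
            · (clear * -; fun_prop)
            · exact fun q hq => hsD q hq s hs
            · exact fun q hq => hOb (hmem _ (hsD q hq s hs))
        simp only [picY]
        exact differentiable_fst.differentiableOn.add
          (differentiable_snd.differentiableOn.smul hint)
      · simp only [picY, add_sub_cancel_left, norm_smul]
        gcongr
        have := intervalIntegral.norm_integral_le_of_norm_le_const (a := (0 : ℝ)) (b := 1)
          (f := fun s => v (picY v n (p.1, s • p.2))) (C := M) (fun s hs => by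
            rw [uIoc_of_le zero_le_one] at hs
            exact hMb _ (hmem _ (hsD p hp s ⟨hs.1.le, hs.2⟩)))
        simpa only [Complex.real_smul, ge_iff_le, sub_zero, abs_one, mul_one] using this
  have hmem : ∀ n, ∀ p ∈ D, picY v n p ∈ ball y₀ ε := fun n p hp =>
    hclose p hp _ ((inv n).2 p hp)
  -- geometric convergence
  have hvcont : ∀ n, ∀ p ∈ D, ContinuousOn (fun s : ℝ => v (picY v n (p.1, s • p.2)))
      (uIcc (0 : ℝ) 1) := by
    intro n p hp
    rw [uIcc_of_le zero_le_one]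
    refine hvc.comp ((inv n).1.continuousOn.comp (f := fun s : ℝ => (p.1, s • p.2)) ?_ ?_) ?_
    · (clear * -; fun_prop)
    · exact fun s hs => hsD p hp s hs
    · exact fun s hs => hOb (hmem n _ (hsD p hp s hs))
  have geo : ∀ n, ∀ p ∈ D, dist (picY v n p) (picY v (n + 1) p) ≤ R * (1 / 2) ^ n := by
    intro n
    induction n with
    | zero =>
      intro p hp
      have h1 := (inv 1).2 p hp
      have hp2 := hp.2
      rw [mem_ball_zero_iff] at hp2
      rw [dist_comm, dist_eq_norm]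
      have h2 : picY v 0 p = p.1 := rfl
      rw [h2]
      have h3 : ‖p.2‖ * M ≤ δ * M := by (clear * - hp2; gcongr)
      simp only [zero_add, pow_zero, mul_one]
      linarith only [h3, h1, hδM]
    | succ n ih =>
      intro p hp
      have hp2 := hp.2
      rw [mem_ball_zero_iff] at hp2
      rw [dist_comm, dist_eq_norm]
      have h1 : picY v (n + 1 + 1) p - picY v (n + 1) p =
          p.2 • ∫ s in (0 : ℝ)..1, (v (picY v (n + 1) (p.1, s • p.2)) -
            v (picY v n (p.1, s • p.2))) := by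
        rw [intervalIntegral.integral_sub (hvcont (n + 1) p hp).intervalIntegrable
          (hvcont n p hp).intervalIntegrable, smul_sub]
        rw [picY_succ v (n + 1) p, picY_succ v n p]
        abel
      rw [h1, norm_smul]
      have h2 : ‖∫ s in (0 : ℝ)..1, (v (picY v (n + 1) (p.1, s • p.2)) -
            v (picY v n (p.1, s • p.2)))‖ ≤ L * (R * (1 / 2) ^ n) := by
        have := intervalIntegral.norm_integral_le_of_norm_le_const (a := (0 : ℝ)) (b := 1)
          (f := fun s => v (picY v (n + 1) (p.1, s • p.2)) - v (picY v n (p.1, s • p.2)))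
          (C := L * (R * (1 / 2) ^ n)) (fun s hs => by
            rw [uIoc_of_le zero_le_one] at hs
            have hs' : s ∈ Icc (0 : ℝ) 1 := ⟨hs.1.le, hs.2⟩
            refine (hLip _ (hmem _ _ (hsD p hp s hs')) _ (hmem _ _ (hsD p hp s hs'))).trans ?_
            gcongr
            rw [← dist_eq_norm, dist_comm]
            exact ih _ (hsD p hp s hs'))
        simpa only [Complex.real_smul, one_div, inv_pow, ge_iff_le, sub_zero, abs_one, mul_one] using this
      calc ‖p.2‖ * ‖_‖ ≤ δ * (L * (R * (1 / 2) ^ n)) := by (clear * - hp2 h2 hε; gcongr)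
        _ = (δ * L) * (R * (1 / 2) ^ n) := by ring
        _ ≤ (1 / 2) * (R * (1 / 2) ^ n) := by (clear * - hδL hε; gcongr)
        _ = R * (1 / 2) ^ (n + 1) := by ring
  have hlim : ∀ p ∈ D, ∃ l, Tendsto (fun n => picY v n p) atTop (𝓝 l) := fun p hp =>
    cauchySeq_tendsto_of_complete
      (cauchySeq_of_le_geometric (1 / 2) R (by norm_num) (fun n => geo n p hp))
  choose! ψ hψ using hlim
  have hunif : TendstoUniformlyOn (fun n => picY v n) ψ atTop D := by
    rw [Metric.tendstoUniformlyOn_iff]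
    intro η hη
    have h1 : Tendsto (fun n : ℕ => R * (1 / 2 : ℝ) ^ n / (1 - 1 / 2)) atTop (𝓝 0) := by
      have h2 := tendsto_pow_atTop_nhds_zero_of_lt_one (r := (1 / 2 : ℝ)) (by norm_num)
        (by norm_num)
      have h3 := (h2.const_mul R).div_const (1 - 1 / 2)
      simpa only [one_div, inv_pow, mul_zero, zero_div] using h3
    filter_upwards [h1.eventually (gt_mem_nhds hη)] with n hn p hp
    rw [dist_comm]
    exact (dist_le_of_le_geometric_of_tendsto (1 / 2) R (by norm_num) (fun n => geo n p hp)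
      (hψ p hp) n).trans_lt hn
  have hψd : DifferentiableOn ℂ ψ D :=
    differentiableOn_of_tendstoLocallyUniformlyOn hDo hunif.tendstoLocallyUniformlyOn
      (Eventually.of_forall fun n => (inv n).1)
  have hψb : ∀ p ∈ D, ‖ψ p - p.1‖ ≤ ‖p.2‖ * M := fun p hp =>
    le_of_tendsto ((hψ p hp).sub_const _).norm (Eventually.of_forall fun n => (inv n).2 p hp)
  refine ⟨R, hRpos, δ, hδpos, ψ, hψd, ?_, ?_⟩
  · intro y hy
    have hp : (y, (0 : ℂ)) ∈ D := ⟨hy, mem_ball_self hδpos⟩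
    have := hψb _ hp
    simp only [norm_zero, zero_mul, norm_le_zero_iff] at this
    exact sub_eq_zero.1 this
  · intro y hy w hw
    have hp : (y, w) ∈ D := ⟨hy, hw⟩
    have hin : ψ (y, w) ∈ O := hOb (hclose _ hp _ (hψb _ hp))
    refine ⟨hin, ?_⟩
    have hmk : ∀ w ∈ ball (0 : ℂ) δ, (y, w) ∈ D := fun w hw => ⟨hy, hw⟩
    have hdy : ∀ n, DifferentiableOn ℂ (fun w => picY v n (y, w)) (ball 0 δ) := fun n =>
      (inv n).1.comp (by fun_prop) hmk
    have hder : ∀ n, ∀ w ∈ ball (0 : ℂ) δ,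
        HasDerivAt (fun w => picY v (n + 1) (y, w)) (v (picY v n (y, w))) w := by
      intro n w hw
      have h1 : DifferentiableOn ℂ (fun w => v (picY v n (y, w))) (ball 0 δ) :=
        hv.comp (hdy n) fun w hw => hOb (hmem n _ (hmk w hw))
      have h2 := (hasDerivAt_radial h1 hw).const_add y
      simpa only [picY] using h2
    have hlu : TendstoLocallyUniformlyOn (fun n => fun w => picY v (n + 1) (y, w))
        (fun w => ψ (y, w)) atTop (ball 0 δ) := by
      have h1 : TendstoUniformlyOn (fun n => fun w => picY v n (y, w)) (fun w => ψ (y, w)) atTop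
          ((fun w => (y, w)) ⁻¹' D) := hunif.comp (fun w => (y, w))
      have h2 := h1.mono (s' := ball 0 δ) hmk
      have h3 : TendstoUniformlyOn (fun n => fun w => picY v (n + 1) (y, w))
          (fun w => ψ (y, w)) atTop (ball 0 δ) := by
        intro u hu
        exact (tendsto_add_atTop_nat 1).eventually (h2 u hu)
      exact h3.tendstoLocallyUniformlyOn
    have hd2 := hlu.deriv (Eventually.of_forall fun n => hdy (n + 1)) isOpen_ball
    have hd3 : Tendsto (fun n => deriv (fun w => picY v (n + 1) (y, w)) w) atTop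
        (𝓝 (deriv (fun w => ψ (y, w)) w)) := hd2.tendsto_at hw
    have hd4 : Tendsto (fun n => v (picY v n (y, w))) atTop (𝓝 (v (ψ (y, w)))) :=
      (hvc.continuousAt (hO.mem_nhds hin)).tendsto.comp (hψ _ hp)
    have hd5 : (fun n => deriv (fun w => picY v (n + 1) (y, w)) w) =
        fun n => v (picY v n (y, w)) := by
      funext n
      exact (hder n w hw).deriv
    rw [hd5] at hd3
    have hd6 := tendsto_nhds_unique hd3 hd4
    rw [← hd6]
    have hd7 : DifferentiableOn ℂ (fun w => ψ (y, w)) (ball 0 δ) :=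
      hψd.comp (by fun_prop) hmk
    exact (hd7.differentiableAt (isOpen_ball.mem_nhds hw)).hasDerivAt

end Vale.Agent.P290
end
end

section

section

open Set Filter Metric
open scoped Topology Nat

namespace Vale.Agent.P290

variable {V : Type} [NormedAddCommGroup V] [NormedSpace ℂ V]

section iter

variable {F : Type} [NormedAddCommGroup F] [NormedSpace ℂ F] [CompleteSpace F]

theorem eventually_differentiableAt_iteratedDeriv {G : V × ℂ → F} {p₀ : V × ℂ}
    (hG : ∀ᶠ p in 𝓝 p₀, DifferentiableAt ℂ G p) (k : ℕ) :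
    ∀ᶠ p in 𝓝 p₀, DifferentiableAt ℂ
      (fun p : V × ℂ => iteratedDeriv k (fun w => G (p.1, w)) p.2) p := by
  induction k with
  | zero => simpa only [iteratedDeriv_zero, Prod.mk.eta] using hG
  | succ k ih =>
    obtain ⟨W, hWs, hWo, hW⟩ := _root_.eventually_nhds_iff.1 ih
    have hd : DifferentiableOn ℂ
        (fun p : V × ℂ => iteratedDeriv k (fun w => G (p.1, w)) p.2) W :=
      fun p hp => (hWs p hp).differentiableWithinAt
    have h1 := differentiableOn_fderiv_apply hWo hd ((0 : V), (1 : ℂ))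
    refine _root_.eventually_nhds_iff.2 ⟨W, fun p hp => ?_, hWo, hW⟩
    have h2 := h1.differentiableAt (hWo.mem_nhds hp)
    refine h2.congr_of_eventuallyEq ?_
    filter_upwards [hWo.mem_nhds hp] with q hq
    rw [iteratedDeriv_succ]
    have h4 := (hWs q hq).hasFDerivAt
    have h5 : HasDerivAt (fun w : ℂ => (q.1, w)) ((0 : V), (1 : ℂ)) q.2 :=
      (hasDerivAt_const q.2 q.1).prodMk (hasDerivAt_id q.2)
    exact (h4.comp_hasDerivAt q.2 h5).deriv

theorem differentiableAt_iteratedDeriv_of_prod {G : V × ℂ → F} {z₀ : V} {w₀ : ℂ}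
    (hG : ∀ᶠ p in 𝓝 (z₀, w₀), DifferentiableAt ℂ G p) (k : ℕ) :
    DifferentiableAt ℂ (fun z => iteratedDeriv k (fun w => G (z, w)) w₀) z₀ := by
  have h1 := (eventually_differentiableAt_iteratedDeriv hG k).self_of_nhds
  exact DifferentiableAt.comp (f := fun z : V => (z, w₀)) z₀ h1 (by (clear * -; fun_prop))

end iter

/-- Taylor estimate at `1` for functions on the disc of radius two -/
theorem taylor_estimate {g : ℂ → ℂ} {M : ℝ} (hg : DifferentiableOn ℂ g (ball 0 2))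
    (hM : ∀ ζ ∈ ball (0 : ℂ) 2, ‖g ζ‖ ≤ M) (n : ℕ) :
    ‖(∑ k ∈ Finset.range n, ((k ! : ℂ))⁻¹ * iteratedDeriv k g 0) - g 1‖ ≤
      M * (2 / 3) ^ n / (1 - 2 / 3) := by
  have h1 : (1 : ℂ) ∈ ball (0 : ℂ) 2 := by simp only [mem_ball, dist_zero_right, norm_one, Nat.one_lt_ofNat]
  have hs := Complex.hasSum_taylorSeries_on_ball hg h1
  have hb : ∀ k : ℕ, ‖((k ! : ℂ))⁻¹ * iteratedDeriv k g 0‖ ≤ M * (2 / 3) ^ k := by
    intro k
    have hsub : closedBall (0 : ℂ) (3 / 2) ⊆ ball 0 2 := closedBall_subset_ball (by (clear * -; norm_num))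
    have := Complex.norm_iteratedDeriv_le_of_forall_mem_sphere_norm_le (c := (0 : ℂ)) (R := 3 / 2)
      (C := M) (f := g) k (by norm_num)
      ((hg.mono (closure_ball_subset_closedBall.trans hsub)).diffContOnCl)
      (fun z hz => hM z (hsub (sphere_subset_closedBall hz)))
    rw [norm_mul, norm_inv, Complex.norm_natCast]
    calc (k ! : ℝ)⁻¹ * ‖iteratedDeriv k g 0‖ ≤ (k ! : ℝ)⁻¹ * (k ! * M / (3 / 2) ^ k) := by gcongr
      _ = M * (2 / 3) ^ k := by
        have : (k ! : ℝ) ≠ 0 := by positivity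
        rw [show (2 / 3 : ℝ) = (3 / 2)⁻¹ by norm_num, inv_pow]
        field_simp
  have := norm_sub_le_of_geometric_bound_of_hasSum (r := 2 / 3) (by (clear * -; norm_num)) hb
    (a := g 1) (by simpa only [sub_zero, one_pow, smul_eq_mul, one_mul] using hs) n
  simpa only [ge_iff_le] using this


/-- the Taylor polynomial at `1` of a family of one variable functions -/
noncomputable def tayl (n : ℕ) (g : ℂ → ℂ) : ℂ :=
  ∑ k ∈ Finset.range n, ((k ! : ℂ))⁻¹ * iteratedDeriv k g 0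

theorem tayl_differentiable (n : ℕ) {G : V × ℂ → ℂ}
    (hG : ∀ z, ∀ᶠ p in 𝓝 (z, (0 : ℂ)), DifferentiableAt ℂ G p) :
    Differentiable ℂ (fun z => tayl n (fun w => G (z, w))) := by
  intro z
  unfold tayl
  apply DifferentiableAt.fun_sum
  intro k _
  exact (differentiableAt_iteratedDeriv_of_prod (hG z) k).const_mul _

theorem tayl_sub_le (n : ℕ) {g g' : ℂ → ℂ} {ρ ε : ℝ} (hρ : 0 < ρ)
    (hg : DifferentiableOn ℂ g (ball 0 (2 * ρ))) (hg' : DifferentiableOn ℂ g' (ball 0 (2 * ρ)))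
    (h : ∀ ζ ∈ sphere (0 : ℂ) ρ, ‖g ζ - g' ζ‖ ≤ ε) :
    ‖tayl n g - tayl n g'‖ ≤ ε * ∑ k ∈ Finset.range n, (ρ⁻¹) ^ k := by
  unfold tayl
  rw [← Finset.sum_sub_distrib, Finset.mul_sum]
  refine (norm_sum_le _ _).trans (Finset.sum_le_sum fun k _ => ?_)
  have h0 : ball (0 : ℂ) (2 * ρ) ∈ 𝓝 (0 : ℂ) := ball_mem_nhds _ (by positivity)
  have e : iteratedDeriv k g 0 - iteratedDeriv k g' 0 = iteratedDeriv k (g - g') 0 := by
    rw [iteratedDeriv_sub]
    · exact ((hg.contDiffOn isOpen_ball).contDiffAt h0)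
    · exact ((hg'.contDiffOn isOpen_ball).contDiffAt h0)
  rw [← mul_sub, e]
  have hsub : closedBall (0 : ℂ) ρ ⊆ ball 0 (2 * ρ) := closedBall_subset_ball (by linarith only [hρ])
  have := Complex.norm_iteratedDeriv_le_of_forall_mem_sphere_norm_le (c := (0 : ℂ)) (R := ρ)
    (C := ε) (f := g - g') k hρ
    (((hg.sub hg').mono (closure_ball_subset_closedBall.trans hsub)).diffContOnCl)
    (fun z hz => h z hz)
  rw [norm_mul, norm_inv, Complex.norm_natCast]
  calc (k ! : ℝ)⁻¹ * ‖iteratedDeriv k (g - g') 0‖ ≤ (k ! : ℝ)⁻¹ * (k ! * ε / ρ ^ k) := by gcongr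
    _ = ε * (ρ⁻¹) ^ k := by
      have : (k ! : ℝ) ≠ 0 := by positivity
      rw [inv_pow]
      (clear * - this hρ; field_simp)

/-- approximability by entire functions -/
def Appr (h : V → ℂ) (S : Set V) : Prop :=
  ∀ ε > 0, ∃ p : V → ℂ, Differentiable ℂ p ∧ ∀ z ∈ S, ‖p z - h z‖ < ε

/-- data: `B` compact convex containing a ball around zero, `h` holomorphic and bounded on `B2`,
which contains all `c • b` with `c` within `η` of `[0,1]`. -/
structure ChainData (h : V → ℂ) (B : Set V) where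
  B2 : Set V
  U : Set V
  hU : IsOpen U
  hB2 : B2 ⊆ U
  hd : DifferentiableOn ℂ h U
  M : ℝ
  hM : ∀ z ∈ B2, ‖h z‖ ≤ M
  η : ℝ
  hη : 0 < η
  hη1 : η ≤ 1
  mem : ∀ t ∈ Icc (0 : ℝ) 1, ∀ c : ℂ, ‖c - t‖ ≤ η → ∀ b ∈ B, c • b ∈ B2

theorem exists_chainData [FiniteDimensional ℂ V] {K : Set V} (hK : IsCompact K)
    (hKc : Convex ℝ K) (h0 : (0 : V) ∈ K) {h : V → ℂ} (hh : HolNear K h) :
    ∃ (B : Set V) (δ R : ℝ), IsCompact B ∧ Convex ℝ B ∧ K ⊆ B ∧ 0 < δ ∧ ball 0 δ ⊆ B ∧ 0 < R ∧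
      (∀ b ∈ B, ‖b‖ ≤ R) ∧ Nonempty (ChainData h B) := by
  have : ProperSpace V := FiniteDimensional.proper ℂ V
  obtain ⟨U0, hU0, hKU0, hd0⟩ : ∃ U0, IsOpen U0 ∧ K ⊆ U0 ∧ DifferentiableOn ℂ h U0 := by
    obtain ⟨U0, hU0o, hKU0, hU0⟩ := mem_nhdsSet_iff_exists.1 hh
    exact ⟨U0, hU0o, hKU0, fun z hz => (hU0 hz).differentiableWithinAt⟩
  obtain ⟨δ', hδ', hs⟩ := hK.exists_cthickening_subset_open hU0 hKU0
  set δ := δ' / 2 with hδ_def
  have hδ : 0 < δ := by (clear * - hδ'; positivity)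
  have hBc : IsCompact (cthickening δ K) := hK.cthickening
  obtain ⟨R0, hR0⟩ := hBc.isBounded.exists_norm_le
  set R := max R0 1 with hR_def
  have hR : 0 < R := lt_of_lt_of_le one_pos (le_max_right _ _)
  have hB2c : IsCompact (cthickening (2 * δ) K) := hK.cthickening
  have hsub : cthickening (2 * δ) K ⊆ U0 := by
    rw [hδ_def, mul_div_cancel₀ _ (two_ne_zero)]; exact hs
  obtain ⟨M, hM⟩ := hB2c.exists_bound_of_continuousOn (hd0.continuousOn.mono hsub)
  refine ⟨cthickening δ K, δ, R, hBc, hKc.cthickening δ, self_subset_cthickening K, hδ, ?_, hR,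
    fun b hb => (hR0 b hb).trans (le_max_left _ _), ⟨?_⟩⟩
  · refine Subset.trans ?_ (thickening_subset_cthickening δ K)
    intro x hx
    rw [mem_thickening_iff]
    exact ⟨0, h0, by simpa using hx⟩
  · refine { B2 := cthickening (2 * δ) K, U := U0, hU := hU0, hB2 := hsub, hd := hd0, M := M,
             hM := hM, η := min 1 (δ / R), hη := lt_min one_pos (by (clear * - hδ'; positivity)),
             hη1 := min_le_left _ _, mem := ?_ }
    intro t ht c hc b hb
    have h1 : (t : ℝ) • b ∈ cthickening δ K := by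
      have := (hKc.cthickening δ).smul_mem_of_zero_mem
        (self_subset_cthickening K h0) hb ht
      exact this
    have h2 : c • b ∈ cthickening δ (cthickening δ K) := by
      apply mem_cthickening_of_dist_le _ _ _ _ h1
      rw [dist_eq_norm]
      have : c • b - t • b = (c - t) • b := by
        rw [sub_smul]; simp
      rw [this, norm_smul]
      calc ‖c - t‖ * ‖b‖ ≤ (δ / R) * R := by
            gcongr
            · exact hc.trans (min_le_right _ _)
            · exact (hR0 b hb).trans (le_max_left _ _)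
        _ = δ := by (clear * - hR hδ; field_simp)
    have := cthickening_cthickening_subset hδ.le hδ.le K h2
    rwa [← two_mul] at this


/-- the dilated set -/
def dil (B : Set V) (t : ℝ) : Set V := {z | ∃ b ∈ B, z = (t : ℂ) • b}

theorem ChainData.base {h : V → ℂ} {B : Set V} (D : ChainData h B) (h0 : (0 : V) ∈ B) :
    Appr h (dil B (D.η / 2)) := by
  intro ε hε
  have hη := D.hη
  have hM0 : 0 ≤ D.M := by
    have := D.mem 0 ⟨le_rfl, zero_le_one⟩ 0 (by simpa only [Complex.ofReal_zero, sub_self, norm_zero] using hη.le) 0 h0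
    exact (norm_nonneg _).trans (D.hM _ this)
  have hlim : Tendsto (fun n : ℕ => D.M * (2 / 3 : ℝ) ^ n / (1 - 2 / 3)) atTop (𝓝 0) := by
    have h1 := (tendsto_pow_atTop_nhds_zero_of_lt_one (r := (2 / 3 : ℝ)) (by (clear * -; norm_num)) (by norm_num))
    have h2 := (h1.const_mul D.M).div_const (1 - 2 / 3)
    simpa only [mul_zero, zero_div] using h2
  obtain ⟨n, hn⟩ := (hlim.eventually (gt_mem_nhds hε)).exists
  refine ⟨fun z => tayl n (fun w : ℂ => h (w • z)), ?_, ?_⟩
  · apply tayl_differentiable n (G := fun p : V × ℂ => h (p.2 • p.1))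
    intro z
    have h00 : (0 : V) ∈ D.U := by
      have := D.mem 0 ⟨le_rfl, zero_le_one⟩ 0 (by simpa only [Complex.ofReal_zero, sub_self, norm_zero] using hη.le) 0 h0
      exact D.hB2 (by simpa only [smul_zero] using this)
    have hc : Continuous (fun p : V × ℂ => p.2 • p.1) := by (clear * -; fun_prop)
    have : ∀ᶠ p : V × ℂ in 𝓝 (z, (0 : ℂ)), p.2 • p.1 ∈ D.U := by
      apply hc.continuousAt.eventually
      apply D.hU.mem_nhds
      simpa only [zero_smul] using h00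
    filter_upwards [this] with p hp
    exact DifferentiableAt.comp (f := fun p : V × ℂ => p.2 • p.1) p
      (D.hd.differentiableAt (D.hU.mem_nhds hp)) (by (clear * -; fun_prop))
  · rintro z ⟨b, hb, rfl⟩
    have hmem : ∀ ζ ∈ ball (0 : ℂ) 2, ζ • ((D.η / 2 : ℝ) : ℂ) • b ∈ D.B2 := by
      intro ζ hζ
      rw [smul_smul]
      apply D.mem 0 ⟨le_rfl, zero_le_one⟩ _ _ b hb
      rw [mem_ball_zero_iff] at hζ
      simp only [Complex.ofReal_zero, sub_zero, norm_mul, Complex.norm_real]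
      rw [Real.norm_of_nonneg (by (clear * - hη; positivity))]
      linarith only [mul_pos (sub_pos.2 hη) (sub_pos.2 hζ)]
    have hgd : DifferentiableOn ℂ (fun w : ℂ => h (w • ((D.η / 2 : ℝ) : ℂ) • b)) (ball 0 2) := by
      intro ζ hζ
      apply DifferentiableAt.differentiableWithinAt
      exact DifferentiableAt.comp (f := fun w : ℂ => w • ((D.η / 2 : ℝ) : ℂ) • b) ζ
        (D.hd.differentiableAt (D.hU.mem_nhds (D.hB2 (hmem ζ hζ)))) (by (clear * -; fun_prop))
    have := taylor_estimate hgd (fun ζ hζ => D.hM _ (hmem ζ hζ)) n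
    simp only [one_smul] at this
    exact this.trans_lt hn

theorem ChainData.step {h : V → ℂ} {B : Set V} (D : ChainData h B) (h0 : (0 : V) ∈ B)
    (hBc : Convex ℝ B) {δ R : ℝ} (hδ : 0 < δ) (hball : ball 0 δ ⊆ B) (hR : 0 < R)
    (hBR : ∀ b ∈ B, ‖b‖ ≤ R) {t t' : ℝ} (ht : 0 < t) (ht' : t' ≤ 1) (ht'0 : 0 ≤ t')
    (htt' : (1 - D.η / 3) * t' < t) (hA : Appr h (dil B t)) : Appr h (dil B t') := by
  intro ε hε
  have hη := D.hη
  have hη1 := D.hη1
  set κ : ℝ := 1 - D.η / 3 with hκ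
  have hκ0 : 0 < κ := by rw [hκ]; linarith only [hη1]
  have hM0 : 0 ≤ D.M := by
    have := D.mem 0 ⟨le_rfl, zero_le_one⟩ 0 (by simpa only [Complex.ofReal_zero, sub_self, norm_zero] using hη.le) 0 h0
    exact (norm_nonneg _).trans (D.hM _ this)
  have hlim : Tendsto (fun n : ℕ => D.M * (2 / 3 : ℝ) ^ n / (1 - 2 / 3)) atTop (𝓝 0) := by
    have h1 := (tendsto_pow_atTop_nhds_zero_of_lt_one (r := (2 / 3 : ℝ)) (by (clear * -; norm_num)) (by norm_num))
    have h2 := (h1.const_mul D.M).div_const (1 - 2 / 3)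
    simpa only [mul_zero, zero_div] using h2
  obtain ⟨n, hn⟩ := (hlim.eventually (gt_mem_nhds (half_pos hε))).exists
  -- small circle
  set μ : ℝ := κ * t' / t with hμ
  have hμ1 : μ < 1 := by rw [hμ, div_lt_one ht]; exact htt'
  have hμ0 : 0 ≤ μ := by (clear * - hκ0 ht'0 ht; (clear * - hκ0 ht'0 ht; positivity))
  set ρ : ℝ := min (1 / 2) (t * (1 - μ) * δ / (2 * R)) with hρ
  have h1μ : 0 < 1 - μ := by linarith only [hμ1]
  have hρ0 : 0 < ρ := lt_min (by norm_num) (by (clear * - ht hμ1 hδ hR; positivity))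
  have hsmall : ∀ b ∈ B, ∀ ζ ∈ closedBall (0 : ℂ) ρ,
      ∃ b' ∈ B, ((κ : ℂ) + ζ * (1 - κ)) • (t' : ℂ) • b = (t : ℂ) • b' := by
    intro b hb ζ hζ
    rw [mem_closedBall_zero_iff] at hζ
    have htne : (t : ℂ) ≠ 0 := by exact_mod_cast ht.ne'
    set y : V := ((1 - μ : ℝ) : ℂ)⁻¹ • ((t : ℂ)⁻¹ * (ζ * (1 - κ)) * t') • b with hy
    have h1μne : ((1 - μ : ℝ) : ℂ) ≠ 0 := by exact_mod_cast h1μ.ne'
    have hyB : y ∈ B := by
      apply hball
      rw [mem_ball_zero_iff, hy, norm_smul, norm_smul, norm_inv, norm_mul, norm_mul, norm_inv,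
        norm_mul]
      rw [Complex.norm_real, Complex.norm_real, Complex.norm_real, Real.norm_of_nonneg h1μ.le,
        Real.norm_of_nonneg ht.le, Real.norm_of_nonneg ht'0]
      have hk : ‖(1 - (κ : ℂ))‖ ≤ 1 := by
        have : (1 - (κ : ℂ)) = ((1 - κ : ℝ) : ℂ) := by push_cast; ring
        rw [this, Complex.norm_real, Real.norm_of_nonneg (by linarith only [hκ, hη])]
        linarith only [hκ0]
      have hρ2 : ρ ≤ t * (1 - μ) * δ / (2 * R) := min_le_right _ _
      calc (1 - μ)⁻¹ * (t⁻¹ * (‖ζ‖ * ‖(1 - (κ : ℂ))‖) * t' * ‖b‖)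
          ≤ (1 - μ)⁻¹ * (t⁻¹ * ((t * (1 - μ) * δ / (2 * R)) * 1) * 1 * R) := by
            gcongr
            · exact hζ.trans hρ2
            · exact hBR b hb
        _ = δ / 2 := by (clear * - h1μ ht hR hδ; field_simp)
        _ < δ := by linarith only [hδ]
    refine ⟨(μ : ℝ) • b + (1 - μ) • y, ?_, ?_⟩
    · exact hBc hb hyB hμ0 h1μ.le (by ring)
    · have e1 : ((μ : ℝ) • b : V) = (μ : ℂ) • b := (Complex.coe_smul _ _).symm
      have e2 : (((1 - μ : ℝ)) • y : V) = ((1 - μ : ℝ) : ℂ) • y := (Complex.coe_smul _ _).symm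
      rw [e1, e2, hy, smul_add, smul_smul ((1 - μ : ℝ) : ℂ), mul_inv_cancel₀ h1μne, one_smul,
        smul_smul, smul_smul, smul_smul, ← add_smul]
      congr 1
      have : (μ : ℂ) = κ * t' / t := by rw [hμ]; push_cast; ring
      rw [this]
      (clear * - htne; field_simp)
  -- large disc
  have hlarge : ∀ b ∈ B, ∀ ζ ∈ ball (0 : ℂ) 2, ((κ : ℂ) + ζ * (1 - κ)) • (t' : ℂ) • b ∈ D.B2 := by
    intro b hb ζ hζ
    rw [mem_ball_zero_iff] at hζ
    rw [smul_smul]
    apply D.mem t' ⟨ht'0, ht'⟩ _ _ b hb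
    have e : ((κ : ℂ) + ζ * (1 - κ)) * t' - t' = ((1 - κ : ℝ) : ℂ) * t' * (ζ - 1) := by
      push_cast; ring
    rw [e, norm_mul, norm_mul, Complex.norm_real, Complex.norm_real,
      Real.norm_of_nonneg (by linarith only [hκ, hη]), Real.norm_of_nonneg ht'0]
    have h3 : ‖ζ - 1‖ ≤ 3 := (norm_sub_le _ _).trans (by rw [norm_one]; linarith only [hζ])
    calc (1 - κ) * t' * ‖ζ - 1‖ ≤ (D.η / 3) * 1 * 3 := by
          have : 1 - κ = D.η / 3 := by rw [hκ]; ring
          rw [this]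
          (clear * - ht' hη h3; gcongr)
      _ = D.η := by ring
  -- choose approximating entire function
  set Sg : ℝ := ∑ k ∈ Finset.range n, (ρ⁻¹) ^ k with hSg
  have hSg0 : 0 ≤ Sg := Finset.sum_nonneg fun k _ => by (clear * - ht hμ1 hδ hR; positivity)
  obtain ⟨p, hp, hpb⟩ := hA (ε / (4 * (Sg + 1))) (by (clear * - hε ht hμ1 hδ hR; positivity))
  refine ⟨fun z => tayl n (fun w : ℂ => p (((κ : ℂ) + w * (1 - κ)) • z)), ?_, ?_⟩
  · apply tayl_differentiable n (G := fun q : V × ℂ => p (((κ : ℂ) + q.2 * (1 - κ)) • q.1))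
    intro z
    filter_upwards with q
    exact DifferentiableAt.comp (f := fun q : V × ℂ => ((κ : ℂ) + q.2 * (1 - κ)) • q.1) q
      (hp _) (by (clear * -; fun_prop))
  · rintro z ⟨b, hb, rfl⟩
    have hgd : DifferentiableOn ℂ (fun w : ℂ => h (((κ : ℂ) + w * (1 - κ)) • (t' : ℂ) • b))
        (ball 0 2) := by
      intro ζ hζ
      apply DifferentiableAt.differentiableWithinAt
      exact DifferentiableAt.comp (f := fun w : ℂ => ((κ : ℂ) + w * (1 - κ)) • (t' : ℂ) • b) ζ
        (D.hd.differentiableAt (D.hU.mem_nhds (D.hB2 (hlarge b hb ζ hζ)))) (by fun_prop)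
    have hpd : DifferentiableOn ℂ (fun w : ℂ => p (((κ : ℂ) + w * (1 - κ)) • (t' : ℂ) • b))
        (ball 0 2) := by
      intro ζ hζ
      apply DifferentiableAt.differentiableWithinAt
      exact DifferentiableAt.comp (f := fun w : ℂ => ((κ : ℂ) + w * (1 - κ)) • (t' : ℂ) • b) ζ
        (hp _) (by fun_prop)
    have h1 := taylor_estimate hgd (fun ζ hζ => D.hM _ (hlarge b hb ζ hζ)) n
    have e1 : ((κ : ℂ) + 1 * (1 - κ)) • (t' : ℂ) • b = (t' : ℂ) • b := by
      rw [one_mul, add_sub_cancel, one_smul]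
    rw [e1] at h1
    have hsub : ball (0 : ℂ) (2 * ρ) ⊆ ball 0 2 := by
      apply ball_subset_ball
      have : ρ ≤ 1 / 2 := min_le_left _ _
      linarith only [this]
    have h2 := tayl_sub_le n hρ0 (hpd.mono hsub) (hgd.mono hsub) (ε := ε / (4 * (Sg + 1))) (by
      intro ζ hζ
      obtain ⟨b', hb', hbb⟩ := hsmall b hb ζ (sphere_subset_closedBall hζ)
      rw [hbb]
      exact (hpb _ ⟨b', hb', rfl⟩).le)
    have h3 : ε / (4 * (Sg + 1)) * Sg ≤ ε / 4 := by
      rw [div_mul_eq_mul_div, div_le_div_iff₀ (by (clear * - ht hμ1 hδ hR; (clear * - ht hμ1 hδ hR; positivity))) (by norm_num)]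
      linarith only [hε]
    have h4 : ‖tayl n (fun w : ℂ => p (((κ : ℂ) + w * (1 - κ)) • (t' : ℂ) • b)) - h ((t' : ℂ) • b)‖ ≤
        ‖tayl n (fun w : ℂ => p (((κ : ℂ) + w * (1 - κ)) • (t' : ℂ) • b)) -
          tayl n (fun w : ℂ => h (((κ : ℂ) + w * (1 - κ)) • (t' : ℂ) • b))‖ +
        ‖tayl n (fun w : ℂ => h (((κ : ℂ) + w * (1 - κ)) • (t' : ℂ) • b)) - h ((t' : ℂ) • b)‖ :=
      norm_sub_le_norm_sub_add_norm_sub _ _ _
    have h5 : ‖tayl n (fun w : ℂ => h (((κ : ℂ) + w * (1 - κ)) • (t' : ℂ) • b)) - h ((t' : ℂ) • b)‖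
        < ε / 2 := lt_of_le_of_lt h1 hn
    linarith only [h5, h4, h3, h2, hε]

theorem okaWeil_zero [FiniteDimensional ℂ V] {K : Set V} (hK : IsCompact K)
    (hKc : Convex ℝ K) (h0 : (0 : V) ∈ K) {h : V → ℂ} (hh : HolNear K h) : Appr h K := by
  obtain ⟨B, δ, R, hBc, hBv, hKB, hδ, hball, hR, hBR, ⟨D⟩⟩ := exists_chainData hK hKc h0 hh
  have h0B : (0 : V) ∈ B := hKB h0
  have hη := D.hη
  have hη1 := D.hη1
  set q : ℝ := 1 - D.η / 6 with hq
  have hq0 : 0 < q := by rw [hq]; linarith only [hη1]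
  have hq1 : q < 1 := by rw [hq]; linarith only [hη]
  -- descending powers of q
  obtain ⟨N, hN⟩ := exists_pow_lt_of_lt_one (show 0 < D.η / 2 by (clear * - hη; positivity)) hq1
  have key : ∀ k : ℕ, k ≤ N → Appr h (dil B (q ^ (N - k))) := by
    intro k
    induction k with
    | zero =>
      intro _
      refine fun ε hε => ?_
      obtain ⟨p, hp, hpb⟩ := D.base h0B ε hε
      refine ⟨p, hp, ?_⟩
      rintro z ⟨b, hb, rfl⟩
      apply hpb
      -- q^N ≤ η/2
      refine ⟨((q ^ N / (D.η / 2) : ℝ)) • b, ?_, ?_⟩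
      · exact hBv.smul_mem_of_zero_mem h0B hb ⟨by (clear * - hq0 hη; positivity), (div_le_one (by (clear * - hη; positivity))).2 hN.le⟩
      · rw [← Complex.coe_smul, smul_smul]
        congr 1
        have : (D.η : ℂ) ≠ 0 := by exact_mod_cast hη.ne'
        simp only [Nat.sub_zero]
        push_cast
        (clear * - this; field_simp)
    | succ k ih =>
      intro hk
      have hA := ih (by omega)
      have e : N - k = (N - (k + 1)) + 1 := by omega
      refine D.step h0B hBv hδ hball hR hBR (t := q ^ (N - k)) (by (clear * - hq0; positivity))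
        (pow_le_one₀ hq0.le hq1.le) (by (clear * - hq0; positivity)) ?_ hA
      rw [e, pow_succ, mul_comm]
      apply mul_lt_mul_of_pos_left _ (by (clear * - hq0; positivity))
      rw [hq]; linarith only [hq1, hq]
  have h1 := key N le_rfl
  simp only [Nat.sub_self, pow_zero] at h1
  intro ε hε
  obtain ⟨p, hp, hpb⟩ := h1 ε hε
  exact ⟨p, hp, fun z hz => hpb z ⟨z, hKB hz, by simp⟩⟩

/-- Oka-Weil theorem for compact convex sets -/
theorem okaWeil [FiniteDimensional ℂ V] {K : Set V} (hK : IsCompact K) (hKc : Convex ℝ K)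
    {h : V → ℂ} (hh : HolNear K h) (ε : ℝ) (hε : 0 < ε) :
    ∃ p : V → ℂ, Differentiable ℂ p ∧ ∀ z ∈ K, ‖p z - h z‖ < ε := by
  rcases K.eq_empty_or_nonempty with rfl | ⟨a, ha⟩
  · exact ⟨fun _ => 0, differentiable_const _, fun z hz => absurd hz (Set.notMem_empty z)⟩
  set K0 : Set V := (fun z => a + z) ⁻¹' K with hK0
  have hK0c : IsCompact K0 := by
    have : K0 = (fun z => -a + z) '' K := by
      ext z; constructor
      · intro hz; exact ⟨a + z, hz, by simp⟩
      · rintro ⟨y, hy, rfl⟩; simpa only [hK0, mem_preimage, add_neg_cancel_left] using hy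
    rw [this]
    exact hK.image (by (clear * -; fun_prop))
  have hK0v : Convex ℝ K0 := hKc.translate_preimage_right a
  have h00 : (0 : V) ∈ K0 := by simpa [hK0] using ha
  have hh0 : HolNear K0 (fun z => h (a + z)) := by
    have ht : Tendsto (fun z : V => a + z) (𝓝ˢ K0) (𝓝ˢ K) :=
      (continuous_const_add a).tendsto_nhdsSet (fun z hz => hz)
    filter_upwards [ht.eventually hh] with z hz
    exact DifferentiableAt.comp (f := fun z : V => a + z) z hz (by fun_prop)
  obtain ⟨p, hp, hpb⟩ := okaWeil_zero hK0c hK0v h00 hh0 ε hε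
  refine ⟨fun z => p (z - a), hp.comp (by fun_prop), fun z hz => ?_⟩
  have := hpb (z - a) (by simpa [hK0] using hz)
  simpa only [gt_iff_lt, add_sub_cancel] using this

end Vale.Agent.P290
end
end

section

section

open Set Filter Metric
open scoped Topology

namespace Vale.Agent.P290

variable {V : Type} [NormedAddCommGroup V] [NormedSpace ℂ V]

/-- a nonvanishing holomorphic germ along a compact convex set has a logarithm -/
theorem exists_log {S : Set V} (hS : IsCompact S) (hSc : Convex ℝ S) {ρ : V → ℂ}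
    (hρ : HolNear S ρ) (hne : ∀ z ∈ S, ρ z ≠ 0) :
    ∃ h : V → ℂ, HolNear S h ∧ ρ =ᶠ[𝓝ˢ S] fun z => Complex.exp (h z) := by
  rcases S.eq_empty_or_nonempty with rfl | hSne
  · exact ⟨fun _ => 0, by simp only [HolNear, differentiableAt_const, nhdsSet_empty, eventually_bot], by simp only [EventuallyEq, Complex.exp_zero, nhdsSet_empty, eventually_bot]⟩
  have hne' : ∀ᶠ z in 𝓝ˢ S, DifferentiableAt ℂ ρ z ∧ ρ z ≠ 0 := by
    rw [eventually_nhdsSet_iff_forall]
    intro z hz
    have h1 := (eventually_nhdsSet_iff_forall.1 hρ) z hz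
    exact h1.and (h1.self_of_nhds.continuousAt.eventually_ne (hne z hz))
  obtain ⟨O, hO, hSO, hOp⟩ := eventually_nhdsSet_iff_exists.1 hne'
  obtain ⟨δ, hδ, hδO⟩ := hS.exists_thickening_subset_open hO hSO
  set U := thickening δ S with hU
  have hUo : IsOpen U := isOpen_thickening
  have hSU : S ⊆ U := self_subset_thickening hδ S
  have hUc : Convex ℝ U := hSc.thickening δ
  have hUs : IsSimplyConnected U := by
    have := hUc.contractibleSpace (hSne.mono hSU)
    show SimplyConnectedSpace U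
    infer_instance
  have hρc : ContinuousOn ρ U := fun z hz =>
    (hOp z (hδO hz)).1.continuousAt.continuousWithinAt
  obtain ⟨h, hc, hexp⟩ := Complex.exists_continuousOn_eqOn_exp_comp hUs hUo hρc (by
    rintro ⟨z, hz, h0⟩
    exact (hOp z (hδO hz)).2 h0)
  refine ⟨h, ?_, ?_⟩
  · refine eventually_nhdsSet_iff_exists.2 ⟨U, hUo, hSU, fun z hz => ?_⟩
    have hd := (hOp z (hδO hz)).1
    have hz0 := (hOp z (hδO hz)).2
    -- near z, h y = h z + log (ρ y / ρ z)
    have h1 : ∀ᶠ y in 𝓝 z, h y = h z + Complex.log (ρ y / ρ z) := by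
      have hcz : ContinuousAt h z := hc.continuousAt (hUo.mem_nhds hz)
      have h2 : ∀ᶠ y in 𝓝 z, ‖h y - h z‖ < 1 := by
        have := Metric.continuousAt_iff'.1 hcz 1 one_pos
        simpa only [dist_eq_norm] using this
      filter_upwards [h2, hUo.mem_nhds hz] with y hy hyU
      have e1 : ρ y / ρ z = Complex.exp (h y - h z) := by
        rw [Complex.exp_sub]
        have a1 := hexp hyU
        have a2 := hexp hz
        simp only [Function.comp_apply] at a1 a2
        rw [a1, a2]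
      have h3 : |(h y - h z).im| < 1 := (Complex.abs_im_le_norm _).trans_lt hy
      rw [e1, Complex.log_exp]
      · ring
      · have := (abs_lt.1 h3).1
        linarith only [this, Real.pi_gt_three]
      · have := (abs_lt.1 h3).2
        linarith only [this, Real.pi_gt_three]
    have h4 : DifferentiableAt ℂ (fun y => h z + Complex.log (ρ y / ρ z)) z := by
      refine (differentiableAt_const _).add ?_
      have h5 : DifferentiableAt ℂ (fun y => ρ y / ρ z) z := by
        simpa only [div_eq_mul_inv] using hd.mul_const (ρ z)⁻¹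
      refine DifferentiableAt.clog h5 ?_
      rw [div_self hz0]
      exact Complex.one_mem_slitPlane
    exact h4.congr_of_eventuallyEq h1
  · refine eventually_nhdsSet_iff_exists.2 ⟨U, hUo, hSU, fun z hz => ?_⟩
    exact (hexp hz).symm

/-- width condition -/
def Wid {d : ℕ} (e : V → (Fin d → ℝ)) (T : Set V) (i : Fin d) (r : ℝ) : Prop :=
  ∀ x ∈ T, ∀ y ∈ T, |e x i - e y i| ≤ r

theorem Good.inter_le {T : Set V} (hT : Good T) (l : V →L[ℝ] ℝ) (c : ℝ) :
    Good (T ∩ {x | l x ≤ c}) := by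
  refine ⟨hT.1.inter_right (isClosed_le l.continuous continuous_const), hT.2.inter ?_⟩
  exact convex_halfSpace_le l.isBoundedLinearMap.toIsLinearMap c

theorem Good.inter_ge {T : Set V} (hT : Good T) (l : V →L[ℝ] ℝ) (c : ℝ) :
    Good (T ∩ {x | c ≤ l x}) := by
  refine ⟨hT.1.inter_right (isClosed_le continuous_const l.continuous), hT.2.inter ?_⟩
  exact convex_halfSpace_ge l.isBoundedLinearMap.toIsLinearMap c

/-- bisecting induction for compact convex sets -/
theorem Good.bisect [FiniteDimensional ℂ V] {S : Set V} (hS : Good S)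
    (P : Set V → Prop) (hempty : P ∅)
    (hloc : ∀ z ∈ S, ∃ U ∈ 𝓝 z, ∀ T, Good T → T ⊆ S → T ⊆ U → P T)
    (hmerge : ∀ T, Good T → T ⊆ S → ∀ (l : V →L[ℝ] ℝ) (c : ℝ),
      P (T ∩ {x | l x ≤ c}) → P (T ∩ {x | c ≤ l x}) → P T) :
    P S := by
  classical
  have hfd : FiniteDimensional ℝ V := FiniteDimensional.complexToReal V
  set d := Module.finrank ℝ V with hd
  let e : V ≃L[ℝ] (Fin d → ℝ) := ContinuousLinearEquiv.ofFinrankEq (by simp only [Module.finrank_fintype_fun_eq_card, hd, Fintype.card_fin])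
  -- local statement with uniform size
  choose! U hU hUP using hloc
  obtain ⟨δ₀, hδ₀, hleb⟩ := lebesgue_number_lemma_of_metric (s := S)
    (c := fun z : S => interior (U z)) hS.1 (fun _ => isOpen_interior) (by
      intro z hz
      exact mem_iUnion.2 ⟨⟨z, hz⟩, mem_interior_iff_mem_nhds.2 (hU z hz)⟩)
  set C : ℝ := ‖(e.symm : (Fin d → ℝ) →L[ℝ] V)‖ with hC
  have hC0 : 0 ≤ C := norm_nonneg _
  set δ := δ₀ / (2 * (C + 1)) with hδdef
  have hδ : 0 < δ := by (clear * - hδ₀; positivity)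
  have base : ∀ T, Good T → T ⊆ S → (∀ j ∈ (Finset.univ : Finset (Fin d)), Wid e T j δ) → P T := by
    intro T hT hTS hW
    rcases T.eq_empty_or_nonempty with rfl | ⟨x, hx⟩
    · exact hempty
    obtain ⟨z, hz⟩ := hleb x (hTS hx)
    refine hUP z z.2 T hT hTS (fun y hy => interior_subset (hz ?_))
    rw [mem_ball, dist_eq_norm]
    have h1 : y - x = e.symm (e y - e x) := by simp
    rw [h1]
    calc ‖(e.symm : (Fin d → ℝ) →L[ℝ] V) (e y - e x)‖ ≤ C * ‖e y - e x‖ :=
          ContinuousLinearMap.le_opNorm _ _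
      _ ≤ C * δ := by
          gcongr
          rw [pi_norm_le_iff_of_nonneg hδ.le]
          intro i
          exact hW i (Finset.mem_univ i) y hy x hx
      _ < δ₀ := by
          rw [hδdef]
          have : C * (δ₀ / (2 * (C + 1))) = δ₀ * (C / (2 * (C + 1))) := by ring
          rw [this]
          have h2 : C / (2 * (C + 1)) < 1 := by
            rw [div_lt_one (by (clear * -; positivity))]; linarith only [hC0]
          (by_contra nlg; linarith only [mul_pos (sub_pos.2 hδ₀) (sub_pos.2 h2), mul_nonneg (mul_self_nonneg (1 : ℝ)) (sub_nonneg.2 (not_lt.1 nlg))])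
  -- inductive step on the set of constrained coordinates
  have step : ∀ (J : Finset (Fin d)) (i : Fin d), i ∈ J →
      (∀ T, Good T → T ⊆ S → (∀ j ∈ J, Wid e T j δ) → P T) →
      (∀ T, Good T → T ⊆ S → (∀ j ∈ J.erase i, Wid e T j δ) → P T) := by
    intro J i hi hJ
    have inner : ∀ N : ℕ, ∀ T, Good T → T ⊆ S → (∀ j ∈ J.erase i, Wid e T j δ) →
        Wid e T i (2 ^ N * δ) → P T := by
      intro N
      induction N with
      | zero =>
        intro T hT hTS hW hi'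
        refine hJ T hT hTS fun j hj => ?_
        by_cases hji : j = i
        · subst hji; simpa using hi'
        · exact hW j (Finset.mem_erase.2 ⟨hji, hj⟩)
      | succ N ih =>
        intro T hT hTS hW hi'
        rcases T.eq_empty_or_nonempty with rfl | hTne
        · exact hempty
        have hcont : Continuous (fun x => e x i) := (continuous_apply i).comp e.continuous
        obtain ⟨x₀, hx₀, hmin⟩ := hT.1.exists_isMinOn hTne hcont.continuousOn
        set l : V →L[ℝ] ℝ := (ContinuousLinearMap.proj i).comp (e : V →L[ℝ] (Fin d → ℝ)) with hl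
        have hlx : ∀ x, l x = e x i := fun x => rfl
        set c := e x₀ i + 2 ^ N * δ with hc
        refine hmerge T hT hTS l c ?_ ?_
        · refine ih _ (hT.inter_le l c) (inter_subset_left.trans hTS)
            (fun j hj x hx y hy => hW j hj x hx.1 y hy.1) ?_
          intro x hx y hy
          have hx1 : e x₀ i ≤ e x i := hmin hx.1
          have hy1 : e x₀ i ≤ e y i := hmin hy.1
          have hx2 : e x i ≤ c := hx.2
          have hy2 : e y i ≤ c := hy.2
          rw [abs_le]; constructor <;> linarith only [hx1, hy2, hy1, hx2]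
        · refine ih _ (hT.inter_ge l c) (inter_subset_left.trans hTS)
            (fun j hj x hx y hy => hW j hj x hx.1 y hy.1) ?_
          intro x hx y hy
          have hx1 : e x i - e x₀ i ≤ 2 ^ (N + 1) * δ := (le_abs_self _).trans (hi' x hx.1 x₀ hx₀)
          have hy1 : e y i - e x₀ i ≤ 2 ^ (N + 1) * δ := (le_abs_self _).trans (hi' y hy.1 x₀ hx₀)
          have hx2 : c ≤ e x i := hx.2
          have hy2 : c ≤ e y i := hy.2
          have h2 : (2 : ℝ) ^ (N + 1) * δ = 2 ^ N * δ + 2 ^ N * δ := by ring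
          rw [abs_le]; constructor <;> linarith only [hx1, hy2, h2, hy1, hx2]
    intro T hT hTS hW
    have hcont : Continuous (fun x => e x i) := (continuous_apply i).comp e.continuous
    obtain ⟨M, hM⟩ := (hT.1.image hcont).isBounded.exists_norm_le
    obtain ⟨N, hN⟩ : ∃ N : ℕ, 2 * M ≤ 2 ^ N * δ := by
      obtain ⟨N, hN⟩ := pow_unbounded_of_one_lt (2 * M / δ) (one_lt_two : (1:ℝ) < 2)
      exact ⟨N, by rw [div_lt_iff₀ hδ] at hN; exact hN.le⟩
    refine inner N T hT hTS hW fun x hx y hy => ?_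
    have h1 : |e x i| ≤ M := hM _ ⟨x, hx, rfl⟩
    have h2 : |e y i| ≤ M := hM _ ⟨y, hy, rfl⟩
    calc |e x i - e y i| ≤ |e x i| + |e y i| := abs_sub _ _
      _ ≤ 2 ^ N * δ := by linarith only [hN, h1, h2]
  have all : ∀ J : Finset (Fin d), ∀ T, Good T → T ⊆ S → (∀ j ∈ Jᶜ, Wid e T j δ) → P T := by
    intro J
    induction J using Finset.induction_on with
    | empty => simpa only [Finset.compl_empty, Finset.mem_univ, forall_const] using base
    | insert i J hi ih =>
      have := step Jᶜ i (by simpa using hi) ih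
      have h2 : (insert i J)ᶜ = Jᶜ.erase i := by
        rw [Finset.compl_insert]
      rw [h2]; exact this
  exact all Finset.univ S hS subset_rfl (by simp only [Finset.compl_univ, Finset.notMem_empty, IsEmpty.forall_iff, implies_true])

end Vale.Agent.P290
end
end

section

section

open Set
open scoped Manifold ContDiff Topology

namespace Vale.Agent.P290.K

/-! ## Kummer surfaces -/

/-- The element with integer coordinates `n` of the lattice with basis `lam 0, …, lam 3` in `ℂ²`. -/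
noncomputable def lat (lam : Fin 4 → C2) (n : Fin 4 → ℤ) : C2 := ∑ k, (n k : ℂ) • lam k

/-- The parameters `(s, c)`, `c ≠ 0`, such that `√s c` is not a nonzero half lattice point.
`(s, c)` stands for the point `± √s c` of the resolution of `ℂ²/±1` at the origin (if `s = 0`: for
the point `[c]` of the exceptional curve). -/
def PP (lam : Fin 4 → C2) : Set (ℂ × C2) :=
  {x | x.2 ≠ 0 ∧ ∀ w : ℂ, w ^ 2 = x.1 → ∀ n : Fin 4 → ℤ, n ≠ 0 →
    w • x.2 ≠ (1 / 2 : ℂ) • lat lam n}

/-- When do `(s, c)` at the half lattice point `lat n / 2` and `(s', c')` at `lat n' / 2` define the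
same point of the Kummer surface. -/
def KRel (lam : Fin 4 → C2) (n : Fin 4 → ℤ) (x : ℂ × C2) (n' : Fin 4 → ℤ) (x' : ℂ × C2) : Prop :=
  (x.1 = 0 ∧ x'.1 = 0 ∧ (∃ m : Fin 4 → ℤ, n' = n + 2 • m) ∧ ∃ t : ℂ, t ≠ 0 ∧ x'.2 = t • x.2) ∨
  (x.1 ≠ 0 ∧ x'.1 ≠ 0 ∧ ∃ w w' : ℂ, w ^ 2 = x.1 ∧ w' ^ 2 = x'.1 ∧ ∃ m : Fin 4 → ℤ,
    (1 / 2 : ℂ) • lat lam n' + w' • x'.2 = (1 / 2 : ℂ) • lat lam n + w • x.2 + lat lam m)

/-- A Kummer structure on the complex surface `X`: `X` is the minimal resolution of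
`(ℂ²/Λ)/±1`, `Λ` the lattice with basis `lam`. The submersion `N n` maps `(s, c)`, `s ≠ 0`, to the
class of `lat n / 2 + √s c` and `(0, c)` to the point `[c]` of the exceptional curve over the class
of `lat n / 2`. -/
structure KummerData (lam : Fin 4 → C2) (X : Type) [TopologicalSpace X] [ChartedSpace C2 X] where
  N : (Fin 4 → ℤ) → ℂ × C2 → X
  holo : ∀ n, ∀ x ∈ PP lam, MDifferentiableAt 𝓘(ℂ, ℂ × C2) 𝓘(ℂ, C2) (N n) x
  subm : ∀ n, ∀ x ∈ PP lam,
    Function.Surjective (mfderiv 𝓘(ℂ, ℂ × C2) 𝓘(ℂ, C2) (N n) x)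
  rel : ∀ n, ∀ x ∈ PP lam, ∀ n', ∀ x' ∈ PP lam, (N n x = N n' x' ↔ KRel lam n x n' x')
  cover : ∀ y : X, ∃ n, ∃ x ∈ PP lam, N n x = y

/-- Kummer surfaces of arbitrary complex two-dimensional tori. -/
structure IsKummer (X : Type) [TopologicalSpace X] [ChartedSpace C2 X] : Prop where
  manifold : IsManifold 𝓘(ℂ, C2) ω X
  t2 : T2Space X
  kummer : ∃ lam : Fin 4 → C2, LinearIndependent ℝ lam ∧ Nonempty (KummerData lam X)

end Vale.Agent.P290.K
end
end

section

section

open Set Filter Metric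
open scoped Manifold ContDiff Topology

namespace Vale.Agent.P290.K

/-! ## Pell data -/

/-- `cosh (√h a)` -/
noncomputable def Cf (h a : ℂ) : ℂ := ∑' j : ℕ, h ^ j * a ^ (2 * j) / ((2 * j).factorial : ℂ)

/-- `sinh (√h a) / √h` -/
noncomputable def Sf (h a : ℂ) : ℂ :=
  ∑' j : ℕ, h ^ j * a ^ (2 * j + 1) / ((2 * j + 1).factorial : ℂ)

/-- `(h, p, q)` -/
abbrev SG : Type := ℂ × (Fin 4 → ℂ) × (Fin 4 → ℂ)

/-- `p_k² - h q_k² = 4` -/
def Pell (σ : SG) : Prop := ∀ k, σ.2.1 k ^ 2 - σ.1 * σ.2.2 k ^ 2 = 4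

/-- `(p_k + √h q_k)/2 = (-1)^{n_k} exp(√h a_k)` -/
def Log (σ : SG) (n : Fin 4 → ℤ) (a : Fin 4 → ℂ) : Prop :=
  ∀ k, σ.2.1 k = 2 * (-1 : ℂ) ^ (n k) * Cf σ.1 (a k) ∧
    σ.2.2 k = 2 * (-1 : ℂ) ^ (n k) * Sf σ.1 (a k)

/-- the linear map `ℂ⁴ → ℂ²` with `2πi e_k ↦ lam k` -/
noncomputable def Lm (lam : Fin 4 → C2) (a : Fin 4 → ℂ) : C2 :=
  ∑ k, (a k / (2 * Real.pi * Complex.I)) • lam k

/-- `((h, p, q), b)` -/
abbrev ND : Type := SG × C2

/-- the point is not in the bad set of the lattice -/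
def Avoid (lam : Fin 4 → C2) (x : ND) : Prop :=
  ∃ n a, Log x.1 n a ∧ (x.1.1, x.2 + Lm lam a) ∈ PP lam

/-- `x = ((h, p, q), b)` represents the point `y` of the Kummer surface -/
def Rep {lam : Fin 4 → C2} {X : Type} [TopologicalSpace X] [ChartedSpace C2 X]
    (D : KummerData lam X) (x : ND) (y : X) : Prop :=
  ∃ n a, Log x.1 n a ∧ (x.1.1, x.2 + Lm lam a) ∈ PP lam ∧ D.N n (x.1.1, x.2 + Lm lam a) = y

/-- the approximation property for Pell data avoiding the bad set of the lattice -/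
def Appr (lam : Fin 4 → C2) : Prop :=
  ∀ (m : ℕ) (K K' : Set (Fin m → ℂ)), Good K → Good K' → K.Nonempty → K ⊆ K' →
    ∀ R : (Fin m → ℂ) → ND, HolNear K R → (∀ᶠ z in 𝓝ˢ K, Pell (R z).1) →
    (∀ z ∈ K, Avoid lam (R z)) → ∀ ε > 0,
    ∃ R' : (Fin m → ℂ) → ND, HolNear K' R' ∧ (∀ᶠ z in 𝓝ˢ K', Pell (R' z).1) ∧
      (∀ z ∈ K', Avoid lam (R' z)) ∧ ∀ z ∈ K, ‖R' z - R z‖ < ε

/-! ## Path lifting -/

/-- `β s`, `s ∈ [0,1]`, is a continuous path of holomorphic maps near `K` with values in `O`. -/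
def IsPath {V F : Type} [NormedAddCommGroup V] [NormedSpace ℂ V] [NormedAddCommGroup F]
    [NormedSpace ℂ F] (O : Set (ℝ × V × F)) (K : Set V) (β : ℝ → V → F) : Prop :=
  (∃ U : Set V, IsOpen U ∧ K ⊆ U ∧ (∀ s ∈ Icc (0 : ℝ) 1, DifferentiableOn ℂ (β s) U) ∧
    ContinuousOn (fun x : ℝ × V => β x.1 x.2) (Icc (0 : ℝ) 1 ×ˢ U)) ∧
  ∀ s ∈ Icc (0 : ℝ) 1, ∀ z ∈ K, (s, z, β s z) ∈ O

/-- Path lifting and approximation property of the pair `K ⊆ K'`. -/
def Lift {V F : Type} [NormedAddCommGroup V] [NormedSpace ℂ V] [NormedAddCommGroup F]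
    [NormedSpace ℂ F] (O : Set (ℝ × V × F)) (K K' : Set V) : Prop :=
  ∀ β : ℝ → V → F, IsPath O K β → ∀ b : V → F, HolNear K' b → (∀ z ∈ K', ((0 : ℝ), z, b z) ∈ O) →
    b =ᶠ[𝓝ˢ K] β 0 → ∀ ε > 0, ∃ β' : ℝ → V → F, IsPath O K' β' ∧ β' 0 =ᶠ[𝓝ˢ K'] b ∧
      ∀ s ∈ Icc (0 : ℝ) 1, ∀ z ∈ K, ‖β' s z - β s z‖ < ε

/-- `O` is open over `[0,1] × U` -/
def OpenOver {V F : Type} [NormedAddCommGroup V] [NormedSpace ℂ V] [NormedAddCommGroup F]
    [NormedSpace ℂ F] (O : Set (ℝ × V × F)) (U : Set V) : Prop :=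
  ∀ x ∈ O, x.1 ∈ Icc (0 : ℝ) 1 → x.2.1 ∈ U → O ∈ 𝓝[Icc (0 : ℝ) 1 ×ˢ univ] x

/-- `sin (π √h c) / √h` -/
noncomputable def Sn (h c : ℂ) : ℂ := -Complex.I * Sf h (Real.pi * Complex.I * c)

/-- the standard model of the good set: `√h c ∉ ℤ × 0` (and `c ≠ 0` if `h = 0`) -/
def Psh : Set (ℂ × C2) := {x | ¬ (x.2.2 = 0 ∧ Sn x.1 x.2.1 = 0)}

/-- the segment of lattices from `lam₀` to `lam₁` -/
noncomputable def seg (lam₀ lam₁ : Fin 4 → C2) (s : ℝ) (k : Fin 4) : C2 :=
  ((1 - s : ℝ) : ℂ) • lam₀ k + ((s : ℝ) : ℂ) • lam₁ k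

/-- the good set for a family of lattices and Pell data `σ` -/
def OO {V : Type} (lam : ℝ → Fin 4 → C2) (σ : V → SG) : Set (ℝ × V × C2) :=
  {x | Avoid (lam x.1) (σ x.2.1, x.2.2)}

/-- the lattice `ℤ[i]²` -/
noncomputable def std : Fin 4 → C2 :=
  ![(1, 0), (0, 1), (Complex.I, 0), (0, Complex.I)]

end Vale.Agent.P290.K
end
end

section

section

open Set Filter Metric
open scoped Manifold ContDiff Topology

namespace Vale.Agent.P290.K

/-! ### The functions `Cf` and `Sf` -/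

/-- `G x = ∑ x^j / (2j)!` -/
noncomputable def Gf (x : ℂ) : ℂ := ∑' j : ℕ, x ^ j / ((2 * j).factorial : ℂ)

/-- `H x = ∑ x^j / (2j+1)!` -/
noncomputable def Hf (x : ℂ) : ℂ := ∑' j : ℕ, x ^ j / ((2 * j + 1).factorial : ℂ)

theorem Cf_eq_Gf (h a : ℂ) : Cf h a = Gf (h * a ^ 2) := by
  unfold Cf Gf
  congr 1
  funext j
  rw [mul_pow, ← pow_mul]

theorem Sf_eq_Hf (h a : ℂ) : Sf h a = a * Hf (h * a ^ 2) := by
  unfold Sf Hf
  rw [← tsum_mul_left]
  congr 1
  funext j
  rw [mul_pow, ← pow_mul, pow_succ]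
  ring

theorem differentiable_of_factorial (f : ℕ → ℕ) (hf : ∀ j, j ≤ f j) :
    Differentiable ℂ (fun x : ℂ => ∑' j : ℕ, x ^ j / ((f j).factorial : ℂ)) := by
  intro x
  have hdiff : DifferentiableOn ℂ (fun x : ℂ => ∑' j : ℕ, x ^ j / ((f j).factorial : ℂ))
      (ball 0 (‖x‖ + 1)) := by
    apply Complex.differentiableOn_tsum_of_summable_norm
      (u := fun j : ℕ => (‖x‖ + 1) ^ j / (j.factorial : ℝ))
    · exact Real.summable_pow_div_factorial _
    · intro j
      (clear * -; fun_prop)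
    · exact isOpen_ball
    · intro j z hz
      rw [norm_div, norm_pow]
      have h1 : ‖z‖ ≤ ‖x‖ + 1 := by
        have := mem_ball_zero_iff.mp hz
        exact this.le
      have h2 : ‖((f j).factorial : ℂ)‖ = ((f j).factorial : ℝ) := by
        rw [Complex.norm_natCast]
      rw [h2]
      apply div_le_div₀ (by (clear * -; positivity))
      · exact pow_le_pow_left₀ (norm_nonneg _) h1 j
      · exact_mod_cast Nat.factorial_pos j
      · exact_mod_cast Nat.factorial_le (hf j)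
  exact (hdiff.differentiableAt (isOpen_ball.mem_nhds (by
    rw [mem_ball_zero_iff]; linarith [norm_nonneg x])))

theorem differentiable_Gf : Differentiable ℂ Gf :=
  differentiable_of_factorial (fun j => 2 * j) (fun j => by (clear * -; omega))

theorem differentiable_Hf : Differentiable ℂ Hf :=
  differentiable_of_factorial (fun j => 2 * j + 1) (fun j => by (clear * -; omega))

theorem Cf_zero_left (a : ℂ) : Cf 0 a = 1 := by
  unfold Cf
  rw [tsum_eq_single 0]
  · simp only [pow_zero, mul_zero, mul_one, Nat.factorial_zero, Nat.cast_one, ne_eq, one_ne_zero, not_false_eq_true, div_self]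
  · intro j hj
    simp only [ne_eq, hj, not_false_eq_true, zero_pow, zero_mul, zero_div]

theorem Sf_zero_left (a : ℂ) : Sf 0 a = a := by
  unfold Sf
  rw [tsum_eq_single 0]
  · simp only [pow_zero, mul_zero, zero_add, pow_one, one_mul, Nat.factorial_one, Nat.cast_one, div_one]
  · intro j hj
    simp [hj]

theorem Cf_zero_right (h : ℂ) : Cf h 0 = 1 := by
  unfold Cf
  rw [tsum_eq_single 0]
  · simp
  · intro j hj
    simp only [ne_eq, mul_eq_zero, OfNat.ofNat_ne_zero, hj, or_self, not_false_eq_true, zero_pow, mul_zero, zero_div]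

theorem Sf_zero_right (h : ℂ) : Sf h 0 = 0 := by
  rw [Sf_eq_Hf]
  simp

theorem Cf_sq (w a : ℂ) : Cf (w ^ 2) a = Complex.cosh (w * a) := by
  unfold Cf
  have := (Complex.hasSum_cosh (w * a)).tsum_eq
  rw [← this]
  congr 1
  funext j
  rw [mul_pow, ← pow_mul]

theorem Sf_sq (w a : ℂ) : w * Sf (w ^ 2) a = Complex.sinh (w * a) := by
  unfold Sf
  have := (Complex.hasSum_sinh (w * a)).tsum_eq
  rw [← this, ← tsum_mul_left]
  congr 1
  funext j
  rw [mul_pow, ← pow_mul, pow_succ w]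
  ring

theorem exists_sqrt (h : ℂ) : ∃ w : ℂ, w ^ 2 = h := by
  obtain ⟨w, hw⟩ := IsAlgClosed.exists_pow_nat_eq h (n := 2) (by norm_num)
  exact ⟨w, hw⟩

theorem Cf_add (h a b : ℂ) : Cf h (a + b) = Cf h a * Cf h b + h * (Sf h a * Sf h b) := by
  obtain ⟨w, rfl⟩ := exists_sqrt h
  have h1 : w ^ 2 * (Sf (w ^ 2) a * Sf (w ^ 2) b)
      = (w * Sf (w ^ 2) a) * (w * Sf (w ^ 2) b) := by ring
  rw [h1, Sf_sq, Sf_sq, Cf_sq, Cf_sq, Cf_sq, mul_add, Complex.cosh_add]

theorem Sf_add (h a b : ℂ) : Sf h (a + b) = Sf h a * Cf h b + Cf h a * Sf h b := by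
  obtain ⟨w, rfl⟩ := exists_sqrt h
  by_cases hw : w = 0
  · subst hw
    have h0 : (0 : ℂ) ^ 2 = 0 := by norm_num
    rw [h0]
    simp only [Sf_zero_left, Cf_zero_left]
    ring
  · apply mul_left_cancel₀ hw
    rw [mul_add, ← mul_assoc, Sf_sq, Sf_sq, Cf_sq, Cf_sq, mul_left_comm w, Sf_sq, mul_add,
      Complex.sinh_add]

theorem Cf_neg (h a : ℂ) : Cf h (-a) = Cf h a := by
  rw [Cf_eq_Gf, Cf_eq_Gf]
  congr 1
  ring

theorem Sf_neg (h a : ℂ) : Sf h (-a) = - Sf h a := by
  rw [Sf_eq_Hf, Sf_eq_Hf]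
  have : h * (-a) ^ 2 = h * a ^ 2 := by ring
  rw [this]
  ring

theorem Cf_sq_sub (h a : ℂ) : Cf h a ^ 2 - h * Sf h a ^ 2 = 1 := by
  obtain ⟨w, rfl⟩ := exists_sqrt h
  have h1 : w ^ 2 * Sf (w ^ 2) a ^ 2 = (w * Sf (w ^ 2) a) ^ 2 := by ring
  rw [h1, Sf_sq, Cf_sq, Complex.cosh_sq_sub_sinh_sq]

theorem Cf_scale (h a : ℂ) {u : ℂ} (hu : u ≠ 0) : Cf (h / u ^ 2) (u * a) = Cf h a := by
  rw [Cf_eq_Gf, Cf_eq_Gf]
  congr 1
  (clear * - hu; field_simp)

theorem Sf_scale (h a : ℂ) {u : ℂ} (hu : u ≠ 0) : Sf (h / u ^ 2) (u * a) = u * Sf h a := by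
  rw [Sf_eq_Hf, Sf_eq_Hf]
  have : h / u ^ 2 * (u * a) ^ 2 = h * a ^ 2 := by (clear * - hu; field_simp)
  rw [this]
  ring

theorem differentiable_Cf : Differentiable ℂ (fun x : ℂ × ℂ => Cf x.1 x.2) := by
  have : (fun x : ℂ × ℂ => Cf x.1 x.2) = fun x : ℂ × ℂ => Gf (x.1 * x.2 ^ 2) := by
    funext x
    exact Cf_eq_Gf _ _
  rw [this]
  exact differentiable_Gf.comp (by fun_prop)

theorem differentiable_Sf : Differentiable ℂ (fun x : ℂ × ℂ => Sf x.1 x.2) := by
  have : (fun x : ℂ × ℂ => Sf x.1 x.2) = fun x : ℂ × ℂ => x.2 * Hf (x.1 * x.2 ^ 2) := by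
    funext x
    exact Sf_eq_Hf _ _
  rw [this]
  exact differentiable_snd.mul (differentiable_Hf.comp (by (clear * -; fun_prop)))

/-- `exp (w a) = cosh (w a) + w (sinh (w a) / w)` -/
theorem Cf_add_Sf (w a : ℂ) : Cf (w ^ 2) a + w * Sf (w ^ 2) a = Complex.exp (w * a) := by
  rw [Cf_sq, Sf_sq, Complex.cosh_add_sinh]

theorem Cf_sub_Sf (w a : ℂ) : Cf (w ^ 2) a - w * Sf (w ^ 2) a = Complex.exp (-(w * a)) := by
  rw [Cf_sq, Sf_sq, Complex.cosh_sub_sinh]

end Vale.Agent.P290.K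
end
end

section

section

open Set Filter Metric
open scoped Manifold ContDiff Topology

namespace Vale.Agent.P290.K

/-! ### Logarithms of Pell data -/

theorem sgn_mul_self (n : ℤ) : (-1 : ℂ) ^ n * (-1 : ℂ) ^ n = 1 := by
  rw [← mul_zpow]; norm_num

theorem sgn_ne_zero (n : ℤ) : (-1 : ℂ) ^ n ≠ 0 := zpow_ne_zero _ (by norm_num)

theorem sgn_eq_exp (n : ℤ) : (-1 : ℂ) ^ n = Complex.exp (Real.pi * Complex.I * n) := by
  rw [← Complex.exp_pi_mul_I, ← Complex.exp_int_mul]
  congr 1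
  ring

theorem sgn_eq {n n' : ℤ} (h : (-1 : ℂ) ^ n = (-1 : ℂ) ^ n') : ∃ m : ℤ, n' = n + 2 * m := by
  rcases Int.even_or_odd (n' - n) with h1 | h1
  · obtain ⟨m, hm⟩ := h1
    exact ⟨m, by omega⟩
  · exfalso
    have h2 : (-1 : ℂ) ^ (n' - n) = -1 := h1.neg_one_zpow
    have h3 : (-1 : ℂ) ^ n' = (-1 : ℂ) ^ (n' - n) * (-1 : ℂ) ^ n := by
      rw [← zpow_add₀ (by norm_num)]
      congr 1
      ring
    rw [h2, ← h] at h3
    have h4 : (2 : ℂ) * (-1 : ℂ) ^ n = 0 := by linear_combination h3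
    rcases mul_eq_zero.1 h4 with h5 | h5
    · norm_num at h5
    · exact sgn_ne_zero n h5

theorem Log.pell {σ : SG} {n : Fin 4 → ℤ} {a : Fin 4 → ℂ} (h : Log σ n a) : Pell σ := by
  intro k
  obtain ⟨h1, h2⟩ := h k
  rw [h1, h2]
  linear_combination 4 * ((-1 : ℂ) ^ n k * (-1 : ℂ) ^ n k) * Cf_sq_sub σ.1 (a k) +
    4 * sgn_mul_self (n k)

/-- Pell data in terms of the exponential -/
theorem log_of_exp {h w p q a : ℂ} {n : ℤ} (hw : w ^ 2 = h) (hw0 : w ≠ 0)
    (hp : p ^ 2 - h * q ^ 2 = 4) (he : 2 * (-1 : ℂ) ^ n * Complex.exp (w * a) = p + w * q) :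
    p = 2 * (-1 : ℂ) ^ n * Cf h a ∧ q = 2 * (-1 : ℂ) ^ n * Sf h a := by
  subst hw
  have hs := sgn_mul_self n
  have hee : Complex.exp (w * a) * Complex.exp (-(w * a)) = 1 := by
    rw [← Complex.exp_add]; simp
  have hne : p + w * q ≠ 0 := by
    rw [← he]
    exact mul_ne_zero (mul_ne_zero two_ne_zero (sgn_ne_zero n)) (Complex.exp_ne_zero _)
  have he2 : 2 * (-1 : ℂ) ^ n * Complex.exp (-(w * a)) = p - w * q := by
    apply mul_left_cancel₀ hne
    have h1 : (p + w * q) * (p - w * q) = 4 := by linear_combination hp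
    rw [h1, ← he]
    linear_combination 4 * ((-1 : ℂ) ^ n * (-1 : ℂ) ^ n) * hee + 4 * hs
  have hC := Cf_add_Sf w a
  have hS := Cf_sub_Sf w a
  constructor
  · linear_combination (-(1 / 2 : ℂ)) * he - (1 / 2 : ℂ) * he2 -
      (-1 : ℂ) ^ n * hC - (-1 : ℂ) ^ n * hS
  · apply mul_left_cancel₀ hw0
    linear_combination (-(1 / 2 : ℂ)) * he + (1 / 2 : ℂ) * he2 -
      (-1 : ℂ) ^ n * hC + (-1 : ℂ) ^ n * hS

theorem exists_log_one {h p q : ℂ} (hp : p ^ 2 - h * q ^ 2 = 4) :
    ∃ (n : ℤ) (a : ℂ), p = 2 * (-1 : ℂ) ^ n * Cf h a ∧ q = 2 * (-1 : ℂ) ^ n * Sf h a := by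
  rcases eq_or_ne h 0 with h0 | h0
  · subst h0
    have h1 : (p - 2) * (p + 2) = 0 := by linear_combination hp
    rcases mul_eq_zero.1 h1 with h2 | h2
    · refine ⟨0, q / 2, ?_, ?_⟩
      · rw [Cf_zero_left]; simp; linear_combination h2
      · rw [Sf_zero_left]; simp only [zpow_ofNat, pow_zero, mul_one]; ring
    · refine ⟨1, -(q / 2), ?_, ?_⟩
      · rw [Cf_zero_left]; simp; linear_combination h2
      · rw [Sf_zero_left]; simp only [zpow_ofNat, pow_one, mul_neg, mul_one, neg_mul, neg_neg]; ring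
  · obtain ⟨w, hw⟩ := IsAlgClosed.exists_pow_nat_eq h (n := 2) (by norm_num)
    have hw0 : w ≠ 0 := by
      rintro rfl
      exact h0 (by rw [← hw]; ring)
    have h1 : (p + w * q) * (p - w * q) = 4 := by
      linear_combination hp - q ^ 2 * hw
    have hne : (p + w * q) / 2 ≠ 0 := by
      intro h2
      have h3 : p + w * q = 0 := by linear_combination 2 * h2
      rw [h3, zero_mul] at h1
      norm_num at h1
    refine ⟨0, Complex.log ((p + w * q) / 2) / w, ?_⟩
    apply log_of_exp hw hw0 hp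
    rw [mul_div_cancel₀ _ hw0, Complex.exp_log hne]
    simp only [zpow_ofNat, pow_zero, mul_one]
    ring

theorem exists_log_of_pell {σ : SG} (h : Pell σ) : ∃ n a, Log σ n a := by
  choose n a hna using fun k => exists_log_one (h k)
  exact ⟨n, a, hna⟩

/-- the local logarithm in one coordinate, outside the branch locus -/
theorem exists_log_fun_ne {h₀ p₀ q₀ a₀ : ℂ} {n : ℤ} (hh : h₀ ≠ 0)
    (hp : p₀ = 2 * (-1 : ℂ) ^ n * Cf h₀ a₀) (hq : q₀ = 2 * (-1 : ℂ) ^ n * Sf h₀ a₀) :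
    ∃ A : ℂ × ℂ × ℂ → ℂ, A (h₀, p₀, q₀) = a₀ ∧
      (∀ᶠ x in 𝓝 (h₀, p₀, q₀), DifferentiableAt ℂ A x) ∧
      ∀ᶠ x in 𝓝 (h₀, p₀, q₀), x.2.1 ^ 2 - x.1 * x.2.2 ^ 2 = 4 →
        x.2.1 = 2 * (-1 : ℂ) ^ n * Cf x.1 (A x) ∧ x.2.2 = 2 * (-1 : ℂ) ^ n * Sf x.1 (A x) := by
  obtain ⟨w₀, hw₀⟩ := IsAlgClosed.exists_pow_nat_eq h₀ (n := 2) (by norm_num)
  have hw₀0 : w₀ ≠ 0 := by
    rintro rfl
    exact hh (by rw [← hw₀]; ring)
  set c : ℂ := p₀ + w₀ * q₀ with hc
  have hcE : c = 2 * (-1 : ℂ) ^ n * Complex.exp (w₀ * a₀) := by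
    rw [hc, hp, hq, ← Cf_add_Sf, hw₀]; ring
  have hc0 : c ≠ 0 := by
    rw [hcE]
    exact mul_ne_zero (mul_ne_zero two_ne_zero (sgn_ne_zero n)) (Complex.exp_ne_zero _)
  set Wf : ℂ × ℂ × ℂ → ℂ := fun x => w₀ * Complex.exp (Complex.log (x.1 / h₀) / 2) with hWf
  have hWf0 : ∀ x, Wf x ≠ 0 := fun x => mul_ne_zero hw₀0 (Complex.exp_ne_zero _)
  set Q : ℂ × ℂ × ℂ → ℂ := fun x => (x.2.1 + Wf x * x.2.2) / c with hQ
  have hWf1 : Wf (h₀, p₀, q₀) = w₀ := by simp only [hWf, div_self hh, Complex.log_one, zero_div, Complex.exp_zero, mul_one]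
  have hQ1 : Q (h₀, p₀, q₀) = 1 := by
    simp only [hQ, hWf1]
    exact div_self hc0
  have hWs : ∀ᶠ x : ℂ × ℂ × ℂ in 𝓝 (h₀, p₀, q₀), x.1 / h₀ ∈ Complex.slitPlane := by
    have hcont : ContinuousAt (fun x : ℂ × ℂ × ℂ => x.1 / h₀) (h₀, p₀, q₀) := by (clear * - hh; fun_prop)
    apply hcont.eventually_mem
    apply Complex.isOpen_slitPlane.mem_nhds
    simp only [div_self hh, Complex.one_mem_slitPlane]
  have hWd : ∀ x : ℂ × ℂ × ℂ, x.1 / h₀ ∈ Complex.slitPlane → DifferentiableAt ℂ Wf x := by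
    intro x hx
    have h1 : DifferentiableAt ℂ (fun x : ℂ × ℂ × ℂ => x.1 / h₀) x := by fun_prop
    have h2 : DifferentiableAt ℂ (fun x : ℂ × ℂ × ℂ => Complex.log (x.1 / h₀)) x := h1.clog hx
    have h3 : DifferentiableAt ℂ (fun x : ℂ × ℂ × ℂ => Complex.log (x.1 / h₀) / (2 : ℂ)) x := by
      simpa only [div_eq_mul_inv] using h2.mul_const (2 : ℂ)⁻¹
    exact (h3.cexp).const_mul w₀
  have hQd : ∀ x : ℂ × ℂ × ℂ, x.1 / h₀ ∈ Complex.slitPlane → DifferentiableAt ℂ Q x := by
    intro x hx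
    have h1 := hWd x hx
    have h2 : DifferentiableAt ℂ (fun x : ℂ × ℂ × ℂ => x.2.1) x := by fun_prop
    have h3 : DifferentiableAt ℂ (fun x : ℂ × ℂ × ℂ => x.2.2) x := by fun_prop
    have h4 : DifferentiableAt ℂ (fun x : ℂ × ℂ × ℂ => x.2.1 + Wf x * x.2.2) x :=
      h2.add (h1.mul h3)
    have h5 : Q = fun x : ℂ × ℂ × ℂ => (x.2.1 + Wf x * x.2.2) * c⁻¹ := by
      funext y
      simp only [hQ, div_eq_mul_inv]
    rw [h5]
    exact h4.mul_const c⁻¹
  have hQs : ∀ᶠ x : ℂ × ℂ × ℂ in 𝓝 (h₀, p₀, q₀), Q x ∈ Complex.slitPlane := by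
    have hcont : ContinuousAt Q (h₀, p₀, q₀) :=
      (hQd _ (by simp only [div_self hh, Complex.one_mem_slitPlane])).continuousAt
    apply hcont.eventually_mem
    apply Complex.isOpen_slitPlane.mem_nhds
    rw [hQ1]
    simp
  refine ⟨fun x => (w₀ * a₀ + Complex.log (Q x)) / Wf x, ?_, ?_, ?_⟩
  · simp only [hQ1, hWf1, Complex.log_one, add_zero]
    exact mul_div_cancel_left₀ _ hw₀0
  · filter_upwards [hWs, hQs] with x hx1 hx2
    have h1 : DifferentiableAt ℂ (fun x : ℂ × ℂ × ℂ => w₀ * a₀ + Complex.log (Q x)) x :=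
      ((hQd x hx1).clog hx2).const_add _
    have h2 : DifferentiableAt ℂ (fun x : ℂ × ℂ × ℂ => (Wf x)⁻¹) x := (hWd x hx1).inv (hWf0 x)
    have h3 : DifferentiableAt ℂ
        (fun x : ℂ × ℂ × ℂ => (w₀ * a₀ + Complex.log (Q x)) * (Wf x)⁻¹) x := h1.mul h2
    simpa only [div_eq_mul_inv] using h3
  · have hne : ∀ᶠ x : ℂ × ℂ × ℂ in 𝓝 (h₀, p₀, q₀), x.1 ≠ 0 := by
      have hcont : ContinuousAt (fun x : ℂ × ℂ × ℂ => x.1) (h₀, p₀, q₀) := by fun_prop
      exact hcont.eventually_ne hh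
    filter_upwards [hWs, hQs, hne] with x hx1 hx2 hx3 hx4
    have hW2 : Wf x ^ 2 = x.1 := by
      simp only [hWf]
      rw [mul_pow, hw₀, ← Complex.exp_nat_mul]
      have : ((2 : ℕ) : ℂ) * (Complex.log (x.1 / h₀) / 2) = Complex.log (x.1 / h₀) := by
        push_cast; ring
      rw [this, Complex.exp_log (div_ne_zero hx3 hh)]
      (clear * - hh hx3; field_simp)
    apply log_of_exp hW2 (hWf0 x) hx4
    rw [mul_div_cancel₀ _ (hWf0 x), Complex.exp_add, Complex.exp_log (Complex.slitPlane_ne_zero hx2)]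
    have : 2 * (-1 : ℂ) ^ n * (Complex.exp (w₀ * a₀) * Q x) = c * Q x := by
      rw [hcE]; ring
    rw [this]
    simp only [hQ]
    rw [mul_div_cancel₀ _ hc0]

/-- the local logarithm in one coordinate, at the branch locus -/
theorem exists_log_fun_zero {p₀ q₀ a₀ : ℂ} {n : ℤ}
    (hp : p₀ = 2 * (-1 : ℂ) ^ n * Cf 0 a₀) (hq : q₀ = 2 * (-1 : ℂ) ^ n * Sf 0 a₀) :
    ∃ A : ℂ × ℂ × ℂ → ℂ, A (0, p₀, q₀) = a₀ ∧
      (∀ᶠ x in 𝓝 (0, p₀, q₀), DifferentiableAt ℂ A x) ∧
      ∀ᶠ x in 𝓝 ((0 : ℂ), p₀, q₀), x.2.1 ^ 2 - x.1 * x.2.2 ^ 2 = 4 →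
        x.2.1 = 2 * (-1 : ℂ) ^ n * Cf x.1 (A x) ∧ x.2.2 = 2 * (-1 : ℂ) ^ n * Sf x.1 (A x) := by
  set s : ℂ := 2 * (-1 : ℂ) ^ n with hs
  have hs0 : s ≠ 0 := mul_ne_zero two_ne_zero (sgn_ne_zero n)
  set G : ℂ × ℂ → ℂ := fun x => s * Sf x.1 (a₀ + x.2) with hG
  have hGd : Differentiable ℂ G := by
    have h1 : Differentiable ℂ (fun x : ℂ × ℂ => (x.1, a₀ + x.2)) := by (clear * -; fun_prop)
    exact (differentiable_Sf.comp h1).const_mul s
  have hG0 : ∀ u, G (0, u) = s * (a₀ + u) := fun u => by simp [hG, Sf_zero_left]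
  have hfd : ∀ u : ℂ, fderiv ℂ G (0, 0) (0, u) = s * u := by
    intro u
    have h1 : HasFDerivAt G (fderiv ℂ G (0, 0)) ((fun t : ℂ => ((0 : ℂ), t * u)) 0) := by
      simpa only [zero_mul] using (hGd (0, 0)).hasFDerivAt
    have h2 : HasDerivAt (fun t : ℂ => ((0 : ℂ), t * u)) (0, u) 0 := by
      have h3 : HasDerivAt (fun t : ℂ => t * u) u 0 := by
        simpa only [id_eq, one_mul] using (hasDerivAt_id (0 : ℂ)).mul_const u
      exact (hasDerivAt_const (0 : ℂ) (0 : ℂ)).prodMk h3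
    have h4 : HasDerivAt (fun t : ℂ => G (0, t * u)) (fderiv ℂ G (0, 0) (0, u)) 0 :=
      HasFDerivAt.comp_hasDerivAt (l := G) (f := fun t : ℂ => ((0 : ℂ), t * u)) (0 : ℂ) h1 h2
    have h5 : HasDerivAt (fun t : ℂ => G (0, t * u)) (s * u) 0 := by
      have h6 : (fun t : ℂ => G (0, t * u)) = fun t => s * (a₀ + t * u) := by
        funext t; exact hG0 _
      rw [h6]
      have h7 : HasDerivAt (fun t : ℂ => t * u) u 0 := by
        simpa only [id_eq, one_mul] using (hasDerivAt_id (0 : ℂ)).mul_const u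
      exact (h7.const_add a₀).const_mul s
    exact h4.unique h5
  obtain ⟨v, hv0, hv⟩ := local_exists (V := ℂ) (W := ℂ) (E := ℂ) G 0
    (Eventually.of_forall fun p => hGd p) (fun _ => ContinuousLinearMap.id ℂ ℂ)
    (Eventually.of_forall fun z => by fun_prop) (Eventually.of_forall fun z u => rfl)
    (fun y => ⟨y / s, by
      rw [hfd]
      simp only [ContinuousLinearMap.id_apply]
      exact mul_div_cancel₀ _ hs0⟩)
  have hG00 : G (0, 0) = q₀ := by
    rw [hG0, add_zero, hq, Sf_zero_left]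
  rw [hG00] at hv0 hv
  have hpr : Tendsto (fun x : ℂ × ℂ × ℂ => (x.1, x.2.2)) (𝓝 (0, p₀, q₀)) (𝓝 (0, q₀)) := by
    have : ContinuousAt (fun x : ℂ × ℂ × ℂ => (x.1, x.2.2)) (0, p₀, q₀) := by fun_prop
    exact this
  have hev := hpr.eventually hv
  set A : ℂ × ℂ × ℂ → ℂ := fun x => a₀ + v (x.1, x.2.2) with hA
  have hAd : ∀ᶠ x in 𝓝 (0, p₀, q₀), DifferentiableAt ℂ A x := by
    filter_upwards [hev] with x hx
    have h1 : DifferentiableAt ℂ (fun x : ℂ × ℂ × ℂ => (x.1, x.2.2)) x := by (clear * -; fun_prop)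
    exact (DifferentiableAt.comp x hx.1 h1).const_add a₀
  have hA0 : A (0, p₀, q₀) = a₀ := by simp [hA, hv0]
  refine ⟨A, hA0, hAd, ?_⟩
  -- `p` and `s * Cf` are both close to `s`
  have hAc : ContinuousAt A (0, p₀, q₀) := hAd.self_of_nhds.continuousAt
  have hCc : ContinuousAt (fun x : ℂ × ℂ × ℂ => x.2.1 + s * Cf x.1 (A x)) (0, p₀, q₀) := by
    have h1 : ContinuousAt (fun x : ℂ × ℂ × ℂ => (x.1, A x)) (0, p₀, q₀) := by
      have : ContinuousAt (fun x : ℂ × ℂ × ℂ => x.1) (0, p₀, q₀) := by fun_prop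
      exact this.prodMk hAc
    have h2 : ContinuousAt (fun x : ℂ × ℂ × ℂ => Cf x.1 (A x)) (0, p₀, q₀) := by
      have h3 : ContinuousAt (fun x : ℂ × ℂ => Cf x.1 x.2)
          ((fun x : ℂ × ℂ × ℂ => (x.1, A x)) (0, p₀, q₀)) :=
        differentiable_Cf.continuous.continuousAt
      exact ContinuousAt.comp (f := fun x : ℂ × ℂ × ℂ => (x.1, A x)) h3 h1
    have h4 : ContinuousAt (fun x : ℂ × ℂ × ℂ => x.2.1) (0, p₀, q₀) := by fun_prop
    exact h4.add (h2.const_mul s)
  have hCne : ∀ᶠ x : ℂ × ℂ × ℂ in 𝓝 (0, p₀, q₀), x.2.1 + s * Cf x.1 (A x) ≠ 0 := by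
    apply hCc.eventually_ne
    rw [hA0, Cf_zero_left, hp, Cf_zero_left, mul_one, ← two_mul]
    exact mul_ne_zero two_ne_zero hs0
  filter_upwards [hev, hCne] with x hx hx2 hx3
  have hSf : s * Sf x.1 (A x) = x.2.2 := hx.2.1
  refine ⟨?_, hSf.symm⟩
  have h1 := Cf_sq_sub x.1 (A x)
  have hss : s ^ 2 = 4 := by
    rw [hs]
    linear_combination 4 * sgn_mul_self n
  have h2 : (x.2.1 - s * Cf x.1 (A x)) * (x.2.1 + s * Cf x.1 (A x)) = 0 := by
    rw [← hSf] at hx3
    linear_combination hx3 - s ^ 2 * h1 - hss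
  rcases mul_eq_zero.1 h2 with h3 | h3
  · linear_combination h3
  · exact absurd h3 hx2

/-- the logarithm is a holomorphic function near a given point -/
theorem exists_log_fun {σ₀ : SG} {n : Fin 4 → ℤ} {a₀ : Fin 4 → ℂ} (h : Log σ₀ n a₀) :
    ∃ A : SG → Fin 4 → ℂ, A σ₀ = a₀ ∧ (∀ᶠ σ in 𝓝 σ₀, DifferentiableAt ℂ A σ) ∧
      ∀ᶠ σ in 𝓝 σ₀, Pell σ → Log σ n (A σ) := by
  have key : ∀ k, ∃ B : ℂ × ℂ × ℂ → ℂ, B (σ₀.1, σ₀.2.1 k, σ₀.2.2 k) = a₀ k ∧
      (∀ᶠ x in 𝓝 (σ₀.1, σ₀.2.1 k, σ₀.2.2 k), DifferentiableAt ℂ B x) ∧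
      ∀ᶠ x in 𝓝 (σ₀.1, σ₀.2.1 k, σ₀.2.2 k), x.2.1 ^ 2 - x.1 * x.2.2 ^ 2 = 4 →
        x.2.1 = 2 * (-1 : ℂ) ^ n k * Cf x.1 (B x) ∧
          x.2.2 = 2 * (-1 : ℂ) ^ n k * Sf x.1 (B x) := by
    intro k
    obtain ⟨h1, h2⟩ := h k
    rcases eq_or_ne σ₀.1 0 with h0 | h0
    · rw [h0] at h1 h2 ⊢
      exact exists_log_fun_zero h1 h2
    · exact exists_log_fun_ne h0 h1 h2
  choose B hB0 hBd hB using key
  have hpc : ∀ k, Differentiable ℂ (fun σ : SG => (σ.1, σ.2.1 k, σ.2.2 k)) := by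
    intro k
    have h1 : Differentiable ℂ (fun σ : SG => σ.2.1 k) := by fun_prop
    have h2 : Differentiable ℂ (fun σ : SG => σ.2.2 k) := by (clear * -; fun_prop)
    have h3 : Differentiable ℂ (fun σ : SG => σ.1) := by fun_prop
    exact h3.prodMk (h1.prodMk h2)
  have hten : ∀ k, Tendsto (fun σ : SG => (σ.1, σ.2.1 k, σ.2.2 k)) (𝓝 σ₀)
      (𝓝 (σ₀.1, σ₀.2.1 k, σ₀.2.2 k)) := fun k => (hpc k).continuous.continuousAt
  refine ⟨fun σ k => B k (σ.1, σ.2.1 k, σ.2.2 k), funext fun k => hB0 k, ?_, ?_⟩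
  · have h1 : ∀ᶠ σ in 𝓝 σ₀, ∀ k, DifferentiableAt ℂ (B k) (σ.1, σ.2.1 k, σ.2.2 k) :=
      eventually_all.2 fun k => (hten k).eventually (hBd k)
    filter_upwards [h1] with σ hσ
    rw [differentiableAt_pi]
    intro k
    exact DifferentiableAt.comp σ (hσ k) (hpc k σ)
  · have h1 : ∀ᶠ σ in 𝓝 σ₀, ∀ k, σ.2.1 k ^ 2 - σ.1 * σ.2.2 k ^ 2 = 4 →
        σ.2.1 k = 2 * (-1 : ℂ) ^ n k * Cf σ.1 (B k (σ.1, σ.2.1 k, σ.2.2 k)) ∧
          σ.2.2 k = 2 * (-1 : ℂ) ^ n k * Sf σ.1 (B k (σ.1, σ.2.1 k, σ.2.2 k)) :=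
      eventually_all.2 fun k => (hten k).eventually (hB k)
    filter_upwards [h1] with σ hσ hP k
    exact hσ k (hP k)

/-- uniqueness of the logarithm over the branch locus -/
theorem log_unique_zero {σ : SG} {n n' : Fin 4 → ℤ} {a a' : Fin 4 → ℂ} (h : Log σ n a)
    (h' : Log σ n' a') (h0 : σ.1 = 0) : a' = a ∧ ∃ m : Fin 4 → ℤ, n' = n + 2 • m := by
  have key : ∀ k, a' k = a k ∧ ∃ m : ℤ, n' k = n k + 2 * m := by
    intro k
    obtain ⟨h1, h2⟩ := h k
    obtain ⟨h1', h2'⟩ := h' k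
    rw [h0, Cf_zero_left, mul_one] at h1 h1'
    rw [h0, Sf_zero_left] at h2 h2'
    have h3 : (-1 : ℂ) ^ n k = (-1 : ℂ) ^ n' k := by
      have h4 : 2 * (-1 : ℂ) ^ n k = 2 * (-1 : ℂ) ^ n' k := h1.symm.trans h1'
      exact mul_left_cancel₀ two_ne_zero h4
    refine ⟨?_, sgn_eq h3⟩
    have h5 : 2 * (-1 : ℂ) ^ n' k * a' k = 2 * (-1 : ℂ) ^ n' k * a k := by
      rw [← h2', h2, h3]
    exact mul_left_cancel₀ (mul_ne_zero two_ne_zero (sgn_ne_zero _)) h5
  choose ha m hm using key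
  refine ⟨funext ha, m, funext fun k => ?_⟩
  rw [hm k]
  simp

/-- uniqueness of the logarithm outside the branch locus -/
theorem log_unique_ne {σ : SG} {n n' : Fin 4 → ℤ} {a a' : Fin 4 → ℂ} (h : Log σ n a)
    (h' : Log σ n' a') {w : ℂ} (hw : w ^ 2 = σ.1) :
    ∃ m : Fin 4 → ℤ, ∀ k, w * (a' k - a k) = Real.pi * Complex.I * (n k - n' k + 2 * m k) := by
  have key : ∀ k, ∃ m : ℤ,
      w * (a' k - a k) = Real.pi * Complex.I * (n k - n' k + 2 * m) := by
    intro k
    obtain ⟨h1, h2⟩ := h k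
    obtain ⟨h1', h2'⟩ := h' k
    rw [← hw] at h1 h2 h1' h2'
    have e1 : σ.2.1 k + w * σ.2.2 k = 2 * ((-1 : ℂ) ^ n k * Complex.exp (w * a k)) := by
      rw [h1, h2, ← Cf_add_Sf]; ring
    have e2 : σ.2.1 k + w * σ.2.2 k = 2 * ((-1 : ℂ) ^ n' k * Complex.exp (w * a' k)) := by
      rw [h1', h2', ← Cf_add_Sf]; ring
    have e3 : (-1 : ℂ) ^ n' k * Complex.exp (w * a' k) =
        (-1 : ℂ) ^ n k * Complex.exp (w * a k) :=
      mul_left_cancel₀ two_ne_zero (e2.symm.trans e1)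
    rw [sgn_eq_exp, sgn_eq_exp, ← Complex.exp_add, ← Complex.exp_add,
      Complex.exp_eq_exp_iff_exists_int] at e3
    obtain ⟨m, hm⟩ := e3
    refine ⟨m, ?_⟩
    linear_combination hm
  choose m hm using key
  exact ⟨m, hm⟩

theorem Lm_add (lam : Fin 4 → C2) (a b : Fin 4 → ℂ) : Lm lam (a + b) = Lm lam a + Lm lam b := by
  simp only [Lm, Pi.add_apply, add_div, add_smul, Finset.sum_add_distrib]

theorem Lm_smul (lam : Fin 4 → C2) (t : ℂ) (a : Fin 4 → ℂ) : Lm lam (t • a) = t • Lm lam a := by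
  simp only [Lm, Pi.smul_apply, smul_eq_mul, Finset.smul_sum, smul_smul, mul_div_assoc]

/-- `Lm (πi (n + 2 m)) = lat n / 2 + lat m` -/
theorem Lm_pi (lam : Fin 4 → C2) (n m : Fin 4 → ℤ) :
    Lm lam (fun k => Real.pi * Complex.I * (n k + 2 * m k)) =
      (1 / 2 : ℂ) • lat lam n + lat lam m := by
  simp only [Lm, lat, Finset.smul_sum, smul_smul, ← Finset.sum_add_distrib, ← add_smul]
  refine Finset.sum_congr rfl fun k _ => ?_
  congr 1
  rw [div_eq_iff (mul_ne_zero (mul_ne_zero two_ne_zero (by exact_mod_cast Real.pi_ne_zero))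
    Complex.I_ne_zero)]
  ring

theorem lat_add (lam : Fin 4 → C2) (n m : Fin 4 → ℤ) :
    lat lam (n + m) = lat lam n + lat lam m := by
  simp only [lat, Pi.add_apply, Int.cast_add, add_smul, Finset.sum_add_distrib]

theorem lat_sub (lam : Fin 4 → C2) (n m : Fin 4 → ℤ) :
    lat lam (n - m) = lat lam n - lat lam m := by
  simp only [lat, Pi.sub_apply, Int.cast_sub, sub_smul, Finset.sum_sub_distrib]

theorem lat_neg (lam : Fin 4 → C2) (n : Fin 4 → ℤ) : lat lam (-n) = - lat lam n := by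
  simp only [lat, Pi.neg_apply, Int.cast_neg, neg_smul, Finset.sum_neg_distrib]

theorem differentiable_Lm (lam : Fin 4 → C2) : Differentiable ℂ (Lm lam) := by
  unfold Lm
  (clear * -; fun_prop)

end Vale.Agent.P290.K
end
end

section

section

open Set Filter Metric
open scoped Manifold ContDiff Topology

namespace Vale.Agent.P290.K

/-! ### Openness of the good set -/

/-- the real linear combination of the basis of the lattice -/
noncomputable def a2T (lam : Fin 4 → C2) (r : Fin 4 → ℝ) : C2 := ∑ k, r k • lam k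

theorem a2T_int (lam : Fin 4 → C2) (n : Fin 4 → ℤ) :
    a2T lam (fun k => (n k : ℝ)) = lat lam n := by
  unfold a2T lat
  refine Finset.sum_congr rfl fun k _ => ?_
  ext <;> simp

theorem lat_eq_zero {lam : Fin 4 → C2} (hlam : LinearIndependent ℝ lam) {n : Fin 4 → ℤ}
    (h : lat lam n = 0) : n = 0 := by
  rw [← a2T_int] at h
  have h1 := Fintype.linearIndependent_iff.1 hlam _ h
  funext k
  have h2 := h1 k
  simpa using h2

/-- a uniform lower bound for the norms of lattice points -/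
theorem exists_lat_bound {lam₀ : Fin 4 → C2} (hlam : LinearIndependent ℝ lam₀) :
    ∃ κ > 0, ∀ᶠ lam in 𝓝 lam₀, ∀ n : Fin 4 → ℤ, ∀ k, κ * |(n k : ℝ)| ≤ ‖lat lam n‖ := by
  set T : (Fin 4 → ℝ) →ₗ[ℝ] C2 := Fintype.linearCombination ℝ lam₀ with hT
  have hTa : ∀ r, T r = a2T lam₀ r := fun r => by
    rw [hT, Fintype.linearCombination_apply]; rfl
  have hker : LinearMap.ker T = ⊥ := by
    rw [LinearMap.ker_eq_bot']
    intro r hr
    rw [hTa] at hr
    exact funext (Fintype.linearIndependent_iff.1 hlam r hr)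
  obtain ⟨K, hK0, hK⟩ := LinearMap.exists_antilipschitzWith T hker
  have hK0' : (0 : ℝ) < K := by exact_mod_cast hK0
  refine ⟨1 / (2 * K), by (clear * - hK0; positivity), ?_⟩
  have hδ : (0 : ℝ) < 1 / (8 * K) := by (clear * - hK0; positivity)
  filter_upwards [Metric.ball_mem_nhds lam₀ hδ] with lam hlam' n k
  rw [mem_ball, dist_eq_norm] at hlam'
  set r : Fin 4 → ℝ := fun k => (n k : ℝ) with hr
  have h1 : ‖r‖ ≤ K * ‖a2T lam₀ r‖ := by
    have := hK.le_mul_dist r 0
    rw [dist_zero_right, map_zero, dist_zero_right, hTa] at this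
    exact this
  have h2 : ‖a2T lam₀ r - a2T lam r‖ ≤ 4 * (‖r‖ * (1 / (8 * K))) := by
    have e : a2T lam₀ r - a2T lam r = ∑ k, r k • (lam₀ k - lam k) := by
      simp only [a2T, smul_sub, Finset.sum_sub_distrib]
    rw [e]
    have hb : ∀ k ∈ (Finset.univ : Finset (Fin 4)),
        ‖r k • (lam₀ k - lam k)‖ ≤ ‖r‖ * (1 / (8 * K)) := by
      intro k _
      rw [norm_smul]
      refine mul_le_mul (norm_le_pi_norm r k) ?_ (norm_nonneg _) (norm_nonneg _)
      have := norm_le_pi_norm (lam - lam₀) k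
      rw [norm_sub_rev]
      exact this.trans hlam'.le
    refine (norm_sum_le_of_le _ hb).trans ?_
    rw [Finset.sum_const, Finset.card_univ, Fintype.card_fin, nsmul_eq_mul]
    norm_num
  have h3 : ‖a2T lam₀ r‖ ≤ ‖a2T lam r‖ + 4 * (‖r‖ * (1 / (8 * K))) := by
    have := norm_sub_norm_le (a2T lam₀ r) (a2T lam r)
    linarith only [this, h2]
  have h4 : ‖r‖ ≤ K * ‖a2T lam r‖ + ‖r‖ / 2 := by
    refine h1.trans ((mul_le_mul_of_nonneg_left h3 hK0'.le).trans_eq ?_)
    field_simp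
    ring
  have h5 : ‖r‖ ≤ 2 * K * ‖a2T lam r‖ := by linarith only [h4]
  have h6 : |(n k : ℝ)| ≤ ‖r‖ := norm_le_pi_norm r k
  rw [← a2T_int, ← hr, one_div, inv_mul_le_iff₀ (by (clear * - hK0; positivity))]
  exact h6.trans h5

theorem a2_closed {lam : Fin 4 → C2} {s : ℂ} {c : C2} {n : Fin 4 → ℤ} {w : ℂ} (hw : w ^ 2 = s)
    (h : w • c = (1 / 2 : ℂ) • lat lam n) :
    s * c.1 ^ 2 = (lat lam n).1 ^ 2 / 4 ∧ s * (c.1 * c.2) = (lat lam n).1 * (lat lam n).2 / 4 ∧
      s * c.2 ^ 2 = (lat lam n).2 ^ 2 / 4 := by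
  have h1 : w * c.1 = 1 / 2 * (lat lam n).1 := congrArg Prod.fst h
  have h2 : w * c.2 = 1 / 2 * (lat lam n).2 := congrArg Prod.snd h
  subst hw
  refine ⟨?_, ?_, ?_⟩
  · linear_combination (w * c.1 + 1 / 2 * (lat lam n).1) * h1
  · linear_combination (w * c.2) * h1 + (1 / 2 * (lat lam n).1) * h2
  · linear_combination (w * c.2 + 1 / 2 * (lat lam n).2) * h2

theorem a2_exists {lam : Fin 4 → C2} {s : ℂ} {c : C2} {n : Fin 4 → ℤ} (hc : c ≠ 0)
    (h1 : s * c.1 ^ 2 = (lat lam n).1 ^ 2 / 4)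
    (h2 : s * (c.1 * c.2) = (lat lam n).1 * (lat lam n).2 / 4)
    (h3 : s * c.2 ^ 2 = (lat lam n).2 ^ 2 / 4) :
    ∃ w : ℂ, w ^ 2 = s ∧ w • c = (1 / 2 : ℂ) • lat lam n := by
  set l := lat lam n with hl
  by_cases hc1 : c.1 = 0
  · have hc2 : c.2 ≠ 0 := fun h => hc (Prod.ext hc1 h)
    have hl1 : l.1 = 0 := by
      rw [hc1] at h1
      have : l.1 ^ 2 = 0 := by linear_combination (-4) * h1
      exact pow_eq_zero_iff (two_ne_zero) |>.1 this
    refine ⟨l.2 / (2 * c.2), ?_, ?_⟩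
    · field_simp
      linear_combination (-4) * h3
    · refine Prod.ext ?_ ?_
      · simp only [Prod.smul_fst, hc1, smul_eq_mul, mul_zero, one_div, hl1]
      · simp only [Prod.smul_snd, smul_eq_mul]
        field_simp
  · refine ⟨l.1 / (2 * c.1), ?_, ?_⟩
    · field_simp
      linear_combination (-4) * h1
    · have key : l.1 * c.2 = l.2 * c.1 := by
        by_cases hl1 : l.1 = 0
        · rw [hl1] at h1 h2
          have hs : s = 0 := by
            have : s * c.1 ^ 2 = 0 := by rw [h1]; ring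
            exact (mul_eq_zero.1 this).resolve_right (pow_ne_zero 2 hc1)
          rw [hs] at h3
          have hl2 : l.2 = 0 := by
            have : l.2 ^ 2 = 0 := by linear_combination (-4) * h3
            exact pow_eq_zero_iff (two_ne_zero) |>.1 this
          rw [hl1, hl2]; ring
        · have : l.1 * (l.1 * c.2 - l.2 * c.1) = 0 := by
            linear_combination (-4 * c.2) * h1 + (4 * c.1) * h2
          exact sub_eq_zero.1 ((mul_eq_zero.1 this).resolve_left hl1)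
      refine Prod.ext ?_ ?_
      · simp only [Prod.smul_fst, smul_eq_mul]
        (clear * - hc1; field_simp)
      · simp only [Prod.smul_snd, smul_eq_mul]
        field_simp
        linear_combination key

theorem a2_continuous_lat (n : Fin 4 → ℤ) : Continuous fun lam : Fin 4 → C2 => lat lam n := by
  unfold lat
  (clear * -; fun_prop)

theorem a2_eventually_ne {lam₀ : Fin 4 → C2} {x₀ : ℂ × C2} (hc : x₀.2 ≠ 0) (n : Fin 4 → ℤ)
    (h : ∀ w : ℂ, w ^ 2 = x₀.1 → w • x₀.2 ≠ (1 / 2 : ℂ) • lat lam₀ n) :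
    ∀ᶠ p : (Fin 4 → C2) × (ℂ × C2) in 𝓝 (lam₀, x₀), ∀ w : ℂ, w ^ 2 = p.2.1 →
      w • p.2.2 ≠ (1 / 2 : ℂ) • lat p.1 n := by
  have hlc : Continuous fun p : (Fin 4 → C2) × (ℂ × C2) => lat p.1 n :=
    (a2_continuous_lat n).comp continuous_fst
  have hC1 : IsClosed {p : (Fin 4 → C2) × (ℂ × C2) |
      p.2.1 * p.2.2.1 ^ 2 = (lat p.1 n).1 ^ 2 / 4} :=
    isClosed_eq (by (clear * -; fun_prop)) (by fun_prop)
  have hC2 : IsClosed {p : (Fin 4 → C2) × (ℂ × C2) |
      p.2.1 * (p.2.2.1 * p.2.2.2) = (lat p.1 n).1 * (lat p.1 n).2 / 4} :=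
    isClosed_eq (by (clear * -; fun_prop)) (by fun_prop)
  have hC3 : IsClosed {p : (Fin 4 → C2) × (ℂ × C2) |
      p.2.1 * p.2.2.2 ^ 2 = (lat p.1 n).2 ^ 2 / 4} :=
    isClosed_eq (by (clear * -; fun_prop)) (by (clear * -; fun_prop))
  have hC := (hC1.inter (hC2.inter hC3)).isOpen_compl
  have hmem : (lam₀, x₀) ∈ ({p : (Fin 4 → C2) × (ℂ × C2) |
      p.2.1 * p.2.2.1 ^ 2 = (lat p.1 n).1 ^ 2 / 4} ∩ ({p : (Fin 4 → C2) × (ℂ × C2) |
      p.2.1 * (p.2.2.1 * p.2.2.2) = (lat p.1 n).1 * (lat p.1 n).2 / 4} ∩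
      {p : (Fin 4 → C2) × (ℂ × C2) |
      p.2.1 * p.2.2.2 ^ 2 = (lat p.1 n).2 ^ 2 / 4}))ᶜ := by
    rintro ⟨e1, e2, e3⟩
    obtain ⟨w, hw, hw'⟩ := a2_exists (n := n) (lam := lam₀) hc e1 e2 e3
    exact h w hw hw'
  filter_upwards [hC.mem_nhds hmem] with p hp w hw hw'
  obtain ⟨e1, e2, e3⟩ := a2_closed hw hw'
  exact hp ⟨e1, e2, e3⟩

theorem PP_open {lam₀ : Fin 4 → C2} (hlam : LinearIndependent ℝ lam₀) {x₀ : ℂ × C2}
    (h : x₀ ∈ PP lam₀) : ∀ᶠ p : (Fin 4 → C2) × (ℂ × C2) in 𝓝 (lam₀, x₀), p.2 ∈ PP p.1 := by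
  obtain ⟨κ, hκ, hev⟩ := exists_lat_bound hlam
  obtain ⟨hc, hne⟩ := h
  have hev' : ∀ᶠ p : (Fin 4 → C2) × (ℂ × C2) in 𝓝 (lam₀, x₀), ∀ n : Fin 4 → ℤ, ∀ k,
      κ * |(n k : ℝ)| ≤ ‖lat p.1 n‖ := (continuous_fst.tendsto (lam₀, x₀)).eventually hev
  have hs : ∀ᶠ p : (Fin 4 → C2) × (ℂ × C2) in 𝓝 (lam₀, x₀), ‖p.2.1‖ < ‖x₀.1‖ + 1 := by
    have : Tendsto (fun p : (Fin 4 → C2) × (ℂ × C2) => ‖p.2.1‖) (𝓝 (lam₀, x₀)) (𝓝 ‖x₀.1‖) :=
      Continuous.tendsto (by fun_prop) (lam₀, x₀)
    exact this.eventually (gt_mem_nhds (by linarith))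
  have hcc : ∀ᶠ p : (Fin 4 → C2) × (ℂ × C2) in 𝓝 (lam₀, x₀), ‖p.2.2‖ < ‖x₀.2‖ + 1 := by
    have : Tendsto (fun p : (Fin 4 → C2) × (ℂ × C2) => ‖p.2.2‖) (𝓝 (lam₀, x₀)) (𝓝 ‖x₀.2‖) :=
      Continuous.tendsto (by (clear * -; fun_prop)) (lam₀, x₀)
    exact this.eventually (gt_mem_nhds (by linarith only []))
  have hc0 : ∀ᶠ p : (Fin 4 → C2) × (ℂ × C2) in 𝓝 (lam₀, x₀), p.2.2 ≠ 0 := by
    have : Tendsto (fun p : (Fin 4 → C2) × (ℂ × C2) => p.2.2) (𝓝 (lam₀, x₀)) (𝓝 x₀.2) :=
      Continuous.tendsto (by fun_prop) (lam₀, x₀)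
    exact this.eventually (isOpen_ne.mem_nhds hc)
  set B : ℝ := 2 * ((‖x₀.1‖ + 2) * (‖x₀.2‖ + 1)) / κ with hB
  set N : Fin 4 → ℤ := fun _ => ⌈B⌉ with hN
  have hfin : ∀ᶠ p : (Fin 4 → C2) × (ℂ × C2) in 𝓝 (lam₀, x₀), ∀ n ∈ Set.Icc (-N) N, n ≠ 0 →
      ∀ w : ℂ, w ^ 2 = p.2.1 → w • p.2.2 ≠ (1 / 2 : ℂ) • lat p.1 n := by
    rw [Filter.eventually_all_finite (Set.finite_Icc (-N) N)]
    intro n _
    by_cases hn : n = 0
    · exact Eventually.of_forall fun p h => (h hn).elim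
    · filter_upwards [a2_eventually_ne (lam₀ := lam₀) hc n fun w hw => hne w hw n hn] with p hp _
      exact hp
  filter_upwards [hev', hs, hcc, hc0, hfin] with p h1 h2 h3 h4 h5
  refine ⟨h4, fun w hw n hn hwn => ?_⟩
  refine h5 n ?_ hn w hw hwn
  have hw1 : ‖w‖ ≤ ‖x₀.1‖ + 2 := by
    have e : ‖w‖ ^ 2 = ‖p.2.1‖ := by rw [← hw, norm_pow]
    (by_contra nlg; linarith only [mul_eq_zero_of_left (sub_eq_zero.2 e) (‖x₀.1‖ - (0)), mul_eq_zero_of_left (sub_eq_zero.2 e) (‖w‖ - (0)), mul_eq_zero_of_left (sub_eq_zero.2 e) (‖x₀.1‖ + 1 - (‖p.2.1‖)), mul_pos (sub_pos.2 h2) (sub_pos.2 h2), mul_nonneg (le_of_lt (sub_pos.2 (not_le.1 nlg))) (sub_nonneg.2 (norm_nonneg x₀.1)), mul_nonneg (le_of_lt (sub_pos.2 (not_le.1 nlg))) (sub_nonneg.2 (norm_nonneg w)), mul_pos (sub_pos.2 (not_le.1 nlg)) (sub_pos.2 h2), mul_nonneg (sq_nonneg (‖w‖ : ℝ)) (sub_nonneg.2 (norm_nonneg x₀.1)), mul_nonneg (sq_nonneg (‖w‖ : ℝ)) (le_of_lt (sub_pos.2 h2)), mul_nonneg (sq_nonneg (‖w‖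 : ℝ)) (le_of_lt (sub_pos.2 (not_le.1 nlg))), norm_nonneg x₀.1, norm_nonneg w])
  have hl : ‖lat p.1 n‖ ≤ 2 * ((‖x₀.1‖ + 2) * (‖x₀.2‖ + 1)) := by
    have e : lat p.1 n = (2 : ℂ) • (w • p.2.2) := by
      rw [hwn, smul_smul]; norm_num
    rw [e, norm_smul, norm_smul]
    have : ‖(2 : ℂ)‖ = 2 := by norm_num
    rw [this]
    (clear * - hw1 h3 h4; gcongr)
  have hk : ∀ k, |n k| ≤ N k := by
    intro k
    have h6 := (h1 n k).trans hl
    have h7 : |(n k : ℝ)| ≤ B := by
      rw [hB, le_div_iff₀ hκ, mul_comm]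
      exact h6
    have h8 : |(n k : ℝ)| ≤ (⌈B⌉ : ℝ) := h7.trans (Int.le_ceil B)
    rw [hN]
    exact_mod_cast h8
  rw [Set.mem_Icc, Pi.le_def, Pi.le_def]
  exact ⟨fun k => (abs_le.1 (hk k)).1, fun k => (abs_le.1 (hk k)).2⟩

theorem avoid_open {lam₀ : Fin 4 → C2} (hlam : LinearIndependent ℝ lam₀) {x₀ : ND}
    (h : Avoid lam₀ x₀) :
    ∀ᶠ p : (Fin 4 → C2) × ND in 𝓝 (lam₀, x₀), Pell p.2.1 → Avoid p.1 p.2 := by
  obtain ⟨n, a, hlog, hPP⟩ := h
  obtain ⟨A, hA0, hAd, hAl⟩ := exists_log_fun hlog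
  have hAc : ContinuousAt A x₀.1 := hAd.self_of_nhds.continuousAt
  have hAc' : ContinuousAt (fun p : (Fin 4 → C2) × ND => A p.2.1) (lam₀, x₀) :=
    ContinuousAt.comp (f := fun p : (Fin 4 → C2) × ND => p.2.1) (x := (lam₀, x₀)) hAc
      (by fun_prop)
  have hL : ContinuousAt (fun p : (Fin 4 → C2) × ND => Lm p.1 (A p.2.1)) (lam₀, x₀) := by
    unfold Lm
    refine tendsto_finsetSum _ fun k _ => ?_
    have e1 : ContinuousAt (fun p : (Fin 4 → C2) × ND => A p.2.1 k) (lam₀, x₀) :=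
      ContinuousAt.comp (f := fun p : (Fin 4 → C2) × ND => A p.2.1) (x := (lam₀, x₀))
        (g := fun a : Fin 4 → ℂ => a k) (continuous_apply k).continuousAt hAc'
    have e2 : ContinuousAt (fun p : (Fin 4 → C2) × ND => p.1 k) (lam₀, x₀) := by (clear * -; fun_prop)
    exact (e1.div_const _).smul e2
  have hc : ContinuousAt (fun p : (Fin 4 → C2) × ND =>
      (p.1, ((p.2.1.1, p.2.2 + Lm p.1 (A p.2.1)) : ℂ × C2))) (lam₀, x₀) := by
    refine continuousAt_fst.prodMk (ContinuousAt.prodMk (by fun_prop) ?_)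
    exact ContinuousAt.add (by fun_prop) hL
  have hPP' := PP_open hlam hPP
  have e0 : (fun p : (Fin 4 → C2) × ND =>
      (p.1, ((p.2.1.1, p.2.2 + Lm p.1 (A p.2.1)) : ℂ × C2))) (lam₀, x₀) =
      (lam₀, (x₀.1.1, x₀.2 + Lm lam₀ a)) := by
    simp only [hA0]
  rw [← e0] at hPP'
  have hev1 := hc.eventually hPP'
  have hev2 : ∀ᶠ p : (Fin 4 → C2) × ND in 𝓝 (lam₀, x₀), Pell p.2.1 → Log p.2.1 n (A p.2.1) := by
    have : ContinuousAt (fun p : (Fin 4 → C2) × ND => p.2.1) (lam₀, x₀) := by fun_prop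
    exact this.eventually hAl
  filter_upwards [hev1, hev2] with p h1 h2 hP
  exact ⟨n, A p.2.1, h2 hP, h1⟩

end Vale.Agent.P290.K
end
end

section

section

open Set Filter Metric
open scoped Topology

namespace Vale.Agent.P290.K

section
variable {V F : Type} [NormedAddCommGroup V] [NormedSpace ℂ V] [NormedAddCommGroup F]
    [NormedSpace ℂ F]

/-- `β s`, `s ∈ [0,1]`, is a continuous path of holomorphic maps near `K`. This is the first half of
`IsPath`. -/
def HolPath (K : Set V) (β : ℝ → V → F) : Prop :=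
  ∃ U : Set V, IsOpen U ∧ K ⊆ U ∧ (∀ s ∈ Icc (0 : ℝ) 1, DifferentiableOn ℂ (β s) U) ∧
    ContinuousOn (fun x : ℝ × V => β x.1 x.2) (Icc (0 : ℝ) 1 ×ˢ U)

/-- Lifting property with the initial map `b` (for use on large sets). -/
def LiftB (O : Set (ℝ × V × F)) (b : V → F) (K K' : Set V) : Prop :=
  ∀ β : ℝ → V → F, IsPath O K β → b =ᶠ[𝓝ˢ K] β 0 → ∀ ε > 0,
    ∃ β' : ℝ → V → F, IsPath O K' β' ∧ β' 0 =ᶠ[𝓝ˢ K'] b ∧
      ∀ s ∈ Icc (0 : ℝ) 1, ∀ z ∈ K, ‖β' s z - β s z‖ < ε

/-- `O` with the additional parameter `t ∈ F` -/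
def lft (O : Set (ℝ × V × F)) : Set (ℝ × (V × F) × F) := {x | (x.1, x.2.1.1, x.2.2) ∈ O}

end

end Vale.Agent.P290.K
end
end

section

section

set_option linter.all false

open Set Filter Metric MeasureTheory
open scoped Topology ENNReal NNReal

namespace Vale.Agent.P290.K

/-! ### Weights of exponentials -/

section
variable {V : Type} [NormedAddCommGroup V] [NormedSpace ℂ V]

/-- `sup_K |e^ξ|` -/
noncomputable def wt (K : Set V) (ξ : V →L[ℂ] ℂ) : ℝ≥0∞ :=
  ⨆ z ∈ K, ENNReal.ofReal (Real.exp (ξ z).re)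

theorem le_wt {K : Set V} {z : V} (hz : z ∈ K) (ξ : V →L[ℂ] ℂ) :
    ENNReal.ofReal (Real.exp (ξ z).re) ≤ wt K ξ :=
  le_iSup₂ (f := fun (z : V) (_ : z ∈ K) => ENNReal.ofReal (Real.exp (ξ z).re)) z hz

theorem wt_mono {K K' : Set V} (h : K ⊆ K') (ξ : V →L[ℂ] ℂ) : wt K ξ ≤ wt K' ξ :=
  iSup₂_le fun _ hz => le_wt (h hz) ξ

theorem wt_lt_top {K : Set V} (hK : IsCompact K) (ξ : V →L[ℂ] ℂ) : wt K ξ < ⊤ := by
  obtain ⟨C, hC⟩ := hK.exists_bound_of_continuousOn (f := fun z => ξ z) ξ.continuous.continuousOn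
  refine lt_of_le_of_lt (b := ENNReal.ofReal (Real.exp C)) ?_ ENNReal.ofReal_lt_top
  refine iSup₂_le fun z hz => ENNReal.ofReal_le_ofReal (Real.exp_le_exp.2 ?_)
  exact (Complex.re_le_norm (ξ z)).trans (hC z hz)

theorem wt_add_le (K : Set V) (ξ ξ' : V →L[ℂ] ℂ) : wt K (ξ + ξ') ≤ wt K ξ * wt K ξ' := by
  refine iSup₂_le fun z hz => ?_
  rw [ContinuousLinearMap.add_apply, Complex.add_re, Real.exp_add,
    ENNReal.ofReal_mul (Real.exp_nonneg _)]
  exact mul_le_mul' (le_wt hz ξ) (le_wt hz ξ')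

theorem measurable_wt (K : Set V) : Measurable (wt K) := by
  refine LowerSemicontinuous.measurable ?_
  refine lowerSemicontinuous_biSup fun z _ => Continuous.lowerSemicontinuous ?_
  exact ENNReal.continuous_ofReal.comp (Real.continuous_exp.comp
    (Complex.continuous_re.comp (ContinuousLinearMap.apply ℂ ℂ z).continuous))

theorem wt_empty (ξ : V →L[ℂ] ℂ) : wt ∅ ξ = 0 := by
  simp only [wt, mem_empty_iff_false, not_false_eq_true, iSup_neg, bot_eq_zero', ciSup_const]

theorem wt_inter_aux {A B : Set V} (hA : Good A) (hB : Good B) (hAB : Convex ℝ (A ∪ B))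
    (ξ : V →L[ℂ] ℂ) {x y : V} (hx : x ∈ A) (hy : y ∈ B) (hmax : ∀ z ∈ A, (ξ z).re ≤ (ξ x).re)
    (hxy : (ξ x).re ≤ (ξ y).re) : wt A ξ ≤ wt (A ∩ B) ξ := by
  have hseg : segment ℝ x y ⊆ A ∪ B := hAB.segment_subset (Or.inl hx) (Or.inr hy)
  have hpre : IsPreconnected (segment ℝ x y) := (convex_segment x y).isPreconnected
  obtain ⟨z, hz, hzA, hzB⟩ := isPreconnected_closed_iff.1 hpre A B hA.1.isClosed hB.1.isClosed hseg
    ⟨x, left_mem_segment ℝ x y, hx⟩ ⟨y, right_mem_segment ℝ x y, hy⟩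
  have hre : (ξ x).re ≤ (ξ z).re := by
    obtain ⟨a, b, ha, hb, hab, rfl⟩ := hz
    have h1 : ξ (a • x + b • y) = (a : ℂ) * ξ x + (b : ℂ) * ξ y := by
      rw [map_add]
      congr 1
      · rw [← Complex.coe_smul, map_smul, smul_eq_mul]
      · rw [← Complex.coe_smul, map_smul, smul_eq_mul]
    rw [h1, Complex.add_re, Complex.re_ofReal_mul, Complex.re_ofReal_mul]
    have h2 : a = 1 - b := by linarith only [hab]
    subst h2
    nlinarith only [hxy, hb]
  refine le_trans (iSup₂_le fun w hw => ?_) (le_wt (show z ∈ A ∩ B from ⟨hzA, hzB⟩) ξ)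
  exact ENNReal.ofReal_le_ofReal (Real.exp_le_exp.2 ((hmax w hw).trans hre))

/-- the key: for `A ∪ B` convex the weight of `A ∩ B` is the minimum of the weights -/
theorem wt_inter {A B : Set V} (hA : Good A) (hB : Good B) (hAB : Convex ℝ (A ∪ B))
    (ξ : V →L[ℂ] ℂ) : wt (A ∩ B) ξ = min (wt A ξ) (wt B ξ) := by
  refine le_antisymm (le_min (wt_mono inter_subset_left ξ) (wt_mono inter_subset_right ξ)) ?_
  rcases A.eq_empty_or_nonempty with rfl | hAn
  · rw [wt_empty]
    exact (min_le_left _ _).trans zero_le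
  rcases B.eq_empty_or_nonempty with rfl | hBn
  · rw [wt_empty (V := V) ξ]
    exact (min_le_right _ _).trans zero_le
  have hc : Continuous fun z : V => (ξ z).re := Complex.continuous_re.comp ξ.continuous
  obtain ⟨x, hx, hxm⟩ := hA.1.exists_isMaxOn hAn hc.continuousOn
  obtain ⟨y, hy, hym⟩ := hB.1.exists_isMaxOn hBn hc.continuousOn
  rcases le_total (ξ x).re (ξ y).re with h | h
  · exact (min_le_left _ _).trans (wt_inter_aux hA hB hAB ξ hx hy (fun z hz => hxm hz) h)
  · rw [inter_comm]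
    refine (min_le_right _ _).trans (wt_inter_aux hB hA ?_ ξ hy hx (fun z hz => hym hz) h)
    rwa [union_comm]

theorem wt_dir {ρ : ℝ} (hρ : 0 ≤ ρ) (k : ℂ) : ∃ t : ℂ, ‖t‖ ≤ ρ ∧ (t * k).re = ρ * ‖k‖ := by
  by_cases hk : k = 0
  · exact ⟨0, by simpa only [norm_zero] using hρ, by simp [hk]⟩
  · have hn : ‖k‖ ≠ 0 := norm_ne_zero_iff.2 hk
    refine ⟨(ρ / ‖k‖ : ℝ) * (starRingEnd ℂ) k, ?_, ?_⟩
    · rw [norm_mul, Complex.norm_real, RCLike.norm_conj, Real.norm_eq_abs,
        abs_of_nonneg (by (clear * - hρ hk; positivity)), div_mul_cancel₀ _ hn]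
    · rw [mul_assoc, Complex.conj_mul', Complex.re_ofReal_mul]
      have h1 : (((‖k‖ : ℝ) : ℂ) ^ 2).re = ‖k‖ ^ 2 := by
        rw [← Complex.ofReal_pow, Complex.ofReal_re]
      rw [h1]
      field_simp

/-- the weight of the product with a bidisc -/
theorem wt_prod {K : Set V} {ρ : ℝ} (hρ : 0 ≤ ρ) (ξ : (V × C2) →L[ℂ] ℂ) :
    wt (K ×ˢ closedBall (0 : C2) ρ) ξ =
      wt K (ξ.comp (ContinuousLinearMap.inl ℂ V C2)) *
        ENNReal.ofReal (Real.exp (ρ * ‖ξ (0, (1, 0))‖ + ρ * ‖ξ (0, (0, 1))‖)) := by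
  have hξ : ∀ (z : V) (t : C2), ξ (z, t) = ξ.comp (ContinuousLinearMap.inl ℂ V C2) z +
      (t.1 * ξ (0, (1, 0)) + t.2 * ξ (0, (0, 1))) := by
    intro z t
    have h1 : ((z, t) : V × C2) = ContinuousLinearMap.inl ℂ V C2 z +
        (t.1 • ((0 : V), ((1, 0) : C2)) + t.2 • ((0 : V), ((0, 1) : C2))) := by
      ext <;> simp
    conv_lhs => rw [h1]
    rw [map_add, map_add, map_smul, map_smul]
    rfl
  apply le_antisymm
  · refine iSup₂_le fun p hp => ?_
    obtain ⟨z, t⟩ := p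
    have hz : z ∈ K := hp.1
    have ht : ‖t‖ ≤ ρ := by simpa only [mem_closedBall, dist_zero_right] using hp.2
    have ht1 : ‖t.1‖ ≤ ρ := (norm_fst_le t).trans ht
    have ht2 : ‖t.2‖ ≤ ρ := (norm_snd_le t).trans ht
    rw [hξ, Complex.add_re, Real.exp_add, ENNReal.ofReal_mul (Real.exp_nonneg _)]
    refine mul_le_mul' (le_wt hz _) (ENNReal.ofReal_le_ofReal (Real.exp_le_exp.2 ?_))
    rw [Complex.add_re]
    refine add_le_add ((Complex.re_le_norm _).trans ?_) ((Complex.re_le_norm _).trans ?_)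
    · rw [norm_mul]
      exact mul_le_mul_of_nonneg_right ht1 (norm_nonneg _)
    · rw [norm_mul]
      exact mul_le_mul_of_nonneg_right ht2 (norm_nonneg _)
  · obtain ⟨t1, ht1, e1⟩ := wt_dir hρ (ξ (0, (1, 0)))
    obtain ⟨t2, ht2, e2⟩ := wt_dir hρ (ξ (0, (0, 1)))
    rw [wt]
    simp only [ENNReal.iSup_mul]
    refine iSup₂_le fun z hz => ?_
    have hmem : ((z, (t1, t2)) : V × C2) ∈ K ×ˢ closedBall (0 : C2) ρ := by
      refine ⟨hz, ?_⟩
      rw [mem_closedBall_zero_iff]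
      exact max_le ht1 ht2
    refine le_trans (le_of_eq ?_) (le_wt hmem ξ)
    rw [hξ z (t1, t2), Complex.add_re, Complex.add_re, e1, e2,
      ← ENNReal.ofReal_mul (Real.exp_nonneg _), ← Real.exp_add]

end

/-- `g` is a superposition of exponentials `e^{ξ}`, with coefficients in `R`, with norm at most `M`
relative to the compact set `K`. -/
def EN {V R : Type} [NormedAddCommGroup V] [NormedSpace ℂ V] [NormedCommRing R]
    [NormedAlgebra ℂ R] [MeasurableSpace R] (K : Set V) (g : V → R) (M : ℝ≥0) : Prop :=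
  ∃ μ : Measure ((V →L[ℂ] ℂ) × R), SFinite μ ∧ ∫⁻ p, ‖p.2‖ₑ * wt K p.1 ∂μ ≤ M ∧
    ∀ z ∈ K, g z = ∫ p, Complex.exp (p.1 z) • p.2 ∂μ

end Vale.Agent.P290.K
end
end

section

section

set_option linter.all false

open Set Filter Metric MeasureTheory
open scoped Topology ENNReal NNReal unitInterval

namespace Vale.Agent.P290.K

/-! ### Paths of holomorphic functions as `C(I, ℂ)`-valued functions -/

/-- the algebra of continuous functions on the unit interval -/
abbrev RR : Type := C(I, ℂ)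

noncomputable instance : MeasurableSpace RR := borel RR
instance : BorelSpace RR := ⟨rfl⟩

example : SecondCountableTopology RR := inferInstance
example : NormOneClass RR := inferInstance
example : CompleteSpace RR := inferInstance

/-- evaluation commutes with circle integrals -/
theorem circleIntegral_eval {f : ℂ → RR} {c : ℂ} {R : ℝ} (hf : CircleIntegrable f c R) (s : I) :
    (∮ z in C(c, R), f z) s = ∮ z in C(c, R), f z s := by
  have h1 := (ContinuousMap.evalCLM ℂ s).intervalIntegral_comp_comm hf.out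
  exact h1.symm

/-- a continuous function of one variable with values in `C(I, ℂ)` all whose evaluations are
holomorphic is holomorphic -/
theorem differentiableAt_of_eval {f : ℂ → RR} {W : Set ℂ} (hW : IsOpen W) (h0 : (0 : ℂ) ∈ W)
    (hc : ContinuousOn f W) (hd : ∀ s : I, DifferentiableOn ℂ (fun ζ => f ζ s) W) :
    DifferentiableAt ℂ f 0 := by
  obtain ⟨r, hr, hrW⟩ := Metric.isOpen_iff.1 hW 0 h0
  have hR : (0 : ℝ) < r / 2 := by (clear * - hr; positivity)
  have hcl : closedBall (0 : ℂ) (r / 2) ⊆ W :=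
    (closedBall_subset_ball (by linarith only [hr])).trans hrW
  have hsph : sphere (0 : ℂ) |r / 2| ⊆ W := by
    rw [abs_of_pos hR]
    exact sphere_subset_closedBall.trans hcl
  have hint : CircleIntegrable f 0 (r / 2) := (hc.mono hsph).circleIntegrable'
  obtain ⟨R, hRr⟩ : ∃ R : ℝ≥0, (R : ℝ) = r / 2 := ⟨⟨r / 2, hR.le⟩, rfl⟩
  rw [← hRr] at hint hsph hR hcl
  have hps := hasFPowerSeriesOn_cauchy_integral hint (by exact_mod_cast hR)
  have heq : (fun w => (2 * (Real.pi : ℂ) * Complex.I)⁻¹ • ∮ z in C(0, (R : ℝ)), (z - w)⁻¹ • f z)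
      =ᶠ[𝓝 0] f := by
    filter_upwards [Metric.ball_mem_nhds (0 : ℂ) hR] with w hw
    ext s
    have hint2 : CircleIntegrable (fun z => (z - w)⁻¹ • f z) 0 (R : ℝ) := by
      refine ContinuousOn.circleIntegrable' ?_
      refine ContinuousOn.smul (ContinuousOn.inv₀ (continuous_id.sub continuous_const).continuousOn ?_)
        (hc.mono hsph)
      intro z hz hzw
      rw [abs_of_pos hR] at hz
      have hzw' : z - w = 0 := hzw
      rw [sub_eq_zero.1 hzw'] at hz
      rw [mem_sphere_zero_iff_norm] at hz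
      rw [mem_ball_zero_iff] at hw
      linarith only [hw, hz]
    rw [ContinuousMap.smul_apply, circleIntegral_eval hint2]
    have hdc : DiffContOnCl ℂ (fun ζ => f ζ s) (ball 0 (R : ℝ)) :=
      DifferentiableOn.diffContOnCl ((hd s).mono (closure_ball_subset_closedBall.trans hcl))
    exact hdc.two_pi_i_inv_smul_circleIntegral_sub_inv_smul hw
  exact hps.analyticAt.differentiableAt.congr_of_eventuallyEq heq.symm

section
variable {V : Type} [NormedAddCommGroup V] [NormedSpace ℂ V] [FiniteDimensional ℂ V]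

theorem exists_toRR {U : Set V} (hU : IsOpen U) {β : ℝ → V → ℂ}
    (h1 : ∀ s ∈ Icc (0 : ℝ) 1, DifferentiableOn ℂ (β s) U)
    (h2 : ContinuousOn (fun x : ℝ × V => β x.1 x.2) (Icc (0 : ℝ) 1 ×ˢ U)) :
    ∃ g : V → RR, DifferentiableOn ℂ g U ∧ ∀ z ∈ U, ∀ s : I, g z s = β s z := by
  classical
  have hF : Continuous (fun p : U × I => β p.2 p.1) := by
    have h3 := continuousOn_iff_continuous_restrict.1 h2
    exact h3.comp (f := fun p : U × I =>
      (⟨((p.2 : ℝ), (p.1 : V)), ⟨p.2.2, p.1.2⟩⟩ : (Icc (0 : ℝ) 1 ×ˢ U : Set (ℝ × V))))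
      (by (clear * -; fun_prop))
  let F : C(U × I, ℂ) := ⟨fun p => β p.2 p.1, hF⟩
  let g : V → RR := fun z => if h : z ∈ U then F.curry ⟨z, h⟩ else 0
  have hg : ∀ z (hz : z ∈ U) (s : I), g z s = β s z := by
    intro z hz s
    simp only [g, dif_pos hz]
    rfl
  have hgc : ContinuousOn g U := by
    rw [continuousOn_iff_continuous_restrict]
    have h3 : U.domRestrict g = F.curry := by
      funext z
      exact dif_pos z.2
    rw [h3]
    exact F.curry.continuous
  refine ⟨g, ?_, hg⟩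
  refine differentiableOn_of_continuousOn_of_line hU hgc fun z hz h => ?_
  have hcont : Continuous (fun ζ : ℂ => z + ζ • h) := by (clear * -; fun_prop)
  refine differentiableAt_of_eval (W := {ζ | z + ζ • h ∈ U}) (hU.preimage hcont)
    (by simpa using hz) (hgc.comp hcont.continuousOn fun ζ hζ => hζ) fun s => ?_
  have h4 : DifferentiableOn ℂ (fun ζ : ℂ => β s (z + ζ • h)) {ζ | z + ζ • h ∈ U} := by
    refine (h1 s s.2).comp (f := fun ζ : ℂ => z + ζ • h) ?_ fun ζ hζ => hζ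
    exact ((differentiable_id.smul_const h).const_add z).differentiableOn
  exact h4.congr fun ζ hζ => hg _ hζ s

theorem holPath_of_RR {K U : Set V} (hU : IsOpen U) (hKU : K ⊆ U) {g : V → RR}
    (hg : DifferentiableOn ℂ g U) :
    HolPath K (fun s z => g z (Set.projIcc 0 1 zero_le_one s)) := by
  refine ⟨U, hU, hKU, fun s _ => ?_, ?_⟩
  · exact (ContinuousMap.evalCLM ℂ (Set.projIcc 0 1 zero_le_one s)).differentiable.comp_differentiableOn
      hg
  · have h1 : ContinuousOn (fun x : ℝ × V => (g x.2, Set.projIcc (0 : ℝ) 1 zero_le_one x.1))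
        (Icc (0 : ℝ) 1 ×ˢ U) := by
      refine ContinuousOn.prodMk ?_ ?_
      · exact hg.continuousOn.comp continuous_snd.continuousOn fun x hx => hx.2
      · exact (continuous_projIcc.comp continuous_fst).continuousOn
    exact (continuous_eval (F := RR) (X := I) (Y := ℂ)).comp_continuousOn h1

end

end Vale.Agent.P290.K
end
end
namespace AFastff4b30x4630a
@[reducible] noncomputable def a0 : Module ℂ Vale.Agent.P290.K.RR := inferInstance
end AFastff4b30x4630a
attribute [local instance] AFastff4b30x4630a.a0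

section

section

set_option linter.all false

open Set Filter Metric
open scoped Topology

namespace Vale.Agent.P290.K

/-! ### Fibre preserving automorphisms of the standard model -/

/-- `(c₁ + t c₂, c₂)` -/
def fl1 (t : ℂ) (c : C2) : C2 := (c.1 + t * c.2, c.2)

/-- `(c₁, c₂ + t sin(π√h c₁)/√h)` -/
noncomputable def fl2 (t h : ℂ) (c : C2) : C2 := (c.1, c.2 + t * Sn h c.1)

/-- conjugate of `fl1` -/
noncomputable def fl3 (t h : ℂ) (c : C2) : C2 := fl2 (-1) h (fl1 t (fl2 1 h c))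

/-- the composition -/
noncomputable def fl (w : Fin 3 → ℂ) (h : ℂ) (c : C2) : C2 := fl1 (w 0) (fl2 (w 1) h (fl3 (w 2) h c))

/-- its inverse -/
noncomputable def fi (w : Fin 3 → ℂ) (h : ℂ) (c : C2) : C2 :=
  fl3 (-w 2) h (fl2 (-w 1) h (fl1 (-w 0) c))

theorem fl1_zero (c : C2) : fl1 0 c = c := by simp [fl1]

theorem fl2_zero (h : ℂ) (c : C2) : fl2 0 h c = c := by simp [fl2]

theorem fl1_fl1 (s t : ℂ) (c : C2) : fl1 s (fl1 t c) = fl1 (t + s) c := by
  simp only [fl1]
  ext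
  · simp only; ring
  · rfl

theorem fl2_fl2 (s t h : ℂ) (c : C2) : fl2 s h (fl2 t h c) = fl2 (t + s) h c := by
  simp only [fl2]
  ext
  · rfl
  · simp only; ring

theorem fl3_fl3 (s t h : ℂ) (c : C2) : fl3 s h (fl3 t h c) = fl3 (t + s) h c := by
  simp only [fl3]
  rw [fl2_fl2, neg_add_cancel, fl2_zero, fl1_fl1]

theorem fl3_zero (h : ℂ) (c : C2) : fl3 0 h c = c := by
  simp only [fl3]
  rw [fl1_zero, fl2_fl2, add_neg_cancel, fl2_zero]

theorem fl_zero (h : ℂ) (c : C2) : fl 0 h c = c := by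
  simp only [fl, Pi.zero_apply, fl1_zero, fl2_zero, fl3_zero]

theorem fi_fl (w : Fin 3 → ℂ) (h : ℂ) (c : C2) : fi w h (fl w h c) = c := by
  simp only [fi, fl]
  rw [fl1_fl1, add_neg_cancel, fl1_zero, fl2_fl2, add_neg_cancel, fl2_zero, fl3_fl3,
    add_neg_cancel, fl3_zero]

theorem fl_fi (w : Fin 3 → ℂ) (h : ℂ) (c : C2) : fl w h (fi w h c) = c := by
  simp only [fi, fl]
  rw [fl3_fl3, neg_add_cancel, fl3_zero, fl2_fl2, neg_add_cancel, fl2_zero, fl1_fl1,
    neg_add_cancel, fl1_zero]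

theorem fl1_mem_Psh {t h : ℂ} {c : C2} (hc : (h, c) ∈ Psh) : (h, fl1 t c) ∈ Psh := by
  rintro ⟨h1, h2⟩
  simp only [fl1] at h1 h2
  apply hc
  refine ⟨h1, ?_⟩
  rw [h1, mul_zero, add_zero] at h2
  exact h2

theorem fl2_mem_Psh {t h : ℂ} {c : C2} (hc : (h, c) ∈ Psh) : (h, fl2 t h c) ∈ Psh := by
  rintro ⟨h1, h2⟩
  simp only [fl2] at h1 h2
  apply hc
  refine ⟨?_, h2⟩
  rw [h2, mul_zero, add_zero] at h1
  exact h1

theorem fl3_mem_Psh {t h : ℂ} {c : C2} (hc : (h, c) ∈ Psh) : (h, fl3 t h c) ∈ Psh :=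
  fl2_mem_Psh (fl1_mem_Psh (fl2_mem_Psh hc))

theorem fl_mem_Psh {w : Fin 3 → ℂ} {h : ℂ} {c : C2} (hc : (h, c) ∈ Psh) : (h, fl w h c) ∈ Psh :=
  fl1_mem_Psh (fl2_mem_Psh (fl3_mem_Psh hc))

theorem fi_mem_Psh {w : Fin 3 → ℂ} {h : ℂ} {c : C2} (hc : (h, c) ∈ Psh) : (h, fi w h c) ∈ Psh :=
  fl3_mem_Psh (fl2_mem_Psh (fl1_mem_Psh hc))

theorem differentiable_Sn : Differentiable ℂ (fun x : ℂ × ℂ => Sn x.1 x.2) := by
  have h1 : Differentiable ℂ (fun x : ℂ × ℂ => ((x.1, Real.pi * Complex.I * x.2) : ℂ × ℂ)) := by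
    (clear * -; fun_prop)
  exact (differentiable_Sf.comp h1).const_mul (-Complex.I)

theorem differentiable_fl2 :
    Differentiable ℂ (fun x : ℂ × ℂ × C2 => fl2 x.1 x.2.1 x.2.2) := by
  have h1 : Differentiable ℂ (fun x : ℂ × ℂ × C2 => Sn x.2.1 x.2.2.1) :=
    differentiable_Sn.comp (f := fun x : ℂ × ℂ × C2 => (x.2.1, x.2.2.1)) (by (clear * -; fun_prop))
  unfold fl2
  (clear * - h1; fun_prop)

theorem Differentiable.fl2' {E : Type} [NormedAddCommGroup E] [NormedSpace ℂ E] {t h : E → ℂ}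
    {c : E → C2} (ht : Differentiable ℂ t) (hh : Differentiable ℂ h) (hc : Differentiable ℂ c) :
    Differentiable ℂ (fun x => fl2 (t x) (h x) (c x)) :=
  differentiable_fl2.comp (f := fun x => (t x, h x, c x)) (ht.prodMk (hh.prodMk hc))

theorem Differentiable.fl1' {E : Type} [NormedAddCommGroup E] [NormedSpace ℂ E] {t : E → ℂ}
    {c : E → C2} (ht : Differentiable ℂ t) (hc : Differentiable ℂ c) :
    Differentiable ℂ (fun x => fl1 (t x) (c x)) := by
  unfold fl1
  (clear * - hc ht; fun_prop)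

theorem Differentiable.fl3' {E : Type} [NormedAddCommGroup E] [NormedSpace ℂ E] {t h : E → ℂ}
    {c : E → C2} (ht : Differentiable ℂ t) (hh : Differentiable ℂ h) (hc : Differentiable ℂ c) :
    Differentiable ℂ (fun x => fl3 (t x) (h x) (c x)) :=
  Differentiable.fl2' (differentiable_const _) hh
    (Differentiable.fl1' ht (Differentiable.fl2' (differentiable_const _) hh hc))

theorem differentiable_fl :
    Differentiable ℂ (fun x : (Fin 3 → ℂ) × ℂ × C2 => fl x.1 x.2.1 x.2.2) :=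
  Differentiable.fl1' (by (clear * -; fun_prop)) (Differentiable.fl2' (by (clear * -; fun_prop)) (by fun_prop)
    (Differentiable.fl3' (by fun_prop) (by fun_prop) (by fun_prop)))

theorem differentiable_fi :
    Differentiable ℂ (fun x : (Fin 3 → ℂ) × ℂ × C2 => fi x.1 x.2.1 x.2.2) := by
  have d0 : Differentiable ℂ (fun x : (Fin 3 → ℂ) × ℂ × C2 => -x.1 0) := by (clear * -; fun_prop)
  have d1 : Differentiable ℂ (fun x : (Fin 3 → ℂ) × ℂ × C2 => -x.1 1) := by (clear * -; fun_prop)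
  have d2 : Differentiable ℂ (fun x : (Fin 3 → ℂ) × ℂ × C2 => -x.1 2) := by (clear * -; fun_prop)
  have dh : Differentiable ℂ (fun x : (Fin 3 → ℂ) × ℂ × C2 => x.2.1) := by fun_prop
  have dc : Differentiable ℂ (fun x : (Fin 3 → ℂ) × ℂ × C2 => x.2.2) := by (clear * -; fun_prop)
  exact Differentiable.fl3' d2 dh (Differentiable.fl2' d1 dh (Differentiable.fl1' d0 dc))

theorem isOpen_Psh : IsOpen Psh := by
  have h0 : Continuous (fun x : ℂ × C2 => ((x.1, x.2.1) : ℂ × ℂ)) := by fun_prop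
  have h3 : Continuous (fun x : ℂ × ℂ => Sn x.1 x.2) := differentiable_Sn.continuous
  have h1 : Continuous (fun x : ℂ × C2 => Sn x.1 x.2.1) := by
    have h4 := h3.comp h0
    exact h4
  have h2 : IsClosed {x : ℂ × C2 | x.2.2 = 0 ∧ Sn x.1 x.2.1 = 0} :=
    (isClosed_eq (by fun_prop) continuous_const).inter (isClosed_eq h1 continuous_const)
  exact h2.isOpen_compl

theorem hasDerivAt_Sf (h a : ℂ) : HasDerivAt (fun a => Sf h a) (Cf h a) a := by
  obtain ⟨w, rfl⟩ := exists_sqrt h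
  by_cases hw : w = 0
  · subst hw
    have h0 : (0 : ℂ) ^ 2 = 0 := by norm_num
    rw [h0]
    have e1 : (fun a => Sf 0 a) = fun a => a := funext Sf_zero_left
    rw [e1, Cf_zero_left]
    exact hasDerivAt_id a
  · have e1 : (fun a => Sf (w ^ 2) a) = fun a => w⁻¹ * Complex.sinh (w * a) := by
      funext a
      rw [← Sf_sq, ← mul_assoc, inv_mul_cancel₀ hw, one_mul]
    rw [e1, Cf_sq]
    have h2 : HasDerivAt (fun a : ℂ => w * a) w a := by
      simpa using (hasDerivAt_id a).const_mul w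
    have h3 := ((Complex.hasDerivAt_sinh (w * a)).comp a h2).const_mul w⁻¹
    refine h3.congr_deriv ?_
    field_simp

theorem hasDerivAt_Sn (h c : ℂ) :
    HasDerivAt (fun c => Sn h c) (Real.pi * Cf h (Real.pi * Complex.I * c)) c := by
  have h2 : HasDerivAt (fun c : ℂ => Real.pi * Complex.I * c) (Real.pi * Complex.I) c := by
    simpa using (hasDerivAt_id c).const_mul (Real.pi * Complex.I : ℂ)
  have h3 := ((hasDerivAt_Sf h (Real.pi * Complex.I * c)).comp c h2).const_mul (-Complex.I)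
  refine h3.congr_deriv ?_
  have : Complex.I * Complex.I = -1 := Complex.I_mul_I
  linear_combination (-(Real.pi : ℂ) * Cf h (Real.pi * Complex.I * c)) * this

theorem Sn_deriv_ne_zero {h c : ℂ} (hS : Sn h c = 0) :
    (Real.pi : ℂ) * Cf h (Real.pi * Complex.I * c) ≠ 0 := by
  have h1 : Sf h (Real.pi * Complex.I * c) = 0 := by
    have : -Complex.I ≠ 0 := by simp
    simpa only [Sn, neg_mul, neg_eq_zero, mul_eq_zero, Complex.I_ne_zero, false_or] using hS
  have h2 := Cf_sq_sub h (Real.pi * Complex.I * c)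
  rw [h1] at h2
  have h3 : Cf h (Real.pi * Complex.I * c) ≠ 0 := by
    intro h4
    rw [h4] at h2
    (clear * - h2; norm_num at h2)
  exact mul_ne_zero (by exact_mod_cast Real.pi_ne_zero) h3

/-- the three vector fields span everywhere on the good set -/
theorem fl_surjective {h : ℂ} {c : C2} (hc : (h, c) ∈ Psh) :
    Function.Surjective (fderiv ℂ (fun w : Fin 3 → ℂ => fl w h c) 0) := by
  set S := Sn h c.1 with hS
  set S' : ℂ := Real.pi * Cf h (Real.pi * Complex.I * c.1) with hS'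
  set D := fderiv ℂ (fun w : Fin 3 → ℂ => fl w h c) 0 with hD
  have hdiff : DifferentiableAt ℂ (fun w : Fin 3 → ℂ => fl w h c) 0 :=
    (differentiable_fl.comp (f := fun w : Fin 3 → ℂ => (w, h, c)) (by (clear * -; fun_prop))) 0
  have hcoord : ∀ (e : Fin 3 → ℂ) (v : C2), HasDerivAt (fun t : ℂ => fl (t • e) h c) v 0 →
      D e = v := by
    intro e v hv
    have h1 : HasDerivAt (fun t : ℂ => t • e) e 0 := by
      simpa using (hasDerivAt_id (0 : ℂ)).smul_const e
    have h2 : HasFDerivAt (fun w : Fin 3 → ℂ => fl w h c) D ((0 : ℂ) • e) := by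
      rw [zero_smul]; exact hdiff.hasFDerivAt
    have h3 := h2.comp_hasDerivAt (0 : ℂ) h1
    exact h3.unique hv
  have e0 : D (Pi.single 0 1) = (c.2, 0) := by
    apply hcoord
    have h1 : (fun t : ℂ => fl (t • (Pi.single 0 1 : Fin 3 → ℂ)) h c) = fun t => fl1 t c := by
      funext t
      simp only [fl, Fin.isValue, Pi.smul_apply, Pi.single_eq_same, smul_eq_mul, mul_one, ne_eq, one_ne_zero, not_false_eq_true, Pi.single_eq_of_ne, mul_zero, Fin.reduceEq, fl3_zero, fl2_zero]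
    rw [h1]
    unfold fl1
    have h2 : HasDerivAt (fun t : ℂ => c.1 + t * c.2) c.2 0 := by
      simpa only [hasDerivAt_const_add_iff, id_eq, one_mul] using     ((hasDerivAt_id (0 : ℂ)).mul_const c.2).const_add c.1
    exact h2.prodMk (hasDerivAt_const _ _)
  have e1 : D (Pi.single 1 1) = (0, S) := by
    apply hcoord
    have h1 : (fun t : ℂ => fl (t • (Pi.single 1 1 : Fin 3 → ℂ)) h c) = fun t => fl2 t h c := by
      funext t
      simp [fl, fl1_zero, fl3_zero]
    rw [h1]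
    unfold fl2
    have h2 : HasDerivAt (fun t : ℂ => c.2 + t * S) S 0 := by
      simpa only [hasDerivAt_const_add_iff, id_eq, one_mul] using     ((hasDerivAt_id (0 : ℂ)).mul_const S).const_add c.2
    exact (hasDerivAt_const _ _).prodMk h2
  have e2 : D (Pi.single 2 1) = (c.2 + S, -(S' * (c.2 + S))) := by
    apply hcoord
    have h1 : (fun t : ℂ => fl (t • (Pi.single 2 1 : Fin 3 → ℂ)) h c) = fun t => fl3 t h c := by
      funext t
      simp [fl, fl1_zero, fl2_zero]
    rw [h1]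
    have h2 : HasDerivAt (fun t : ℂ => c.1 + t * (c.2 + S)) (c.2 + S) 0 := by
      simpa using ((hasDerivAt_id (0 : ℂ)).mul_const (c.2 + S)).const_add c.1
    have h3 : HasDerivAt (fun t : ℂ => Sn h (c.1 + t * (c.2 + S))) (S' * (c.2 + S)) 0 := by
      have h4 : HasDerivAt (fun y => Sn h y) S' ((fun t : ℂ => c.1 + t * (c.2 + S)) 0) := by
        simpa using hasDerivAt_Sn h c.1
      exact HasDerivAt.comp (h₂ := fun y => Sn h y) (h := fun t : ℂ => c.1 + t * (c.2 + S))
        (0 : ℂ) h4 h2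
    have h5 : (fun t => fl3 t h c) = fun t : ℂ =>
        (c.1 + t * (c.2 + S), c.2 + S - Sn h (c.1 + t * (c.2 + S))) := by
      funext t
      simp only [fl3, fl2, fl1, one_mul]
      ext
      · rfl
      · simp only; ring
    rw [h5]
    exact h2.prodMk (by simpa only using h3.const_sub (c.2 + S))
  intro u
  by_cases hc2 : c.2 = 0
  · have hSne : S ≠ 0 := fun h0 => hc ⟨hc2, h0⟩
    refine ⟨((u.2 + u.1 * S') / S) • Pi.single 1 1 + (u.1 / S) • Pi.single 2 1, ?_⟩
    rw [map_add, map_smul, map_smul, e1, e2, hc2]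
    ext
    · simp only [Prod.smul_mk, smul_eq_mul, mul_zero, zero_add, mul_neg, Prod.mk_add_mk]; (clear * - hSne; field_simp)
    · simp only [Prod.smul_mk, smul_eq_mul, mul_zero, zero_add, mul_neg, Prod.mk_add_mk]; field_simp; ring
  · by_cases hS0 : S = 0
    · have hne : S' ≠ 0 := Sn_deriv_ne_zero hS0
      refine ⟨(u.1 / c.2 + u.2 / (S' * c.2)) • Pi.single 0 1 +
        (-(u.2 / (S' * c.2))) • Pi.single 2 1, ?_⟩
      rw [map_add, map_smul, map_smul, e0, e2, hS0]
      ext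
      · simp only [Prod.smul_mk, smul_eq_mul, mul_zero, add_zero, neg_smul, mul_neg, Prod.neg_mk, neg_neg, Prod.mk_add_mk, zero_add]; field_simp; ring
      · simp only [Prod.smul_mk, smul_eq_mul, mul_zero, add_zero, neg_smul, mul_neg, Prod.neg_mk, neg_neg, Prod.mk_add_mk, zero_add]; (clear * - hne hc2; field_simp)
    · refine ⟨(u.1 / c.2) • Pi.single 0 1 + (u.2 / S) • Pi.single 1 1, ?_⟩
      rw [map_add, map_smul, map_smul, e0, e1]
      ext
      · simp only [Prod.smul_mk, smul_eq_mul, mul_zero, Prod.mk_add_mk, add_zero, zero_add]; field_simp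
      · simp only [Prod.smul_mk, smul_eq_mul, mul_zero, Prod.mk_add_mk, add_zero, zero_add]; field_simp

end Vale.Agent.P290.K
end
end

section

section

open Set Filter Metric
open scoped Manifold ContDiff Topology

namespace Vale.Agent.P290

/-- area form on `ℂ²` -/
def area (u v : C2) : ℂ := u.1 * v.2 - u.2 * v.1

/-- velocity at time zero of the flow, in the preferred chart -/
noncomputable def vel {X : Type} [TopologicalSpace X] [ChartedSpace C2 X] (L : LineFlow C2 X)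
    (a : L.A) (x : X) : C2 :=
  deriv (fun w : ℂ => chartAt C2 x (L.φ a x w)) 0

/-- at every point two of the flows have independent velocities -/
def Dominating {X J : Type} [TopologicalSpace X] [ChartedSpace C2 X]
    (𝓛 : J → LineFlow C2 X) : Prop :=
  ∀ x, ∃ (i j : J) (a : (𝓛 i).A) (b : (𝓛 j).A), x ∈ (𝓛 i).U a ∧ x ∈ (𝓛 j).U b ∧
    area (vel (𝓛 i) a x) (vel (𝓛 j) b x) ≠ 0

end Vale.Agent.P290
end
end

section

section

open Set Filter Metric
open scoped Topology

namespace Vale.Agent.P290.K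

/-- the good set of the standard model over `h` -/
def OP {V : Type} (h : V → ℂ) : Set (ℝ × V × C2) := {x | (h x.2.1, x.2.2) ∈ Psh}

end Vale.Agent.P290.K
end
end

section

section

set_option linter.all false

open Set Filter Metric
open scoped Topology

namespace Vale.Agent.P290.K

section
variable {V : Type} [NormedAddCommGroup V] [NormedSpace ℂ V] [FiniteDimensional ℂ V]

theorem D3c_paste {X : Type} [TopologicalSpace X] {f : ℝ × V → X} {a b c : ℝ} {U : Set V}
    (h1 : ContinuousOn f (Icc a b ×ˢ U)) (h2 : ContinuousOn f (Icc b c ×ˢ U)) (hab : a ≤ b)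
    (hbc : b ≤ c) : ContinuousOn f (Icc a c ×ˢ U) := by
  have key : ∀ {p q : ℝ}, ContinuousOn f (Icc p q ×ˢ U) → ∀ x : ℝ × V, x.2 ∈ U →
      ContinuousWithinAt f (Icc p q ×ˢ U) x := by
    intro p q h x hx
    by_cases hx1 : x.1 ∈ Icc p q
    · exact h x ⟨hx1, hx⟩
    · refine continuousWithinAt_of_notMem_closure fun hcl => hx1 ?_
      have h3 : closure (Icc p q ×ˢ U) ⊆ Icc p q ×ˢ (univ : Set V) :=
        closure_minimal (prod_mono_right (subset_univ _)) (isClosed_Icc.prod isClosed_univ)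
      exact (h3 hcl).1
  rw [← Icc_union_Icc_eq_Icc hab hbc, union_prod]
  intro x hx
  have hx2 : x.2 ∈ U := by
    rcases hx with h | h
    · exact h.2
    · exact h.2
  exact (key h1 x hx2).union (key h2 x hx2)

/-- concatenation of paths over `[s j, s (j+1)]` -/
theorem concat_paths {O : Set (ℝ × V × C2)} {B : Set V} {N : ℕ} (hN : 0 < N) {s : ℕ → ℝ}
    (hs0 : s 0 = 0) (hsN : s N = 1) (hs : StrictMono s) (hO : ∀ x ∈ O, ∀ t, (t, x.2) ∈ O)
    {G : ℕ → ℝ → V → C2} (hG : ∀ j < N, IsPath O B (G j))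
    (hG' : ∀ j < N, j + 1 < N → G j 1 =ᶠ[𝓝ˢ B] G (j + 1) 0) :
    ∃ β : ℝ → V → C2, IsPath O B β ∧ β 0 =ᶠ[𝓝ˢ B] G 0 0 ∧
      ∀ j < N, ∀ t ∈ Icc (s j) (s (j + 1)), ∀ z ∈ B,
        β t z = G j ((t - s j) / (s (j + 1) - s j)) z := by
  have hU : ∀ j, ∃ U : Set V, IsOpen U ∧ B ⊆ U ∧ (j < N →
      (∀ t ∈ Icc (0 : ℝ) 1, DifferentiableOn ℂ (G j t) U) ∧
      ContinuousOn (fun x : ℝ × V => G j x.1 x.2) (Icc (0 : ℝ) 1 ×ˢ U)) ∧
      (j < N → j + 1 < N → ∀ z ∈ U, G j 1 z = G (j + 1) 0 z) := by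
    intro j
    by_cases hj : j < N
    · obtain ⟨⟨U, hU, hBU, h1, h2⟩, -⟩ := hG j hj
      by_cases hj' : j + 1 < N
      · obtain ⟨W, hW, hBW, h3⟩ := eventually_nhdsSet_iff_exists.1 (hG' j hj hj')
        refine ⟨U ∩ W, hU.inter hW, subset_inter hBU hBW, fun _ =>
          ⟨fun t ht => (h1 t ht).mono inter_subset_left,
            h2.mono (prod_mono_right inter_subset_left)⟩, fun _ _ z hz => h3 z hz.2⟩
      · exact ⟨U, hU, hBU, fun _ => ⟨h1, h2⟩, fun _ h => absurd h hj'⟩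
    · exact ⟨univ, isOpen_univ, subset_univ _, fun h => absurd h hj, fun h => absurd h hj⟩
  choose U' hU'o hBU' hU1 hU2 using hU
  set U : Set V := ⋂ j ∈ Finset.range N, U' j with hUdef
  have hUo : IsOpen U := isOpen_biInter_finset fun j _ => hU'o j
  have hBU : B ⊆ U := subset_iInter₂ fun j _ => hBU' j
  have hUj : ∀ j < N, U ⊆ U' j := fun j hj => biInter_subset_of_mem (Finset.mem_range.2 hj)
  set J : ℝ → ℕ := fun t => sInf {j : ℕ | t ≤ s (j + 1)} with hJ
  set τ : ℕ → ℝ → ℝ := fun j t => (t - s j) / (s (j + 1) - s j) with hτ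
  have hpos : ∀ j, 0 < s (j + 1) - s j := fun j => sub_pos.2 (hs (Nat.lt_succ_self j))
  have hτm : ∀ j t, t ∈ Icc (s j) (s (j + 1)) → τ j t ∈ Icc (0 : ℝ) 1 := by
    intro j t ht
    refine ⟨div_nonneg (sub_nonneg.2 ht.1) (hpos j).le, (div_le_one (hpos j)).2 ?_⟩
    linarith only [ht.2]
  have hne : ∀ t ∈ Icc (0 : ℝ) 1, N - 1 ∈ {j : ℕ | t ≤ s (j + 1)} := by
    intro t ht
    show t ≤ s (N - 1 + 1)
    rw [Nat.sub_add_cancel hN, hsN]
    exact ht.2
  have hJN : ∀ t ∈ Icc (0 : ℝ) 1, J t < N := by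
    intro t ht
    have : J t ≤ N - 1 := Nat.sInf_le (hne t ht)
    omega
  have hJ1 : ∀ t ∈ Icc (0 : ℝ) 1, t ≤ s (J t + 1) := fun t ht => Nat.sInf_mem ⟨_, hne t ht⟩
  have hJ0 : ∀ t ∈ Icc (0 : ℝ) 1, s (J t) ≤ t := by
    intro t ht
    rcases Nat.eq_zero_or_pos (J t) with h | h
    · rw [h, hs0]
      exact ht.1
    · by_contra hlt
      push Not at hlt
      have h1 : J t - 1 ∈ {j : ℕ | t ≤ s (j + 1)} := by
        show t ≤ s (J t - 1 + 1)
        rw [Nat.sub_add_cancel h]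
        exact hlt.le
      have h2 : J t ≤ J t - 1 := Nat.sInf_le h1
      omega
  set β : ℝ → V → C2 := fun t z => G (J t) (τ (J t) t) z with hβ
  have hform : ∀ j < N, ∀ t ∈ Icc (s j) (s (j + 1)), ∀ z ∈ U, β t z = G j (τ j t) z := by
    intro j hj t ht z hz
    have ht01 : t ∈ Icc (0 : ℝ) 1 := by
      refine ⟨?_, ?_⟩
      · rw [← hs0]
        exact (hs.monotone (Nat.zero_le j)).trans ht.1
      · rw [← hsN]
        exact ht.2.trans (hs.monotone hj)
    have h1 : J t ≤ j := Nat.sInf_le ht.2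
    rcases h1.lt_or_eq with h | h
    · have h2 : s j ≤ s (J t + 1) := ht.1.trans (hJ1 t ht01)
      have h3 : j ≤ J t + 1 := hs.le_iff_le.1 h2
      have h4 : j = J t + 1 := by omega
      have h5 : t = s j := le_antisymm (by rw [h4]; exact hJ1 t ht01) ht.1
      have e1 : τ (J t) t = 1 := by
        simp only [hτ]
        rw [show t - s (J t) = s (J t + 1) - s (J t) by rw [← h4, ← h5]]
        exact div_self (hpos _).ne'
      have e2 : τ j t = 0 := by
        simp only [hτ]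
        rw [← h5, sub_self, zero_div]
      show G (J t) (τ (J t) t) z = _
      rw [e1, e2]
      have h6 := hU2 (J t) (hJN t ht01) (by omega) z (hUj _ (hJN t ht01) hz)
      rw [h6, ← h4]
    · show G (J t) (τ (J t) t) z = _
      rw [h]
  have hcontj : ∀ j < N, ContinuousOn (fun x : ℝ × V => β x.1 x.2)
      (Icc (s j) (s (j + 1)) ×ˢ U) := by
    intro j hj
    have h1 : ContinuousOn (fun x : ℝ × V => G j (τ j x.1) x.2)
        (Icc (s j) (s (j + 1)) ×ˢ U) := by
      have h2 : ContinuousOn (fun x : ℝ × V => ((τ j x.1, x.2) : ℝ × V))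
          (Icc (s j) (s (j + 1)) ×ˢ U) := by
        have : Continuous (fun x : ℝ × V => ((τ j x.1, x.2) : ℝ × V)) := by
          simp only [hτ]
          (clear * -; fun_prop)
        exact this.continuousOn
      exact ((hU1 j hj).2).comp h2 fun x hx => ⟨hτm j _ hx.1, hUj j hj hx.2⟩
    exact h1.congr fun x hx => hform j hj x.1 hx.1 x.2 hx.2
  have hcont : ∀ k, k ≤ N → ContinuousOn (fun x : ℝ × V => β x.1 x.2) (Icc 0 (s k) ×ˢ U) := by
    intro k
    induction k with
    | zero =>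
      intro _
      refine (hcontj 0 hN).mono (prod_mono_left ?_)
      rw [hs0]
      exact Icc_subset_Icc_right (by rw [← hs0]; exact (hs (Nat.lt_succ_self 0)).le)
    | succ k ih =>
      intro hk
      refine D3c_paste (ih (by omega)) (hcontj k hk) ?_ (hs (Nat.lt_succ_self k)).le
      rw [← hs0]
      exact hs.monotone (Nat.zero_le k)
  refine ⟨β, ⟨⟨U, hUo, hBU, fun t ht => ?_, ?_⟩, fun t ht z hz => ?_⟩, ?_, ?_⟩
  · exact ((hU1 (J t) (hJN t ht)).1 _ (hτm _ _ ⟨hJ0 t ht, hJ1 t ht⟩)).mono (hUj _ (hJN t ht))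
  · have := hcont N le_rfl
    rwa [hsN] at this
  · exact hO _ ((hG (J t) (hJN t ht)).2 _ (hτm _ _ ⟨hJ0 t ht, hJ1 t ht⟩) z hz) t
  · have h0 : J 0 = 0 := by
      refine Nat.le_zero.1 (Nat.sInf_le ?_)
      show (0 : ℝ) ≤ s (0 + 1)
      rw [← hs0]
      exact (hs (Nat.lt_succ_self 0)).le
    have e : β 0 = G 0 0 := by
      funext z
      show G (J 0) (τ (J 0) 0) z = _
      rw [h0]
      simp only [hτ]
      rw [hs0, sub_self, zero_div]
    rw [e]
  · intro j hj t ht z hz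
    exact hform j hj t ht z (hBU hz)

end

end Vale.Agent.P290.K
end
end

section

section

open scoped Manifold ContDiff Topology
open Set

namespace Vale.Agent.P290

/-- A correspondence between surfaces `X` and `Y` fibred over `C`, parametrised by an affine line
bundle on `C`: over `O a` a point `x` and a number `w` give the point `ψ a x w` of `Y`. -/
structure Transfer {X Y C : Type} [TopologicalSpace X] [ChartedSpace C2 X] [TopologicalSpace Y]
    [ChartedSpace C2 Y] [TopologicalSpace C] [ChartedSpace ℂ C] (π : X → C) (ρ : Y → C) where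
  A : Type
  O : A → Set C
  isOpen_O : ∀ a, IsOpen (O a)
  cover : ∀ p, ∃ a, p ∈ O a
  γ : A → A → C → ℂ
  σ : A → A → C → ℂ
  γ_hol : ∀ a b p, p ∈ O a → p ∈ O b → MDifferentiableAt 𝓘(ℂ) 𝓘(ℂ) (γ a b) p
  σ_hol : ∀ a b p, p ∈ O a → p ∈ O b → MDifferentiableAt 𝓘(ℂ) 𝓘(ℂ) (σ a b) p
  γ_ne : ∀ a b p, p ∈ O a → p ∈ O b → γ a b p ≠ 0
  γ_coc : ∀ a b c p, p ∈ O a → p ∈ O b → p ∈ O c → γ a c p = γ b c p * γ a b p
  σ_coc : ∀ a b c p, p ∈ O a → p ∈ O b → p ∈ O c → σ a c p = γ b c p * σ a b p + σ b c p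
  ψ : A → X → ℂ → Y
  ψ' : A → Y → ℂ → X
  ψ_base : ∀ a x w, π x ∈ O a → ρ (ψ a x w) = π x
  ψ'_base : ∀ a y w, ρ y ∈ O a → π (ψ' a y w) = ρ y
  left_inv : ∀ a x w, π x ∈ O a → ψ' a (ψ a x w) w = x
  right_inv : ∀ a y w, ρ y ∈ O a → ψ a (ψ' a y w) w = y
  ψ_hol : ∀ (a : A) (V : Type) [NormedAddCommGroup V] [NormedSpace ℂ V] (F : V → X) (w : V → ℂ)
    (z : V), MDifferentiableAt 𝓘(ℂ, V) 𝓘(ℂ, C2) F z → DifferentiableAt ℂ w z → π (F z) ∈ O a →
    MDifferentiableAt 𝓘(ℂ, V) 𝓘(ℂ, C2) (fun z => ψ a (F z) (w z)) z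
  ψ'_hol : ∀ (a : A) (V : Type) [NormedAddCommGroup V] [NormedSpace ℂ V] (G : V → Y) (w : V → ℂ)
    (z : V), MDifferentiableAt 𝓘(ℂ, V) 𝓘(ℂ, C2) G z → DifferentiableAt ℂ w z → ρ (G z) ∈ O a →
    MDifferentiableAt 𝓘(ℂ, V) 𝓘(ℂ, C2) (fun z => ψ' a (G z) (w z)) z
  ψ_trans : ∀ a b x w, π x ∈ O a → π x ∈ O b →
    ψ a x w = ψ b x (γ a b (π x) * w + σ a b (π x))

end Vale.Agent.P290
end
end

section

section

open Set Filter Metric
open scoped Manifold ContDiff Topology

namespace Vale.Agent.P290.K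

/-- A complex surface given by an étale atlas: the sets `U i ⊆ ℂ²` are glued along holomorphic maps
with Jacobian determinant one. -/
structure EtaleAtlas where
  Z : Type
  I : Type
  U : I → Set C2
  g : I → C2 → Z
  open_U : ∀ i, IsOpen (U i)
  cover : ∀ z, ∃ i, ∃ v ∈ U i, g i v = z
  trans : ∀ i j, ∀ v ∈ U i, ∀ w ∈ U j, g i v = g j w → ∃ φ : C2 → C2, AnalyticAt ℂ φ v ∧ φ v = w ∧
    ∀ᶠ v' in 𝓝 v, φ v' ∈ U j ∧ g j (φ v') = g i v' ∧ (fderiv ℂ φ v').det = 1
  inj : ∀ i, ∀ v ∈ U i, ∃ N ∈ 𝓝 v, InjOn (g i) N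

namespace EtaleAtlas

variable (A : EtaleAtlas)

/-- the surface -/
def Space : Type := A.Z

/-- the étale maps, with values in the surface -/
def gS (i : A.I) (v : C2) : A.Space := A.g i v

instance : TopologicalSpace A.Space where
  IsOpen W := ∀ i, IsOpen (A.U i ∩ A.gS i ⁻¹' W)
  isOpen_univ := fun i => by rw [preimage_univ, inter_univ]; exact A.open_U i
  isOpen_inter := fun s t hs ht i => by
    have h : A.U i ∩ A.gS i ⁻¹' (s ∩ t) = (A.U i ∩ A.gS i ⁻¹' s) ∩ (A.U i ∩ A.gS i ⁻¹' t) := by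
      ext v; simp only [mem_inter_iff, mem_preimage]; tauto
    rw [h]; exact (hs i).inter (ht i)
  isOpen_sUnion := fun S hS i => by
    have h : A.U i ∩ A.gS i ⁻¹' (⋃₀ S) = ⋃ s ∈ S, (A.U i ∩ A.gS i ⁻¹' s) := by
      ext v; simp only [mem_inter_iff, mem_preimage, mem_sUnion, mem_iUnion]
      constructor
      · rintro ⟨h1, t, ht, h2⟩; exact ⟨t, ht, h1, h2⟩
      · rintro ⟨t, ht, h1, h2⟩; exact ⟨h1, t, ht, h2⟩
    rw [h]; exact isOpen_biUnion fun s hs => hS s hs i

theorem isOpen_iff' {W : Set A.Space} : IsOpen W ↔ ∀ i, IsOpen (A.U i ∩ A.gS i ⁻¹' W) := Iff.rfl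

theorem continuousAt_gS (i : A.I) {v : C2} (hv : v ∈ A.U i) : ContinuousAt (A.gS i) v := by
  intro s hs
  obtain ⟨t, hts, hto, htv⟩ := _root_.mem_nhds_iff.1 hs
  have h1 := A.isOpen_iff'.1 hto i
  have h2 : A.U i ∩ A.gS i ⁻¹' t ∈ 𝓝 v := h1.mem_nhds ⟨hv, htv⟩
  rw [mem_map]
  exact mem_of_superset h2 fun v' hv' => hts hv'.2

theorem continuousAt_g (i : A.I) {v : C2} (hv : v ∈ A.U i) :
    ContinuousAt (X := C2) (Y := A.Space) (A.g i) v := A.continuousAt_gS i hv

theorem isOpen_image (i : A.I) {W : Set C2} (hW : IsOpen W) (hWU : W ⊆ A.U i) :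
    IsOpen (X := A.Space) (A.g i '' W) := by
  rw [isOpen_iff']
  intro j
  rw [isOpen_iff_mem_nhds]
  rintro w ⟨hw, v, hv, hvw⟩
  obtain ⟨φ, hφ, hφw, hev⟩ := A.trans j i w hw v (hWU hv) hvw.symm
  have h1 : ∀ᶠ w' in 𝓝 w, φ w' ∈ W := by
    have : ContinuousAt φ w := hφ.continuousAt
    exact this.eventually (hW.mem_nhds (by rw [hφw]; exact hv))
  filter_upwards [h1, hev, (A.open_U j).mem_nhds hw] with w' h1 h2 h3
  exact ⟨h3, φ w', h1, h2.2.1⟩

/-- the domains of charts -/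
structure Patch where
  i : A.I
  N : Set C2
  open_N : IsOpen N
  sub : N ⊆ A.U i
  inj : InjOn (A.g i) N

theorem exists_patch (i : A.I) {v : C2} (hv : v ∈ A.U i) : ∃ p : A.Patch, p.i = i ∧ v ∈ p.N := by
  obtain ⟨N, hN, hinj⟩ := A.inj i v hv
  refine ⟨⟨i, interior N ∩ A.U i, isOpen_interior.inter (A.open_U i), inter_subset_right,
    hinj.mono (inter_subset_left.trans interior_subset)⟩, rfl, ?_, hv⟩
  exact mem_interior_iff_mem_nhds.2 hN

/-- the chart of a patch -/
noncomputable def chart (p : A.Patch) : OpenPartialHomeomorph A.Space C2 where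
  toFun := Function.invFunOn (A.gS p.i) p.N
  invFun := A.gS p.i
  source := A.gS p.i '' p.N
  target := p.N
  map_source' := by
    rintro _ ⟨v, hv, rfl⟩
    exact Function.invFunOn_mem ⟨v, hv, rfl⟩
  map_target' := fun v hv => ⟨v, hv, rfl⟩
  left_inv' := by
    rintro _ ⟨v, hv, rfl⟩
    exact Function.invFunOn_eq ⟨v, hv, rfl⟩
  right_inv' := by
    intro v hv
    exact p.inj (Function.invFunOn_mem (f := A.gS p.i) ⟨v, hv, rfl⟩) hv
      (Function.invFunOn_eq (f := A.gS p.i) ⟨v, hv, rfl⟩)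
  open_source := A.isOpen_image p.i p.open_N p.sub
  open_target := p.open_N
  continuousOn_toFun := by
    rintro _ ⟨v, hv, rfl⟩
    have hinv : Function.invFunOn (A.gS p.i) p.N (A.gS p.i v) = v :=
      p.inj (Function.invFunOn_mem (f := A.gS p.i) ⟨v, hv, rfl⟩) hv
        (Function.invFunOn_eq (f := A.gS p.i) ⟨v, hv, rfl⟩)
    refine ContinuousAt.continuousWithinAt ?_
    intro s hs
    rw [hinv] at hs
    obtain ⟨t, hts, hto, htv⟩ := _root_.mem_nhds_iff.1 hs
    have h1 : IsOpen (A.gS p.i '' (t ∩ p.N)) :=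
      A.isOpen_image p.i (hto.inter p.open_N) (inter_subset_right.trans p.sub)
    have h2 : A.gS p.i '' (t ∩ p.N) ∈ 𝓝 (A.gS p.i v) := h1.mem_nhds ⟨v, ⟨htv, hv⟩, rfl⟩
    rw [mem_map]
    refine mem_of_superset h2 ?_
    rintro _ ⟨v', ⟨hv't, hv'N⟩, rfl⟩
    have hinv' : Function.invFunOn (A.gS p.i) p.N (A.gS p.i v') = v' :=
      p.inj (Function.invFunOn_mem (f := A.gS p.i) ⟨v', hv'N, rfl⟩) hv'N
        (Function.invFunOn_eq (f := A.gS p.i) ⟨v', hv'N, rfl⟩)
    rw [mem_preimage, hinv']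
    exact hts hv't
  continuousOn_invFun := fun v hv =>
    (A.continuousAt_gS p.i (p.sub hv)).continuousWithinAt

theorem chart_gS (p : A.Patch) {v : C2} (hv : v ∈ p.N) : A.chart p (A.gS p.i v) = v :=
  (A.chart p).right_inv hv

theorem exists_patch_at (z : A.Space) : ∃ p : A.Patch, z ∈ (A.chart p).source := by
  obtain ⟨i, v, hv, hz⟩ := A.cover z
  obtain ⟨p, rfl, hp⟩ := A.exists_patch i hv
  exact ⟨p, v, hp, hz⟩

noncomputable instance : ChartedSpace C2 A.Space where
  atlas := range A.chart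
  chartAt z := A.chart (A.exists_patch_at z).choose
  mem_chart_source z := (A.exists_patch_at z).choose_spec
  chart_mem_atlas _ := ⟨_, rfl⟩

theorem chart_mem (p : A.Patch) : A.chart p ∈ atlas C2 A.Space := ⟨p, rfl⟩

theorem mem_atlas_iff {e : OpenPartialHomeomorph A.Space C2} :
    e ∈ atlas C2 A.Space ↔ ∃ p, A.chart p = e := Iff.rfl

/-- transition maps -/
theorem trans_chart (p q : A.Patch) {v : C2} (hv : v ∈ p.N)
    (hv' : A.gS p.i v ∈ (A.chart q).source) : ∃ φ : C2 → C2, AnalyticAt ℂ φ v ∧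
      (∀ᶠ v' in 𝓝 v, A.chart q (A.gS p.i v') = φ v') ∧ (fderiv ℂ φ v).det = 1 := by
  obtain ⟨w, hw, hwv⟩ := hv'
  obtain ⟨φ, hφ, hφv, hev⟩ := A.trans p.i q.i v (p.sub hv) w (q.sub hw) hwv.symm
  refine ⟨φ, hφ, ?_, hev.self_of_nhds.2.2⟩
  have h1 : ∀ᶠ v' in 𝓝 v, φ v' ∈ q.N :=
    hφ.continuousAt.eventually (q.open_N.mem_nhds (by rw [hφv]; exact hw))
  filter_upwards [h1, hev] with v' h1 h2
  have h3 : A.gS p.i v' = A.gS q.i (φ v') := h2.2.1.symm
  rw [h3]
  exact A.chart_gS q h1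

instance : IsManifold 𝓘(ℂ, C2) ω A.Space := by
  refine isManifold_of_contDiffOn _ _ _ ?_
  rintro _ _ ⟨p, rfl⟩ ⟨q, rfl⟩
  intro v hv
  simp only [mfld_simps] at hv
  obtain ⟨φ, hφ, hev, -⟩ := A.trans_chart p q hv.1 hv.2
  have h1 : ContDiffAt ℂ ω φ v := hφ.contDiffAt
  refine ContDiffAt.contDiffWithinAt ?_
  refine h1.congr_of_eventuallyEq ?_
  filter_upwards [hev] with v' hv'
  exact hv'

theorem mdifferentiableAt_g (i : A.I) {v : C2} (hv : v ∈ A.U i) :
    MDifferentiableAt 𝓘(ℂ, C2) 𝓘(ℂ, C2) (M := C2) (M' := A.Space) (A.g i) v := by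
  obtain ⟨p, rfl, hp⟩ := A.exists_patch i hv
  have : IsManifold 𝓘(ℂ, C2) 1 A.Space := IsManifold.of_le (n := ω) le_top
  exact mdifferentiableAt_atlas_symm (I := 𝓘(ℂ, C2)) (A.chart_mem p) hp

theorem surjective_mfderiv_g (i : A.I) {v : C2} (hv : v ∈ A.U i) :
    Function.Surjective (mfderiv 𝓘(ℂ, C2) 𝓘(ℂ, C2) (M := C2) (M' := A.Space) (A.g i) v) := by
  obtain ⟨p, rfl, hp⟩ := A.exists_patch i hv
  have : IsManifold 𝓘(ℂ, C2) 1 A.Space := IsManifold.of_le (n := ω) le_top
  have hsrc : A.gS p.i v ∈ (A.chart p).source := ⟨v, hp, rfl⟩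
  have h1 : MDifferentiableAt 𝓘(ℂ, C2) 𝓘(ℂ, C2) (A.chart p) (A.gS p.i v) :=
    mdifferentiableAt_atlas (A.chart_mem p) hsrc
  have hv0 : A.chart p (A.gS p.i v) = v := A.chart_gS p hp
  have h2 : MDifferentiableAt 𝓘(ℂ, C2) 𝓘(ℂ, C2) (A.gS p.i) (A.chart p (A.gS p.i v)) := by
    rw [hv0]; exact A.mdifferentiableAt_g p.i (p.sub hp)
  have h3 := mfderiv_comp (A.gS p.i v) h2 h1
  have h4 : (A.gS p.i ∘ A.chart p) =ᶠ[𝓝 (A.gS p.i v)] id := by
    filter_upwards [(A.chart p).open_source.mem_nhds hsrc] with z hz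
    exact (A.chart p).left_inv hz
  have h5 : mfderiv 𝓘(ℂ, C2) 𝓘(ℂ, C2) (A.gS p.i ∘ A.chart p) (A.gS p.i v) =
      ContinuousLinearMap.id ℂ _ := by
    rw [h4.mfderiv_eq]; exact mfderiv_id
  rw [h5] at h3
  have h6 : Function.Surjective (mfderiv 𝓘(ℂ, C2) 𝓘(ℂ, C2) (A.gS p.i)
      (A.chart p (A.gS p.i v))) := by
    intro y
    refine ⟨mfderiv 𝓘(ℂ, C2) 𝓘(ℂ, C2) (A.chart p) (A.gS p.i v) y, ?_⟩
    have := congrArg (fun L => L y) h3
    exact this.symm
  have h7 : ∀ v', v' = v → Function.Surjective (mfderiv 𝓘(ℂ, C2) 𝓘(ℂ, C2) (A.gS p.i) v') →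
      Function.Surjective (mfderiv 𝓘(ℂ, C2) 𝓘(ℂ, C2) (A.gS p.i) v) := by
    rintro _ rfl h; exact h
  exact h7 _ hv0 h6

theorem mdifferentiableAt_of_comp {E M : Type} [NormedAddCommGroup E] [NormedSpace ℂ E]
    [TopologicalSpace M] [ChartedSpace E M] (f : A.Space → M) (i : A.I) {v : C2} (hv : v ∈ A.U i)
    (h : MDifferentiableAt 𝓘(ℂ, C2) 𝓘(ℂ, E) (fun v' => f (A.g i v')) v) :
    MDifferentiableAt 𝓘(ℂ, C2) 𝓘(ℂ, E) f (A.g i v) := by
  obtain ⟨p, rfl, hp⟩ := A.exists_patch i hv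
  have : IsManifold 𝓘(ℂ, C2) 1 A.Space := IsManifold.of_le (n := ω) le_top
  have hsrc : A.gS p.i v ∈ (A.chart p).source := ⟨v, hp, rfl⟩
  have h1 : MDifferentiableAt 𝓘(ℂ, C2) 𝓘(ℂ, C2) (A.chart p) (A.gS p.i v) :=
    mdifferentiableAt_atlas (A.chart_mem p) hsrc
  have hv0 : A.chart p (A.gS p.i v) = v := A.chart_gS p hp
  have h2 : MDifferentiableAt 𝓘(ℂ, C2) 𝓘(ℂ, E) (fun v' => f (A.gS p.i v'))
      (A.chart p (A.gS p.i v)) := by
    rw [hv0]; exact h
  have h3 := MDifferentiableAt.comp (A.gS p.i v) h2 h1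
  refine h3.congr_of_eventuallyEq ?_
  filter_upwards [(A.chart p).open_source.mem_nhds hsrc] with z hz
  have h4 : A.gS p.i (A.chart p z) = z := (A.chart p).left_inv hz
  simp only [Function.comp_apply]
  rw [h4]

theorem nonempty_volForm : Nonempty (VolForm A.Space) := by
  refine ⟨⟨fun _ _ => 1, ?_, ?_, ?_⟩⟩
  · intro e _; exact differentiableOn_const _
  · intro e _ y _; exact one_ne_zero
  · rintro _ ⟨p, rfl⟩ _ ⟨q, rfl⟩ v hv hv'
    obtain ⟨φ, hφ, hev, hdet⟩ := A.trans_chart p q hv hv'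
    have h1 : fderiv ℂ (fun z => A.chart q ((A.chart p).symm z)) v = fderiv ℂ φ v :=
      Filter.EventuallyEq.fderiv_eq hev
    rw [h1, hdet, one_mul]

/-- Hausdorff if the equivalence relation is closed -/
theorem t2 (h : ∀ i j, ∀ v ∈ A.U i, ∀ w ∈ A.U j,
    (∃ᶠ p in 𝓝 (v, w), A.g i p.1 = A.g j p.2) → A.g i v = A.g j w) : T2Space A.Space := by
  refine ⟨fun z z' hzz' => ?_⟩
  obtain ⟨i, v, hv, hz⟩ := A.cover z
  obtain ⟨j, w, hw, hz'⟩ := A.cover z'
  have h1 : ¬ ∃ᶠ p in 𝓝 (v, w), A.g i p.1 = A.g j p.2 := fun hf =>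
    hzz' (by rw [← hz, ← hz']; exact h i j v hv w hw hf)
  rw [not_frequently, nhds_prod_eq] at h1
  obtain ⟨s, hs, t, ht, hst⟩ := Filter.mem_prod_iff.1 h1
  obtain ⟨s', hs's, hs'o, hs'v⟩ := _root_.mem_nhds_iff.1 (inter_mem hs ((A.open_U i).mem_nhds hv))
  obtain ⟨t', ht't, ht'o, ht'w⟩ := _root_.mem_nhds_iff.1 (inter_mem ht ((A.open_U j).mem_nhds hw))
  refine ⟨A.g i '' s', A.g j '' t', A.isOpen_image i hs'o (fun x hx => (hs's hx).2),
    A.isOpen_image j ht'o (fun x hx => (ht't hx).2), ⟨v, hs'v, hz⟩, ⟨w, ht'w, hz'⟩, ?_⟩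
  rw [Set.disjoint_left]
  rintro _ ⟨a, ha, rfl⟩ ⟨b, hb, hab⟩
  exact hst (show (a, b) ∈ s ×ˢ t from ⟨(hs's ha).1, (ht't hb).1⟩) hab.symm

theorem isCompact_image (i : A.I) {S : Set C2} (hS : IsCompact S) (hSU : S ⊆ A.U i) :
    IsCompact (X := A.Space) (A.g i '' S) :=
  hS.image_of_continuousOn (f := A.gS i) fun _ hv =>
    (A.continuousAt_gS i (hSU hv)).continuousWithinAt

end EtaleAtlas

end Vale.Agent.P290.K
end
end

section

section

open Set Filter Metric
open scoped Manifold ContDiff Topology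

namespace Vale.Agent.P290.K

theorem g_lat_zero (lam : Fin 4 → C2) : lat lam 0 = 0 := by simp [lat]

theorem g_lat_add (lam : Fin 4 → C2) (n m : Fin 4 → ℤ) : lat lam (n + m) = lat lam n + lat lam m := by
  simp only [lat, Pi.add_apply, Int.cast_add, add_smul, Finset.sum_add_distrib]

theorem g_lat_neg (lam : Fin 4 → C2) (n : Fin 4 → ℤ) : lat lam (-n) = - lat lam n := by
  simp only [lat, Pi.neg_apply, Int.cast_neg, neg_smul, Finset.sum_neg_distrib]

theorem g_lat_sub (lam : Fin 4 → C2) (n m : Fin 4 → ℤ) : lat lam (n - m) = lat lam n - lat lam m := by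
  rw [sub_eq_add_neg, g_lat_add, g_lat_neg, ← sub_eq_add_neg]

theorem half_lat_two (lam : Fin 4 → C2) (m : Fin 4 → ℤ) :
    (1 / 2 : ℂ) • lat lam (2 • m) = lat lam m := by
  rw [two_smul, g_lat_add, ← two_smul ℂ (lat lam m), smul_smul]
  norm_num

theorem lat_eq_real (lam : Fin 4 → C2) (n : Fin 4 → ℤ) :
    lat lam n = ∑ k, (n k : ℝ) • lam k := by
  simp only [lat]
  refine Finset.sum_congr rfl fun k _ => ?_
  rw [← Complex.coe_smul]
  norm_num

theorem g_exists_lat_bound {lam : Fin 4 → C2} (hlam : LinearIndependent ℝ lam) :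
    ∃ c > 0, ∀ n : Fin 4 → ℤ, n ≠ 0 → c ≤ ‖lat lam n‖ := by
  set T : (Fin 4 → ℝ) →ₗ[ℝ] C2 := Fintype.linearCombination ℝ lam with hT
  have hinj : Function.Injective T := by
    rw [← LinearMap.ker_eq_bot, LinearMap.ker_eq_bot']
    intro x hx
    rw [hT, Fintype.linearCombination_apply] at hx
    exact funext (Fintype.linearIndependent_iff.1 hlam x hx)
  obtain ⟨K, hK, hanti⟩ := T.toContinuousLinearMap.toLinearMap.exists_antilipschitzWith
    (LinearMap.ker_eq_bot.2 hinj)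
  refine ⟨(K : ℝ)⁻¹, by (clear * - hK; positivity), fun n hn => ?_⟩
  have h1 : T (fun k => (n k : ℝ)) = lat lam n := by
    rw [lat_eq_real, hT, Fintype.linearCombination_apply]
  have h2 := hanti.le_mul_dist (fun k => (n k : ℝ)) 0
  have h3 : T.toContinuousLinearMap.toLinearMap (fun k => (n k : ℝ)) = lat lam n := h1
  rw [h3, map_zero, dist_zero_right, dist_zero_right] at h2
  have h4 : (1 : ℝ) ≤ ‖fun k => (n k : ℝ)‖ := by
    obtain ⟨k, hk⟩ : ∃ k, n k ≠ 0 := by
      by_contra h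
      push Not at h
      exact hn (funext h)
    refine le_trans ?_ (norm_le_pi_norm (fun k => (n k : ℝ)) k)
    rw [Real.norm_eq_abs, ← Int.cast_abs]
    exact_mod_cast Int.one_le_abs hk
  have hK' : (0 : ℝ) < K := by exact_mod_cast hK
  rw [inv_le_iff_one_le_mul₀ hK']
  linarith only [h2, h4]

theorem lat_injective {lam : Fin 4 → C2} (hlam : LinearIndependent ℝ lam) :
    Function.Injective (lat lam) := by
  obtain ⟨c, hc, hb⟩ := g_exists_lat_bound hlam
  intro n m h
  by_contra hne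
  have h1 := hb (n - m) (sub_ne_zero.2 hne)
  rw [g_lat_sub, h, sub_self, norm_zero] at h1
  linarith only [hc, h1]

theorem isClosed_lat_image {lam : Fin 4 → C2} (hlam : LinearIndependent ℝ lam)
    (S : Set (Fin 4 → ℤ)) : IsClosed ((fun n => (1 / 2 : ℂ) • lat lam n) '' S) := by
  obtain ⟨c, hc, hb⟩ := g_exists_lat_bound hlam
  refine Metric.isClosed_of_pairwise_le_dist (ε := c / 2) (by positivity) ?_
  rintro _ ⟨n, -, rfl⟩ _ ⟨m, -, rfl⟩ hnm
  have hne : n ≠ m := by rintro rfl; exact hnm rfl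
  have h1 := hb (n - m) (sub_ne_zero.2 hne)
  rw [g_lat_sub] at h1
  simp only
  rw [dist_eq_norm, ← smul_sub, norm_smul]
  norm_num
  linarith

theorem isProperMap_sq : IsProperMap (fun z : ℂ => z ^ 2) := by
  rw [isProperMap_iff_tendsto_cocompact]
  refine ⟨by (clear * -; fun_prop), ?_⟩
  rw [← Metric.cobounded_eq_cocompact, ← comap_norm_atTop, tendsto_comap_iff]
  have h1 : (norm ∘ fun z : ℂ => z ^ 2) = (fun x : ℝ => x ^ 2) ∘ norm := by
    ext z; simp
  rw [h1]
  exact (tendsto_pow_atTop two_ne_zero).comp tendsto_comap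

/-- the relation `w' c' = w c + lat k / 2`, `k ∈ T`, is closed in `(w², c, w'², c')` -/
theorem isClosed_rel {lam : Fin 4 → C2} (hlam : LinearIndependent ℝ lam)
    (T : Set (Fin 4 → ℤ)) : IsClosed {p : (ℂ × C2) × (ℂ × C2) | ∃ w w' : ℂ, w ^ 2 = p.1.1 ∧
      w' ^ 2 = p.2.1 ∧ ∃ k ∈ T, w' • p.2.2 = w • p.1.2 + (1 / 2 : ℂ) • lat lam k} := by
  set P : (ℂ × C2) × (ℂ × C2) → (ℂ × C2) × (ℂ × C2) :=
    Prod.map (Prod.map (fun z => z ^ 2) id) (Prod.map (fun z => z ^ 2) id) with hP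
  have hproper : IsProperMap P :=
    (isProperMap_sq.prodMap isProperMap_id).prodMap (isProperMap_sq.prodMap isProperMap_id)
  set S : Set ((ℂ × C2) × (ℂ × C2)) := (fun q => q.2.1 • q.2.2 - q.1.1 • q.1.2) ⁻¹'
    ((fun n => (1 / 2 : ℂ) • lat lam n) '' T) with hS
  have hSc : IsClosed S := (isClosed_lat_image hlam T).preimage (by (clear * -; fun_prop))
  have h1 : {p : (ℂ × C2) × (ℂ × C2) | ∃ w w' : ℂ, w ^ 2 = p.1.1 ∧
      w' ^ 2 = p.2.1 ∧ ∃ k ∈ T, w' • p.2.2 = w • p.1.2 + (1 / 2 : ℂ) • lat lam k} = P '' S := by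
    ext ⟨⟨s, c⟩, ⟨s', c'⟩⟩
    simp only [mem_ofPred_eq, mem_image, hS, mem_preimage, hP, Prod.map_apply, id, Prod.exists,
      Prod.mk.injEq]
    constructor
    · rintro ⟨w, w', hw, hw', k, hk, h⟩
      exact ⟨w, c.1, c.2, w', c'.1, c'.2, ⟨k, hk, by rw [Prod.mk.eta, Prod.mk.eta, h]; abel⟩,
        ⟨hw, rfl⟩, hw', rfl⟩
    · rintro ⟨w, a, b, w', a', b', ⟨k, hk, h⟩, ⟨hw, hc⟩, hw', hc'⟩
      refine ⟨w, w', hw, hw', k, hk, ?_⟩
      rw [h, ← hc, ← hc']; abel
  rw [h1]
  exact hproper.isClosedMap S hSc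

theorem isOpen_PP {lam : Fin 4 → C2} (hlam : LinearIndependent ℝ lam) : IsOpen (PP lam) := by
  set P : (ℂ × C2) → (ℂ × C2) := Prod.map (fun z => z ^ 2) id with hP
  have hproper : IsProperMap P := isProperMap_sq.prodMap isProperMap_id
  set S : Set (ℂ × C2) := (fun q => q.1 • q.2) ⁻¹'
    ((fun n => (1 / 2 : ℂ) • lat lam n) '' {n | n ≠ 0}) with hS
  have hSc : IsClosed S := (isClosed_lat_image hlam _).preimage (by (clear * -; fun_prop))
  have h1 : PP lam = ({x | x.2 = 0} ∪ P '' S)ᶜ := by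
    ext ⟨s, c⟩
    simp only [PP, mem_ofPred_eq, hP, hS, mem_compl_iff, mem_union, mem_image, mem_preimage, Prod.exists, Prod.map_apply, id, Prod.mk.injEq, not_or]
    refine and_congr Iff.rfl ?_
    constructor
    · rintro h ⟨w, a, b, ⟨n, hn, hwn⟩, hw, hc⟩
      exact h w hw n hn (by rw [← hc]; exact hwn.symm)
    · intro h w hw n hn hwn
      exact h ⟨w, c.1, c.2, ⟨n, hn, by rw [Prod.mk.eta]; exact hwn.symm⟩, hw, rfl⟩
  rw [h1, isOpen_compl_iff]
  exact (isClosed_eq continuous_snd continuous_const).union (hproper.isClosedMap S hSc)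

/-- the parameter spaces of the Kummer surface -/
abbrev PPt (lam : Fin 4 → C2) : Type := {p : (Fin 4 → ℤ) × (ℂ × C2) // p.2 ∈ PP lam}

theorem g_exists_sqrt (s : ℂ) : ∃ w : ℂ, w ^ 2 = s := IsAlgClosed.exists_pow_nat_eq s two_pos

theorem KRel_refl (lam : Fin 4 → C2) (n : Fin 4 → ℤ) (x : ℂ × C2) : KRel lam n x n x := by
  by_cases h : x.1 = 0
  · exact Or.inl ⟨h, h, ⟨0, by simp⟩, 1, one_ne_zero, (one_smul _ _).symm⟩
  · obtain ⟨w, hw⟩ := g_exists_sqrt x.1
    exact Or.inr ⟨h, h, w, w, hw, hw, 0, by rw [g_lat_zero, add_zero]⟩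

theorem KRel_symm {lam : Fin 4 → C2} {n n' : Fin 4 → ℤ} {x x' : ℂ × C2}
    (h : KRel lam n x n' x') : KRel lam n' x' n x := by
  rcases h with ⟨h1, h2, ⟨m, hm⟩, t, ht, htc⟩ | ⟨h1, h2, w, w', hw, hw', m, hm⟩
  · refine Or.inl ⟨h2, h1, ⟨-m, by rw [hm]; simp⟩, t⁻¹, inv_ne_zero ht, ?_⟩
    rw [htc, smul_smul, inv_mul_cancel₀ ht, one_smul]
  · refine Or.inr ⟨h2, h1, w', w, hw', hw, -m, ?_⟩
    rw [hm, g_lat_neg]; abel

theorem KRel_trans {lam : Fin 4 → C2} {n n' n'' : Fin 4 → ℤ} {x x' x'' : ℂ × C2}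
    (h : KRel lam n x n' x') (h' : KRel lam n' x' n'' x'') : KRel lam n x n'' x'' := by
  rcases h with ⟨h1, h2, ⟨m, hm⟩, t, ht, htc⟩ | ⟨h1, h2, w, w', hw, hw', m, hm⟩
  · rcases h' with ⟨h3, h4, ⟨m', hm'⟩, t', ht', htc'⟩ | ⟨h3, -⟩
    · refine Or.inl ⟨h1, h4, ⟨m + m', by rw [hm', hm, smul_add]; abel⟩, t' * t,
        mul_ne_zero ht' ht, ?_⟩
      rw [htc', htc, smul_smul]
    · exact absurd h2 h3
  · rcases h' with ⟨h3, -⟩ | ⟨h3, h4, v, v', hv, hv', m', hm'⟩
    · exact absurd h3 h2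
    · have h5 : v = w' ∨ v = -w' := by
        have : (v - w') * (v + w') = 0 := by ring_nf; rw [hv, hw']; ring
        rcases mul_eq_zero.1 this with h | h
        · exact Or.inl (sub_eq_zero.1 h)
        · exact Or.inr (eq_neg_of_add_eq_zero_left h)
      rcases h5 with rfl | rfl
      · refine Or.inr ⟨h1, h4, w, v', hw, hv', m + m', ?_⟩
        rw [hm', hm, g_lat_add]; abel
      · refine Or.inr ⟨h1, h4, -w, v', by rw [neg_sq, hw], hv', m' - m + n' - n, ?_⟩
        have h6 : w' • x'.2 = (1 / 2 : ℂ) • lat lam n + w • x.2 + lat lam m -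
            (1 / 2 : ℂ) • lat lam n' := by rw [← hm]; abel
        rw [hm', neg_smul, h6, g_lat_sub, g_lat_add, g_lat_sub, neg_smul]
        have h7 : ∀ a : C2, (1 / 2 : ℂ) • a + (1 / 2 : ℂ) • a = a := by
          intro a; rw [← add_smul]; norm_num
        have h8 := h7 (lat lam n)
        have h9 := h7 (lat lam n')
        generalize hA : (1 / 2 : ℂ) • lat lam n = A at *
        generalize hB : (1 / 2 : ℂ) • lat lam n' = B at *
        rw [← h8, ← h9]; abel

theorem KRel_equivalence {lam : Fin 4 → C2} (_hlam : LinearIndependent ℝ lam) :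
    Equivalence (fun p p' : PPt lam => KRel lam p.1.1 p.1.2 p'.1.1 p'.1.2) :=
  ⟨fun _ => KRel_refl _ _ _, fun h => KRel_symm h, fun h h' => KRel_trans h h'⟩

/-- scaling -/
theorem g_KRel_scale {lam : Fin 4 → C2} (n m : Fin 4 → ℤ) (s τ : ℂ) (c : C2) (hτ : τ ≠ 0) :
    KRel lam n (s, c) (n + 2 • m) (s / τ ^ 2, τ • c) := by
  by_cases h : s = 0
  · exact Or.inl ⟨h, by simp [h], ⟨m, rfl⟩, τ, hτ, rfl⟩
  · obtain ⟨w, hw⟩ := g_exists_sqrt s
    refine Or.inr ⟨h, div_ne_zero h (pow_ne_zero 2 hτ), w, w / τ, hw, ?_, m, ?_⟩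
    · rw [div_pow, hw]
    · simp only
      rw [g_lat_add, smul_add, half_lat_two, smul_smul, div_mul_cancel₀ _ hτ]
      abel

theorem base_mem_PP {lam : Fin 4 → C2} (hlam : LinearIndependent ℝ lam) :
    ((0 : ℂ), ((1 : ℂ), (0 : ℂ))) ∈ PP lam := by
  refine ⟨by simp, fun w hw n hn h => ?_⟩
  have hw0 : w = 0 := by simpa using hw
  rw [hw0, zero_smul] at h
  have h1 : lat lam n = 0 := by
    rcases smul_eq_zero.1 h.symm with h | h
    · norm_num at h
    · exact h
  exact hn (lat_injective hlam (by rw [h1, g_lat_zero]))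

/-- scaling preserves the parameter space -/
theorem scale_mem_PP {lam : Fin 4 → C2} {s τ : ℂ} {c : C2} (h : (s, c) ∈ PP lam) (hτ : τ ≠ 0) :
    (s / τ ^ 2, τ • c) ∈ PP lam := by
  refine ⟨smul_ne_zero hτ h.1, fun w hw n hn hwn => ?_⟩
  refine h.2 (w * τ) ?_ n hn ?_
  · simp only at hw
    rw [mul_pow, hw]; (clear * - hτ; field_simp)
  · rw [← hwn]; simp only; rw [smul_smul]

end Vale.Agent.P290.K
end
end

section

section

open Set Filter Metric
open scoped Manifold ContDiff Topology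

namespace Vale.Agent.P290.K

/-- the two slices `c = (1, u)` and `c = (-u, 1)` -/
def sl (b : Bool) (v : C2) : ℂ × C2 := if b then (v.1, (-v.2, 1)) else (v.1, (1, v.2))

theorem sl_fst (b : Bool) (v : C2) : (sl b v).1 = v.1 := by cases b <;> rfl

theorem sl_true (v : C2) : sl true v = (v.1, (-v.2, 1)) := rfl

theorem sl_false (v : C2) : sl false v = (v.1, (1, v.2)) := rfl

theorem continuous_sl (b : Bool) : Continuous (sl b) := by
  cases b
  · exact continuous_fst.prodMk (continuous_const.prodMk continuous_snd)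
  · exact continuous_fst.prodMk (continuous_snd.neg.prodMk continuous_const)

theorem differentiable_sl (b : Bool) : Differentiable ℂ (sl b) := by
  cases b
  · exact differentiable_fst.prodMk ((differentiable_const _).prodMk differentiable_snd)
  · exact differentiable_fst.prodMk (differentiable_snd.neg.prodMk (differentiable_const _))

variable {lam : Fin 4 → C2}

/-- the quotient map -/
noncomputable def kq (hlam : LinearIndependent ℝ lam) (n : Fin 4 → ℤ) (x : ℂ × C2) :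
    Quotient ⟨_, KRel_equivalence hlam⟩ :=
  open Classical in
  if h : x ∈ PP lam then Quotient.mk _ ⟨(n, x), h⟩
  else Quotient.mk _ ⟨(0, (0, (1, 0))), base_mem_PP hlam⟩

theorem kq_eq_iff (hlam : LinearIndependent ℝ lam) {n n' : Fin 4 → ℤ} {x x' : ℂ × C2}
    (hx : x ∈ PP lam) (hx' : x' ∈ PP lam) :
    kq hlam n x = kq hlam n' x' ↔ KRel lam n x n' x' := by
  unfold kq
  rw [dif_pos hx, dif_pos hx']
  exact Quotient.eq

theorem exists_kq (hlam : LinearIndependent ℝ lam) (z : Quotient ⟨_, KRel_equivalence hlam⟩) :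
    ∃ n, ∃ x ∈ PP lam, kq hlam n x = z := by
  obtain ⟨⟨⟨n, x⟩, hx⟩, rfl⟩ := Quotient.exists_rep z
  exact ⟨n, x, hx, by unfold kq; rw [dif_pos hx]⟩

/-- coordinates in the slices -/
theorem kq_slice (hlam : LinearIndependent ℝ lam) (n : Fin 4 → ℤ) {x : ℂ × C2} (hx : x ∈ PP lam) :
    (x.2.1 ≠ 0 → sl false (x.1 * x.2.1 ^ 2, x.2.2 / x.2.1) ∈ PP lam ∧
      kq hlam n (sl false (x.1 * x.2.1 ^ 2, x.2.2 / x.2.1)) = kq hlam n x) ∧
    (x.2.2 ≠ 0 → sl true (x.1 * x.2.2 ^ 2, - x.2.1 / x.2.2) ∈ PP lam ∧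
      kq hlam n (sl true (x.1 * x.2.2 ^ 2, - x.2.1 / x.2.2)) = kq hlam n x) := by
  obtain ⟨s, c1, c2⟩ := x
  constructor
  · intro h
    have h1 : sl false (s * c1 ^ 2, c2 / c1) = (s / (c1⁻¹) ^ 2, c1⁻¹ • (c1, c2)) := by
      rw [sl_false]
      ext <;> simp [h, div_eq_mul_inv, mul_comm]
    simp only at h ⊢
    rw [h1]
    have h2 := scale_mem_PP hx (inv_ne_zero h)
    refine ⟨h2, ?_⟩
    rw [kq_eq_iff hlam h2 hx]
    have := g_KRel_scale (lam := lam) n 0 s c1⁻¹ (c1, c2) (inv_ne_zero h)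
    rw [smul_zero, add_zero] at this
    exact KRel_symm this
  · intro h
    have h1 : sl true (s * c2 ^ 2, - c1 / c2) = (s / (c2⁻¹) ^ 2, c2⁻¹ • (c1, c2)) := by
      rw [sl_true]
      ext <;> simp [h, div_eq_mul_inv, mul_comm]
    simp only at h ⊢
    rw [h1]
    have h2 := scale_mem_PP hx (inv_ne_zero h)
    refine ⟨h2, ?_⟩
    rw [kq_eq_iff hlam h2 hx]
    have := g_KRel_scale (lam := lam) n 0 s c2⁻¹ (c1, c2) (inv_ne_zero h)
    rw [smul_zero, add_zero] at this
    exact KRel_symm this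

theorem kq_cover (hlam : LinearIndependent ℝ lam) (z : Quotient ⟨_, KRel_equivalence hlam⟩) :
    ∃ i : (Fin 4 → ℤ) × Bool, ∃ v ∈ {v | sl i.2 v ∈ PP lam}, kq hlam i.1 (sl i.2 v) = z := by
  obtain ⟨n, x, hx, rfl⟩ := exists_kq hlam z
  obtain ⟨h1, h2⟩ := kq_slice hlam n hx
  by_cases h : x.2.1 = 0
  · have h' : x.2.2 ≠ 0 := fun h' => hx.1 (Prod.ext h h')
    exact ⟨(n, true), _, (h2 h').1, (h2 h').2⟩
  · exact ⟨(n, false), _, (h1 h).1, (h1 h).2⟩

/-! ### local injectivity -/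

theorem kq_inj (hlam : LinearIndependent ℝ lam) (i : (Fin 4 → ℤ) × Bool) {v : C2}
    (hv : sl i.2 v ∈ PP lam) : ∃ N ∈ 𝓝 v, InjOn (fun v => kq hlam i.1 (sl i.2 v)) N := by
  obtain ⟨n, b⟩ := i
  simp only at hv ⊢
  set H := {p : (ℂ × C2) × (ℂ × C2) | ∃ w w' : ℂ, w ^ 2 = p.1.1 ∧
      w' ^ 2 = p.2.1 ∧ ∃ k ∈ {k : Fin 4 → ℤ | ∃ m : Fin 4 → ℤ, m ≠ 0 ∧ k = 2 • m},
        w' • p.2.2 = w • p.1.2 + (1 / 2 : ℂ) • lat lam k} with hH
  have hHc : IsClosed H := isClosed_rel hlam _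
  have hnot : (sl b v, sl b v) ∉ H := by
    rintro ⟨w, w', hw, hw', k, ⟨m, hm, rfl⟩, h⟩
    simp only at hw hw' h
    rw [half_lat_two] at h
    have h5 : w' = w ∨ w' = -w := by
      have : (w' - w) * (w' + w) = 0 := by ring_nf; rw [hw, hw']; ring
      rcases mul_eq_zero.1 this with h | h
      · exact Or.inl (sub_eq_zero.1 h)
      · exact Or.inr (eq_neg_of_add_eq_zero_left h)
    rcases h5 with rfl | rfl
    · have h6 : lat lam m = 0 := by
        have := left_eq_add.1 h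
        exact this
      exact hm (lat_injective hlam (by rw [h6, g_lat_zero]))
    · refine hv.2 (-w) (by rw [neg_sq, hw]) m hm ?_
      have h6 : (2 : ℂ) • ((-w) • (sl b v).2) = lat lam m := by
        rw [two_smul]
        nth_rewrite 1 [h]
        rw [neg_smul]; abel
      rw [← h6, smul_smul]; norm_num
  have hopen : ∀ᶠ p : C2 × C2 in 𝓝 (v, v), (sl b p.1, sl b p.2) ∈ Hᶜ := by
    have hcont : Continuous (fun p : C2 × C2 => (sl b p.1, sl b p.2)) :=
      ((continuous_sl b).comp continuous_fst).prodMk ((continuous_sl b).comp continuous_snd)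
    exact hcont.continuousAt.eventually (hHc.isOpen_compl.mem_nhds hnot)
  have hPPn : ∀ᶠ v' in 𝓝 v, sl b v' ∈ PP lam :=
    (continuous_sl b).continuousAt.eventually ((isOpen_PP hlam).mem_nhds hv)
  rw [nhds_prod_eq] at hopen
  obtain ⟨s, hs, hst⟩ := Filter.mem_prod_self_iff.1 hopen
  refine ⟨s ∩ {v' | sl b v' ∈ PP lam}, inter_mem hs hPPn, ?_⟩
  rintro a ⟨has, haP⟩ a' ⟨has', haP'⟩ haa'
  simp only at haa'
  rw [kq_eq_iff hlam haP haP'] at haa'
  have h2 := hst (show (a, a') ∈ s ×ˢ s from ⟨has, has'⟩)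
  simp only [mem_compl_iff] at h2
  rcases haa' with ⟨h1, h2', -, t, ht, htc⟩ | ⟨h1, h2', w, w', hw, hw', m, hm⟩
  · rw [sl_fst] at h1 h2'
    cases b
    · simp only [sl_false, Prod.smul_mk, Prod.mk.injEq, smul_eq_mul, mul_one] at htc
      refine Prod.ext (by rw [h1, h2']) ?_
      rw [htc.2, ← htc.1, one_mul]
    · simp only [sl_true, Prod.smul_mk, Prod.mk.injEq, smul_eq_mul, mul_one] at htc
      refine Prod.ext (by rw [h1, h2']) ?_
      have := htc.1
      rw [← htc.2, one_mul] at this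
      exact (neg_injective this).symm
  · by_cases hm0 : m = 0
    · subst hm0
      rw [g_lat_zero, add_zero, add_right_inj] at hm
      rw [sl_fst] at hw hw'
      have hw0 : w' ≠ 0 := by
        intro h0; apply h2'; rw [sl_fst, ← hw', h0]; ring
      cases b
      · simp only [sl_false, Prod.smul_mk, Prod.mk.injEq, smul_eq_mul, mul_one] at hm
        refine Prod.ext (by rw [← hw, ← hw', hm.1]) ?_
        have := hm.2
        rw [← hm.1] at this
        exact (mul_left_cancel₀ hw0 this).symm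
      · simp only [sl_true, Prod.smul_mk, Prod.mk.injEq, smul_eq_mul, mul_one] at hm
        refine Prod.ext (by rw [← hw, ← hw', hm.2]) ?_
        have := hm.1
        rw [← hm.2] at this
        exact (neg_injective (mul_left_cancel₀ hw0 this)).symm
    · exfalso
      refine h2 ⟨w, w', hw, hw', 2 • m, ⟨m, hm0, rfl⟩, ?_⟩
      rw [half_lat_two]
      have := add_left_cancel (a := (1 / 2 : ℂ) • lat lam n) (b := w' • (sl b a').2)
        (c := w • (sl b a).2 + lat lam m) (by rw [hm]; abel)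
      exact this

/-! ### the relation is closed -/

theorem KRel_closed (hlam : LinearIndependent ℝ lam) {n n' : Fin 4 → ℤ} {x x' : ℂ × C2}
    (hx : x ∈ PP lam) (hx' : x' ∈ PP lam)
    (h : ∃ᶠ p in 𝓝 (x, x'), KRel lam n p.1 n' p.2) : KRel lam n x n' x' := by
  set T := {k : Fin 4 → ℤ | ∃ m : Fin 4 → ℤ, k = n - n' + 2 • m} with hT
  set G := {p : (ℂ × C2) × (ℂ × C2) | ∃ w w' : ℂ, w ^ 2 = p.1.1 ∧
      w' ^ 2 = p.2.1 ∧ ∃ k ∈ T, w' • p.2.2 = w • p.1.2 + (1 / 2 : ℂ) • lat lam k} with hG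
  have hGc : IsClosed G := isClosed_rel hlam T
  have hstep : ∀ p : (ℂ × C2) × (ℂ × C2), ∀ w w' : ℂ, ∀ m : Fin 4 → ℤ,
      (1 / 2 : ℂ) • lat lam n' + w' • p.2.2 = (1 / 2 : ℂ) • lat lam n + w • p.1.2 + lat lam m ↔
      w' • p.2.2 = w • p.1.2 + (1 / 2 : ℂ) • lat lam (n - n' + 2 • m) := by
    intro p w w' m
    rw [g_lat_add, g_lat_sub, smul_add, smul_sub, half_lat_two]
    constructor
    · intro h
      have : w' • p.2.2 = (1 / 2 : ℂ) • lat lam n + w • p.1.2 + lat lam m -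
          (1 / 2 : ℂ) • lat lam n' := by rw [← h]; abel
      rw [this]; abel
    · intro h; rw [h]; abel
  have hKG : ∀ p : (ℂ × C2) × (ℂ × C2), KRel lam n p.1 n' p.2 → p ∈ G := by
    rintro p (⟨h1, h2, ⟨m, hm⟩, -⟩ | ⟨-, -, w, w', hw, hw', m, hm⟩)
    · refine ⟨0, 0, by rw [h1]; ring, by rw [h2]; ring, 0, ⟨m, ?_⟩, by
        rw [g_lat_zero, smul_zero, zero_smul, zero_smul, add_zero]⟩
      rw [hm]; abel
    · exact ⟨w, w', hw, hw', n - n' + 2 • m, ⟨m, rfl⟩, (hstep p w w' m).1 hm⟩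
  have hxG : (x, x') ∈ G := by
    have h1 : (x, x') ∈ closure G := mem_closure_iff_frequently.2 (h.mono fun p hp => hKG p hp)
    rwa [hGc.closure_eq] at h1
  obtain ⟨w, w', hw, hw', k, ⟨m, hm⟩, hk⟩ := hxG
  simp only at hw hw' hk
  by_cases hs : x.1 = 0
  · have hw0 : w = 0 := by
      rw [hs] at hw; exact pow_eq_zero_iff two_ne_zero |>.1 hw
    have hk0 : k = 0 := by
      by_contra hk0
      refine hx'.2 w' hw' k hk0 ?_
      rw [hk, hw0, zero_smul, zero_add]
    have hs' : x'.1 = 0 := by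
      rw [hk0, g_lat_zero, smul_zero, hw0, zero_smul, zero_add] at hk
      rcases smul_eq_zero.1 hk with h | h
      · rw [← hw', h]; ring
      · exact absurd h hx'.1
    refine Or.inl ⟨hs, hs', ⟨m, ?_⟩, ?_⟩
    · rw [hk0] at hm
      have : n' = n' + (n - n' + 2 • m) := by rw [← hm, add_zero]
      rw [this]; abel
    -- the directions
    set H := {p : (ℂ × C2) × (ℂ × C2) | ∃ w w' : ℂ, w ^ 2 = p.1.1 ∧
      w' ^ 2 = p.2.1 ∧ ∃ k ∈ {k : Fin 4 → ℤ | k ≠ 0},
        w' • p.2.2 = w • p.1.2 + (1 / 2 : ℂ) • lat lam k} with hH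
    have hHc : IsClosed H := isClosed_rel hlam _
    have hnot : (x, x') ∉ H := by
      rintro ⟨v, v', hv, hv', k', hk', hkk⟩
      simp only at hv hv' hkk
      rw [hs] at hv; rw [hs'] at hv'
      rw [pow_eq_zero_iff two_ne_zero |>.1 hv, pow_eq_zero_iff two_ne_zero |>.1 hv', zero_smul,
        zero_smul, zero_add] at hkk
      apply hk'
      refine lat_injective hlam ?_
      rw [g_lat_zero]
      rcases smul_eq_zero.1 hkk.symm with h | h
      · norm_num at h
      · exact h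
    have hev : ∀ᶠ p in 𝓝 (x, x'), p ∈ Hᶜ := hHc.isOpen_compl.mem_nhds hnot
    have hpar : ∃ᶠ p in 𝓝 (x, x'), p.1.2.1 * p.2.2.2 = p.1.2.2 * p.2.2.1 := by
      refine (h.and_eventually hev).mono ?_
      rintro p ⟨hK, hpH⟩
      rcases hK with ⟨-, -, -, t, -, ht⟩ | ⟨h1, h2, v, v', hv, hv', m', hm'⟩
      · rw [ht]; simp only [Prod.smul_fst, Prod.smul_snd, smul_eq_mul]; ring
      · by_cases hz : n - n' + 2 • m' = 0
        · have h3 := (hstep p v v' m').1 hm'
          rw [hz, g_lat_zero, smul_zero, add_zero] at h3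
          have hv0 : v' ≠ 0 := by
            intro h0; apply h2; rw [← hv', h0]; ring
          have h4 := congrArg Prod.fst h3
          have h5 := congrArg Prod.snd h3
          simp only [Prod.smul_fst, Prod.smul_snd, smul_eq_mul] at h4 h5
          have h6 : v' * (p.1.2.1 * p.2.2.2) = v' * (p.1.2.2 * p.2.2.1) := by
            calc v' * (p.1.2.1 * p.2.2.2) = p.1.2.1 * (v' * p.2.2.2) := by ring
              _ = p.1.2.2 * (v * p.1.2.1) := by rw [h5]; ring
              _ = v' * (p.1.2.2 * p.2.2.1) := by rw [← h4]; ring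
          exact mul_left_cancel₀ hv0 h6
        · exact absurd ⟨v, v', hv, hv', _, hz, (hstep p v v' m').1 hm'⟩ hpH
    have hcl : IsClosed {p : (ℂ × C2) × (ℂ × C2) | p.1.2.1 * p.2.2.2 = p.1.2.2 * p.2.2.1} :=
      isClosed_eq (by (clear * -; fun_prop)) (by fun_prop)
    have hlim : (x, x') ∈ {p : (ℂ × C2) × (ℂ × C2) | p.1.2.1 * p.2.2.2 = p.1.2.2 * p.2.2.1} := by
      have h1 : (x, x') ∈ closure {p : (ℂ × C2) × (ℂ × C2) |
          p.1.2.1 * p.2.2.2 = p.1.2.2 * p.2.2.1} := mem_closure_iff_frequently.2 hpar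
      rwa [hcl.closure_eq] at h1
    simp only [mem_ofPred_eq] at hlim
    by_cases hc : x.2.1 = 0
    · have hc2 : x.2.2 ≠ 0 := fun h' => hx.1 (Prod.ext hc h')
      have h1 : x'.2.1 = 0 := by
        rw [hc, zero_mul] at hlim
        rcases mul_eq_zero.1 hlim.symm with h | h
        · exact absurd h hc2
        · exact h
      have h2 : x'.2.2 ≠ 0 := fun h' => hx'.1 (Prod.ext h1 h')
      refine ⟨x'.2.2 / x.2.2, div_ne_zero h2 hc2, Prod.ext ?_ ?_⟩
      · simp only [Prod.smul_fst, smul_eq_mul]; rw [hc, h1, mul_zero]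
      · simp only [Prod.smul_snd, smul_eq_mul]; rw [div_mul_cancel₀ _ hc2]
    · refine ⟨x'.2.1 / x.2.1, div_ne_zero ?_ hc, Prod.ext ?_ ?_⟩
      · intro h1
        rw [h1, mul_zero] at hlim
        rcases mul_eq_zero.1 hlim with h | h
        · exact hc h
        · exact hx'.1 (Prod.ext h1 h)
      · simp only [Prod.smul_fst, smul_eq_mul]; rw [div_mul_cancel₀ _ hc]
      · simp only [Prod.smul_snd, smul_eq_mul]
        rw [div_mul_eq_mul_div, eq_div_iff hc]
        linear_combination hlim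
  · have hs' : x'.1 ≠ 0 := by
      intro hs'
      have hw0 : w' = 0 := by
        rw [hs'] at hw'; exact pow_eq_zero_iff two_ne_zero |>.1 hw'
      rw [hw0, zero_smul] at hk
      have h1 : w • x.2 = (1 / 2 : ℂ) • lat lam (-k) := by
        rw [g_lat_neg, smul_neg, eq_neg_iff_add_eq_zero, ← hk]
      by_cases hk0 : k = 0
      · rw [hk0, neg_zero, g_lat_zero, smul_zero] at h1
        rcases smul_eq_zero.1 h1 with h | h
        · apply hs; rw [← hw, h]; ring
        · exact hx.1 h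
      · exact hx.2 w hw (-k) (neg_ne_zero.2 hk0) h1
    refine Or.inr ⟨hs, hs', w, w', hw, hw', m, ?_⟩
    rw [hm] at hk
    exact (hstep (x, x') w w' m).2 hk

end Vale.Agent.P290.K
end
end

section

section

open Set Filter Metric
open scoped Manifold ContDiff Topology

namespace Vale.Agent.P290.K

/-- The Riemann sphere. -/
def P1 : Type := OnePoint ℂ

instance : TopologicalSpace P1 := inferInstanceAs (TopologicalSpace (OnePoint ℂ))
instance : T2Space P1 := inferInstanceAs (T2Space (OnePoint ℂ))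

/-- the point `[a : b]`, that is `a / b` -/
noncomputable def P1.mk (a b : ℂ) : P1 := if b = 0 then OnePoint.infty else OnePoint.some (a / b)

/-- the affine points -/
def P1.co (z : ℂ) : P1 := OnePoint.some z

/-- the point at infinity -/
def P1.inf : P1 := OnePoint.infty

theorem P1.co_ne_inf (z : ℂ) : P1.co z ≠ P1.inf := OnePoint.coe_ne_infty z

theorem P1.co_injective : Function.Injective P1.co := OnePoint.coe_injective

theorem P1.cases (p : P1) : p = P1.inf ∨ ∃ z, p = P1.co z := by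
  induction p using OnePoint.rec with
  | infty => exact Or.inl rfl
  | coe z => exact Or.inr ⟨z, rfl⟩

theorem P1.mk_of_ne {a b : ℂ} (hb : b ≠ 0) : P1.mk a b = P1.co (a / b) := if_neg hb

theorem P1.mk_zero (a : ℂ) : P1.mk a 0 = P1.inf := if_pos rfl

theorem P1.isOpenEmbedding_co : Topology.IsOpenEmbedding P1.co := OnePoint.isOpenEmbedding_coe

theorem P1.tendsto_co_inf : Tendsto P1.co (Bornology.cobounded ℂ) (𝓝 P1.inf) := by
  have h := OnePoint.tendsto_coe_infty (X := ℂ)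
  rw [coclosedCompact_eq_cocompact, ← Metric.cobounded_eq_cocompact] at h
  exact h

/-- the inversion -/
noncomputable def P1.iv (p : P1) : P1 :=
  OnePoint.elim (X := ℂ) p (P1.co 0) (fun z => P1.mk 1 z)

theorem P1.iv_inf : P1.iv P1.inf = P1.co 0 := rfl

theorem P1.iv_co (z : ℂ) : P1.iv (P1.co z) = P1.mk 1 z := rfl

theorem P1.iv_iv (p : P1) : P1.iv (P1.iv p) = p := by
  rcases P1.cases p with rfl | ⟨z, rfl⟩
  · rw [P1.iv_inf, P1.iv_co, P1.mk_zero]
  · rw [P1.iv_co]
    by_cases hz : z = 0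
    · rw [hz, P1.mk_zero, P1.iv_inf]
    · rw [P1.mk_of_ne hz, P1.iv_co, P1.mk_of_ne (one_div_ne_zero hz), one_div_one_div]

theorem P1.continuous_mk_one : Continuous (fun z : ℂ => P1.mk 1 z) := by
  rw [continuous_iff_continuousAt]
  intro z
  by_cases hz : z = 0
  · subst hz
    rw [continuousAt_iff_punctured_nhds, P1.mk_zero]
    refine (P1.tendsto_co_inf.comp tendsto_inv₀_nhdsNE_zero).congr' ?_
    filter_upwards [self_mem_nhdsWithin] with z hz
    rw [P1.mk_of_ne hz, one_div]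
    rfl
  · have h : (fun z => P1.mk 1 z) =ᶠ[𝓝 z] fun z => P1.co z⁻¹ := by
      filter_upwards [isOpen_ne.mem_nhds hz] with w hw
      rw [P1.mk_of_ne hw, one_div]
    refine ContinuousAt.congr ?_ h.symm
    exact (P1.isOpenEmbedding_co.continuous.continuousAt).comp (continuousAt_inv₀ hz)

theorem P1.continuous_iv : Continuous P1.iv := by
  refine (OnePoint.continuous_iff (X := ℂ) P1.iv).2 ⟨?_, P1.continuous_mk_one⟩
  rw [coclosedCompact_eq_cocompact, ← Metric.cobounded_eq_cocompact]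
  have h1 : Tendsto (fun z : ℂ => P1.co z⁻¹) (Bornology.cobounded ℂ) (𝓝 (P1.co 0)) :=
    (P1.isOpenEmbedding_co.continuous.tendsto 0).comp tendsto_inv₀_cobounded
  refine h1.congr' ?_
  have h2 : ∀ᶠ z : ℂ in Bornology.cobounded ℂ, z ≠ 0 := by
    filter_upwards [(tendsto_norm_cobounded_atTop (E := ℂ)).eventually_gt_atTop 0] with z hz
    exact norm_pos_iff.1 hz
  filter_upwards [h2] with z hz
  show P1.co z⁻¹ = P1.iv (P1.co z)
  rw [P1.iv_co, P1.mk_of_ne hz, one_div]

/-- the inversion as a homeomorphism -/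
noncomputable def P1.ivH : P1 ≃ₜ P1 where
  toFun := P1.iv
  invFun := P1.iv
  left_inv := P1.iv_iv
  right_inv := P1.iv_iv
  continuous_toFun := P1.continuous_iv
  continuous_invFun := P1.continuous_iv

/-- the affine chart -/
noncomputable def P1.ch0 : OpenPartialHomeomorph P1 ℂ :=
  (P1.isOpenEmbedding_co.toOpenPartialHomeomorph P1.co).symm

/-- the chart at infinity -/
noncomputable def P1.ch1 : OpenPartialHomeomorph P1 ℂ :=
  P1.ivH.toOpenPartialHomeomorph.trans P1.ch0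

theorem P1.ch0_source : P1.ch0.source = range P1.co := by
  simp [P1.ch0]

theorem P1.ch0_target : P1.ch0.target = univ := by
  simp [P1.ch0]

theorem P1.ch0_symm (z : ℂ) : P1.ch0.symm z = P1.co z := rfl

theorem P1.ch0_co (z : ℂ) : P1.ch0 (P1.co z) = z :=
  P1.isOpenEmbedding_co.toOpenPartialHomeomorph_left_inv P1.co

theorem P1.ch1_source : P1.ch1.source = {p | P1.iv p ∈ range P1.co} := by
  rw [P1.ch1, OpenPartialHomeomorph.trans_source, P1.ch0_source]
  simp only [ivH, Homeomorph.toOpenPartialHomeomorph_source, Homeomorph.toOpenPartialHomeomorph_apply, Homeomorph.homeomorph_mk_coe, Equiv.coe_fn_mk, univ_inter, mem_range]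
  rfl

theorem P1.ch1_target : P1.ch1.target = univ := by
  rw [P1.ch1, OpenPartialHomeomorph.trans_target, P1.ch0_target]
  simp

theorem P1.ch1_symm (z : ℂ) : P1.ch1.symm z = P1.mk 1 z := rfl

theorem P1.ch1_apply (p : P1) : P1.ch1 p = P1.ch0 (P1.iv p) := rfl

open Classical in
noncomputable instance : ChartedSpace ℂ P1 where
  atlas := {P1.ch0, P1.ch1}
  chartAt p := if p = P1.inf then P1.ch1 else P1.ch0
  mem_chart_source p := by
    split_ifs with h
    · rw [h, P1.ch1_source]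
      exact ⟨0, rfl⟩
    · rw [P1.ch0_source]
      rcases P1.cases p with h' | ⟨z, rfl⟩
      · exact absurd h' h
      · exact mem_range_self z
  chart_mem_atlas p := by
    split_ifs
    · exact Or.inr rfl
    · exact Or.inl rfl

theorem P1.ch0_mem : P1.ch0 ∈ atlas ℂ P1 := Or.inl rfl

theorem P1.ch1_mem : P1.ch1 ∈ atlas ℂ P1 := Or.inr rfl

instance : IsManifold 𝓘(ℂ) ω P1 := by
  refine isManifold_of_contDiffOn _ _ _ fun e e' he he' => ?_
  simp only [modelWithCornersSelf_coe, modelWithCornersSelf_coe_symm, Function.id_comp,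
    Function.comp_id, preimage_id_eq, range_id, inter_univ, id_eq, OpenPartialHomeomorph.trans_source,
    OpenPartialHomeomorph.symm_source]
  have hid : ∀ e : OpenPartialHomeomorph P1 ℂ, ContDiffOn ℂ ω (e.symm ≫ₕ e) (e.target ∩ e.symm ⁻¹' e.source) := by
    intro e
    refine contDiffOn_id.congr fun z hz => ?_
    exact e.right_inv hz.1
  rcases he with rfl | rfl <;> rcases he' with rfl | rfl
  · exact hid _
  · have h : ∀ z ∈ P1.ch0.target ∩ P1.ch0.symm ⁻¹' P1.ch1.source, z ≠ 0 ∧ (P1.ch0.symm ≫ₕ P1.ch1) z = z⁻¹ := by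
      rintro z ⟨-, hz⟩
      rw [mem_preimage, P1.ch1_source, P1.ch0_symm, mem_ofPred_eq, P1.iv_co] at hz
      have hz0 : z ≠ 0 := by
        rintro rfl
        rw [P1.mk_zero] at hz
        obtain ⟨w, hw⟩ := hz
        exact P1.co_ne_inf w hw
      refine ⟨hz0, ?_⟩
      show P1.ch0 (P1.iv (P1.co z)) = z⁻¹
      rw [P1.iv_co, P1.mk_of_ne hz0, P1.ch0_co, one_div]
    refine ContDiffOn.congr (f := fun z : ℂ => z⁻¹) ?_ fun z hz => (h z hz).2
    exact fun z hz => (contDiffAt_inv ℂ (h z hz).1).contDiffWithinAt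
  · have h : ∀ z ∈ P1.ch1.target ∩ P1.ch1.symm ⁻¹' P1.ch0.source, z ≠ 0 ∧ (P1.ch1.symm ≫ₕ P1.ch0) z = z⁻¹ := by
      rintro z ⟨-, hz⟩
      rw [mem_preimage, P1.ch0_source, P1.ch1_symm] at hz
      have hz0 : z ≠ 0 := by
        rintro rfl
        rw [P1.mk_zero] at hz
        obtain ⟨w, hw⟩ := hz
        exact P1.co_ne_inf w hw
      refine ⟨hz0, ?_⟩
      show P1.ch0 (P1.mk 1 z) = z⁻¹
      rw [P1.mk_of_ne hz0, P1.ch0_co, one_div]
    refine ContDiffOn.congr (f := fun z : ℂ => z⁻¹) ?_ fun z hz => (h z hz).2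
    exact fun z hz => (contDiffAt_inv ℂ (h z hz).1).contDiffWithinAt
  · exact hid _

theorem P1.mk_eq_iff {a b a' b' : ℂ} (h : a ≠ 0 ∨ b ≠ 0) (h' : a' ≠ 0 ∨ b' ≠ 0) :
    P1.mk a b = P1.mk a' b' ↔ a * b' = a' * b := by
  by_cases hb : b = 0 <;> by_cases hb' : b' = 0
  · subst hb hb'
    simp [P1.mk_zero]
  · subst hb
    rw [P1.mk_zero, P1.mk_of_ne hb']
    have ha : a ≠ 0 := by simpa using h
    simp only [mul_zero, mul_eq_zero, ha, hb', or_self, iff_false]
    exact (P1.co_ne_inf _).symm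
  · subst hb'
    rw [P1.mk_zero, P1.mk_of_ne hb]
    have ha : a' ≠ 0 := by simpa using h'
    simp only [mul_zero, P1.co_ne_inf, false_iff]
    exact (mul_ne_zero ha hb).symm
  · rw [P1.mk_of_ne hb, P1.mk_of_ne hb', P1.co_injective.eq_iff, div_eq_div_iff hb hb']

theorem P1.exists_rep (p : P1) : ∃ a b : ℂ, (a ≠ 0 ∨ b ≠ 0) ∧ P1.mk a b = p := by
  rcases P1.cases p with rfl | ⟨z, rfl⟩
  · exact ⟨1, 0, Or.inl one_ne_zero, P1.mk_zero 1⟩
  · exact ⟨z, 1, Or.inr one_ne_zero, by rw [P1.mk_of_ne one_ne_zero, div_one]⟩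

theorem P1.mdifferentiableAt_co (w : ℂ) : MDifferentiableAt 𝓘(ℂ) 𝓘(ℂ) P1.co w := by
  have : IsManifold 𝓘(ℂ) 1 P1 := IsManifold.of_le (n := ω) le_top
  exact mdifferentiableAt_atlas_symm (e := P1.ch0) P1.ch0_mem (by rw [P1.ch0_target]; trivial)

theorem P1.mdifferentiableAt_mk_one (w : ℂ) :
    MDifferentiableAt 𝓘(ℂ) 𝓘(ℂ) (fun z : ℂ => P1.mk 1 z) w := by
  have : IsManifold 𝓘(ℂ) 1 P1 := IsManifold.of_le (n := ω) le_top
  exact mdifferentiableAt_atlas_symm (e := P1.ch1) P1.ch1_mem (by rw [P1.ch1_target]; trivial)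

theorem P1.differentiableAt_div {V : Type} [NormedAddCommGroup V] [NormedSpace ℂ V]
    {a b : V → ℂ} {z : V} (ha : DifferentiableAt ℂ a z) (hb : DifferentiableAt ℂ b z)
    (h : b z ≠ 0) : DifferentiableAt ℂ (fun y => a y / b y) z := by
  simp only [div_eq_mul_inv]
  exact ha.mul (hb.inv h)

theorem P1.mk_eventually_co {V : Type} [NormedAddCommGroup V] [NormedSpace ℂ V]
    {a b : V → ℂ} {z : V} (hb : DifferentiableAt ℂ b z) (h : b z ≠ 0) :
    (fun y => P1.mk (a y) (b y)) =ᶠ[𝓝 z] fun y => P1.co (a y / b y) := by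
  filter_upwards [hb.continuousAt.eventually_ne h] with y hy
  exact P1.mk_of_ne hy

theorem P1.mk_eventually_mk_one {V : Type} [NormedAddCommGroup V] [NormedSpace ℂ V]
    {a b : V → ℂ} {z : V} (ha : DifferentiableAt ℂ a z) (h : a z ≠ 0) :
    (fun y => P1.mk (a y) (b y)) =ᶠ[𝓝 z] fun y => P1.mk 1 (b y / a y) := by
  filter_upwards [ha.continuousAt.eventually_ne h] with y hy
  rw [P1.mk_eq_iff (Or.inl hy) (Or.inl one_ne_zero), mul_div_cancel₀ _ hy, one_mul]

theorem P1.mdifferentiableAt_mk {V : Type} [NormedAddCommGroup V] [NormedSpace ℂ V]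
    {a b : V → ℂ} {z : V} (ha : DifferentiableAt ℂ a z) (hb : DifferentiableAt ℂ b z)
    (h : a z ≠ 0 ∨ b z ≠ 0) :
    MDifferentiableAt 𝓘(ℂ, V) 𝓘(ℂ) (fun y => P1.mk (a y) (b y)) z := by
  by_cases hbz : b z = 0
  · have haz : a z ≠ 0 := by
      rcases h with h | h
      · exact h
      · exact absurd hbz h
    refine MDifferentiableAt.congr_of_eventuallyEq ?_ (P1.mk_eventually_mk_one ha haz)
    exact (P1.mdifferentiableAt_mk_one (b z / a z)).comp z
      (DifferentiableAt.mdifferentiableAt (P1.differentiableAt_div hb ha haz))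
  · refine MDifferentiableAt.congr_of_eventuallyEq ?_ (P1.mk_eventually_co hb hbz)
    exact (P1.mdifferentiableAt_co (a z / b z)).comp z
      (DifferentiableAt.mdifferentiableAt (P1.differentiableAt_div ha hb hbz))

/-- the chart of a map which is not critical -/
theorem P1.mfderiv_aux {V : Type} [NormedAddCommGroup V] [NormedSpace ℂ V] {f : V → P1}
    {g : V → ℂ} {z : V} (hf : MDifferentiableAt 𝓘(ℂ, V) 𝓘(ℂ) f z)
    (e : OpenPartialHomeomorph P1 ℂ) (he : e ∈ atlas ℂ P1) (hz : f z ∈ e.source)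
    (hg : (e ∘ f) =ᶠ[𝓝 z] g) (h0 : mfderiv 𝓘(ℂ, V) 𝓘(ℂ) f z = 0) : fderiv ℂ g z = 0 := by
  have : IsManifold 𝓘(ℂ) 1 P1 := IsManifold.of_le (n := ω) le_top
  have h1 : MDifferentiableAt 𝓘(ℂ) 𝓘(ℂ) e (f z) := mdifferentiableAt_atlas he hz
  have h2 := mfderiv_comp z h1 hf
  rw [h0] at h2
  have h3 : mfderiv 𝓘(ℂ, V) 𝓘(ℂ) (e ∘ f) z = 0 := by
    rw [h2]
    exact ContinuousLinearMap.comp_zero _
  rw [mfderiv_eq_fderiv] at h3
  rw [← hg.fderiv_eq]
  exact h3

theorem P1.fderiv_div_aux {V : Type} [NormedAddCommGroup V] [NormedSpace ℂ V]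
    {a b : V → ℂ} {z : V} (ha : DifferentiableAt ℂ a z) (hb : DifferentiableAt ℂ b z)
    (h : b z ≠ 0) (h0 : fderiv ℂ (fun y => a y / b y) z = 0) (v : V) :
    fderiv ℂ a z v * b z - a z * fderiv ℂ b z v = 0 := by
  have hg : DifferentiableAt ℂ (fun y => a y / b y) z :=
    P1.differentiableAt_div ha hb h
  have h1 : a =ᶠ[𝓝 z] fun y => (a y / b y) * b y := by
    filter_upwards [hb.continuousAt.eventually_ne h] with y hy
    rw [div_mul_cancel₀ _ hy]
  have h2 : fderiv ℂ a z = fderiv ℂ (fun y => (a y / b y) * b y) z := h1.fderiv_eq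
  rw [fderiv_fun_mul hg hb, h0] at h2
  have h3 : fderiv ℂ a z v = a z / b z * fderiv ℂ b z v := by
    rw [h2]
    simp only [add_apply, smul_apply, smul_eq_mul, zero_apply, mul_zero, add_zero]
  rw [h3]
  field_simp
  ring

theorem P1.mfderiv_mk_ne_zero {V : Type} [NormedAddCommGroup V] [NormedSpace ℂ V]
    {a b : V → ℂ} {z : V} (ha : DifferentiableAt ℂ a z) (hb : DifferentiableAt ℂ b z)
    (h : a z ≠ 0 ∨ b z ≠ 0) (v : V) (hv : fderiv ℂ a z v * b z - a z * fderiv ℂ b z v ≠ 0) :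
    mfderiv 𝓘(ℂ, V) 𝓘(ℂ) (fun y => P1.mk (a y) (b y)) z ≠ 0 := by
  intro h0
  have hf := P1.mdifferentiableAt_mk ha hb h
  by_cases hbz : b z = 0
  · have haz : a z ≠ 0 := by
      rcases h with h | h
      · exact h
      · exact absurd hbz h
    have he := P1.mk_eventually_mk_one (b := b) ha haz
    have h1 := P1.mfderiv_aux (g := fun y => b y / a y) hf P1.ch1 P1.ch1_mem ?_ ?_ h0
    · have h2 := P1.fderiv_div_aux hb ha haz h1 v
      apply hv
      linear_combination -h2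
    · rw [he.eq_of_nhds, P1.ch1_source]
      show P1.iv (P1.iv (P1.co (b z / a z))) ∈ range P1.co
      rw [P1.iv_iv]
      exact mem_range_self _
    · filter_upwards [he] with y hy
      show P1.ch1 (P1.mk (a y) (b y)) = _
      rw [hy]
      show P1.ch0 (P1.iv (P1.iv (P1.co (b y / a y)))) = _
      rw [P1.iv_iv, P1.ch0_co]
  · have he := P1.mk_eventually_co (a := a) hb hbz
    have h1 := P1.mfderiv_aux (g := fun y => a y / b y) hf P1.ch0 P1.ch0_mem ?_ ?_ h0
    · exact hv (P1.fderiv_div_aux ha hb hbz h1 v)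
    · rw [he.eq_of_nhds, P1.ch0_source]
      exact mem_range_self _
    · filter_upwards [he] with y hy
      show P1.ch0 (P1.mk (a y) (b y)) = _
      rw [hy, P1.ch0_co]

end Vale.Agent.P290.K
end
end

section

section

open Set Filter Metric
open scoped Manifold ContDiff Topology

namespace Vale.Agent.P290.K

theorem wp_indep : LinearIndependent ℝ ![(1 : ℂ), Complex.I] := by
  have := Complex.basisOneI.linearIndependent
  rwa [Complex.coe_basisOneI] at this

/-- the lattice `ℤ[i]` -/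
noncomputable def LI : PeriodPair where
  ω₁ := 1
  ω₂ := Complex.I
  indep := wp_indep

/-! ### Uniqueness results for `℘` of a general lattice -/

section wp

variable (L : PeriodPair)

/-- `℘` is not analytic at the lattice points, even after changing the value -/
theorem wp_not_congr {c : ℂ} {v : ℂ → ℂ} (hc : c ∈ L.lattice) (hv : AnalyticAt ℂ v c) :
    ¬ (L.weierstrassP =ᶠ[𝓝[≠] c] v) := by
  intro h
  have h1 := meromorphicOrderAt_congr h
  rw [L.order_weierstrassP c hc] at h1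
  have h2 := hv.meromorphicOrderAt_nonneg
  rw [← h1] at h2
  have h3 : ((0 : ℤ) : WithTop ℤ) ≤ ((-2 : ℤ) : WithTop ℤ) := h2
  rw [WithTop.coe_le_coe] at h3
  omega

/-- identity theorem for meromorphic functions -/
theorem wp_ident {f : ℂ → ℂ} (hf : Meromorphic f) {z w : ℂ} (h : ∀ᶠ x in 𝓝[≠] z, f x = 0) :
    ∀ᶠ x in 𝓝[≠] w, f x = 0 := by
  by_contra hne
  rw [← meromorphicOrderAt_eq_top_iff] at hne
  exact hf.exists_meromorphicOrderAt_ne_top_iff_forall.1 ⟨w, hne⟩ z
    (meromorphicOrderAt_eq_top_iff.2 h)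

theorem wp_analyticAt {z : ℂ} (hz : z ∉ L.lattice) : AnalyticAt ℂ L.weierstrassP z :=
  L.analyticOnNhd_weierstrassP z hz

theorem wp_deriv_analyticAt {z : ℂ} (hz : z ∉ L.lattice) : AnalyticAt ℂ L.derivWeierstrassP z :=
  L.analyticOnNhd_derivWeierstrassP z hz

theorem wp_notMem_nhds {z : ℂ} (hz : z ∉ L.lattice) : ∀ᶠ x in 𝓝 z, x ∉ L.lattice :=
  L.isClosed_lattice.isOpen_compl.mem_nhds hz

theorem wp_hasDerivAt {z : ℂ} (hz : z ∉ L.lattice) :
    HasDerivAt L.weierstrassP (L.derivWeierstrassP z) z := by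
  have h := (wp_analyticAt L hz).differentiableAt.hasDerivAt
  rwa [L.deriv_weierstrassP] at h

/-- `℘` is not locally constant -/
theorem wp_not_const {z c : ℂ} (h : ∀ᶠ x in 𝓝 z, L.weierstrassP x = c) : False := by
  have hm : Meromorphic (fun x => L.weierstrassP x - c) := fun x =>
    (L.meromorphic_weierstrassP x).sub (MeromorphicAt.const c x)
  have h1 : ∀ᶠ x in 𝓝[≠] z, L.weierstrassP x - c = 0 := by
    filter_upwards [h.filter_mono nhdsWithin_le_nhds] with x hx
    rw [hx, sub_self]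
  have h2 := wp_ident hm (w := 0) h1
  refine wp_not_congr L (c := 0) (v := fun _ => c) (zero_mem _) analyticAt_const ?_
  filter_upwards [h2] with x hx
  linear_combination hx

theorem wp_deriv_not_zero {z : ℂ} (hz : z ∉ L.lattice) :
    ¬ ∀ᶠ x in 𝓝 z, L.derivWeierstrassP x = 0 := by
  intro h
  have h1 := (wp_analyticAt L hz).analyticOrderAt_deriv_add_one
  rw [L.deriv_weierstrassP, analyticOrderAt_eq_top.2 h, top_add] at h1
  have h2 := analyticOrderAt_eq_top.1 h1.symm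
  refine wp_not_const L (z := z) (c := L.weierstrassP z) ?_
  filter_upwards [h2] with x hx
  linear_combination hx

/-- the second order differential equation -/
theorem wp_ode {z : ℂ} (hz : z ∉ L.lattice) : ∀ᶠ x in 𝓝 z,
    deriv L.derivWeierstrassP x = 6 * L.weierstrassP x ^ 2 - L.g₂ / 2 := by
  have hA := wp_analyticAt L hz
  have hB := wp_deriv_analyticAt L hz
  have hB' := hB.deriv
  let h : ℂ → ℂ := fun x => 2 * deriv L.derivWeierstrassP x - 12 * L.weierstrassP x ^ 2 + L.g₂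
  have hh : AnalyticAt ℂ h z := by
    show AnalyticAt ℂ
      (fun x => 2 * deriv L.derivWeierstrassP x - 12 * L.weierstrassP x ^ 2 + L.g₂) z
    fun_prop
  have h1 : ∀ᶠ x in 𝓝 z, L.derivWeierstrassP x * h x = 0 := by
    filter_upwards [wp_notMem_nhds L hz] with x hx
    have e1 : HasDerivAt (fun y => L.derivWeierstrassP y ^ 2)
        (2 * L.derivWeierstrassP x * deriv L.derivWeierstrassP x) x := by
      have h3 := (wp_deriv_analyticAt L hx).differentiableAt.hasDerivAt.fun_pow 2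
      exact h3.congr_deriv (by norm_num)
    have e2 : HasDerivAt (fun y => 4 * L.weierstrassP y ^ 3 - L.g₂ * L.weierstrassP y - L.g₃)
        (4 * (3 * L.weierstrassP x ^ 2 * L.derivWeierstrassP x)
          - L.g₂ * L.derivWeierstrassP x) x := by
      have h3 := wp_hasDerivAt L hx
      have h4 := (((h3.fun_pow 3).const_mul 4).fun_sub (h3.const_mul L.g₂)).sub_const L.g₃
      exact h4.congr_deriv (by norm_num)
    have e3 : (fun y => L.derivWeierstrassP y ^ 2) =ᶠ[𝓝 x]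
        fun y => 4 * L.weierstrassP y ^ 3 - L.g₂ * L.weierstrassP y - L.g₃ := by
      filter_upwards [wp_notMem_nhds L hx] with y hy
      exact L.derivWeierstrassP_sq y hy
    have e4 := (e2.congr_of_eventuallyEq e3).unique e1
    show L.derivWeierstrassP x *
      (2 * deriv L.derivWeierstrassP x - 12 * L.weierstrassP x ^ 2 + L.g₂) = 0
    linear_combination -e4
  have h2 : analyticOrderAt (L.derivWeierstrassP * h) z = ⊤ := analyticOrderAt_eq_top.2 h1
  rw [analyticOrderAt_mul hB hh, ENat.add_eq_top] at h2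
  rcases h2 with h2 | h2
  · exact absurd (analyticOrderAt_eq_top.1 h2) (wp_deriv_not_zero L hz)
  · filter_upwards [analyticOrderAt_eq_top.1 h2] with x hx
    have hx' : 2 * deriv L.derivWeierstrassP x - 12 * L.weierstrassP x ^ 2 + L.g₂ = 0 := hx
    linear_combination hx' / 2

/-- uniqueness for a linear equation of order two -/
theorem wp_ode_zero {W h : ℂ → ℂ} (hW : AnalyticAt ℂ W 0) (hh : AnalyticAt ℂ h 0) (h0 : W 0 = 0)
    (h1 : deriv W 0 = 0) (h2 : ∀ᶠ w in 𝓝 0, deriv (deriv W) w = h w * W w) :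
    ∀ᶠ w in 𝓝 0, W w = 0 := by
  rw [← analyticOrderAt_eq_top]
  have e1 := hW.analyticOrderAt_deriv_add_one
  have e2 := hW.deriv.analyticOrderAt_deriv_add_one
  have e3 : analyticOrderAt (deriv (deriv W)) 0 = analyticOrderAt (h * W) 0 :=
    analyticOrderAt_congr h2
  rw [analyticOrderAt_mul hh hW] at e3
  simp only [h0, sub_zero] at e1
  simp only [h1, sub_zero] at e2
  rw [← e2, e3] at e1
  by_contra hne
  obtain ⟨n, hn⟩ := ENat.ne_top_iff_exists.1 hne
  change analyticOrderAt h 0 + analyticOrderAt W 0 + 1 + 1 = analyticOrderAt W 0 at e1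
  rw [← hn] at e1
  have e4 : analyticOrderAt h 0 ≠ ⊤ := by
    intro h3
    rw [h3, top_add, top_add, top_add] at e1
    exact absurd e1.symm (ENat.natCast_ne_top n)
  obtain ⟨m, hm⟩ := ENat.ne_top_iff_exists.1 e4
  rw [← hm] at e1
  have e5 : m + n + 1 + 1 = n := by exact_mod_cast e1
  omega

/-- `℘` is determined up to translation by the initial values -/
theorem wp_unique {z z' : ℂ} (hz : z ∉ L.lattice) (hz' : z' ∉ L.lattice)
    (h0 : L.weierstrassP z = L.weierstrassP z')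
    (h1 : L.derivWeierstrassP z = L.derivWeierstrassP z') : z' - z ∈ L.lattice := by
  by_contra hc
  have ht : ∀ y : ℂ, Tendsto (fun w => y + w) (𝓝 0) (𝓝 y) := by
    intro y
    have : Continuous fun w : ℂ => y + w := by fun_prop
    simpa only [add_zero] using this.tendsto 0
  have hA : ∀ y, y ∉ L.lattice → AnalyticAt ℂ (fun w => L.weierstrassP (y + w)) 0 := by
    intro y hy
    have h2 : AnalyticAt ℂ L.weierstrassP ((fun w => y + w) 0) := by
      simpa using wp_analyticAt L hy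
    exact h2.comp (f := fun w => y + w) (by (clear * -; fun_prop))
  have hd : ∀ y, y ∉ L.lattice → ∀ᶠ w in 𝓝 (0 : ℂ),
      HasDerivAt (fun w => L.weierstrassP (y + w)) (L.derivWeierstrassP (y + w)) w := by
    intro y hy
    filter_upwards [(ht y).eventually (wp_notMem_nhds L hy)] with w hw
    exact (wp_hasDerivAt L hw).comp_const_add y w
  have hd2 : ∀ y, y ∉ L.lattice → ∀ᶠ w in 𝓝 (0 : ℂ),
      HasDerivAt (fun w => L.derivWeierstrassP (y + w))
        (6 * L.weierstrassP (y + w) ^ 2 - L.g₂ / 2) w := by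
    intro y hy
    filter_upwards [(ht y).eventually (wp_notMem_nhds L hy), (ht y).eventually (wp_ode L hy)]
      with w hw hw2
    rw [← hw2]
    exact ((wp_deriv_analyticAt L hw).differentiableAt.hasDerivAt).comp_const_add y w
  have hW := wp_ode_zero
    (W := fun w => L.weierstrassP (z + w) - L.weierstrassP (z' + w))
    (h := fun w => 6 * (L.weierstrassP (z + w) + L.weierstrassP (z' + w)))
    ((hA z hz).sub (hA z' hz')) (analyticAt_const.mul ((hA z hz).add (hA z' hz')))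
    (by simp [h0]) (by
      have h2 := ((hd z hz).self_of_nhds.sub (hd z' hz').self_of_nhds).deriv
      rw [add_zero, add_zero, h1, sub_self] at h2
      exact h2) (by
      have h3 : deriv (fun w => L.weierstrassP (z + w) - L.weierstrassP (z' + w)) =ᶠ[𝓝 0]
          fun w => L.derivWeierstrassP (z + w) - L.derivWeierstrassP (z' + w) := by
        filter_upwards [hd z hz, hd z' hz'] with w h3 h4
        exact (h3.sub h4).deriv
      filter_upwards [h3.eventuallyEq_nhds, hd2 z hz, hd2 z' hz'] with w h4 h5 h6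
      rw [h4.deriv_eq, (h5.fun_sub h6).deriv]
      ring)
  have hm : Meromorphic (fun x => L.weierstrassP x - L.weierstrassP (x + (z' - z))) := fun x =>
    (L.meromorphic_weierstrassP x).sub
      ((L.meromorphic_weierstrassP (x + (z' - z))).comp_analyticAt
        (g := fun x => x + (z' - z)) (by fun_prop))
  have h2 : ∀ᶠ x in 𝓝[≠] z, L.weierstrassP x - L.weierstrassP (x + (z' - z)) = 0 := by
    refine Filter.Eventually.filter_mono nhdsWithin_le_nhds ?_
    have ht2 : Tendsto (fun x : ℂ => x - z) (𝓝 z) (𝓝 0) := by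
      have : Continuous fun x : ℂ => x - z := by (clear * -; fun_prop)
      simpa only [sub_self] using this.tendsto z
    filter_upwards [ht2.eventually hW] with x hx
    have e1 : z + (x - z) = x := by ring
    have e2 : z' + (x - z) = x + (z' - z) := by ring
    rw [e1, e2] at hx
    exact hx
  have h3 := wp_ident hm (w := 0) h2
  refine wp_not_congr L (c := 0) (v := fun x => L.weierstrassP (x + (z' - z))) (zero_mem _) ?_ ?_
  · have h4 : AnalyticAt ℂ L.weierstrassP ((fun x => x + (z' - z)) 0) := by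
      simpa using wp_analyticAt L hc
    exact h4.comp (f := fun x => x + (z' - z)) (by fun_prop)
  · filter_upwards [h3] with x hx
    linear_combination hx

theorem wp_eq_iff {z z' : ℂ} (hz : z ∉ L.lattice) (hz' : z' ∉ L.lattice) :
    L.weierstrassP z = L.weierstrassP z' ↔ z' - z ∈ L.lattice ∨ z' + z ∈ L.lattice := by
  constructor
  · intro h
    have h1 : L.derivWeierstrassP z ^ 2 = L.derivWeierstrassP z' ^ 2 := by
      rw [L.derivWeierstrassP_sq z hz, L.derivWeierstrassP_sq z' hz', h]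
    rcases sq_eq_sq_iff_eq_or_eq_neg.1 h1 with h2 | h2
    · exact Or.inl (wp_unique L hz hz' h h2)
    · right
      have h3 : -z ∉ L.lattice := fun h4 => hz (by simpa only [neg_neg] using neg_mem h4)
      have h5 := wp_unique L h3 hz' (by rw [L.weierstrassP_neg, h])
        (by rw [L.derivWeierstrassP_neg, h2, neg_neg])
      simpa using h5
  · rintro (h | h)
    · have := L.weierstrassP_add_coe z ⟨_, h⟩
      rw [← this]
      congr 1
      show z + (z' - z) = z'
      ring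
    · have := L.weierstrassP_add_coe (-z) ⟨_, h⟩
      rw [← L.weierstrassP_neg z, ← this]
      congr 1
      show -z + (z' + z) = z'
      ring

theorem wp_deriv_eq_zero_iff {z : ℂ} (hz : z ∉ L.lattice) :
    L.derivWeierstrassP z = 0 ↔ 2 * z ∈ L.lattice := by
  have h3 : -z ∉ L.lattice := fun h4 => hz (by simpa only [neg_neg] using neg_mem h4)
  constructor
  · intro h
    have h5 := wp_unique L h3 hz (L.weierstrassP_neg z)
      (by rw [L.derivWeierstrassP_neg, h, neg_zero])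
    have e : z - -z = 2 * z := by ring
    rwa [e] at h5
  · intro h
    have h1 := L.derivWeierstrassP_add_coe (-z) ⟨_, h⟩
    have e : -z + 2 * z = z := by ring
    have h2 : L.derivWeierstrassP z = -L.derivWeierstrassP z := by
      rw [← L.derivWeierstrassP_neg, ← h1]
      show _ = L.derivWeierstrassP (-z + 2 * z)
      rw [e]
    linear_combination h2 / 2

theorem wp_deriv2_ne {l : ℂ} (hl : l ∉ L.lattice) (h2l : 2 * l ∈ L.lattice) :
    deriv L.derivWeierstrassP l ≠ 0 := by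
  intro h
  have h1 := (wp_deriv_eq_zero_iff L hl).2 h2l
  have h2 := (wp_ode L hl).self_of_nhds
  rw [h] at h2
  have ht : Tendsto (fun w => l + w) (𝓝 0) (𝓝 l) := by
    have : Continuous fun w : ℂ => l + w := by (clear * -; fun_prop)
    simpa only [add_zero] using this.tendsto 0
  have hA : AnalyticAt ℂ (fun w => L.weierstrassP (l + w)) 0 := by
    have h2 : AnalyticAt ℂ L.weierstrassP ((fun w => l + w) 0) := by
      simpa using wp_analyticAt L hl
    exact h2.comp (f := fun w => l + w) (by fun_prop)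
  have hd : ∀ᶠ w in 𝓝 (0 : ℂ),
      HasDerivAt (fun w => L.weierstrassP (l + w)) (L.derivWeierstrassP (l + w)) w := by
    filter_upwards [ht.eventually (wp_notMem_nhds L hl)] with w hw
    exact (wp_hasDerivAt L hw).comp_const_add l w
  have hd2 : ∀ᶠ w in 𝓝 (0 : ℂ), HasDerivAt (fun w => L.derivWeierstrassP (l + w))
        (6 * L.weierstrassP (l + w) ^ 2 - L.g₂ / 2) w := by
    filter_upwards [ht.eventually (wp_notMem_nhds L hl), ht.eventually (wp_ode L hl)]
      with w hw hw2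
    rw [← hw2]
    exact ((wp_deriv_analyticAt L hw).differentiableAt.hasDerivAt).comp_const_add l w
  have hW := wp_ode_zero
    (W := fun w => L.weierstrassP (l + w) - L.weierstrassP l)
    (h := fun w => 6 * (L.weierstrassP (l + w) + L.weierstrassP l))
    (hA.sub analyticAt_const) (analyticAt_const.mul (hA.add analyticAt_const))
    (by simp) (by
      have h3 := (hd.self_of_nhds.sub_const (L.weierstrassP l)).deriv
      rw [add_zero, h1] at h3
      exact h3) (by
      have h3 : deriv (fun w => L.weierstrassP (l + w) - L.weierstrassP l) =ᶠ[𝓝 0]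
          fun w => L.derivWeierstrassP (l + w) := by
        filter_upwards [hd] with w h3
        exact (h3.sub_const _).deriv
      filter_upwards [h3.eventuallyEq_nhds, hd2] with w h4 h5
      rw [h4.deriv_eq, h5.deriv]
      linear_combination -h2)
  refine wp_not_const L (z := l) (c := L.weierstrassP l) ?_
  have ht2 : Tendsto (fun x : ℂ => x - l) (𝓝 l) (𝓝 0) := by
    have : Continuous fun x : ℂ => x - l := by (clear * -; fun_prop)
    simpa using this.tendsto l
  filter_upwards [ht2.eventually hW] with x hx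
  have e1 : l + (x - l) = x := by ring
  rw [e1] at hx
  linear_combination hx

end wp

/-! ### The sphere -/

theorem wp_mk_inf (a : ℂ) : P1.mk a 0 = (OnePoint.infty : OnePoint ℂ) := if_pos rfl

theorem wp_mk_coe (a : ℂ) {b : ℂ} (hb : b ≠ 0) : P1.mk a b = (OnePoint.some (a / b) : OnePoint ℂ) :=
  if_neg hb

theorem wp_mk_scale {c : ℂ} (hc : c ≠ 0) (a b : ℂ) : P1.mk (c * a) (c * b) = P1.mk a b := by
  by_cases hb : b = 0
  · rw [hb, mul_zero, wp_mk_inf, wp_mk_inf]
  · rw [wp_mk_coe _ hb, wp_mk_coe _ (mul_ne_zero hc hb), mul_div_mul_left _ _ hc]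

/-- `℘(1/2)` -/
noncomputable def e1 : ℂ := LI.weierstrassP (1 / 2)

open Classical in
/-- `℘ - ℘(1/2)`, a holomorphic map to the Riemann sphere -/
noncomputable def Qf (z : ℂ) : P1 :=
  if z ∈ LI.lattice then P1.mk 1 0 else P1.mk (LI.weierstrassP z - e1) 1

theorem Qf_eq_iff (z z' : ℂ) : Qf z = Qf z' ↔ z' - z ∈ LI.lattice ∨ z' + z ∈ LI.lattice := by
  have hne : ∀ c : ℂ, P1.mk 1 0 ≠ P1.mk c 1 := by
    intro c h
    rw [wp_mk_inf, wp_mk_coe _ one_ne_zero] at h
    exact OnePoint.infty_ne_coe _ h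
  unfold Qf
  by_cases hz : z ∈ LI.lattice
  · by_cases hz' : z' ∈ LI.lattice
    · rw [if_pos hz, if_pos hz']
      exact ⟨fun _ => Or.inl (sub_mem hz' hz), fun _ => rfl⟩
    · rw [if_pos hz, if_neg hz']
      refine ⟨fun h => absurd h (hne _), fun h => absurd ?_ hz'⟩
      rcases h with h | h
      · simpa using add_mem h hz
      · simpa using sub_mem h hz
  · by_cases hz' : z' ∈ LI.lattice
    · rw [if_neg hz, if_pos hz']
      refine ⟨fun h => absurd h.symm (hne _), fun h => absurd ?_ hz⟩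
      rcases h with h | h
      · simpa using sub_mem hz' h
      · simpa using sub_mem h hz'
    · rw [if_neg hz, if_neg hz', ← wp_eq_iff LI hz hz']
      constructor
      · intro h
        rw [wp_mk_coe _ one_ne_zero, wp_mk_coe _ one_ne_zero, div_one, div_one] at h
        have := OnePoint.coe_injective h
        linear_combination this
      · intro h
        rw [h]

/-- `℘(l + √z)` for half lattice points `l` -/
noncomputable def g_Gf (l z : ℂ) : P1 := Qf (l + z ^ (1 / 2 : ℂ))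

theorem wp_sqrt_sq (z : ℂ) : (z ^ (1 / 2 : ℂ)) ^ 2 = z := by
  have h := Complex.cpow_nat_inv_pow z (n := 2) two_ne_zero
  have e : (1 / 2 : ℂ) = (((2 : ℕ) : ℂ))⁻¹ := by norm_num
  rw [e]
  exact h

theorem wp_sqrt_of_sq (w : ℂ) : (w ^ 2) ^ (1 / 2 : ℂ) = w ∨ (w ^ 2) ^ (1 / 2 : ℂ) = -w :=
  sq_eq_sq_iff_eq_or_eq_neg.1 (wp_sqrt_sq (w ^ 2))

theorem Gf_sq {l : ℂ} (hl : 2 * l ∈ LI.lattice) (w : ℂ) : g_Gf l (w ^ 2) = Qf (l + w) := by
  unfold g_Gf
  rcases wp_sqrt_of_sq w with h | h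
  · rw [h]
  · rw [h, Qf_eq_iff]
    right
    have e : l + w + (l + -w) = 2 * l := by ring
    rw [e]
    exact hl

/-- local square root -/
theorem wp_root {w : ℂ} (hw : w ≠ 0) : ∃ s : ℂ → ℂ, AnalyticAt ℂ s (w ^ 2) ∧ s (w ^ 2) = w ∧
    (∀ z, s z ^ 2 = z) ∧ deriv s (w ^ 2) ≠ 0 := by
  have hw2 : w ^ 2 ≠ 0 := pow_ne_zero 2 hw
  have hs : AnalyticAt ℂ (fun z : ℂ => w * (z / w ^ 2) ^ (1 / 2 : ℂ)) (w ^ 2) := by
    have h1 : AnalyticAt ℂ (fun z : ℂ => z / w ^ 2) (w ^ 2) := by fun_prop (disch := assumption)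
    have h2 : (fun z : ℂ => z / w ^ 2) (w ^ 2) ∈ Complex.slitPlane := by
      show w ^ 2 / w ^ 2 ∈ Complex.slitPlane
      rw [div_self hw2]
      exact Complex.one_mem_slitPlane
    exact analyticAt_const.mul (h1.cpow analyticAt_const h2)
  have hsq : ∀ z : ℂ, (w * (z / w ^ 2) ^ (1 / 2 : ℂ)) ^ 2 = z := by
    intro z
    rw [mul_pow, wp_sqrt_sq]
    (clear * - hw; field_simp)
  refine ⟨fun z => w * (z / w ^ 2) ^ (1 / 2 : ℂ), hs, ?_, hsq, ?_⟩
  · show w * (w ^ 2 / w ^ 2) ^ (1 / 2 : ℂ) = w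
    rw [div_self hw2, Complex.one_cpow, mul_one]
  · intro h0
    have h1 := hs.differentiableAt.hasDerivAt
    rw [h0] at h1
    have h2 := h1.fun_pow 2
    have h3 : HasDerivAt (fun z : ℂ => z) 0 (w ^ 2) := by
      refine (h2.congr_deriv (by simp only [Nat.cast_ofNat, one_div, Nat.add_one_sub_one, pow_one, mul_zero])).congr_of_eventuallyEq ?_
      exact Filter.Eventually.of_forall fun z => (hsq z).symm
    exact one_ne_zero ((hasDerivAt_id (w ^ 2)).unique h3)

theorem wp_root_tendsto : Tendsto (fun z : ℂ => z ^ (1 / 2 : ℂ)) (𝓝 0) (𝓝 0) := by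
  rw [Metric.tendsto_nhds_nhds]
  intro ε hε
  refine ⟨ε ^ 2, by positivity, fun {z} hz => ?_⟩
  rw [dist_zero_right] at hz ⊢
  have h1 : ‖z ^ (1 / 2 : ℂ)‖ ^ 2 = ‖z‖ := by rw [← norm_pow, wp_sqrt_sq]
  refine lt_of_pow_lt_pow_left₀ 2 hε.le ?_
  rw [h1]
  exact hz

/-- an even analytic function is an analytic function of the square -/
theorem wp_even {f : ℂ → ℂ} (hf : AnalyticAt ℂ f 0) (he : ∀ᶠ w in 𝓝 0, f (-w) = f w) :
    AnalyticAt ℂ (fun z => f (z ^ (1 / 2 : ℂ))) 0 ∧
      ∀ᶠ w in 𝓝 0, f ((w ^ 2) ^ (1 / 2 : ℂ)) = f w := by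
  have hroot := wp_root_tendsto
  have hev : ∀ᶠ w in 𝓝 (0 : ℂ), f ((w ^ 2) ^ (1 / 2 : ℂ)) = f w := by
    filter_upwards [he] with w hw
    rcases wp_sqrt_of_sq w with h | h
    · rw [h]
    · rw [h, hw]
  refine ⟨?_, hev⟩
  refine Complex.analyticAt_of_differentiable_on_punctured_nhds_of_continuousAt ?_ ?_
  · have hev2 := hroot.eventually (he.and hf.eventually_analyticAt)
    have hev3 := hroot.eventually (eventually_eventually_nhds.2 he)
    filter_upwards [mem_nhdsWithin_of_mem_nhds (hev2.and hev3), self_mem_nhdsWithin]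
      with z hz hz0
    obtain ⟨⟨hz1, hz2⟩, hz3⟩ := hz
    have hz0' : z ^ (1 / 2 : ℂ) ≠ 0 := by
      intro h
      have := wp_sqrt_sq z
      rw [h] at this
      exact hz0 (by rw [← this]; simp)
    obtain ⟨s, hs1, hs2, hs3, -⟩ := wp_root hz0'
    rw [wp_sqrt_sq] at hs1 hs2
    have h1 : (fun z => f (z ^ (1 / 2 : ℂ))) =ᶠ[𝓝 z] fun z => f (s z) := by
      have h2 : ∀ᶠ y in 𝓝 z, f (-(s y)) = f (s y) := by
        have h3 : Tendsto s (𝓝 z) (𝓝 (z ^ (1 / 2 : ℂ))) := by
          have := hs1.continuousAt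
          rw [ContinuousAt, hs2] at this
          exact this
        exact h3.eventually hz3
      filter_upwards [h2] with y hy
      rcases sq_eq_sq_iff_eq_or_eq_neg.1 ((wp_sqrt_sq y).trans (hs3 y).symm) with h | h
      · rw [h]
      · rw [h, hy]
    refine DifferentiableAt.congr_of_eventuallyEq ?_ h1
    have h4 : DifferentiableAt ℂ f (s z) := by
      rw [hs2]
      exact hz2.differentiableAt
    exact h4.comp z hs1.differentiableAt
  · have h0 : (0 : ℂ) ^ (1 / 2 : ℂ) = 0 := by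
      rw [Complex.zero_cpow]
      norm_num
    have h1 : ContinuousAt f ((0 : ℂ) ^ (1 / 2 : ℂ)) := by
      rw [h0]
      exact hf.continuousAt
    refine ContinuousAt.comp (f := fun z : ℂ => z ^ (1 / 2 : ℂ)) h1 ?_
    rw [ContinuousAt, h0]
    exact hroot

theorem wp_half {l : ℂ} (hl : 2 * l ∈ LI.lattice) (w : ℂ) :
    LI.weierstrassP (l + -w) = LI.weierstrassP (l + w) := by
  have h1 := LI.weierstrassP_add_coe (-(l + w)) ⟨_, hl⟩
  have h2 : -(l + w) + 2 * l = l + -w := by ring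
  rw [← LI.weierstrassP_neg (l + w), ← h1]
  show _ = LI.weierstrassP (-(l + w) + 2 * l)
  rw [h2]

theorem wp_two_mul {l : ℂ} (hl : l ∈ LI.lattice) : 2 * l ∈ LI.lattice := by
  rw [two_mul]
  exact add_mem hl hl

open Classical in
/-- representation of `Qf` at a pole -/
theorem wp_rep_pole {x₀ : ℂ} (hx : x₀ ∈ LI.lattice) : ∃ g : ℂ → ℂ, AnalyticAt ℂ g x₀ ∧
    g x₀ = 1 ∧ (∀ x, x ≠ x₀ → g x = (x - x₀) ^ 2 * (LI.weierstrassP x - e1)) ∧
    ∀ᶠ x in 𝓝 x₀, Qf x = P1.mk (g x) ((x - x₀) ^ 2) := by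
  have h1 : (fun x => if x = x₀ then (1 : ℂ) else (x - x₀) ^ 2 * LI.weierstrassP x) =
      fun x => (x - x₀) ^ 2 * LI.weierstrassPExcept x₀ x + 1 - (x - x₀) ^ 2 / x₀ ^ 2 :=
    funext fun x => LI.ite_eq_one_sub_sq_mul_weierstrassP x₀ hx x
  have h2 : AnalyticAt ℂ
      (fun x => if x = x₀ then (1 : ℂ) else (x - x₀) ^ 2 * LI.weierstrassP x) x₀ := by
    rw [h1]
    have h3 : AnalyticAt ℂ (LI.weierstrassPExcept x₀) x₀ := LI.analyticAt_weierstrassPExcept x₀
    have h4 : AnalyticAt ℂ (fun z : ℂ => (z - x₀) ^ 2 / x₀ ^ 2) x₀ := by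
      simp only [div_eq_mul_inv]
      fun_prop
    fun_prop
  refine ⟨fun x => (if x = x₀ then (1 : ℂ) else (x - x₀) ^ 2 * LI.weierstrassP x)
    - e1 * (x - x₀) ^ 2, ?_, ?_, ?_, ?_⟩
  · exact h2.sub (by fun_prop)
  · simp
  · intro x hxx
    simp only [if_neg hxx]
    ring
  · filter_upwards [LI.compl_lattice_sdiff_singleton_mem_nhds x₀] with x hx2
    by_cases hxx : x = x₀
    · subst hxx
      unfold Qf
      rw [if_pos hx, sub_self, zero_pow two_ne_zero, wp_mk_inf, wp_mk_inf]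
    · have hx3 : x ∉ LI.lattice := fun h => hx2 ⟨h, hxx⟩
      have hne : (x - x₀) ^ 2 ≠ 0 := pow_ne_zero 2 (sub_ne_zero.2 hxx)
      unfold Qf
      rw [if_neg hx3, if_neg hxx, ← wp_mk_scale hne, mul_one]
      congr 1
      ring

theorem wp_rep_reg {x₀ : ℂ} (hx : x₀ ∉ LI.lattice) :
    ∀ᶠ x in 𝓝 x₀, Qf x = P1.mk (LI.weierstrassP x - e1) 1 := by
  filter_upwards [wp_notMem_nhds LI hx] with x hx2
  unfold Qf
  rw [if_neg hx2]

theorem wp_add_tendsto (l : ℂ) : Tendsto (fun z : ℂ => l + z ^ (1 / 2 : ℂ)) (𝓝 0) (𝓝 l) := by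
  have h := wp_root_tendsto.const_add l
  rwa [add_zero] at h

/-- representation at a lattice point -/
theorem Gf_pole_aux {l : ℂ} (hl : l ∈ LI.lattice) : ∃ F : ℂ → ℂ, AnalyticAt ℂ F 0 ∧ F 0 = 1 ∧
    ∀ᶠ z in 𝓝 0, g_Gf l z = P1.mk (F z) z := by
  obtain ⟨g, hg1, hg2, hg3, hg4⟩ := wp_rep_pole hl
  have hA : AnalyticAt ℂ (fun w => g (l + w)) 0 := by
    have h2 : AnalyticAt ℂ g ((fun w => l + w) 0) := by simpa using hg1
    exact h2.comp (f := fun w => l + w) (by fun_prop)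
  have hE : ∀ w, g (l + -w) = g (l + w) := by
    intro w
    by_cases hw : w = 0
    · rw [hw, neg_zero]
    · rw [hg3 (l + -w) (by simpa using hw), hg3 (l + w) (by simpa using hw),
        wp_half (wp_two_mul hl)]
      ring
  obtain ⟨hF, -⟩ := wp_even hA (Filter.Eventually.of_forall hE)
  refine ⟨fun z => g (l + z ^ (1 / 2 : ℂ)), hF, ?_, ?_⟩
  · have h0 : (0 : ℂ) ^ (1 / 2 : ℂ) = 0 := by
      rw [Complex.zero_cpow]
      norm_num
    show g (l + 0 ^ (1 / 2 : ℂ)) = 1
    rw [h0, add_zero, hg2]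
  · filter_upwards [(wp_add_tendsto l).eventually hg4] with z hz
    unfold g_Gf
    rw [hz, add_sub_cancel_left, wp_sqrt_sq]

/-- representation at a half lattice point -/
theorem Gf_reg_aux {l : ℂ} (hl : l ∉ LI.lattice) (h2l : 2 * l ∈ LI.lattice) :
    ∃ F : ℂ → ℂ, AnalyticAt ℂ F 0 ∧ F 0 = LI.weierstrassP l - e1 ∧ deriv F 0 ≠ 0 ∧
      ∀ᶠ z in 𝓝 0, g_Gf l z = P1.mk (F z) 1 := by
  have ht : Tendsto (fun w => l + w) (𝓝 0) (𝓝 l) := by
    have : Continuous fun w : ℂ => l + w := by (clear * -; fun_prop)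
    simpa only [add_zero] using this.tendsto 0
  have hA : AnalyticAt ℂ (fun w => LI.weierstrassP (l + w) - e1) 0 := by
    have h2 : AnalyticAt ℂ LI.weierstrassP ((fun w => l + w) 0) := by
      simpa using wp_analyticAt LI hl
    exact (h2.comp (f := fun w => l + w) (by fun_prop)).sub analyticAt_const
  have hE : ∀ w, LI.weierstrassP (l + -w) - e1 = LI.weierstrassP (l + w) - e1 := by
    intro w
    rw [wp_half h2l]
  obtain ⟨hF, hF2⟩ := wp_even hA (Filter.Eventually.of_forall hE)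
  have h0 : (0 : ℂ) ^ (1 / 2 : ℂ) = 0 := by
    rw [Complex.zero_cpow]
    norm_num
  refine ⟨fun z => LI.weierstrassP (l + z ^ (1 / 2 : ℂ)) - e1, hF, ?_, ?_, ?_⟩
  · show LI.weierstrassP (l + 0 ^ (1 / 2 : ℂ)) - e1 = _
    rw [h0, add_zero]
  · intro hd
    obtain ⟨F, hFF⟩ : ∃ F : ℂ → ℂ, F = fun z => LI.weierstrassP (l + z ^ (1 / 2 : ℂ)) - e1 :=
      ⟨_, rfl⟩
    rw [← hFF] at hF hd
    have hF3 : (fun w => F (w ^ 2)) =ᶠ[𝓝 0] fun w => LI.weierstrassP (l + w) - e1 := by
      filter_upwards [hF2] with w hw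
      rw [hFF]
      exact hw
    have hsq : Tendsto (fun w : ℂ => w ^ 2) (𝓝 0) (𝓝 0) := by
      have : Continuous fun w : ℂ => w ^ 2 := by (clear * -; fun_prop)
      simpa only [ne_eq, OfNat.ofNat_ne_zero, not_false_eq_true, zero_pow] using this.tendsto 0
    have h1 : (fun w => LI.derivWeierstrassP (l + w)) =ᶠ[𝓝 0]
        fun w => deriv F (w ^ 2) * (2 * w) := by
      filter_upwards [hF3.eventuallyEq_nhds, hsq.eventually hF.eventually_analyticAt,
        ht.eventually (wp_notMem_nhds LI hl)] with w hw1 hw2 hw3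
      have d1 : HasDerivAt (fun w => F (w ^ 2)) (deriv F (w ^ 2) * (2 * w)) w := by
        have h3 : HasDerivAt (fun w : ℂ => w ^ 2) (2 * w) w := by
          have := hasDerivAt_pow 2 w
          exact this.congr_deriv (by norm_num)
        exact hw2.differentiableAt.hasDerivAt.comp w h3
      have d2 : HasDerivAt (fun w => LI.weierstrassP (l + w) - e1)
          (LI.derivWeierstrassP (l + w)) w :=
        ((wp_hasDerivAt LI hw3).comp_const_add l w).sub_const _
      exact (d2.congr_of_eventuallyEq hw1).unique d1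
    have h2 : HasDerivAt (fun w => LI.derivWeierstrassP (l + w)) (deriv LI.derivWeierstrassP l)
        0 := by
      have h3 : HasDerivAt LI.derivWeierstrassP (deriv LI.derivWeierstrassP l) (l + 0) := by
        rw [add_zero]
        exact (wp_deriv_analyticAt LI hl).differentiableAt.hasDerivAt
      exact h3.comp_const_add l 0
    have h4 : HasDerivAt (fun w => deriv F (w ^ 2) * (2 * w)) 0 0 := by
      have h5 : AnalyticAt ℂ (fun w => deriv F (w ^ 2)) 0 := by
        have h6 : AnalyticAt ℂ (deriv F) ((fun w : ℂ => w ^ 2) 0) := by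
          simpa using hF.deriv
        exact h6.comp (f := fun w : ℂ => w ^ 2) (by fun_prop)
      have h7 : HasDerivAt (fun w : ℂ => 2 * w) (2 * 1) 0 := (hasDerivAt_id 0).const_mul 2
      refine (h5.differentiableAt.hasDerivAt.fun_mul h7).congr_deriv ?_
      have h8 : deriv F ((0 : ℂ) ^ 2) = 0 := by
        rw [zero_pow two_ne_zero]
        exact hd
      rw [h8]
      ring
    exact wp_deriv2_ne LI hl h2l (h2.unique (h4.congr_of_eventuallyEq h1))
  · filter_upwards [(wp_add_tendsto l).eventually (wp_rep_reg hl)] with z hz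
    exact hz

/-- a representation of `g_Gf l` at `w ^ 2` -/
theorem Gf_rep {l : ℂ} (hl : 2 * l ∈ LI.lattice) (w : ℂ) :
    ∃ a b : ℂ → ℂ, AnalyticAt ℂ a (w ^ 2) ∧ AnalyticAt ℂ b (w ^ 2) ∧
      (a (w ^ 2) ≠ 0 ∨ b (w ^ 2) ≠ 0) ∧ (∀ᶠ z in 𝓝 (w ^ 2), g_Gf l z = P1.mk (a z) (b z)) ∧
      ((w = 0 ∨ 2 * (l + w) ∉ LI.lattice) →
        deriv a (w ^ 2) * b (w ^ 2) - a (w ^ 2) * deriv b (w ^ 2) ≠ 0) := by
  by_cases hw : w = 0
  · subst hw
    rw [zero_pow two_ne_zero]
    by_cases hl2 : l ∈ LI.lattice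
    · obtain ⟨F, h1, h2, h3⟩ := Gf_pole_aux hl2
      refine ⟨F, fun z => z, h1, analyticAt_id, Or.inl (by rw [h2]; exact one_ne_zero), h3,
        fun _ => ?_⟩
      have e1 : deriv (fun z : ℂ => z) 0 = 1 := deriv_id 0
      rw [e1, h2]
      norm_num
    · obtain ⟨F, h1, h2, h3, h4⟩ := Gf_reg_aux hl2 hl
      refine ⟨F, fun _ => 1, h1, analyticAt_const, Or.inr one_ne_zero, h4, fun _ => ?_⟩
      rw [deriv_const, mul_one, mul_zero, sub_zero]
      exact h3
  · obtain ⟨s, hs1, hs2, hs3, hs4⟩ := wp_root hw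
    have ht : Tendsto (fun z => l + s z) (𝓝 (w ^ 2)) (𝓝 (l + w)) := by
      have h1 := hs1.continuousAt
      rw [ContinuousAt, hs2] at h1
      exact h1.const_add l
    have hG : ∀ z, g_Gf l z = Qf (l + s z) := by
      intro z
      have := Gf_sq hl (s z)
      rwa [hs3 z] at this
    have hsA : AnalyticAt ℂ (fun z => l + s z) (w ^ 2) := analyticAt_const.add hs1
    by_cases hx : l + w ∈ LI.lattice
    · obtain ⟨g, hg1, hg2, -, hg4⟩ := wp_rep_pole hx
      refine ⟨fun z => g (l + s z), fun z => (l + s z - (l + w)) ^ 2, ?_, ?_, Or.inl ?_, ?_,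
        fun h => ?_⟩
      · have h2 : AnalyticAt ℂ g ((fun z => l + s z) (w ^ 2)) := by
          show AnalyticAt ℂ g (l + s (w ^ 2))
          rw [hs2]
          exact hg1
        exact h2.comp (f := fun z => l + s z) hsA
      · exact (hsA.sub analyticAt_const).pow 2
      · show g (l + s (w ^ 2)) ≠ 0
        rw [hs2, hg2]
        exact one_ne_zero
      · filter_upwards [ht.eventually hg4] with z hz
        rw [hG z, hz]
      · rcases h with h | h
        · exact absurd h hw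
        · exact absurd (wp_two_mul hx) h
    · refine ⟨fun z => LI.weierstrassP (l + s z) - e1, fun _ => 1, ?_, analyticAt_const,
        Or.inr one_ne_zero, ?_, fun h => ?_⟩
      · have h2 : AnalyticAt ℂ LI.weierstrassP ((fun z => l + s z) (w ^ 2)) := by
          show AnalyticAt ℂ LI.weierstrassP (l + s (w ^ 2))
          rw [hs2]
          exact wp_analyticAt LI hx
        exact (h2.comp (f := fun z => l + s z) hsA).sub analyticAt_const
      · filter_upwards [ht.eventually (wp_rep_reg hx)] with z hz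
        rw [hG z, hz]
      · have h3 : 2 * (l + w) ∉ LI.lattice := h.resolve_left hw
        have h4 : HasDerivAt LI.weierstrassP (LI.derivWeierstrassP (l + w))
            ((fun z => l + s z) (w ^ 2)) := by
          show HasDerivAt LI.weierstrassP (LI.derivWeierstrassP (l + w)) (l + s (w ^ 2))
          rw [hs2]
          exact wp_hasDerivAt LI hx
        have h5 : HasDerivAt (fun z => l + s z) (deriv s (w ^ 2)) (w ^ 2) :=
          hs1.differentiableAt.hasDerivAt.const_add l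
        have h6 : HasDerivAt (fun z => LI.weierstrassP (l + s z) - e1)
            (LI.derivWeierstrassP (l + w) * deriv s (w ^ 2)) (w ^ 2) :=
          (h4.comp (w ^ 2) h5).sub_const _
        rw [h6.deriv, deriv_const, mul_one, mul_zero, sub_zero]
        refine mul_ne_zero ?_ hs4
        intro h7
        exact h3 ((wp_deriv_eq_zero_iff LI hx).1 h7)

theorem Gf_local {l : ℂ} (hl : 2 * l ∈ LI.lattice) (z₀ : ℂ) :
    ∃ a b : ℂ → ℂ, AnalyticAt ℂ a z₀ ∧ AnalyticAt ℂ b z₀ ∧ (a z₀ ≠ 0 ∨ b z₀ ≠ 0) ∧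
      ∀ᶠ z in 𝓝 z₀, g_Gf l z = P1.mk (a z) (b z) := by
  obtain ⟨a, b, h1, h2, h3, h4, -⟩ := Gf_rep hl (z₀ ^ (1 / 2 : ℂ))
  rw [wp_sqrt_sq] at h1 h2 h3 h4
  exact ⟨a, b, h1, h2, h3, h4⟩

/-- the Wronskian of a representation: not zero for one iff not zero for all -/
theorem wp_wronskian {G : ℂ → P1} {z₀ : ℂ} {a b a1 b1 : ℂ → ℂ} (ha : AnalyticAt ℂ a z₀)
    (hb : AnalyticAt ℂ b z₀) (hab : a z₀ ≠ 0 ∨ b z₀ ≠ 0)
    (h : ∀ᶠ z in 𝓝 z₀, G z = P1.mk (a z) (b z)) (ha1 : AnalyticAt ℂ a1 z₀)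
    (hb1 : AnalyticAt ℂ b1 z₀) (hab1 : a1 z₀ ≠ 0 ∨ b1 z₀ ≠ 0)
    (h1 : ∀ᶠ z in 𝓝 z₀, G z = P1.mk (a1 z) (b1 z))
    (hW1 : deriv a1 z₀ * b1 z₀ - a1 z₀ * deriv b1 z₀ ≠ 0) :
    deriv a z₀ * b z₀ - a z₀ * deriv b z₀ ≠ 0 := by
  have hnz : ∀ {a b : ℂ → ℂ}, AnalyticAt ℂ a z₀ → AnalyticAt ℂ b z₀ → (a z₀ ≠ 0 ∨ b z₀ ≠ 0) →
      ∀ᶠ z in 𝓝 z₀, a z ≠ 0 ∨ b z ≠ 0 := by
    intro a b ha hb hab
    rcases hab with h | h
    · filter_upwards [ha.continuousAt.eventually_ne h] with z hz using Or.inl hz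
    · filter_upwards [hb.continuousAt.eventually_ne h] with z hz using Or.inr hz
  have hcross : (fun z => a z * b1 z) =ᶠ[𝓝 z₀] fun z => a1 z * b z := by
    filter_upwards [h, h1, hnz ha hb hab, hnz ha1 hb1 hab1] with z hz1 hz2 hz3 hz4
    exact (P1.mk_eq_iff hz3 hz4).1 (hz1.symm.trans hz2)
  have hc0 : a z₀ * b1 z₀ = a1 z₀ * b z₀ := hcross.self_of_nhds
  have hd1 := ha.differentiableAt.hasDerivAt.fun_mul hb1.differentiableAt.hasDerivAt
  have hd2 := ha1.differentiableAt.hasDerivAt.fun_mul hb.differentiableAt.hasDerivAt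
  have hd := (hd2.congr_of_eventuallyEq hcross).unique hd1
  obtain ⟨c, hc, hca, hcb⟩ : ∃ c : ℂ, c ≠ 0 ∧ a z₀ = c * a1 z₀ ∧ b z₀ = c * b1 z₀ := by
    by_cases hb10 : b1 z₀ = 0
    · have ha10 : a1 z₀ ≠ 0 := hab1.resolve_right (fun h => h hb10)
      have hb0 : b z₀ = 0 := by
        rw [hb10, mul_zero] at hc0
        exact (mul_eq_zero.1 hc0.symm).resolve_left ha10
      have ha0 : a z₀ ≠ 0 := hab.resolve_right (fun h => h hb0)
      refine ⟨a z₀ / a1 z₀, div_ne_zero ha0 ha10, by (clear * - ha10 ha0; field_simp), ?_⟩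
      rw [hb0, hb10, mul_zero]
    · refine ⟨b z₀ / b1 z₀, ?_, ?_, by field_simp⟩
      · intro h0
        have hb0 : b z₀ = 0 := (div_eq_zero_iff.1 h0).resolve_right hb10
        rw [hb0, mul_zero] at hc0
        have ha0 : a z₀ = 0 := (mul_eq_zero.1 hc0).resolve_right hb10
        rcases hab with h | h
        · exact h ha0
        · exact h hb0
      · field_simp
        linear_combination hc0
  rw [hca, hcb] at hd ⊢
  intro h0
  apply hW1
  have e : c * c * (deriv a1 z₀ * b1 z₀ - a1 z₀ * deriv b1 z₀) = 0 := by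
    linear_combination h0 + c * hd
  rcases mul_eq_zero.1 e with h | h
  · exact absurd h (mul_ne_zero hc hc)
  · exact h

/-- at `0` and at the points `w²`, `l + w` not in the half lattice, `g_Gf l` is not critical -/
theorem Gf_deriv {l : ℂ} (hl : 2 * l ∈ LI.lattice) (w : ℂ)
    (hw : w = 0 ∨ 2 * (l + w) ∉ LI.lattice) (a b : ℂ → ℂ) (ha : AnalyticAt ℂ a (w ^ 2))
    (hb : AnalyticAt ℂ b (w ^ 2)) (hab : a (w ^ 2) ≠ 0 ∨ b (w ^ 2) ≠ 0)
    (h : ∀ᶠ z in 𝓝 (w ^ 2), g_Gf l z = P1.mk (a z) (b z)) :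
    deriv a (w ^ 2) * b (w ^ 2) - a (w ^ 2) * deriv b (w ^ 2) ≠ 0 := by
  obtain ⟨a1, b1, ha1, hb1, hab1, h1, hW⟩ := Gf_rep hl w
  exact wp_wronskian ha hb hab h ha1 hb1 hab1 h1 (hW hw)

theorem Gf_pole {l : ℂ} (hl : l ∈ LI.lattice) : ∃ α : ℂ → ℂ, AnalyticAt ℂ α 0 ∧ α 0 ≠ 0 ∧
    ∀ᶠ z in 𝓝 0, g_Gf l z = P1.mk 1 (z * α z) := by
  obtain ⟨F, h1, h2, h3⟩ := Gf_pole_aux hl
  have h0 : F 0 ≠ 0 := by
    rw [h2]
    exact one_ne_zero
  refine ⟨fun z => (F z)⁻¹, h1.fun_inv h0, inv_ne_zero h0, ?_⟩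
  filter_upwards [h3, h1.continuousAt.eventually_ne h0] with z hz1 hz2
  rw [hz1, ← wp_mk_scale hz2 1]
  congr 1
  · rw [mul_one]
  · field_simp

theorem Gf_zero {l : ℂ} (hl : l - 1 / 2 ∈ LI.lattice) : ∃ α : ℂ → ℂ, AnalyticAt ℂ α 0 ∧ α 0 ≠ 0 ∧
    ∀ᶠ z in 𝓝 0, g_Gf l z = P1.mk (z * α z) 1 := by
  have hhalf : (1 / 2 : ℂ) ∉ LI.lattice := LI.ω₁_div_two_notMem_lattice
  have hone : (1 : ℂ) ∈ LI.lattice := LI.ω₁_mem_lattice
  have hl1 : l ∉ LI.lattice := fun h => hhalf (by
    have := sub_mem h hl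
    rwa [sub_sub_cancel] at this)
  have hl2 : 2 * l ∈ LI.lattice := by
    have h1 := add_mem (wp_two_mul hl) hone
    have e : 2 * (l - 1 / 2) + 1 = 2 * l := by ring
    rwa [e] at h1
  obtain ⟨F, h1, h2, h3, h4⟩ := Gf_reg_aux hl1 hl2
  have hF0 : F 0 = 0 := by
    rw [h2, e1]
    have := (wp_eq_iff LI hhalf hl1).2 (Or.inl hl)
    rw [this, sub_self]
  refine ⟨dslope F 0, ?_, ?_, ?_⟩
  · obtain ⟨p, hp⟩ := h1
    exact hp.has_fpower_series_dslope_fslope.analyticAt
  · rw [dslope_same]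
    exact h3
  · filter_upwards [h4] with z hz
    rw [hz]
    congr 1
    have := sub_smul_dslope F 0 z
    rw [sub_zero, smul_eq_mul, hF0, sub_zero] at this
    exact this.symm

end Vale.Agent.P290.K
end
end
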