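import Vale.Agent.P290.MathlibUsed
import Vale.Agent.P290.Bdl.B1
import Vale.Agent.P290.Defs

set_option linter.all false

namespace AFastc5a481x6a
theorem a0 : ContinuousSMul ℂ ℂ := inferInstance
theorem a1 : IsTopologicalRing ℂ := inferInstance
theorem a2 : IsTopologicalSemiring ℂ := inferInstance
theorem a3 : ContinuousAdd ℂ := inferInstance
theorem a4 : IsSemitopologicalSemiring ℂ := inferInstance
theorem a5 : IsSemitopologicalRing ℂ := inferInstance
theorem a6 : IsModuleTopology ℂ ℂ := inferInstance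
@[reducible] noncomputable def a7 : Module ℝ ℂ := inferInstance
@[reducible] def a8 : DistribMulAction ℂ ℂ := inferInstance
theorem a9 : ContinuousSMul ℝ ℂ := inferInstance
theorem a10 : ContinuousSMul ℂ (ℂ × ℂ) := inferInstance
theorem a11 : ContinuousAdd (ℂ × ℂ) := inferInstance
@[reducible] noncomputable def a12 : Module ℝ (ℂ × ℂ) := inferInstance
theorem a13 : CharZero ℝ := inferInstance
@[reducible] def a14 : SMulZeroClass ℂ ℂ := inferInstance
theorem a15 : ContinuousConstSMul ℂ ℂ := inferInstance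
@[reducible] noncomputable def a16 : DistribMulAction ℝ ℂ := inferInstance
theorem a17 : SeparatelyContinuousMul ℂ := inferInstance
@[reducible] noncomputable def a18 : SMulZeroClass ℝ ℂ := inferInstance
theorem a19 : IsTopologicalDivisionRing ℂ := inferInstance
theorem a20 : IsTopologicalAddGroup ℂ := inferInstance
@[reducible] noncomputable def a21 : DistribSMul ℝ ℂ := inferInstance
theorem a22 : IsCancelMulZero ℂ := inferInstance
@[reducible] noncomputable def a23 {x1 : Type} [x2 : NormedAddCommGroup x1] [x3 : NormedSpace ℂ x1] {x4 : Type} [x5 : MeasurableSpace x4] : MeasurableSpace ((x1 →L[ℂ] ℂ) × x4) := inferInstance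
@[reducible] def a24 : SMulZeroClass ℂ Vale.Agent.P290.C2 := inferInstance
@[reducible] noncomputable def a25 : MulAction ℝ ℂ := inferInstance
theorem a26 : ContinuousSMul ℂ Vale.Agent.P290.C2 := inferInstance
@[reducible] noncomputable def a27 {x1 : Type} {x2 : Set x1} [x3 : NormedAddCommGroup x1] : Semiring C(↑x2, ℂ) := inferInstance
theorem a28 : Module.Flat ℂ ℂ := inferInstance
@[reducible] def a29 : Module ℂ (ℂ × Vale.Agent.P290.C2) := inferInstance
theorem a30 : IsLeftCancelMulZero ℂ := inferInstance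
theorem a31 : PreconnectedSpace ℂ := inferInstance
theorem a32 : ConnectedSpace ℂ := inferInstance
theorem a33 : PathConnectedSpace ℂ := inferInstance
theorem a34 : SimplyConnectedSpace ℂ := inferInstance
theorem a35 : ContractibleSpace ℂ := inferInstance
@[reducible] noncomputable def a36 {x1 : Type} [x2 : NormedAddCommGroup x1] [x3 : NormedSpace ℂ x1] : TopologicalSpace (x1 →L[ℂ] ℂ) := inferInstance
theorem a37 : ContinuousMul ℂ := inferInstance
@[reducible] noncomputable def a38 : SMulZeroClass ℝ Vale.Agent.P290.C2 := inferInstance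
@[reducible] noncomputable def a39 {x1 : ℕ} : SMul ℂ ((Fin x1 → ℂ) →L[ℂ] ℂ) := inferInstance
theorem a40 : Module.IsTorsionFree ℂ ℂ := inferInstance
@[reducible] noncomputable def a41 {x1 : Type} [x2 : NormedAddCommGroup x1] [x3 : NormedSpace ℂ x1] : MeasurableSpace (x1 →L[ℂ] ℂ) := inferInstance
@[reducible] def a42 : Module ℂ Vale.Agent.P290.C2 := inferInstance
@[reducible] noncomputable def a43 : DistribSMul ℝ Vale.Agent.P290.C2 := inferInstance
theorem a44 : IsBoundedSMul ℂ ℂ := inferInstance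
theorem a45 : ContinuousSMul ℂ (Vale.Agent.P290.K.SG × Vale.Agent.P290.C2) := inferInstance
@[reducible] noncomputable def a46 : SMul ℂ (Vale.Agent.P290.C2 →L[ℂ] ℂ) := inferInstance
@[reducible] noncomputable def a47 : SemigroupAction ℝ ℂ := inferInstance
theorem a48 : ContinuousSMul ℂ (ℂ × (Fin 4 → ℂ) × (Fin 4 → ℂ)) := inferInstance
theorem a49 : IsRightCancelAdd ℂ := inferInstance
@[reducible] noncomputable def a50 : SMul ℂ (Vale.Agent.P290.C2 →L[ℂ] Vale.Agent.P290.C2) := inferInstance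
theorem a51 : TopologicalSpace.SeparableSpace ℂ := inferInstance
theorem a52 : SecondCountableTopology ℂ := inferInstance
theorem a53 : PosMulReflectLT ℝ := inferInstance
@[reducible] noncomputable def a54 {x1 : Type} [x2 : NormedAddCommGroup x1] [x3 : NormedSpace ℂ x1] {x4 : Type} [x5 : NormedCommRing x4] : TopologicalSpace ((x1 →L[ℂ] ℂ) × x4) := inferInstance
@[reducible] def a55 : DistribMulAction ℂ Vale.Agent.P290.C2 := inferInstance
theorem a56 : Module.IsTorsionFree ℂ (ℂ × ℂ) := inferInstance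
@[reducible] noncomputable def a57 {x1 : Type} [x2 : Fintype x1] : NormedSpace ℂ ((x1 → ℂ) →L[ℂ] x1 → ℂ) := inferInstance
theorem a58 : IsTopologicalAddGroup (ℂ × ℂ) := inferInstance
theorem a59 : PosMulReflectLE ℝ := inferInstance
@[reducible] noncomputable def a60 : DistribMulAction ℝ Vale.Agent.P290.C2 := inferInstance
theorem a61 : IsBoundedSMul ℝ ℂ := inferInstance
theorem a62 {x1 : Type} [x2 : NormedAddCommGroup x1] [x3 : NormedSpace ℂ x1] {x4 : Type} [x5 : NormedCommRing x4] [x6 : MeasurableSpace x4] [x7 : SecondCountableTopology x4] [x8 : BorelSpace x4] : OpensMeasurableSpace ((x1 →L[ℂ] ℂ) × x4) := inferInstance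
theorem a63 : SMulCommClass ℝ ℝ ℂ := inferInstance
theorem a64 : ContinuousConstSMul ℂ (ℂ × ℂ) := inferInstance
@[reducible] noncomputable def a65 : SMul ℝ ℂ := inferInstance
theorem a66 : PosMulStrictMono ℝ := inferInstance
@[reducible] def a67 : DistribSMul ℂ Vale.Agent.P290.C2 := inferInstance
theorem a68 : LocallyCompactSpace ℂ := inferInstance
theorem a69 : SMulCommClass ℝ ℝ (ℂ × ℂ) := inferInstance
theorem a70 : Algebra.Etale ℂ ℂ := inferInstance
@[reducible] noncomputable def a71 : MeasureTheory.MeasureSpace ℂ := inferInstance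
theorem a72 {x1 : Type} [x2 : NormedAddCommGroup x1] [x3 : NormedSpace ℂ x1] : OpensMeasurableSpace (x1 →L[ℂ] ℂ) := inferInstance
theorem a73 : IsScalarTower ℝ ℝ ℂ := inferInstance
theorem a74 : ContinuousSMul ℂ ((Fin 4 → ℂ) × (Fin 4 → ℂ)) := inferInstance
@[reducible] noncomputable def a75 : SMul ℂ (ℂ × ℂ →L[ℂ] ℂ) := inferInstance
theorem a76 : ContinuousSMul ℂ (Fin 4 → ℂ) := inferInstance
theorem a77 {x1 : Type} : ContinuousSMul ℂ (x1 → ℂ) := inferInstance
@[reducible] noncomputable def a78 : Add (Vale.Agent.P290.C2 →L[ℂ] Vale.Agent.P290.C2) := inferInstance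
theorem a79 : ContinuousSMul ℝ (ℂ × ℂ) := inferInstance
theorem a80 : ContinuousSMul ℂ (ℂ × Vale.Agent.P290.C2) := inferInstance
theorem a81 {x1 : Type} : DistribMulActionSemiHomClass ((x1 → ℂ) →L[ℂ] Vale.Agent.P290.C2) (⇑(RingHom.id ℂ)) (x1 → ℂ) Vale.Agent.P290.C2 := inferInstance
theorem a82 : ContinuousAdd (Vale.Agent.P290.K.SG × Vale.Agent.P290.C2) := inferInstance
@[reducible] def a83 : Module ℂ (Fin 4 → ℂ) := inferInstance
theorem a84 : IsReduced ℂ := inferInstance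
@[reducible] noncomputable def a85 {x1 : Type} [x2 : NormedCommRing x1] [x3 : NormedAlgebra ℂ x1] : Module ℂ (x1 →L[ℂ] x1) := inferInstance
theorem a86 {x1 : ℕ} : ContinuousSub (Fin x1 → ℂ) := inferInstance
end AFastc5a481x6a
attribute [local instance] AFastc5a481x6a.a0 AFastc5a481x6a.a1 AFastc5a481x6a.a2 AFastc5a481x6a.a3
  AFastc5a481x6a.a4 AFastc5a481x6a.a5 AFastc5a481x6a.a6 AFastc5a481x6a.a7 AFastc5a481x6a.a8
  AFastc5a481x6a.a9 AFastc5a481x6a.a10 AFastc5a481x6a.a11 AFastc5a481x6a.a12 AFastc5a481x6a.a13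
  AFastc5a481x6a.a14 AFastc5a481x6a.a15 AFastc5a481x6a.a16 AFastc5a481x6a.a17 AFastc5a481x6a.a18
  AFastc5a481x6a.a19 AFastc5a481x6a.a20 AFastc5a481x6a.a21 AFastc5a481x6a.a22 AFastc5a481x6a.a23
  AFastc5a481x6a.a24 AFastc5a481x6a.a25 AFastc5a481x6a.a26 AFastc5a481x6a.a27 AFastc5a481x6a.a28
  AFastc5a481x6a.a29 AFastc5a481x6a.a30 AFastc5a481x6a.a31 AFastc5a481x6a.a32 AFastc5a481x6a.a33
  AFastc5a481x6a.a34 AFastc5a481x6a.a35 AFastc5a481x6a.a36 AFastc5a481x6a.a37 AFastc5a481x6a.a38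
  AFastc5a481x6a.a39 AFastc5a481x6a.a40 AFastc5a481x6a.a41 AFastc5a481x6a.a42 AFastc5a481x6a.a43
  AFastc5a481x6a.a44 AFastc5a481x6a.a45 AFastc5a481x6a.a46 AFastc5a481x6a.a47 AFastc5a481x6a.a48
  AFastc5a481x6a.a49 AFastc5a481x6a.a50 AFastc5a481x6a.a51 AFastc5a481x6a.a52 AFastc5a481x6a.a53
  AFastc5a481x6a.a54 AFastc5a481x6a.a55 AFastc5a481x6a.a56 AFastc5a481x6a.a57 AFastc5a481x6a.a58
  AFastc5a481x6a.a59 AFastc5a481x6a.a60 AFastc5a481x6a.a61 AFastc5a481x6a.a62 AFastc5a481x6a.a63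
  AFastc5a481x6a.a64 AFastc5a481x6a.a65 AFastc5a481x6a.a66 AFastc5a481x6a.a67 AFastc5a481x6a.a68
  AFastc5a481x6a.a69 AFastc5a481x6a.a70 AFastc5a481x6a.a71 AFastc5a481x6a.a72 AFastc5a481x6a.a73
  AFastc5a481x6a.a74 AFastc5a481x6a.a75 AFastc5a481x6a.a76 AFastc5a481x6a.a77 AFastc5a481x6a.a78
  AFastc5a481x6a.a79 AFastc5a481x6a.a80 AFastc5a481x6a.a81 AFastc5a481x6a.a82 AFastc5a481x6a.a83
  AFastc5a481x6a.a84 AFastc5a481x6a.a85 AFastc5a481x6a.a86
namespace AFastc5a481x6b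
theorem a0 {x1 : ℕ} : Module.IsTorsionFree ℂ ((Fin x1 → ℂ) →L[ℂ] ℂ) := inferInstance
theorem a1 {x1 : ℕ} : Module.Flat ℂ ((Fin x1 → ℂ) →L[ℂ] ℂ) := inferInstance
theorem a2 : Module.Free ℝ ℂ := inferInstance
theorem a3 : IsScalarTower ℝ ℝ (ℂ × ℂ) := inferInstance
theorem a4 {x1 : Type} {x2 : Set x1} [x3 : NormedAddCommGroup x1] [x4 : CompactSpace ↑x2] : IsSemitopologicalSemiring C(↑x2, ℂ) := inferInstance
theorem a5 : Module.Flat ℝ ℂ := inferInstance
theorem a6 : Module.FaithfullyFlat ℝ ℂ := inferInstance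
theorem a7 {x1 : ℕ} : IsManifold (modelWithCornersSelf ℝ (Fin x1 → ℂ)) (↑⊤) (Fin x1 → ℂ) := inferInstance
theorem a8 {x1 : Type} {x2 : Set x1} [x3 : NormedAddCommGroup x1] [x4 : CompactSpace ↑x2] : LocallyCompactSpace ↑x2 := inferInstance
theorem a9 {x1 : Type} [x2 : NormedAddCommGroup x1] [x3 : NormedSpace ℂ x1] [x4 : FiniteDimensional ℂ x1] : SecondCountableTopology (x1 →L[ℂ] ℂ) := inferInstance
theorem a10 {x1 : Type} [x2 : NormedAddCommGroup x1] [x3 : NormedSpace ℂ x1] : AddMonoidHomClass (x1 →L[ℂ] ℂ) x1 ℂ := inferInstance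
theorem a11 {x1 : Type} : AddMonoidHomClass ((x1 → ℂ) →L[ℂ] Vale.Agent.P290.C2) (x1 → ℂ) Vale.Agent.P290.C2 := inferInstance
theorem a12 {x1 : Type} [x2 : NormedAddCommGroup x1] [x3 : NormedSpace ℂ x1] : DistribMulActionSemiHomClass (x1 →L[ℂ] ℂ) (⇑(RingHom.id ℂ)) x1 ℂ := inferInstance
end AFastc5a481x6b
attribute [local instance] AFastc5a481x6b.a0 AFastc5a481x6b.a1 AFastc5a481x6b.a2 AFastc5a481x6b.a3
  AFastc5a481x6b.a4 AFastc5a481x6b.a5 AFastc5a481x6b.a6 AFastc5a481x6b.a7 AFastc5a481x6b.a8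
  AFastc5a481x6b.a9 AFastc5a481x6b.a10 AFastc5a481x6b.a11 AFastc5a481x6b.a12
section

section

namespace Vale.Agent.P290.CF

open MeasureTheory Set Filter Topology Metric

noncomputable section

variable {m : ℕ}

/-- the linear functional with coefficients `q` -/
def dotL (q : Fin m → ℂ) : (Fin m → ℂ) →L[ℂ] ℂ :=
  ∑ j, q j • (ContinuousLinearMap.proj j : (Fin m → ℂ) →L[ℂ] ℂ)

theorem dotL_apply (q v : Fin m → ℂ) : dotL q v = q ⬝ᵥ v := by
  simp only [dotL, sum_apply, smul_apply, ContinuousLinearMap.proj_apply, smul_eq_mul, dotProduct]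

theorem continuous_dotL : Continuous (dotL (m := m)) := by
  unfold dotL; fun_prop

theorem differentiableAt_ker_integral (n : ℕ) {B : (Fin m → ℂ) → ℂ}
    {Q : (Fin m → ℂ) → (Fin m → ℂ)} (hB : Continuous B) (hBc : HasCompactSupport B)
    (hQ : Continuous Q) {z₀ : Fin m → ℂ} {c : ℝ} (hc : 0 < c)
    (hpos : ∀ᶠ z in 𝓝 z₀, ∀ w ∈ tsupport B, c ≤ (Pf Q z w).re) :
    DifferentiableAt ℂ (fun z => ∫ p, ker n B (Pf Q z) p ∂(μK m)) z₀ := by
  have hPc : ∀ z, Continuous (Pf Q z) := by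
    intro z; unfold Pf dotProduct; fun_prop
  have hPd : ∀ w z, HasFDerivAt (fun z => Pf Q z w) (-(dotL (Q w))) z := by
    intro w z
    have h1 : HasFDerivAt (fun z => dotL (Q w) (w - z)) ((dotL (Q w)).comp (-ContinuousLinearMap.id ℂ _)) z := by
      refine (dotL (Q w)).hasFDerivAt.comp z ?_
      exact (hasFDerivAt_id z).const_sub w
    have h2 : (fun z => Pf Q z w) = fun z => dotL (Q w) (w - z) := by
      funext z; rw [dotL_apply]; rfl
    rw [h2]
    refine h1.congr_fderiv ?_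
    ext v; simp only [ContinuousLinearMap.comp_neg, ContinuousLinearMap.comp_id, neg_apply]
  have hker : ∀ p : ℝ × (Fin m → ℂ), ∀ z, HasFDerivAt (fun z => ker n B (Pf Q z) p)
      (((p.1 : ℂ) ^ n * B p.2 * (Complex.exp (-(p.1 : ℂ) * Pf Q z p.2) * p.1)) • dotL (Q p.2)) z := by
    intro p z
    have h1 := ((hPd p.2 z).const_mul (-(p.1 : ℂ))).cexp.const_mul ((p.1 : ℂ) ^ n * B p.2)
    refine (h1.congr_of_eventuallyEq (Eventually.of_forall fun z => ?_)).congr_fderiv ?_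
    · simp only [ker]; ring
    · ext v
      simp only [smul_apply, smul_eq_mul, neg_apply]
      ring
  refine HasFDerivAt.differentiableAt (𝕜 := ℂ) (f' := ∫ p, (((p.1 : ℂ) ^ n * B p.2 *
    (Complex.exp (-(p.1 : ℂ) * Pf Q z₀ p.2) * p.1)) • dotL (Q p.2)) ∂(μK m)) ?_
  refine hasFDerivAt_integral_of_dominated_of_fderiv_le (𝕜 := ℂ)
    (F' := fun z p => (((p.1 : ℂ) ^ n * B p.2 *
    (Complex.exp (-(p.1 : ℂ) * Pf Q z p.2) * p.1)) • dotL (Q p.2)))
    (bound := fun p : ℝ × (Fin m → ℂ) => (p.1 ^ (n + 1) * Real.exp (-c * p.1)) *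
      (‖B p.2‖ * ‖dotL (Q p.2)‖)) (s := {z | ∀ w ∈ tsupport B, c ≤ (Pf Q z w).re}) hpos ?_ ?_ ?_ ?_ ?_ ?_
  · exact Eventually.of_forall fun z => (continuous_ker n hB (hPc z)).aestronglyMeasurable
  · exact integrable_ker n hB hBc (hPc z₀) hc hpos.self_of_nhds
  · refine Continuous.aestronglyMeasurable ?_
    have h1 : Continuous (fun p : ℝ × (Fin m → ℂ) => Pf Q z₀ p.2) := (hPc z₀).comp continuous_snd
    have h2 : Continuous (fun p : ℝ × (Fin m → ℂ) => dotL (Q p.2)) :=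
      continuous_dotL.comp (hQ.comp continuous_snd)
    have h3 : Continuous (fun p : ℝ × (Fin m → ℂ) => B p.2) := hB.comp continuous_snd
    fun_prop
  · filter_upwards [ae_pos m] with p hp z hz
    by_cases hw : p.2 ∈ tsupport B
    · rw [norm_smul, norm_mul, norm_mul, norm_mul, norm_pow, Complex.norm_real,
        Real.norm_of_nonneg hp.le, Complex.norm_exp]
      have h1 : (-(p.1 : ℂ) * Pf Q z p.2).re = -p.1 * (Pf Q z p.2).re := by
        rw [← Complex.ofReal_neg, Complex.re_ofReal_mul]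
      rw [h1]
      have h2 : c * p.1 ≤ p.1 * (Pf Q z p.2).re := by
        rw [mul_comm]; exact mul_le_mul_of_nonneg_left (hz _ hw) hp.le
      have h3 : Real.exp (-p.1 * (Pf Q z p.2).re) ≤ Real.exp (-c * p.1) :=
        Real.exp_le_exp.2 (by linarith only [h2])
      calc p.1 ^ n * ‖B p.2‖ * (Real.exp (-p.1 * (Pf Q z p.2).re) * p.1) * ‖dotL (Q p.2)‖
          ≤ p.1 ^ n * ‖B p.2‖ * (Real.exp (-c * p.1) * p.1) * ‖dotL (Q p.2)‖ := by (clear * - h3 hp; gcongr)
        _ = _ := by ring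
    · rw [image_eq_zero_of_notMem_tsupport hw]; simp only [mul_zero, neg_mul, zero_mul, norm_zero, norm_le_zero_iff, smul_eq_zero, true_or]
  · refine integrable_dom (n + 1) hc (B := fun w => ‖B w‖ * ‖dotL (Q w)‖) ?_ ?_
    · exact hB.norm.mul (continuous_dotL.comp hQ).norm
    · exact hBc.norm.mul_right
  · exact ae_of_all _ fun p z _ => hker p z

end

end Vale.Agent.P290.CF
end
end

section

section

namespace Vale.Agent.P290.CF

open MeasureTheory Set Filter Topology Metric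
open scoped Manifold ContDiff

noncomputable section

variable {m : ℕ}

theorem re_pair_continuous {Q : (Fin m → ℂ) → (Fin m → ℂ)} (hQ : Continuous Q) :
    Continuous (fun p : (Fin m → ℂ) × (Fin m → ℂ) => (Pf Q p.1 p.2).re) := by
  unfold Pf dotProduct; fun_prop

/-- uniform positivity near a compact set -/
theorem pos_near {Q : (Fin m → ℂ) → (Fin m → ℂ)} (hQ : Continuous Q) {T K : Set (Fin m → ℂ)}
    (hT : IsCompact T) (hK : IsCompact K) (h : ∀ w ∈ T, ∀ z ∈ K, 0 < (Pf Q z w).re) :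
    ∃ c > 0, ∀ᶠ z in 𝓝ˢ K, ∀ w ∈ T, c ≤ (Pf Q z w).re := by
  have hc := re_pair_continuous hQ
  obtain ⟨c, hc0, hcm⟩ : ∃ c > 0, ∀ p ∈ K ×ˢ T, c < (Pf Q p.1 p.2).re := by
    by_cases hne : (K ×ˢ T).Nonempty
    · obtain ⟨p, hp, hmin⟩ := (hK.prod hT).exists_isMinOn hne hc.continuousOn
      refine ⟨(Pf Q p.1 p.2).re / 2, half_pos (h _ hp.2 _ hp.1), fun q hq => ?_⟩
      have h1 : (Pf Q p.1 p.2).re ≤ (Pf Q q.1 q.2).re := hmin hq
      have h2 := h _ hp.2 _ hp.1
      linarith only [h1, h2]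
    · exact ⟨1, one_pos, fun p hp => absurd ⟨p, hp⟩ hne⟩
  refine ⟨c, hc0, ?_⟩
  rw [eventually_nhdsSet_iff_forall]
  intro z hz
  refine hT.eventually_forall_of_forall_eventually ?_
  intro w hw
  have h1 : ∀ᶠ p : (Fin m → ℂ) × (Fin m → ℂ) in 𝓝 (z, w), c < (Pf Q p.1 p.2).re :=
    hc.continuousAt.eventually (isOpen_Ioi.mem_nhds (hcm (z, w) ⟨hz, hw⟩))
  exact h1.mono fun p hp => hp.le

/-- separation by a vector, stable version -/
theorem exists_sep {M : Set (Fin m → ℂ)} (hM : IsCompact M) (hMc : Convex ℝ M) {w₀ : Fin m → ℂ}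
    (hw₀ : w₀ ∉ M) :
    ∃ ξ : Fin m → ℂ, ∀ᶠ y in 𝓝 w₀, ∀ z ∈ M, 0 < (ξ ⬝ᵥ (y - z)).re := by
  obtain ⟨f, u, h1, h2⟩ := RCLike.geometric_hahn_banach_point_closed (𝕜 := ℂ) hMc hM.isClosed hw₀
  set ξ : Fin m → ℂ := fun j => - f (Pi.single j 1) with hξ
  have hf : ∀ v, ξ ⬝ᵥ v = - f v := by
    intro v
    have hv : v = ∑ j, v j • (Pi.single j 1 : Fin m → ℂ) := by
      funext i
      simp only [Finset.sum_apply, Pi.smul_apply, Pi.single_apply, smul_eq_mul, mul_ite, mul_one, mul_zero, Finset.sum_ite_eq, Finset.mem_univ, ↓reduceIte]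
    conv_rhs => rw [hv, map_sum]
    simp only [map_smul, smul_eq_mul, dotProduct, hξ]
    rw [← Finset.sum_neg_distrib]
    refine Finset.sum_congr rfl fun j _ => ?_
    ring
  refine ⟨ξ, ?_⟩
  have h3 : ∀ᶠ y in 𝓝 w₀, (f y).re < u := by
    have : Continuous fun y => (f y).re := Complex.continuous_re.comp f.continuous
    exact this.continuousAt.eventually (isOpen_Iio.mem_nhds h1)
  filter_upwards [h3] with y hy z hz
  rw [hf, map_sub]
  have := h2 z hz
  simp only [Complex.neg_re, Complex.sub_re]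
  simp only [RCLike.re_eq_complex_re] at this
  linarith only [hy, this]

/-- additive Cousin splitting for compact convex sets with convex union, coordinate version -/
theorem split_coord (hm : 0 < m) {K₁ K₂ : Set (Fin m → ℂ)} (h₁ : IsCompact K₁)
    (h₂ : IsCompact K₂) (hc₁ : Convex ℝ K₁) (hc₂ : Convex ℝ K₂) (hc : Convex ℝ (K₁ ∪ K₂))
    {h : (Fin m → ℂ) → ℂ} (hh : HolNear (K₁ ∩ K₂) h) :
    ∃ h' h'' : (Fin m → ℂ) → ℂ, HolNear K₁ h' ∧ HolNear K₂ h'' ∧
      h =ᶠ[𝓝ˢ (K₁ ∩ K₂)] fun z => h' z - h'' z := by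
  classical
  set K := K₁ ∩ K₂ with hKdef
  have hK : IsCompact K := h₁.inter h₂
  have hKc : Convex ℝ K := hc₁.inter hc₂
  obtain ⟨V, hVo, hKV, hV⟩ := eventually_nhdsSet_iff_exists.1 hh
  have hhV : DifferentiableOn ℂ h V := fun z hz => (hV z hz).differentiableWithinAt
  have hhV1 : ContDiffOn ℝ 1 h V := by
    have := contDiffOn_of_differentiableOn hVo hhV 1
    have h3 := this.restrict_scalars ℝ
    exact_mod_cast h3
  -- nested neighbourhoods
  obtain ⟨δ', hδ', hδV⟩ := hK.exists_cthickening_subset_open hVo hKV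
  set δ := δ' / 3 with hδdef
  have hδ : 0 < δ := by (clear * - hδ'; positivity)
  set A := cthickening δ K with hA
  set B' := cthickening (2 * δ) K with hB'
  set C' := cthickening (3 * δ) K with hC'
  have hC'V : C' ⊆ V := by
    have : 3 * δ = δ' := by rw [hδdef]; ring
    rw [hC', this]; exact hδV
  have hAB : A ⊆ interior B' := by
    have h1 : A ⊆ thickening (2 * δ) K := cthickening_subset_thickening' (by (clear * - hδ'; positivity))
      (by linarith only [hδ]) K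
    exact h1.trans (thickening_subset_interior_cthickening _ _)
  have hBC : B' ⊆ interior C' := by
    have h1 : B' ⊆ thickening (3 * δ) K := cthickening_subset_thickening' (by positivity)
      (by linarith only [hδ]) K
    exact h1.trans (thickening_subset_interior_cthickening _ _)
  have hC'comp : IsCompact C' := hK.cthickening
  have hKA : thickening δ K ⊆ A := thickening_subset_cthickening _ _
  have hKth : K ⊆ thickening δ K := self_subset_thickening hδ K
  obtain ⟨θ, hθ1, hθ0, hθI⟩ := exists_contMDiffMap_one_nhds_of_subset_interior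
    (n := (⊤ : ℕ∞)) 𝓘(ℝ, Fin m → ℂ) (isClosed_cthickening : IsClosed A) hAB
  obtain ⟨χ, hχ1, hχ0, hχI⟩ := exists_contMDiffMap_one_nhds_of_subset_interior
    (n := (⊤ : ℕ∞)) 𝓘(ℝ, Fin m → ℂ) (isClosed_cthickening : IsClosed B') hBC
  have hθd : ContDiff ℝ ∞ (fun w => θ w) := θ.contMDiff.contDiff
  have hχd : ContDiff ℝ ∞ (fun w => χ w) := χ.contMDiff.contDiff
  set χc : (Fin m → ℂ) → ℂ := fun w => ((χ w : ℝ) : ℂ) with hχc
  have hχcd : ContDiff ℝ ∞ χc := Complex.ofRealCLM.contDiff.comp hχd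
  have hχsupp : tsupport χc ⊆ C' := by
    refine closure_minimal ?_ isClosed_cthickening
    intro w hw
    by_contra h0
    apply hw
    simp [hχc, hχ0 w h0]
  have hχcomp : HasCompactSupport χc := hC'comp.of_isClosed_subset (isClosed_tsupport _) hχsupp
  set S := tsupport (fderiv ℝ χc) with hS
  have hSC : S ⊆ C' := (tsupport_fderiv_subset ℝ).trans hχsupp
  have hScomp : IsCompact S := hC'comp.of_isClosed_subset (isClosed_tsupport _) hSC
  have hSB : Disjoint S B' := by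
    rw [Set.disjoint_right]
    intro w hw hwS
    have h1 : ∀ᶠ y in 𝓝 w, χ y = 1 := (eventually_nhdsSet_iff_forall.1 hχ1) w hw
    have h2 : ∀ᶠ y in 𝓝 w, fderiv ℝ χc y = 0 := by
      have h3 : ∀ᶠ y in 𝓝 w, χc =ᶠ[𝓝 y] fun _ => (1:ℂ) := by
        have h4 : ∀ᶠ y in 𝓝 w, ∀ᶠ x in 𝓝 y, χ x = 1 := eventually_eventually_nhds.2 h1
        filter_upwards [h4] with y hy
        filter_upwards [hy] with x hx
        simp [hχc, hx]
      filter_upwards [h3] with y hy
      rw [hy.fderiv_eq]; simp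
    rw [hS] at hwS
    exact (notMem_tsupport_iff_eventuallyEq.2 h2) hwS
  have hKB : K ⊆ B' := hKth.trans (hKA.trans (hAB.trans interior_subset))
  have hK2S : Disjoint K₁ (K₂ ∩ S) := by
    rw [Set.disjoint_left]
    intro w hw1 hw2
    exact (Set.disjoint_left.1 hSB hw2.2) (hKB ⟨hw1, hw2.1⟩)
  obtain ⟨ρ, hρ0, hρ1, hρI⟩ := exists_contMDiffMap_zero_one_nhds_of_isClosed
    (n := (⊤ : ℕ∞)) 𝓘(ℝ, Fin m → ℂ) h₁.isClosed (h₂.inter hScomp).isClosed hK2S
  have hρd : ContDiff ℝ ∞ (fun w => ρ w) := ρ.contMDiff.contDiff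
  set T₁ := S ∩ tsupport (fun w => ρ w) with hT₁
  set T₂ := S ∩ tsupport (fun w => 1 - ρ w) with hT₂
  have hT₁c : IsCompact T₁ := hScomp.inter_right (isClosed_tsupport _)
  have hT₂c : IsCompact T₂ := hScomp.inter_right (isClosed_tsupport _)
  have hT₁K : ∀ w ∈ T₁, w ∉ K₁ := by
    intro w hw hwK
    have h1 : ∀ᶠ y in 𝓝 w, ρ y = 0 := (eventually_nhdsSet_iff_forall.1 hρ0) w hwK
    exact (notMem_tsupport_iff_eventuallyEq.2 h1) hw.2
  have hT₂K : ∀ w ∈ T₂, w ∉ K₂ := by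
    intro w hw hwK
    have h1 : ∀ᶠ y in 𝓝 w, ρ y = 1 := (eventually_nhdsSet_iff_forall.1 hρ1) w ⟨hwK, hw.1⟩
    have h2 : (fun y => 1 - ρ y) =ᶠ[𝓝 w] 0 := by
      filter_upwards [h1] with y hy; simp [hy]
    exact (notMem_tsupport_iff_eventuallyEq.2 h2) hw.2
  -- the selection
  set F₃ : Set (Fin m → ℂ) := (thickening δ K)ᶜ with hF₃
  have hF₃c : IsClosed F₃ := isOpen_thickening.isClosed_compl
  obtain ⟨Q₀, hQ₀⟩ := exists_contMDiffMap_forall_mem_convex_of_local_const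
    (n := (⊤ : ℕ∞)) (I := 𝓘(ℝ, Fin m → ℂ)) (M := Fin m → ℂ) (F := Fin m → ℂ)
    (t := fun w => {ξ : Fin m → ℂ | (w ∈ T₁ → ∀ z ∈ K₁, 0 < (ξ ⬝ᵥ (w - z)).re) ∧
      (w ∈ T₂ → ∀ z ∈ K₂, 0 < (ξ ⬝ᵥ (w - z)).re) ∧
      (w ∈ F₃ → ∀ z ∈ K, 0 < (ξ ⬝ᵥ (w - z)).re)}) (by
    intro w
    have key : ∀ (p : Prop) (M : Set (Fin m → ℂ)),
        Convex ℝ {ξ : Fin m → ℂ | p → ∀ z ∈ M, 0 < (ξ ⬝ᵥ (w - z)).re} := by
      intro p M ξ hξ η hη a b ha hb hab hp z hz
      have e1 : ((a • ξ + b • η) ⬝ᵥ (w - z)).re = a * (ξ ⬝ᵥ (w - z)).re +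
          b * (η ⬝ᵥ (w - z)).re := by
        rw [add_dotProduct, smul_dotProduct, smul_dotProduct]
        simp only [dotProduct_sub, Complex.real_smul, Complex.add_re, Complex.mul_re, Complex.ofReal_re, Complex.sub_re, Complex.ofReal_im, Complex.sub_im, zero_mul, sub_zero]
      rw [e1]
      have h3 := hξ hp z hz
      have h4 := hη hp z hz
      rcases ha.eq_or_lt with rfl | ha'
      · have : b = 1 := by linarith only [hab]
        subst this; simpa only [dotProduct_sub, Complex.sub_re, zero_mul, one_mul, zero_add, sub_pos, gt_iff_lt] using h4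
      · have : 0 ≤ b * (η ⬝ᵥ (w - z)).re := mul_nonneg hb h4.le
        have : 0 < a * (ξ ⬝ᵥ (w - z)).re := mul_pos ha' h3
        (clear hm h₁ h₂ hc₁ hc₂ hc h hh hKdef hK hKc V hVo hKV hV hhV hhV1 hδ' hδV hδdef hδ A hA B' hB' C' hC' hC'V hAB hBC hC'comp hKA hKth θ hθ1 hθ0 hθI χ hχ1 hχ0 hχI hθd hχd χc hχc hχcd hχsupp hχcomp S hS hSC hScomp hSB hKB hK2S ρ hρ0 hρ1 hρI hρd T₁ hT₁ T₂ hT₂ hT₁c hT₂c hT₁K hT₂K hF₃ ha hab e1; linarith)
    exact (key _ _).inter ((key _ _).inter (key _ _))) (by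
    intro w₀
    have n1 : w₀ ∉ T₁ → ∀ᶠ y in 𝓝 w₀, y ∉ T₁ := fun h =>
      hT₁c.isClosed.isOpen_compl.mem_nhds h
    have n2 : w₀ ∉ T₂ → ∀ᶠ y in 𝓝 w₀, y ∉ T₂ := fun h =>
      hT₂c.isClosed.isOpen_compl.mem_nhds h
    have n3 : w₀ ∉ F₃ → ∀ᶠ y in 𝓝 w₀, y ∉ F₃ := fun h =>
      hF₃c.isOpen_compl.mem_nhds h
    by_cases a1 : w₀ ∈ T₁
    · by_cases a2 : w₀ ∈ T₂
      · obtain ⟨ξ, hξ⟩ := exists_sep (h₁.union h₂) hc (w₀ := w₀)
          (fun h => h.elim (hT₁K _ a1) (hT₂K _ a2))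
        refine ⟨ξ, ?_⟩
        filter_upwards [hξ] with y hy
        exact ⟨fun _ z hz => hy z (Or.inl hz), fun _ z hz => hy z (Or.inr hz),
          fun _ z hz => hy z (Or.inl hz.1)⟩
      · obtain ⟨ξ, hξ⟩ := exists_sep h₁ hc₁ (hT₁K _ a1)
        refine ⟨ξ, ?_⟩
        filter_upwards [hξ, n2 a2] with y hy hy2
        exact ⟨fun _ z hz => hy z hz, fun h => absurd h hy2, fun _ z hz => hy z hz.1⟩
    · by_cases a2 : w₀ ∈ T₂
      · obtain ⟨ξ, hξ⟩ := exists_sep h₂ hc₂ (hT₂K _ a2)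
        refine ⟨ξ, ?_⟩
        filter_upwards [hξ, n1 a1] with y hy hy1
        exact ⟨fun h => absurd h hy1, fun _ z hz => hy z hz, fun _ z hz => hy z hz.2⟩
      · by_cases a3 : w₀ ∈ F₃
        · obtain ⟨ξ, hξ⟩ := exists_sep hK hKc (w₀ := w₀) (fun h => a3 (hKth h))
          refine ⟨ξ, ?_⟩
          filter_upwards [hξ, n1 a1, n2 a2] with y hy hy1 hy2
          exact ⟨fun h => absurd h hy1, fun h => absurd h hy2, fun _ z hz => hy z hz⟩
        · refine ⟨0, ?_⟩
          filter_upwards [n1 a1, n2 a2, n3 a3] with y hy1 hy2 hy3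
          exact ⟨fun h => absurd h hy1, fun h => absurd h hy2, fun h => absurd h hy3⟩)
  set Q : (Fin m → ℂ) → (Fin m → ℂ) := fun w => Q₀ w with hQdef
  have hQd : ContDiff ℝ ∞ Q := Q₀.contMDiff.contDiff
  have hQc : Continuous Q := hQd.continuous
  have hQ1 : ∀ w ∈ T₁, ∀ z ∈ K₁, 0 < (Pf Q z w).re := fun w hw z hz => (hQ₀ w).1 hw z hz
  have hQ2 : ∀ w ∈ T₂, ∀ z ∈ K₂, 0 < (Pf Q z w).re := fun w hw z hz => (hQ₀ w).2.1 hw z hz
  have hQ3 : ∀ w ∈ C' ∩ F₃, ∀ z ∈ K, 0 < (Pf Q z w).re := fun w hw z hz => (hQ₀ w).2.2 hw.2 z hz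
  obtain ⟨c₁, hc₁0, hp₁⟩ := pos_near hQc hT₁c h₁ hQ1
  obtain ⟨c₂, hc₂0, hp₂⟩ := pos_near hQc hT₂c h₂ hQ2
  obtain ⟨c₃, hc₃0, hp₃⟩ := pos_near hQc (hC'comp.inter_right hF₃c) hK hQ3
  -- the density
  set B : (Fin m → ℂ) → ℂ := fun w => ∑ k, db k (fderiv ℝ χc w) * (h w * Vf Q k w) with hBdef
  have hQ2d : ContDiff ℝ 2 Q := by exact_mod_cast contDiff_infty.1 hQd 2
  have hχ1d : ContDiff ℝ 1 χc := hχcd.of_le (by exact_mod_cast le_top)
  have hχ' : Continuous (fderiv ℝ χc) := hχ1d.continuous_fderiv one_ne_zero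
  have hsuppB : tsupport B ⊆ S := by
    refine closure_mono ?_
    intro w hw h0
    apply hw
    have h0' : fderiv ℝ χc w = 0 := h0
    simp only [hBdef, db, smul_eq_mul, h0', zero_apply, mul_zero, add_zero, zero_mul, Finset.sum_const_zero]
  have hBcont : Continuous B := by
    refine ContinuousOn.continuous_of_tsupport_subset ?_ hVo ((hsuppB.trans hSC).trans hC'V)
    refine continuousOn_finsetSum _ fun k _ => ?_
    exact (continuousOn_db hχ'.continuousOn k).mul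
      (hhV.continuousOn.mul (contDiff_Vf hQ2d k).continuous.continuousOn)
  have hBcomp : HasCompactSupport B := hScomp.of_isClosed_subset (isClosed_tsupport _) hsuppB
  set B₁ : (Fin m → ℂ) → ℂ := fun w => B w * (ρ w : ℂ) with hB₁
  set B₂ : (Fin m → ℂ) → ℂ := fun w => B w * ((1 - ρ w : ℝ) : ℂ) with hB₂
  have hB₁s : tsupport B₁ ⊆ T₁ := by
    refine subset_inter ((tsupport_mul_subset_left).trans hsuppB) ?_
    refine (tsupport_mul_subset_right).trans (closure_mono ?_)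
    intro w hw h0
    exact hw (by simp only [h0]; simp)
  have hB₂s : tsupport B₂ ⊆ T₂ := by
    refine subset_inter ((tsupport_mul_subset_left).trans hsuppB) ?_
    refine (tsupport_mul_subset_right).trans (closure_mono ?_)
    intro w hw h0
    exact hw (by simp only [h0]; simp)
  have hB₁c : Continuous B₁ := hBcont.mul (Complex.continuous_ofReal.comp hρd.continuous)
  have hB₂c : Continuous B₂ :=
    hBcont.mul (Complex.continuous_ofReal.comp (continuous_const.sub hρd.continuous))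
  have hB₁k : HasCompactSupport B₁ := hT₁c.of_isClosed_subset (isClosed_tsupport _) hB₁s
  have hB₂k : HasCompactSupport B₂ := hT₂c.of_isClosed_subset (isClosed_tsupport _) hB₂s
  have hPc : ∀ z, Continuous (Pf Q z) := fun z => (contDiff_Pf hQ2d z).continuous
  refine ⟨fun z => -(c0 m)⁻¹ * ∫ p, ker (m - 1) B₁ (Pf Q z) p ∂(μK m),
    fun z => (c0 m)⁻¹ * ∫ p, ker (m - 1) B₂ (Pf Q z) p ∂(μK m), ?_, ?_, ?_⟩
  · have h3 : ∀ᶠ z in 𝓝ˢ K₁, ∀ᶠ y in 𝓝 z, ∀ w ∈ T₁, c₁ ≤ (Pf Q y w).re := by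
      obtain ⟨O, hO, hKO, hOp⟩ := eventually_nhdsSet_iff_exists.1 hp₁
      exact eventually_nhdsSet_iff_exists.2 ⟨O, hO, hKO, fun z hz =>
        (hO.mem_nhds hz : O ∈ 𝓝 z) |> fun hn => Filter.mem_of_superset hn hOp⟩
    filter_upwards [h3] with z hz
    refine DifferentiableAt.const_mul ?_ _
    exact differentiableAt_ker_integral (m - 1) hB₁c hB₁k hQc hc₁0
      (hz.mono fun y hy w hw => hy w (hB₁s hw))
  · have h3 : ∀ᶠ z in 𝓝ˢ K₂, ∀ᶠ y in 𝓝 z, ∀ w ∈ T₂, c₂ ≤ (Pf Q y w).re := by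
      obtain ⟨O, hO, hKO, hOp⟩ := eventually_nhdsSet_iff_exists.1 hp₂
      exact eventually_nhdsSet_iff_exists.2 ⟨O, hO, hKO, fun z hz =>
        (hO.mem_nhds hz : O ∈ 𝓝 z) |> fun hn => Filter.mem_of_superset hn hOp⟩
    filter_upwards [h3] with z hz
    refine DifferentiableAt.const_mul ?_ _
    exact differentiableAt_ker_integral (m - 1) hB₂c hB₂k hQc hc₂0
      (hz.mono fun y hy w hw => hy w (hB₂s hw))
  · have hzA : ∀ᶠ z in 𝓝ˢ K, z ∈ thickening δ K := isOpen_thickening.mem_nhdsSet.2 hKth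
    filter_upwards [hzA, hp₃, hp₁.filter_mono (nhdsSet_mono inter_subset_left),
      hp₂.filter_mono (nhdsSet_mono inter_subset_right)] with z hz hz₃ hz₁ hz₂
    have hzA' : z ∈ A := hKA hz
    -- modified section
    set Qz : (Fin m → ℂ) → (Fin m → ℂ) := fun w =>
      θ w • (fun j => star (w j - z j)) + (1 - θ w) • Q w with hQz
    have hstar : ContDiff ℝ ∞ (fun w : Fin m → ℂ => fun j => star (w j - z j)) := by
      rw [contDiff_pi]
      intro j
      exact (Complex.conjCLE : ℂ ≃L[ℝ] ℂ).contDiff.comp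
        ((contDiff_apply ℝ ℂ j).sub contDiff_const)
    have hQzd : ContDiff ℝ ∞ Qz :=
      (hθd.smul hstar).add ((contDiff_const.sub hθd).smul hQd)
    have hQz2 : ContDiff ℝ 2 Qz := by exact_mod_cast contDiff_infty.1 hQzd 2
    have hPfz : ∀ w, (Pf Qz z w).re = θ w * nsq (w - z) + (1 - θ w) * (Pf Q z w).re := by
      intro w
      have e0 : (fun j => star (w j - z j)) ⬝ᵥ (w - z) = ((nsq (w - z) : ℝ) : ℂ) := by
        simp only [dotProduct, nsq, Pi.sub_apply]
        push_cast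
        refine Finset.sum_congr rfl fun j _ => ?_
        rw [← Complex.conj_mul']
        rfl
      have e1 : Pf Qz z w = (θ w : ℂ) * ((nsq (w - z) : ℝ) : ℂ) + ((1 - θ w : ℝ) : ℂ) *
          Pf Q z w := by
        simp only [Pf, hQz, add_dotProduct, smul_dotProduct]
        rw [e0]
        simp only [Complex.real_smul]
      rw [e1, Complex.add_re, Complex.re_ofReal_mul, Complex.re_ofReal_mul, Complex.ofReal_re]
    have hθA : ∀ w ∈ A, θ w = 1 := fun w hw =>
      ((eventually_nhdsSet_iff_forall.1 hθ1) w hw).self_of_nhds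
    -- bound on the squared distance
    obtain ⟨D, hD0, hD⟩ : ∃ D > 0, ∀ w ∈ C', nsq (w - z) ≤ D := by
      have h5 : Continuous (fun w => nsq (w - z)) := continuous_nsq.comp (continuous_id.sub continuous_const)
      obtain ⟨D, hD⟩ := (hC'comp.image h5).bddAbove
      refine ⟨max D 1, lt_of_lt_of_le one_pos (le_max_right _ _), fun w hw => ?_⟩
      exact (hD ⟨w, hw, rfl⟩).trans (le_max_left _ _)
    have hpos : ∀ w ∈ C', min 1 (c₃ / D) * nsq (w - z) ≤ (Pf Qz z w).re := by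
      intro w hw
      rw [hPfz]
      have hn := nsq_nonneg (w - z)
      have hθ01 := hθI w
      by_cases hwA : w ∈ A
      · rw [hθA w hwA]
        have : min 1 (c₃ / D) ≤ 1 := min_le_left _ _
        linarith only [mul_nonneg (sub_nonneg.2 hn) (sub_nonneg.2 this)]
      · have hwF : w ∈ F₃ := fun h => hwA (hKA h)
        have h6 := hz₃ w ⟨hw, hwF⟩
        have h7 : min 1 (c₃ / D) * nsq (w - z) ≤ nsq (w - z) := by
          have : min 1 (c₃ / D) ≤ 1 := min_le_left _ _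
          linarith only [mul_nonneg (sub_nonneg.2 hn) (sub_nonneg.2 this)]
        have h8 : min 1 (c₃ / D) * nsq (w - z) ≤ c₃ := by
          calc min 1 (c₃ / D) * nsq (w - z) ≤ (c₃ / D) * D := by
                apply mul_le_mul (min_le_right _ _) (hD w hw) hn (by (clear * - hc₃0 hD0; positivity))
            _ = c₃ := by (clear * - hD0 hc₃0; field_simp)
        linarith only [mul_nonneg (sub_nonneg.2 h8) (sub_nonneg.2 hθ01.2), mul_nonneg (sub_nonneg.2 h7) (sub_nonneg.2 hθ01.1), mul_nonneg (sub_nonneg.2 h6) (sub_nonneg.2 hθ01.2)]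
    have hθS : ∀ w ∈ S, ∀ᶠ y in 𝓝 w, θ y = 0 := by
      intro w hw
      have h9 : w ∈ B'ᶜ := Set.disjoint_left.1 hSB hw
      filter_upwards [isClosed_cthickening.isOpen_compl.mem_nhds h9] with y hy
      exact hθ0 y hy
    have hSF : ∀ w ∈ S, w ∈ C' ∩ F₃ := by
      intro w hw
      refine ⟨hSC hw, fun h9 => ?_⟩
      exact (Set.disjoint_left.1 hSB hw) ((hKA.trans (hAB.trans interior_subset)) h9)
    have hQzS : ∀ w ∈ S, Qz =ᶠ[𝓝 w] Q := by
      intro w hw
      filter_upwards [hθS w hw] with y hy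
      simp only [hQz, star_sub, RCLike.star_def, hy, zero_smul, sub_zero, one_smul, zero_add]
    have hrep := rep_formula hm hQz2 hχ1d hχcomp hVo (hχsupp.trans hC'V) hhV hhV1 (z := z)
      (by
        have : χ z = 1 := ((eventually_nhdsSet_iff_forall.1 hχ1) z
          (interior_subset (hAB hzA'))).self_of_nhds
        simp [hχc, this])
      (by
        filter_upwards [(eventually_nhdsSet_iff_forall.1 hθ1) z hzA'] with w hw
        intro j
        simp only [hQz, star_sub, RCLike.star_def, Pi.add_apply, hw, Pi.smul_apply, one_smul, sub_self, zero_smul, add_zero])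
      (c := min 1 (c₃ / D)) (by (clear * - hc₃0 hD0; (clear * - hc₃0 hD0; positivity))) (fun w hw => hpos w (hχsupp hw))
      (c' := c₃) hc₃0 (by
        intro w hw
        rw [hPfz, (hθS w hw).self_of_nhds]
        have := hz₃ w (hSF w hw)
        simpa using this)
    have hkeq : ∀ p, ker (m - 1) (fun w => ∑ k, db k (fderiv ℝ χc w) * (h w * Vf Qz k w))
        (Pf Qz z) p = ker (m - 1) B₁ (Pf Q z) p + ker (m - 1) B₂ (Pf Q z) p := by
      intro p
      by_cases hp : p.2 ∈ S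
      · have e1 : dbQ Qz p.2 = dbQ Q p.2 := by
          funext l
          simp only [dbQ]
          rw [(hQzS _ hp).fderiv_eq]
        have e2 : Qz p.2 = Q p.2 := (hQzS _ hp).self_of_nhds
        have e3 : ∀ k, Vf Qz k p.2 = Vf Q k p.2 := by
          intro k; simp only [Vf, e1, e2]
        have e4 : Pf Qz z p.2 = Pf Q z p.2 := by simp only [Pf, e2]
        simp only [ker, e3, e4, hB₁, hB₂, hBdef]
        push_cast
        ring
      · have e1 : fderiv ℝ χc p.2 = 0 := image_eq_zero_of_notMem_tsupport hp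
        simp only [ker, db, e1, zero_apply, smul_eq_mul, mul_zero, add_zero, zero_mul, Finset.sum_const_zero, neg_mul, hB₁, hBdef, hB₂, Complex.ofReal_sub, Complex.ofReal_one]
    have hi₁ : Integrable (ker (m - 1) B₁ (Pf Q z)) (μK m) :=
      integrable_ker _ hB₁c hB₁k (hPc z) hc₁0 fun w hw => hz₁ w (hB₁s hw)
    have hi₂ : Integrable (ker (m - 1) B₂ (Pf Q z)) (μK m) :=
      integrable_ker _ hB₂c hB₂k (hPc z) hc₂0 fun w hw => hz₂ w (hB₂s hw)
    simp only [hkeq] at hrep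
    rw [integral_add hi₁ hi₂] at hrep
    have hc0 := c0_ne_zero m
    field_simp
    linear_combination hrep

end

end Vale.Agent.P290.CF
end
end

section

section

open Set Filter Metric
open scoped Topology

namespace Vale.Agent.P290

theorem HolNear.comp_continuousLinearMap {V W Y : Type} [NormedAddCommGroup V] [NormedSpace ℂ V]
    [NormedAddCommGroup W] [NormedSpace ℂ W] [NormedAddCommGroup Y] [NormedSpace ℂ Y]
    {S : Set V} {T : Set W} (e : V →L[ℂ] W) (hST : MapsTo e S T) {f : W → Y}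
    (hf : HolNear T f) : HolNear S (f ∘ e) := by
  have h1 : Tendsto e (𝓝ˢ S) (𝓝ˢ T) := e.continuous.tendsto_nhdsSet hST
  filter_upwards [h1.eventually hf] with z hz
  exact hz.comp z e.differentiableAt

/-- additive Cousin splitting for compact convex sets with convex union -/
theorem split_convex {V : Type} [NormedAddCommGroup V] [NormedSpace ℂ V] [FiniteDimensional ℂ V]
    {S' S'' : Set V} (h' : Good S') (h'' : Good S'') (hu : Convex ℝ (S' ∪ S'')) :
    Split S' S'' := by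
  intro h hh
  rcases Nat.eq_zero_or_pos (Module.finrank ℂ V) with h0 | hm
  · have : Subsingleton V := Module.finrank_zero_iff.1 h0
    refine ⟨h, fun _ => 0, ?_, ?_, ?_⟩
    · exact Eventually.of_forall fun z => (hasFDerivAt_of_subsingleton h z).differentiableAt
    · exact Eventually.of_forall fun z => differentiableAt_const _
    · exact Eventually.of_forall fun z => by simp
  set m := Module.finrank ℂ V with hmdef
  let e : V ≃L[ℂ] (Fin m → ℂ) := ContinuousLinearEquiv.ofFinrankEq (by simp only [Module.finrank_fintype_fun_eq_card, hmdef, Fintype.card_fin])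
  have ecomp : ∀ {S : Set V}, IsCompact S → IsCompact (e '' S) := fun hS => hS.image e.continuous
  have econv : ∀ {S : Set V}, Convex ℝ S → Convex ℝ (e '' S) := by
    intro S hS
    have := hS.linear_image (((e : V →L[ℂ] (Fin m → ℂ)).restrictScalars ℝ :
      V →L[ℝ] (Fin m → ℂ)) : V →ₗ[ℝ] (Fin m → ℂ))
    exact this
  have himg : e '' S' ∩ e '' S'' = e '' (S' ∩ S'') := (image_inter e.injective).symm
  have hmaps : ∀ T : Set V, MapsTo (e.symm : (Fin m → ℂ) →L[ℂ] V) (e '' T) T := by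
    rintro T _ ⟨z, hz, rfl⟩
    simpa using hz
  have h1 : HolNear (e '' S' ∩ e '' S'') (h ∘ (e.symm : (Fin m → ℂ) →L[ℂ] V)) := by
    rw [himg]
    exact HolNear.comp_continuousLinearMap _ (hmaps _) hh
  obtain ⟨f', f'', hf', hf'', hf⟩ := CF.split_coord hm (ecomp h'.1) (ecomp h''.1) (econv h'.2)
    (econv h''.2) (by rw [← image_union]; exact econv hu) h1
  refine ⟨f' ∘ (e : V →L[ℂ] (Fin m → ℂ)), f'' ∘ (e : V →L[ℂ] (Fin m → ℂ)),
    HolNear.comp_continuousLinearMap _ (mapsTo_image _ _) hf',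
    HolNear.comp_continuousLinearMap _ (mapsTo_image _ _) hf'', ?_⟩
  have h2 : Tendsto e (𝓝ˢ (S' ∩ S'')) (𝓝ˢ (e '' S' ∩ e '' S'')) := by
    rw [himg]
    exact e.continuous.tendsto_nhdsSet (mapsTo_image _ _)
  filter_upwards [h2.eventually hf] with z hz
  simpa only [ContinuousLinearEquiv.coe_coe, Function.comp_apply, ContinuousLinearEquiv.symm_apply_apply] using     hz

end Vale.Agent.P290
end
end

section

section

open Set Filter Metric
open scoped Topology

namespace Vale.Agent.P290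

variable {V : Type} [NormedAddCommGroup V] [NormedSpace ℂ V]

theorem Good.isCompact {S : Set V} (h : Good S) : IsCompact S := h.1

theorem Good.convex {S : Set V} (h : Good S) : Convex ℝ S := h.2

theorem Good.prod {W : Type} [NormedAddCommGroup W] [NormedSpace ℂ W] {S : Set V} {T : Set W}
    (hS : Good S) (hT : Good T) : Good (S ×ˢ T) :=
  ⟨hS.1.prod hT.1, hS.2.prod hT.2⟩

theorem good_closedBall (r : ℝ) : Good (closedBall (0 : ℂ) r) :=
  ⟨isCompact_closedBall _ _, convex_closedBall _ _⟩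

theorem good_closedBall_pi {J : Type} [Fintype J] (r : ℝ) :
    Good (closedBall (0 : J → ℂ) r) :=
  ⟨isCompact_closedBall _ _, convex_closedBall _ _⟩

/-- between a compact convex set and an open neighbourhood there is a good set -/
theorem exists_good_between [FiniteDimensional ℂ V] {K U : Set V} (hK : IsCompact K)
    (hKc : Convex ℝ K) (hU : IsOpen U) (hKU : K ⊆ U) :
    ∃ S : Set V, Good S ∧ K ⊆ interior S ∧ S ⊆ U := by
  haveI : ProperSpace V := FiniteDimensional.proper ℂ V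
  obtain ⟨δ, hδ, hs⟩ := hK.exists_cthickening_subset_open hU hKU
  refine ⟨cthickening δ K, ⟨hK.cthickening, hKc.cthickening δ⟩, ?_, hs⟩
  exact (self_subset_thickening hδ K).trans
    (interior_maximal (thickening_subset_cthickening δ K) isOpen_thickening)

end Vale.Agent.P290
end
end

section

section

open Set Filter Metric
open scoped Topology

namespace Vale.Agent.P290

variable {V : Type} [NormedAddCommGroup V] [NormedSpace ℂ V]

/-- restrictions of holomorphic germs to `S` -/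
noncomputable def holAlg (S : Set V) : Subalgebra ℂ C(S, ℂ) where
  carrier := {f | ∃ h : V → ℂ, HolNear S h ∧ ∀ z : S, f z = h z}
  mul_mem' := by
    rintro f g ⟨h, hh, hf⟩ ⟨k, hk, hg⟩
    refine ⟨fun z => h z * k z, ?_, fun z => by simp [hf, hg]⟩
    filter_upwards [hh, hk] with z h1 h2 using h1.mul h2
  add_mem' := by
    rintro f g ⟨h, hh, hf⟩ ⟨k, hk, hg⟩
    refine ⟨fun z => h z + k z, ?_, fun z => by simp [hf, hg]⟩
    filter_upwards [hh, hk] with z h1 h2 using h1.add h2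
  algebraMap_mem' := by
    intro c
    exact ⟨fun _ => c, Eventually.of_forall fun z => differentiableAt_const c, fun z => rfl⟩

/-- the uniform closure -/
noncomputable def clAlg (S : Set V) [CompactSpace S] : Subalgebra ℂ C(S, ℂ) := (holAlg S).topologicalClosure

theorem HolNear.continuousOn {S : Set V} {h : V → ℂ} (hh : HolNear S h) : ContinuousOn h S :=
  fun z hz => (hh.self_of_nhdsSet z hz).continuousAt.continuousWithinAt

/-- the continuous function on `S` of a germ -/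
noncomputable def toC {S : Set V} {h : V → ℂ} (hh : HolNear S h) : C(S, ℂ) :=
  ⟨fun z => h z, by
    have := hh.continuousOn
    rw [continuousOn_iff_continuous_domRestrict] at this
    exact this⟩

/-- the element of the closure algebra of a germ -/
noncomputable def toA {S : Set V} [CompactSpace S] {h : V → ℂ} (hh : HolNear S h) : clAlg S :=
  ⟨toC hh, Subalgebra.le_topologicalClosure _ ⟨h, hh, fun _ => rfl⟩⟩

theorem holNear_clm {S : Set V} (ℓ : V →L[ℂ] ℂ) : HolNear S (fun z => ℓ z) :=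
  Eventually.of_forall fun _ => ℓ.differentiableAt

/-- Hadamard's lemma in the direction of a vector -/
theorem holNear_hadamard [FiniteDimensional ℂ V] {S : Set V} (hS : Good S) {g : V → ℂ}
    (hg : HolNear S g) {a : V} (ha : a ∈ S) (b : V) :
    HolNear S (fun z => ∫ t in (0 : ℝ)..1, fderiv ℂ g (a + (t : ℂ) • (z - a)) b) := by
  have : ProperSpace V := FiniteDimensional.proper ℂ V
  obtain ⟨U0, hU0o, hSU0, hU0⟩ := mem_nhdsSet_iff_exists.1 hg
  obtain ⟨δ, hδ, hs⟩ := hS.1.exists_thickening_subset_open hU0o hSU0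
  set U := thickening δ S with hU
  have hUo : IsOpen U := isOpen_thickening
  have hUc : Convex ℝ U := hS.2.thickening δ
  have hSU : S ⊆ U := self_subset_thickening hδ S
  have hgd : DifferentiableOn ℂ g U0 := fun z hz => (hU0 hz).differentiableWithinAt
  have hmem : ∀ z ∈ U, ∀ t ∈ uIcc (0 : ℝ) 1, a + (t : ℂ) • (z - a) ∈ U := by
    intro z hz t ht
    rw [uIcc_of_le zero_le_one] at ht
    have := hUc (hSU ha) hz (by linarith only [ht.2] : (0 : ℝ) ≤ 1 - t) ht.1 (by ring)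
    convert this using 1
    rw [Complex.coe_smul, smul_sub, sub_smul, one_smul]
    abel
  have hfd := differentiableOn_fderiv_apply (F := ℂ) hU0o hgd b
  have h1 : DifferentiableOn ℂ (fun z => ∫ t in (0 : ℝ)..1,
      fderiv ℂ g (a + (t : ℂ) • (z - a)) b) U := by
    apply differentiableOn_intervalIntegral hUo
    · apply hfd.continuousOn.comp (f := fun p : V × ℝ => a + (p.2 : ℂ) • (p.1 - a))
      · (clear * -; fun_prop)
      · rintro ⟨z, t⟩ ⟨hz, ht⟩
        exact hs (hmem z hz t ht)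
    · intro t ht
      apply hfd.comp (f := fun z : V => a + (t : ℂ) • (z - a))
      · (clear * -; fun_prop)
      · intro z hz
        exact hs (hmem z hz t ht)
  rw [HolNear, eventually_nhdsSet_iff_forall]
  intro z hz
  filter_upwards [hUo.mem_nhds (hSU hz)] with y hy
  exact h1.differentiableAt (hUo.mem_nhds hy)

theorem hadamard_eq [FiniteDimensional ℂ V] {S : Set V} (hS : Good S) {g : V → ℂ}
    (hg : HolNear S g) {a z : V} (ha : a ∈ S) (hz : z ∈ S) :
    g z - g a = ∫ t in (0 : ℝ)..1, fderiv ℂ g (a + (t : ℂ) • (z - a)) (z - a) := by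
  have hd : ∀ y ∈ S, DifferentiableAt ℂ g y := fun y hy => hg.self_of_nhdsSet y hy
  have hmem : ∀ t ∈ uIcc (0 : ℝ) 1, a + (t : ℂ) • (z - a) ∈ S := by
    intro t ht
    rw [uIcc_of_le zero_le_one] at ht
    have := hS.2 ha hz (by linarith only [ht.2] : (0 : ℝ) ≤ 1 - t) ht.1 (by ring)
    convert this using 1
    rw [Complex.coe_smul, smul_sub, sub_smul, one_smul]
    abel
  obtain ⟨U0, hU0o, hSU0, hU0⟩ := mem_nhdsSet_iff_exists.1 hg
  have hgd : DifferentiableOn ℂ g U0 := fun z hz => (hU0 hz).differentiableWithinAt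
  have hfd := differentiableOn_fderiv_apply (F := ℂ) hU0o hgd (z - a)
  have := intervalIntegral.integral_eq_sub_of_hasDerivAt (a := 0) (b := 1)
    (f := fun t : ℝ => g (a + (t : ℂ) • (z - a)))
    (f' := fun t : ℝ => fderiv ℂ g (a + (t : ℂ) • (z - a)) (z - a)) ?_ ?_
  · rw [this]; simp
  · intro t ht
    have h1 := (hd _ (hmem t ht)).hasFDerivAt
    have h2 : HasDerivAt (fun t : ℝ => a + (t : ℂ) • (z - a)) (z - a) t := by
      have h3 : HasDerivAt (fun t : ℝ => (t : ℂ)) 1 t := Complex.ofRealCLM.hasDerivAt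
      have := (h3.smul_const (z - a)).const_add a
      simpa only [Complex.coe_smul, hasDerivAt_const_add_iff, one_smul] using this
    have h4 := (h1.restrictScalars ℝ).comp_hasDerivAt t h2
    exact h4
  · apply ContinuousOn.intervalIntegrable
    apply hfd.continuousOn.comp (f := fun t : ℝ => a + (t : ℂ) • (z - a))
    · (clear * -; fun_prop)
    · intro t ht
      exact hSU0 (hmem t ht)


noncomputable instance (S : Set V) [CompactSpace S] : CompleteSpace (clAlg S) := by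
  have : IsClosed ((clAlg S : Set C(S, ℂ))) := Subalgebra.isClosed_topologicalClosure _
  exact this.completeSpace_coe

theorem clAlg_isUnit {S : Set V} [CompactSpace S] {h : V → ℂ} (hh : HolNear S h)
    (hne : ∀ z ∈ S, h z ≠ 0) : IsUnit (toA hh) := by
  have hi : HolNear S (fun z => (h z)⁻¹) := by
    have h1 : ∀ᶠ z in 𝓝ˢ S, h z ≠ 0 := by
      rw [eventually_nhdsSet_iff_forall]
      intro z hz
      exact (hh.self_of_nhdsSet z hz).continuousAt.eventually_ne (hne z hz)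
    filter_upwards [hh, h1] with z h2 h3 using h2.inv h3
  refine IsUnit.of_mul_eq_one (toA hi) ?_
  apply Subtype.ext
  apply ContinuousMap.ext
  intro z
  change h z * (h z)⁻¹ = 1
  exact mul_inv_cancel₀ (hne z z.2)

theorem HolNear.fadd {S : Set V} {f g : V → ℂ} (hf : HolNear S f) (hg : HolNear S g) :
    HolNear S (fun z => f z + g z) := by
  filter_upwards [hf, hg] with z h1 h2 using h1.add h2

theorem HolNear.fmul {S : Set V} {f g : V → ℂ} (hf : HolNear S f) (hg : HolNear S g) :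
    HolNear S (fun z => f z * g z) := by
  filter_upwards [hf, hg] with z h1 h2 using h1.mul h2

theorem HolNear.fsub {S : Set V} {f g : V → ℂ} (hf : HolNear S f) (hg : HolNear S g) :
    HolNear S (fun z => f z - g z) := by
  filter_upwards [hf, hg] with z h1 h2 using h1.sub h2

theorem holNear_const {S : Set V} (c : ℂ) : HolNear S (fun _ => c) :=
  Eventually.of_forall fun _ => differentiableAt_const c

theorem HolNear.fsum {S : Set V} {ι : Type} (s : Finset ι) {f : ι → V → ℂ}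
    (hf : ∀ i, HolNear S (f i)) : HolNear S (fun z => ∑ i ∈ s, f i z) := by
  have : ∀ᶠ z in 𝓝ˢ S, ∀ i ∈ s, DifferentiableAt ℂ (f i) z :=
    (Finset.eventually_all s).2 fun i _ => hf i
  filter_upwards [this] with z hz
  exact DifferentiableAt.fun_sum hz

/-- a character of the closure algebra is an evaluation on germs -/
theorem exists_point_of_character [FiniteDimensional ℂ V] {S : Set V} (hS : Good S)
    [CompactSpace S] (χ : clAlg S →ₐ[ℂ] ℂ) :
    ∃ a ∈ S, ∀ (g : V → ℂ) (hg : HolNear S g), χ (toA hg) = g a := by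
  let b := Module.finBasis ℂ V
  let ℓ : Fin (Module.finrank ℂ V) → V →L[ℂ] ℂ := fun k => (b.coord k).toContinuousLinearMap
  have hℓ : ∀ k v, ℓ k v = b.repr v k := fun k v => by simp [ℓ]
  set a : V := ∑ k, χ (toA (holNear_clm (S := S) (ℓ k))) • b k with ha
  have hrepr : ∀ v : V, ∑ k, ℓ k v • b k = v := fun v => by
    simp only [hℓ]; exact b.sum_repr v
  -- linear functionals
  have hlin : ∀ f : V →L[ℂ] ℂ, χ (toA (holNear_clm (S := S) f)) = f a := by
    intro f
    have h1 : toA (holNear_clm (S := S) f) = ∑ k, f (b k) • toA (holNear_clm (S := S) (ℓ k)) := by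
      apply Subtype.ext
      apply ContinuousMap.ext
      intro z
      rw [AddSubmonoidClass.coe_finsetSum, ContinuousMap.coe_sum, Finset.sum_apply]
      change f z = ∑ k, f (b k) * ℓ k z
      conv_lhs => rw [← hrepr z]
      rw [map_sum]
      refine Finset.sum_congr rfl fun k _ => ?_
      rw [map_smul, smul_eq_mul, mul_comm]
    rw [h1, map_sum, ha, map_sum]
    refine Finset.sum_congr rfl fun k _ => ?_
    rw [map_smul, map_smul, smul_eq_mul, smul_eq_mul, mul_comm]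
  have haS : a ∈ S := by
    by_contra hn
    obtain ⟨f, u, hfu, hu⟩ := RCLike.geometric_hahn_banach_closed_point (𝕜 := ℂ) hS.2
      hS.1.isClosed hn
    have h1 : HolNear S (fun z => f z - f a) := (holNear_clm f).fsub (holNear_const _)
    have h2 : IsUnit (toA h1) := by
      apply clAlg_isUnit h1
      intro z hz h0
      have h3 := hfu z hz
      rw [sub_eq_zero] at h0
      rw [h0] at h3
      exact absurd (h3.trans hu) (lt_irrefl _)
    have h3 : χ (toA h1) = 0 := by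
      have h4 : toA h1 = toA (holNear_clm (S := S) f) - algebraMap ℂ (clAlg S) (f a) := by
        apply Subtype.ext
        apply ContinuousMap.ext
        intro z
        rfl
      rw [h4, map_sub, hlin, AlgHom.commutes]
      simp
    exact absurd (h2.map χ) (by rw [h3]; simp only [isUnit_iff_ne_zero, ne_eq, not_true_eq_false, not_false_eq_true])
  refine ⟨a, haS, fun g hg => ?_⟩
  -- Hadamard
  set q : Fin (Module.finrank ℂ V) → V → ℂ := fun k z =>
    ∫ t in (0 : ℝ)..1, fderiv ℂ g (a + (t : ℂ) • (z - a)) (b k) with hq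
  have hqh : ∀ k, HolNear S (q k) := fun k => holNear_hadamard hS hg haS (b k)
  have hl : ∀ k, HolNear S (fun z => ℓ k z - ℓ k a) := fun k =>
    (holNear_clm (ℓ k)).fsub (holNear_const _)
  have hlχ : ∀ k, χ (toA (hl k)) = 0 := by
    intro k
    have h4 : toA (hl k) = toA (holNear_clm (S := S) (ℓ k)) - algebraMap ℂ (clAlg S) (ℓ k a) := by
      apply Subtype.ext
      apply ContinuousMap.ext
      intro z
      rfl
    rw [h4, map_sub, hlin, AlgHom.commutes]
    simp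
  have key : toA hg = algebraMap ℂ (clAlg S) (g a) + ∑ k, toA (hl k) * toA (hqh k) := by
    apply Subtype.ext
    apply ContinuousMap.ext
    intro z
    have h5 := hadamard_eq hS hg haS z.2
    have h6 : ∫ t in (0 : ℝ)..1, fderiv ℂ g (a + (t : ℂ) • ((z : V) - a)) ((z : V) - a) =
        ∑ k, (ℓ k z - ℓ k a) * q k z := by
      have h7 : ∀ t : ℝ, fderiv ℂ g (a + (t : ℂ) • ((z : V) - a)) ((z : V) - a) =
          ∑ k, (ℓ k z - ℓ k a) * fderiv ℂ g (a + (t : ℂ) • ((z : V) - a)) (b k) := by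
        intro t
        generalize fderiv ℂ g (a + (t : ℂ) • ((z : V) - a)) = Lf
        conv_lhs => rw [← hrepr ((z : V) - a)]
        rw [map_sum]
        refine Finset.sum_congr rfl fun k _ => ?_
        rw [map_smul, smul_eq_mul, map_sub]
      simp_rw [h7]
      rw [intervalIntegral.integral_finsetSum]
      · refine Finset.sum_congr rfl fun k _ => ?_
        rw [intervalIntegral.integral_const_mul]
      · intro k _
        apply ContinuousOn.intervalIntegrable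
        apply ContinuousOn.mul continuousOn_const
        obtain ⟨U0, hU0o, hSU0, hU0⟩ := mem_nhdsSet_iff_exists.1 hg
        have hgd : DifferentiableOn ℂ g U0 := fun z hz => (hU0 hz).differentiableWithinAt
        have hfd := differentiableOn_fderiv_apply (F := ℂ) hU0o hgd (b k)
        apply hfd.continuousOn.comp (f := fun t : ℝ => a + (t : ℂ) • ((z : V) - a))
        · (clear * -; fun_prop)
        · intro t ht
          apply hSU0
          change a + (t : ℂ) • ((z : V) - a) ∈ S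
          rw [uIcc_of_le zero_le_one] at ht
          have := hS.2 haS z.2 (by linarith only [ht.2] : (0 : ℝ) ≤ 1 - t) ht.1 (by ring)
          convert this using 1
          rw [Complex.coe_smul, smul_sub, sub_smul, one_smul]
          abel
    have h8 : g z = g a + ∑ k, (ℓ k z - ℓ k a) * q k z := by
      rw [← h6, ← h5]; ring
    have h9 : ((algebraMap ℂ (clAlg S) (g a) + ∑ k, toA (hl k) * toA (hqh k) : clAlg S) :
        C(S, ℂ)) z = g a + ∑ k, (ℓ k z - ℓ k a) * q k z := by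
      rw [AddMemClass.coe_add, ContinuousMap.add_apply, AddSubmonoidClass.coe_finsetSum,
        ContinuousMap.coe_sum, Finset.sum_apply]
      rfl
    rw [h9, ← h8]
    rfl
  rw [key, map_add, AlgHom.commutes, map_sum]
  simp only [Algebra.algebraMap_self, RingHom.id_apply, map_mul, hlχ, zero_mul, Finset.sum_const_zero, add_zero]

/-- Bezout identity near a good set -/
theorem Good.bezout [FiniteDimensional ℂ V] {S : Set V} (hS : Good S) {J : Type} [Fintype J]
    (g : J → V → ℂ) (hg : ∀ j, HolNear S (g j)) (hne : ∀ z ∈ S, ∃ j, g j z ≠ 0) :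
    ∃ c : J → V → ℂ, (∀ j, HolNear S (c j)) ∧ ∀ᶠ z in 𝓝ˢ S, ∑ j, c j z * g j z = 1 := by
  have hcS : CompactSpace S := isCompact_iff_compactSpace.1 hS.1
  have htop : Ideal.span (Set.range fun j => toA (hg j)) = ⊤ := by
    by_contra hn
    obtain ⟨M, hM, hle⟩ := Ideal.exists_le_maximal _ hn
    set χ : clAlg S →ₐ[ℂ] ℂ :=
      WeakDual.CharacterSpace.toAlgHom (Ideal.toCharacterSpace M) with hχ
    obtain ⟨a, ha, hev⟩ := exists_point_of_character hS χ
    obtain ⟨j, hj⟩ := hne a ha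
    apply hj
    rw [← hev (g j) (hg j)]
    exact Ideal.toCharacterSpace_apply_eq_zero_of_mem M
      (hle (Ideal.subset_span (Set.mem_range_self j)))
  have h1 : (1 : clAlg S) ∈ Ideal.span (Set.range fun j => toA (hg j)) := by
    rw [htop]; trivial
  obtain ⟨c, hc⟩ := (Ideal.mem_span_range_iff_exists_fun).1 h1
  -- approximate the coefficients
  have hbd : ∃ B > 0, ∀ j, ∀ z ∈ S, ‖g j z‖ ≤ B := by
    have : ∀ j, ∃ B, ∀ z ∈ S, ‖g j z‖ ≤ B := fun j =>
      hS.1.exists_bound_of_continuousOn (hg j).continuousOn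
    choose B hB using this
    refine ⟨∑ j, |B j| + 1, by (clear * -; positivity), fun j z hz => ?_⟩
    calc ‖g j z‖ ≤ B j := hB j z hz
      _ ≤ |B j| := le_abs_self _
      _ ≤ ∑ j, |B j| := Finset.single_le_sum (f := fun j => |B j|) (fun i _ => abs_nonneg _)
        (Finset.mem_univ j)
      _ ≤ _ := by linarith only []
  obtain ⟨B, hB0, hB⟩ := hbd
  set N : ℝ := (Fintype.card J : ℝ) with hN
  have happ : ∀ j, ∃ h : V → ℂ, HolNear S h ∧ ∀ z : S, ‖(c j : C(S, ℂ)) z - h z‖ <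
      1 / (2 * B * (N + 1)) := by
    intro j
    have hmem : (c j : C(S, ℂ)) ∈ closure (holAlg S : Set C(S, ℂ)) := by
      have := (c j).2
      exact this
    rw [Metric.mem_closure_iff] at hmem
    obtain ⟨f, ⟨h, hh, hfh⟩, hd⟩ := hmem (1 / (2 * B * (N + 1))) (by (clear * - hB0; positivity))
    refine ⟨h, hh, fun z => ?_⟩
    rw [← hfh z, ← dist_eq_norm]
    exact (ContinuousMap.dist_apply_le_dist z).trans_lt hd
  choose h hh hhd using happ
  set G : V → ℂ := fun z => ∑ j, h j z * g j z with hG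
  have hGh : HolNear S G := HolNear.fsum _ fun j => (hh j).fmul (hg j)
  have hGne : ∀ z ∈ S, G z ≠ 0 := by
    intro z hz h0
    have e1 : ∑ j, (c j : C(S, ℂ)) ⟨z, hz⟩ * g j z = 1 := by
      have := congrArg (fun x : clAlg S => (x : C(S, ℂ)) ⟨z, hz⟩) hc
      simp only [AddSubmonoidClass.coe_finsetSum, ContinuousMap.coe_sum, Finset.sum_apply] at this
      exact this
    have e2 : ‖(1 : ℂ) - G z‖ ≤ 1 / 2 := by
      rw [← e1, hG, ← Finset.sum_sub_distrib]
      refine (norm_sum_le _ _).trans ?_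
      have : ∀ j ∈ Finset.univ, ‖(c j : C(S, ℂ)) ⟨z, hz⟩ * g j z - h j z * g j z‖ ≤
          1 / (2 * (N + 1)) := by
        intro j _
        rw [← sub_mul, norm_mul]
        calc ‖(c j : C(S, ℂ)) ⟨z, hz⟩ - h j z‖ * ‖g j z‖ ≤ 1 / (2 * B * (N + 1)) * B := by
              gcongr
              · exact (hhd j ⟨z, hz⟩).le
              · exact hB j z hz
          _ = 1 / (2 * (N + 1)) := by (clear * - hB0; field_simp)
      refine (Finset.sum_le_sum this).trans ?_
      rw [Finset.sum_const, Finset.card_univ, nsmul_eq_mul, ← hN]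
      rw [mul_one_div, div_le_div_iff₀ (by (clear * -; (clear * -; positivity))) (by norm_num)]
      have : 0 ≤ N := by (clear * -; (clear * -; positivity))
      linarith only []
    rw [h0] at e2
    norm_num at e2
  have hGne' : ∀ᶠ z in 𝓝ˢ S, G z ≠ 0 := by
    rw [eventually_nhdsSet_iff_forall]
    intro z hz
    exact (hGh.self_of_nhdsSet z hz).continuousAt.eventually_ne (hGne z hz)
  refine ⟨fun j z => h j z * (G z)⁻¹, fun j => ?_, ?_⟩
  · have : HolNear S (fun z => (G z)⁻¹) := by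
      filter_upwards [hGh, hGne'] with z h2 h3 using h2.inv h3
    exact (hh j).fmul this
  · filter_upwards [hGne'] with z hz
    have : ∑ j, h j z * (G z)⁻¹ * g j z = (∑ j, h j z * g j z) * (G z)⁻¹ := by
      rw [Finset.sum_mul]
      exact Finset.sum_congr rfl fun j _ => by ring
    rw [this]
    exact mul_inv_cancel₀ hz

end Vale.Agent.P290
end
end

section

section

open Set Filter Metric
open scoped Manifold ContDiff Topology NNReal

namespace Vale.Agent.P290

/-- uniqueness of complex time integral curves in a normed space -/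
theorem unique_flat {E : Type} [NormedAddCommGroup E] [NormedSpace ℂ E] {v : E → E} {L : ℝ≥0}
    {s : Set E} (hL : LipschitzOnWith L v s) {y₁ y₂ : ℂ → E} {w₁ : ℂ} {r : ℝ}
    (h₁ : ∀ w ∈ ball w₁ r, y₁ w ∈ s ∧ HasDerivAt y₁ (v (y₁ w)) w)
    (h₂ : ∀ w ∈ ball w₁ r, y₂ w ∈ s ∧ HasDerivAt y₂ (v (y₂ w)) w)
    (h : y₁ w₁ = y₂ w₁) : EqOn y₁ y₂ (ball w₁ r) := by
  intro w hw
  have hseg : ∀ t ∈ Icc (0 : ℝ) 1, w₁ + t • (w - w₁) ∈ ball w₁ r := by
    intro t ht
    rw [mem_ball, dist_eq_norm] at hw ⊢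
    rw [add_sub_cancel_left, norm_smul, Real.norm_of_nonneg ht.1]
    calc t * ‖w - w₁‖ ≤ 1 * ‖w - w₁‖ := by gcongr; exact ht.2
      _ < r := by simpa using hw
  have hd : ∀ t : ℝ, HasDerivAt (fun t : ℝ => w₁ + t • (w - w₁)) (w - w₁) t := by
    intro t
    simpa using ((hasDerivAt_id t).smul_const (w - w₁)).const_add w₁
  have hc : ∀ (y : ℂ → E), (∀ w ∈ ball w₁ r, y w ∈ s ∧ HasDerivAt y (v (y w)) w) →
      ∀ t ∈ Icc (0 : ℝ) 1, HasDerivAt (fun t : ℝ => y (w₁ + t • (w - w₁)))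
        ((w - w₁) • v (y (w₁ + t • (w - w₁)))) t := by
    intro y hy t ht
    exact (hy _ (hseg t ht)).2.scomp t (hd t)
  have hLip : ∀ t ∈ Ico (0 : ℝ) 1, LipschitzOnWith (‖w - w₁‖₊ * L)
      ((fun (_ : ℝ) (y : E) => (w - w₁) • v y) t) ((fun _ : ℝ => s) t) := by
    intro t _
    refine LipschitzOnWith.of_dist_le_mul fun x hx y hy => ?_
    rw [dist_smul₀]
    have := hL.dist_le_mul x hx y hy
    push_cast
    rw [mul_assoc]
    (clear * - this; gcongr)
  have := ODE_solution_unique_of_mem_Icc_right (v := fun (_ : ℝ) (y : E) => (w - w₁) • v y)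
    (s := fun _ => s) (a := 0) (b := 1)
    (f := fun t : ℝ => y₁ (w₁ + t • (w - w₁))) (g := fun t : ℝ => y₂ (w₁ + t • (w - w₁)))
    hLip
    (fun t ht => (hc y₁ h₁ t ht).continuousAt.continuousWithinAt)
    (fun t ht => (hc y₁ h₁ t (Ico_subset_Icc_self ht)).hasDerivWithinAt)
    (fun t ht => (h₁ _ (hseg t (Ico_subset_Icc_self ht))).1)
    (fun t ht => (hc y₂ h₂ t ht).continuousAt.continuousWithinAt)
    (fun t ht => (hc y₂ h₂ t (Ico_subset_Icc_self ht)).hasDerivWithinAt)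
    (fun t ht => (h₂ _ (hseg t (Ico_subset_Icc_self ht))).1)
    (by simpa only [zero_smul, add_zero] using h)
  have h1 := this (right_mem_Icc.2 zero_le_one)
  simpa only [one_smul, add_sub_cancel] using h1

section VF

variable {E X : Type} [NormedAddCommGroup E] [NormedSpace ℂ E] [TopologicalSpace X]
  [ChartedSpace E X]

/-- a holomorphic vector field on the open set `U` of `X`, given in charts -/
structure VF (U : Set X) (v : OpenPartialHomeomorph X E → E → E) : Prop where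
  isOpen : IsOpen U
  holo : ∀ e ∈ atlas E X, DifferentiableOn ℂ (v e) (e.target ∩ e.symm ⁻¹' U)
  compat : ∀ e ∈ atlas E X, ∀ e' ∈ atlas E X, ∀ y ∈ e.target, e.symm y ∈ e'.source →
    e.symm y ∈ U → fderiv ℂ (fun z => e' (e.symm z)) y (v e y) = v e' (e' (e.symm y))

/-- `c` is an integral curve at the (complex) time `w` -/
def IC (U : Set X) (v : OpenPartialHomeomorph X E → E → E) (c : ℂ → X) (w : ℂ) : Prop :=
  ContinuousAt c w ∧ c w ∈ U ∧ ∀ e ∈ atlas E X, c w ∈ e.source →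
    HasDerivAt (fun s => e (c s)) (v e (e (c w))) w

theorem differentiableAt_transition [IsManifold 𝓘(ℂ, E) 1 X] {e e' : OpenPartialHomeomorph X E}
    (he : e ∈ atlas E X) (he' : e' ∈ atlas E X) {y : E} (hy : y ∈ e.target)
    (hy' : e.symm y ∈ e'.source) : DifferentiableAt ℂ (fun z => e' (e.symm z)) y := by
  have h1 := mdifferentiableAt_atlas (I := 𝓘(ℂ, E)) he' hy'
  have h2 := mdifferentiableAt_atlas_symm (I := 𝓘(ℂ, E)) he hy
  exact (h1.comp y h2).differentiableAt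

variable {U : Set X} {v : OpenPartialHomeomorph X E → E → E}

theorem IC.of_chart [IsManifold 𝓘(ℂ, E) 1 X] (hV : VF U v) {c : ℂ → X} {w : ℂ}
    (h1 : ContinuousAt c w) (h2 : c w ∈ U) {e : OpenPartialHomeomorph X E}
    (he : e ∈ atlas E X) (h3 : c w ∈ e.source)
    (h4 : HasDerivAt (fun s => e (c s)) (v e (e (c w))) w) : IC U v c w := by
  refine ⟨h1, h2, fun e' he' h3' => ?_⟩
  have hy : e (c w) ∈ e.target := e.map_source h3
  have hs : e.symm (e (c w)) = c w := e.left_inv h3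
  have hd : DifferentiableAt ℂ (fun z => e' (e.symm z)) (e (c w)) :=
    differentiableAt_transition he he' hy (by rw [hs]; exact h3')
  have h5 := hd.hasFDerivAt.comp_hasDerivAt w h4
  rw [hV.compat e he e' he' _ hy (by rw [hs]; exact h3') (by rw [hs]; exact h2), hs] at h5
  refine h5.congr_of_eventuallyEq ?_
  filter_upwards [h1.preimage_mem_nhds (e.open_source.mem_nhds h3)] with s hs'
  simp only [Function.comp_apply]
  rw [e.left_inv hs']

theorem IC.shift {c : ℂ → X} {s w : ℂ} (h : IC U v c (s + w)) :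
    IC U v (fun t => c (s + t)) w := by
  obtain ⟨h1, h2, h3⟩ := h
  refine ⟨?_, h2, fun e he hs => ?_⟩
  · exact ContinuousAt.comp (f := fun t : ℂ => s + t) (g := c) h1 (by (clear * -; fun_prop))
  · have h4 := h3 e he hs
    have h5 : HasDerivAt (fun t : ℂ => s + t) 1 w := by
      simpa only [id_eq] using (hasDerivAt_id w).const_add s
    have h6 := h4.scomp w h5
    rw [one_smul] at h6
    exact h6

theorem IC.congr {c c' : ℂ → X} {w : ℂ} (h : IC U v c w) (hc : c' =ᶠ[𝓝 w] c) :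
    IC U v c' w := by
  obtain ⟨h1, h2, h3⟩ := h
  have h0 := hc.self_of_nhds
  refine ⟨h1.congr hc.symm, by rw [h0]; exact h2, fun e he hs => ?_⟩
  rw [h0] at hs ⊢
  refine (h3 e he hs).congr_of_eventuallyEq ?_
  filter_upwards [hc] with s hs'
  rw [hs']

/-- local uniqueness of integral curves -/
theorem IC.eventuallyEq [FiniteDimensional ℂ E] (hV : VF U v) {c₁ c₂ : ℂ → X} {w₁ : ℂ}
    (h₁ : ∀ᶠ w in 𝓝 w₁, IC U v c₁ w) (h₂ : ∀ᶠ w in 𝓝 w₁, IC U v c₂ w)
    (h : c₁ w₁ = c₂ w₁) : c₁ =ᶠ[𝓝 w₁] c₂ := by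
  have hcs : CompleteSpace E := FiniteDimensional.complete ℂ E
  set e := chartAt E (c₁ w₁) with he
  have hea : e ∈ atlas E X := chart_mem_atlas E _
  have hs₁ : c₁ w₁ ∈ e.source := mem_chart_source E _
  have hs₂ : c₂ w₁ ∈ e.source := by rw [← h]; exact hs₁
  have hOo : IsOpen (e.target ∩ e.symm ⁻¹' U) := e.isOpen_inter_preimage_symm hV.isOpen
  have hy₀ : e (c₁ w₁) ∈ e.target ∩ e.symm ⁻¹' U := by
    refine ⟨e.map_source hs₁, ?_⟩
    rw [mem_preimage, e.left_inv hs₁]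
    exact h₁.self_of_nhds.2.1
  have hcd : ContDiffAt ℂ 1 (v e) (e (c₁ w₁)) := by
    have := (contDiffOn_of_differentiableOn hOo (hV.holo e hea) 1).contDiffAt
      (hOo.mem_nhds hy₀)
    simpa using this
  obtain ⟨L, t, ht, hL⟩ := hcd.exists_lipschitzOnWith
  have key : ∀ c : ℂ → X, (∀ᶠ w in 𝓝 w₁, IC U v c w) → c w₁ = c₁ w₁ →
      ∀ᶠ w in 𝓝 w₁, c w ∈ e.source ∧ e (c w) ∈ t ∧
        HasDerivAt (fun s => e (c s)) (v e (e (c w))) w := by
    intro c hc hcw
    have hcc : ContinuousAt c w₁ := hc.self_of_nhds.1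
    have h4 : ∀ᶠ w in 𝓝 w₁, c w ∈ e.source :=
      hcc.preimage_mem_nhds (e.open_source.mem_nhds (by rw [hcw]; exact hs₁))
    have h5 : ContinuousAt (fun w => e (c w)) w₁ :=
      ContinuousAt.comp (f := c) (g := e)
        (e.continuousAt (by rw [hcw]; exact hs₁)) hcc
    have h6 : ∀ᶠ w in 𝓝 w₁, e (c w) ∈ t := h5.preimage_mem_nhds (by rw [hcw]; exact ht)
    filter_upwards [hc, h4, h6] with w a1 a2 a3
    exact ⟨a2, a3, a1.2.2 e hea a2⟩
  obtain ⟨r, hr, hball⟩ := Metric.eventually_nhds_iff_ball.1 ((key c₁ h₁ rfl).and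
    (key c₂ h₂ h.symm))
  have := unique_flat hL (y₁ := fun w => e (c₁ w)) (y₂ := fun w => e (c₂ w))
    (fun w hw => (hball w hw).1.2) (fun w hw => (hball w hw).2.2) (by simp only [h])
  filter_upwards [ball_mem_nhds w₁ hr] with w hw
  exact e.injOn (hball w hw).1.1 (hball w hw).2.1 (this hw)

/-- uniqueness of integral curves -/
theorem IC.eqOn [FiniteDimensional ℂ E] [T2Space X] (hV : VF U v) {c₁ c₂ : ℂ → X} {W : Set ℂ}
    (hW : IsPreconnected W) (hWo : IsOpen W)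
    (h₁ : ∀ w ∈ W, IC U v c₁ w) (h₂ : ∀ w ∈ W, IC U v c₂ w) {w₀ : ℂ} (hw₀ : w₀ ∈ W)
    (h : c₁ w₀ = c₂ w₀) : EqOn c₁ c₂ W := by
  have hloc : ∀ w ∈ W, c₁ w = c₂ w → c₁ =ᶠ[𝓝 w] c₂ := by
    intro w hw hcw
    refine IC.eventuallyEq hV ?_ ?_ hcw
    · filter_upwards [hWo.mem_nhds hw] with s hs using h₁ s hs
    · filter_upwards [hWo.mem_nhds hw] with s hs using h₂ s hs
  set S : Set ℂ := {w | c₁ =ᶠ[𝓝 w] c₂} with hS
  have hSo : IsOpen S := by
    rw [isOpen_iff_mem_nhds]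
    intro w hw
    exact eventually_eventually_nhds.2 hw
  have hsub : W ⊆ S := by
    refine hW.subset_of_closure_inter_subset hSo ⟨w₀, hw₀, hloc w₀ hw₀ h⟩ ?_
    rintro w ⟨hwc, hwW⟩
    refine hloc w hwW ?_
    have hne : (𝓝[S] w).NeBot := mem_closure_iff_nhdsWithin_neBot.1 hwc
    have t1 : Tendsto c₁ (𝓝[S] w) (𝓝 (c₁ w)) := (h₁ w hwW).1.mono_left nhdsWithin_le_nhds
    have t2 : Tendsto c₂ (𝓝[S] w) (𝓝 (c₂ w)) := (h₂ w hwW).1.mono_left nhdsWithin_le_nhds
    refine tendsto_nhds_unique_of_eventuallyEq t1 t2 ?_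
    filter_upwards [self_mem_nhdsWithin] with s hs
    exact hs.self_of_nhds
  exact fun w hw => (hsub hw).self_of_nhds

/-- `Ψ` is a local flow on `B × ball 0 ρ` -/
structure LocF (U : Set X) (v : OpenPartialHomeomorph X E → E → E) (B : Set X) (ρ : ℝ)
    (Ψ : X → ℂ → X) : Prop where
  zero : ∀ x ∈ B, Ψ x 0 = x
  ic : ∀ x ∈ B, ∀ w ∈ ball (0 : ℂ) ρ, IC U v (Ψ x) w
  hol : ∀ (V : Type) [NormedAddCommGroup V] [NormedSpace ℂ V] (F : V → X) (w : V → ℂ)
    (z : V), MDifferentiableAt 𝓘(ℂ, V) 𝓘(ℂ, E) F z → DifferentiableAt ℂ w z → F z ∈ B →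
    w z ∈ ball (0 : ℂ) ρ → MDifferentiableAt 𝓘(ℂ, V) 𝓘(ℂ, E) (fun z => Ψ (F z) (w z)) z

/-- existence of local flows -/
theorem VF.exists_locF [FiniteDimensional ℂ E] [IsManifold 𝓘(ℂ, E) 1 X] (hV : VF U v) {x₀ : X}
    (hx₀ : x₀ ∈ U) : ∃ B, IsOpen B ∧ x₀ ∈ B ∧ ∃ ρ > 0, ∃ Ψ, LocF U v B ρ Ψ := by
  set e := chartAt E x₀ with he
  have hea : e ∈ atlas E X := chart_mem_atlas E _
  have hs : x₀ ∈ e.source := mem_chart_source E _
  have hOo : IsOpen (e.target ∩ e.symm ⁻¹' U) := e.isOpen_inter_preimage_symm hV.isOpen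
  have hy₀ : e x₀ ∈ e.target ∩ e.symm ⁻¹' U := by
    refine ⟨e.map_source hs, ?_⟩
    rw [mem_preimage, e.left_inv hs]
    exact hx₀
  obtain ⟨r, hr, δ, hδ, ψ, hψd, hψ0, hψ⟩ := exists_local_flow hOo (hV.holo e hea) hy₀
  refine ⟨e.source ∩ e ⁻¹' ball (e x₀) r, e.isOpen_inter_preimage isOpen_ball,
    ⟨hs, mem_ball_self hr⟩, δ, hδ, fun x w => e.symm (ψ (e x, w)), ?_, ?_, ?_⟩
  · rintro x ⟨hx1, hx2⟩
    simp only [hψ0 _ hx2, e.left_inv hx1]
  · rintro x ⟨hx1, hx2⟩ w hw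
    obtain ⟨h1, h2⟩ := hψ _ hx2 w hw
    have hct : ContinuousAt (fun w => e.symm (ψ (e x, w))) w :=
      ContinuousAt.comp (f := fun w => ψ (e x, w)) (g := e.symm)
        (e.continuousAt_symm h1.1) h2.continuousAt
    refine IC.of_chart hV hct h1.2 hea (e.map_target h1.1) ?_
    simp only [e.right_inv h1.1]
    refine h2.congr_of_eventuallyEq ?_
    filter_upwards [h2.continuousAt.preimage_mem_nhds (e.open_target.mem_nhds h1.1)] with s hs'
    exact e.right_inv hs'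
  · intro V _ _ F w z hF hw hFz hwz
    obtain ⟨h1, h2⟩ := hψ _ hFz.2 (w z) hwz
    have h3 : DifferentiableAt ℂ (fun z => e (F z)) z :=
      ((mdifferentiableAt_atlas (I := 𝓘(ℂ, E)) hea hFz.1).comp z hF).differentiableAt
    have h4 : DifferentiableAt ℂ ψ (e (F z), w z) :=
      hψd.differentiableAt ((isOpen_ball.prod isOpen_ball).mem_nhds ⟨hFz.2, hwz⟩)
    have h5 : DifferentiableAt ℂ (fun z => ψ (e (F z), w z)) z :=
      DifferentiableAt.comp (f := fun z => (e (F z), w z)) z h4 (h3.prodMk hw)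
    exact (mdifferentiableAt_atlas_symm (I := 𝓘(ℂ, E)) hea h1.1).comp z h5.mdifferentiableAt

end VF

end Vale.Agent.P290
end
end

section

section

open Set Filter Metric
open scoped Manifold Topology

namespace Vale.Agent.P290

/-- a property valid near a set is valid near every point near the set -/
theorem eventually_eventually_nhds' {A : Type} [TopologicalSpace A] {s : Set A} {p : A → Prop}
    (h : ∀ᶠ x in 𝓝ˢ s, p x) : ∀ᶠ x in 𝓝ˢ s, ∀ᶠ y in 𝓝 x, p y := by
  obtain ⟨T, hTo, hsT, hT⟩ := mem_nhdsSet_iff_exists.1 h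
  exact mem_nhdsSet_iff_exists.2 ⟨T, hTo, hsT, fun x hx => mem_of_superset (hTo.mem_nhds hx) hT⟩

section lemmas

variable {E X V : Type} [NormedAddCommGroup E] [NormedSpace ℂ E] [TopologicalSpace X]
  [ChartedSpace E X] [NormedAddCommGroup V] [NormedSpace ℂ V]
  {L : LineFlow E X} {Q : Set V} {F F' : V → X} {J : Type} {𝓛 : J → LineFlow E X}

theorem MHolNear.congr (hF : MHolNear E Q F) (h : F =ᶠ[𝓝ˢ Q] F') : MHolNear E Q F' := by
  have h1 : ∀ᶠ z in 𝓝ˢ Q, F =ᶠ[𝓝 z] F' := eventually_eventually_nhds' h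
  filter_upwards [hF, h1] with z hz1 hz2
  exact hz1.congr_of_eventuallyEq hz2.symm

theorem MHolNear.mono {Q' : Set V} (hF : MHolNear E Q F) (h : Q' ⊆ Q) : MHolNear E Q' F :=
  Filter.Eventually.filter_mono (nhdsSet_mono h) hF

theorem MHolNear.mdifferentiableAt (hF : MHolNear E Q F) {z : V} (hz : z ∈ Q) :
    MDifferentiableAt 𝓘(ℂ, V) 𝓘(ℂ, E) F z :=
  (Filter.Eventually.filter_mono (nhds_le_nhdsSet hz) hF).self_of_nhds

theorem MHolNear.continuousOn (hF : MHolNear E Q F) : ContinuousOn F Q :=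
  fun _ hz => (hF.mdifferentiableAt hz).continuousAt.continuousWithinAt

/-- tendsto of a holomorphic map on the neighbourhood filters -/
theorem tendsto_nhdsSet_of_mapsTo {A B : Type} [TopologicalSpace A] [TopologicalSpace B]
    {P : A → B} {Q' : Set A} {Q : Set B} (hP : ∀ z ∈ Q', ContinuousAt P z)
    (hPQ : MapsTo P Q' Q) : Tendsto P (𝓝ˢ Q') (𝓝ˢ Q) := by
  intro s hs
  rw [mem_map, mem_nhdsSet_iff_forall]
  intro z hz
  exact (hP z hz).preimage_mem_nhds (mem_nhdsSet_iff_forall.1 hs _ (hPQ hz))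

theorem HolNear.tendsto {V' : Type} [NormedAddCommGroup V'] [NormedSpace ℂ V'] {Q' : Set V'}
    {P : V' → V} (hP : HolNear Q' P) (hPQ : MapsTo P Q' Q) : Tendsto P (𝓝ˢ Q') (𝓝ˢ Q) :=
  tendsto_nhdsSet_of_mapsTo (fun _ hz =>
    (Filter.Eventually.filter_mono (nhds_le_nhdsSet hz) hP).self_of_nhds.continuousAt) hPQ

theorem MHolNear.comp {V' : Type} [NormedAddCommGroup V'] [NormedSpace ℂ V'] {Q' : Set V'}
    {P : V' → V} (hF : MHolNear E Q F) (hP : HolNear Q' P) (hPQ : MapsTo P Q' Q) :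
    MHolNear E Q' (F ∘ P) := by
  filter_upwards [(hP.tendsto hPQ).eventually hF, hP] with z hz1 hz2
  exact hz1.comp z hz2.mdifferentiableAt

theorem Move.mHolNear (h : Move L Q F F') (hF : MHolNear E Q F) : MHolNear E Q F' := by
  obtain ⟨e, he, hF'⟩ := h
  have h1 := eventually_eventually_nhds' hF'
  filter_upwards [hF, he, h1] with z hz1 hz2 hz3
  obtain ⟨a, ha⟩ := L.cover (F z)
  have h2 := L.φ_hol a V F (e a) z hz1 (hz2 a ha).1 ha
  refine h2.congr_of_eventuallyEq ?_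
  have h4 : ∀ᶠ y in 𝓝 z, F y ∈ L.U a := hz1.continuousAt.eventually ((L.isOpen_U a).mem_nhds ha)
  filter_upwards [hz3, h4] with y hy1 hy2
  exact hy1 a hy2

theorem Reach.mHolNear (h : Reach 𝓛 Q F F') (hF : MHolNear E Q F) : MHolNear E Q F' := by
  induction h with
  | refl h => exact hF.congr h
  | step j h₁ h₂ ih => exact h₂.mHolNear ih

theorem Reach.trans {f g h : V → X} (h₁ : Reach 𝓛 Q f g) (h₂ : Reach 𝓛 Q g h) :
    Reach 𝓛 Q f h := by
  induction h₂ with
  | refl hh =>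
    -- append an equality
    induction h₁ with
    | refl h1 => exact Reach.refl (h1.trans hh)
    | step j k₁ k₂ _ =>
      refine Reach.step j k₁ ?_
      obtain ⟨e, he, hF'⟩ := k₂
      refine ⟨e, he, ?_⟩
      filter_upwards [hF', hh] with z hz1 hz2 a ha
      rw [← hz2, hz1 a ha]
  | step j k₁ k₂ ih => exact Reach.step j ih k₂

theorem Reach.of_move {j : J} {f g : V → X} (h : Move (𝓛 j) Q f g) : Reach 𝓛 Q f g :=
  Reach.step j (Reach.refl (EventuallyEq.refl _ _)) h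

theorem Move.congr_left {f g h : V → X} (h₁ : f =ᶠ[𝓝ˢ Q] g) (h₂ : Move L Q g h) :
    Move L Q f h := by
  obtain ⟨e, he, hF'⟩ := h₂
  refine ⟨e, ?_, ?_⟩
  · filter_upwards [he, h₁] with z hz1 hz2
    rw [hz2]; exact hz1
  · filter_upwards [hF', h₁] with z hz1 hz2
    rw [hz2]; exact hz1

/-- moves can be inverted -/
theorem Move.symm {f g : V → X} (h : Move L Q f g) : Move L Q g f := by
  obtain ⟨e, he, hF'⟩ := h
  refine ⟨fun a z => - e a z, ?_, ?_⟩
  · filter_upwards [he, hF'] with z hz1 hz2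
    intro a ha
    obtain ⟨b, hb⟩ := L.cover (f z)
    have hgz : g z = L.φ b (f z) (e b z) := hz2 b hb
    have hgb : g z ∈ L.U b := hgz ▸ L.φ_mem b _ _ hb
    -- `f z = φ_b (g z) (- e b z)`
    have hfz : f z = L.φ b (g z) (- e b z) := by
      rw [hgz, L.φ_add _ _ _ _ hb, add_neg_cancel, L.φ_zero _ _ hb]
    have hfz' : ∀ c, g z ∈ L.U c → f z ∈ L.U c := by
      intro c hc
      rw [hfz, L.φ_trans b c _ _ hgb hc]
      exact L.φ_mem _ _ _ hc
    have hfa := hfz' a ha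
    refine ⟨(hz1 a hfa).1.neg, ?_⟩
    intro c hc
    have hfc := hfz' c hc
    rw [(hz1 a hfa).2 c hfc]
    have hga : g z = L.φ a (f z) (e a z) := hz2 a hfa
    rw [hga, L.γ_inv a c _ _ hfa hfc]
    ring
  · filter_upwards [he, hF'] with z hz1 hz2
    intro a ha
    obtain ⟨b, hb⟩ := L.cover (f z)
    have hgz : g z = L.φ b (f z) (e b z) := hz2 b hb
    have hgb : g z ∈ L.U b := hgz ▸ L.φ_mem b _ _ hb
    have hfz : f z = L.φ b (g z) (- e b z) := by
      rw [hgz, L.φ_add _ _ _ _ hb, add_neg_cancel, L.φ_zero _ _ hb]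
    have hfa : f z ∈ L.U a := by
      rw [hfz, L.φ_trans b a _ _ hgb ha]
      exact L.φ_mem _ _ _ ha
    have hga : g z = L.φ a (f z) (e a z) := hz2 a hfa
    rw [hga, L.φ_add _ _ _ _ hfa, add_neg_cancel, L.φ_zero _ _ hfa]

theorem Reach.symm {f g : V → X} (h₁ : Reach 𝓛 Q f g) :
    Reach 𝓛 Q g f := by
  induction h₁ with
  | refl h => exact Reach.refl h.symm
  | step j k₁ k₂ ih =>
    exact (Reach.of_move (j := j) k₂.symm).trans ih

theorem Reach.mono {Q' : Set V} {f g : V → X} (h : Q' ⊆ Q) (h₁ : Reach 𝓛 Q f g) :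
    Reach 𝓛 Q' f g := by
  induction h₁ with
  | refl hh => exact Reach.refl (Filter.Eventually.filter_mono (nhdsSet_mono h) hh)
  | step j k₁ k₂ ih =>
    refine Reach.step j ih ?_
    obtain ⟨e, he, hF'⟩ := k₂
    exact ⟨e, Filter.Eventually.filter_mono (nhdsSet_mono h) he, 
      Filter.Eventually.filter_mono (nhdsSet_mono h) hF'⟩

/-- pull back of reachability -/
theorem Reach.comp {V' : Type} [NormedAddCommGroup V'] [NormedSpace ℂ V'] {Q' : Set V'}
    {P : V' → V} (hP : HolNear Q' P) (hPQ : MapsTo P Q' Q) {f g : V → X}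
    (h : Reach 𝓛 Q f g) : Reach 𝓛 Q' (f ∘ P) (g ∘ P) := by
  have ht := hP.tendsto hPQ
  induction h with
  | refl hh => exact Reach.refl (ht.eventually hh)
  | step j k₁ k₂ ih =>
    refine Reach.step j ih ?_
    obtain ⟨e, he, hF'⟩ := k₂
    refine ⟨fun a => e a ∘ P, ?_, ht.eventually hF'⟩
    filter_upwards [ht.eventually he, hP] with z hz1 hz2 a ha
    exact ⟨(hz1 a ha).1.comp z hz2, (hz1 a ha).2⟩

end lemmas

end Vale.Agent.P290
end
end

section

section

open Set Filter Metric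
open scoped Manifold Topology

namespace Vale.Agent.P290

section lemmas

variable {E X V : Type} [NormedAddCommGroup E] [NormedSpace ℂ E] [TopologicalSpace X]
  [ChartedSpace E X] [NormedAddCommGroup V] [NormedSpace ℂ V]
  {L : LineFlow E X} {Q : Set V} {F F' : V → X} {J : Type} {𝓛 : J → LineFlow E X}

/-- a chosen index for every point -/
noncomputable def LineFlow.idx (L : LineFlow E X) (x : X) : L.A := (L.cover x).choose

theorem LineFlow.idx_mem (L : LineFlow E X) (x : X) : x ∈ L.U (L.idx x) := (L.cover x).choose_spec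

/-- flow map with trivialised parameter -/
noncomputable def sprayMap (L : LineFlow E X) (F : V → X) (θ : L.A → V → ℂ) (p : V × ℂ) : X :=
  L.φ (L.idx (F p.1)) (F p.1) (θ (L.idx (F p.1)) p.1 * p.2)

omit [NormedAddCommGroup V] [NormedSpace ℂ V] in
theorem sprayMap_eq {θ : L.A → V → ℂ} {z : V}
    (hθ : ∀ a, F z ∈ L.U a → ∀ b, F z ∈ L.U b → θ b z = L.γ a b (F z) * θ a z)
    {a : L.A} (ha : F z ∈ L.U a) (w : ℂ) :
    sprayMap L F θ (z, w) = L.φ a (F z) (θ a z * w) := by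
  have h1 := L.idx_mem (F z)
  simp only [sprayMap]
  rw [L.φ_trans _ a _ _ h1 ha, hθ _ h1 a ha, mul_assoc]

theorem Sec.coe {e : L.A → V → ℂ} (he : Sec L Q F e) :
    ∀ᶠ z in 𝓝ˢ Q, ∀ a, F z ∈ L.U a → ∀ b, F z ∈ L.U b → e b z = L.γ a b (F z) * e a z := by
  filter_upwards [he] with z hz a ha
  exact (hz a ha).2

theorem Sec.comp {V' : Type} [NormedAddCommGroup V'] [NormedSpace ℂ V'] {Q' : Set V'}
    {P : V' → V} {e : L.A → V → ℂ} (he : Sec L Q F e) (hP : HolNear Q' P)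
    (hPQ : MapsTo P Q' Q) : Sec L Q' (F ∘ P) (fun a => e a ∘ P) := by
  have ht := hP.tendsto hPQ
  filter_upwards [ht.eventually he, hP] with z hz1 hz2 a ha
  exact ⟨(hz1 a ha).1.comp z hz2, (hz1 a ha).2⟩

theorem Sec.congr {e : L.A → V → ℂ} (he : Sec L Q F e) (h : F =ᶠ[𝓝ˢ Q] F') : Sec L Q F' e := by
  filter_upwards [he, h] with z h1 h2
  rw [← h2]; exact h1

theorem Sec.mono {Q' : Set V} {e : L.A → V → ℂ} (he : Sec L Q F e) (h : Q' ⊆ Q) :
    Sec L Q' F e :=
  Filter.Eventually.filter_mono (nhdsSet_mono h) he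

theorem Sec.mul {e : L.A → V → ℂ} (he : Sec L Q F e) {h : V → ℂ} (hh : HolNear Q h) :
    Sec L Q F (fun a z => e a z * h z) := by
  filter_upwards [he, hh] with z h1 h2 a ha
  refine ⟨(h1 a ha).1.mul h2, fun b hb => ?_⟩
  rw [(h1 a ha).2 b hb]; ring

/-- two sections differ by a holomorphic factor -/
theorem Sec.div (hF : MHolNear E Q F) {θ e : L.A → V → ℂ} (hθ : Sec L Q F θ)
    (hne : ∀ᶠ z in 𝓝ˢ Q, ∀ a, F z ∈ L.U a → θ a z ≠ 0) (he : Sec L Q F e) :
    ∃ h : V → ℂ, HolNear Q h ∧ ∀ᶠ z in 𝓝ˢ Q, ∀ a, F z ∈ L.U a → e a z = θ a z * h z := by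
  set h : V → ℂ := fun z => e (L.idx (F z)) z / θ (L.idx (F z)) z with hh
  have key : ∀ᶠ z in 𝓝ˢ Q, ∀ a, F z ∈ L.U a → e a z = θ a z * h z := by
    filter_upwards [hθ, hne, he] with z h1 h2 h3 a ha
    have hi := L.idx_mem (F z)
    have hγ := L.γ_ne _ a _ hi ha
    have hθi := h2 _ hi
    rw [(h1 _ hi).2 a ha, (h3 _ hi).2 a ha]
    simp only [hh]
    (clear * - hθi hγ; field_simp)
  refine ⟨h, ?_, key⟩
  filter_upwards [hF, hθ, hne, he, eventually_eventually_nhds' key,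
    eventually_eventually_nhds' hne] with z h0 h1 h2 h3 h4 h5
  have hi := L.idx_mem (F z)
  have hU : ∀ᶠ y in 𝓝 z, F y ∈ L.U (L.idx (F z)) :=
    h0.continuousAt.eventually ((L.isOpen_U _).mem_nhds hi)
  have h6 : h =ᶠ[𝓝 z] fun y => e (L.idx (F z)) y / θ (L.idx (F z)) y := by
    filter_upwards [h4, h5, hU] with y hy1 hy2 hy3
    rw [hy1 _ hy3, mul_div_cancel_left₀ _ (hy2 _ hy3)]
  have h7 : DifferentiableAt ℂ (fun y => e (L.idx (F z)) y / θ (L.idx (F z)) y) z := by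
    simp only [div_eq_mul_inv]
    exact (h3 _ hi).1.mul ((h1 _ hi).1.inv (h2 _ hi))
  exact h7.congr_of_eventuallyEq h6

/-- holomorphy of the flow map -/
theorem sprayMap_mdifferentiableAt {θ : L.A → V → ℂ} {z : V}
    (hθ : ∀ᶠ y in 𝓝 z, ∀ a, F y ∈ L.U a → ∀ b, F y ∈ L.U b → θ b y = L.γ a b (F y) * θ a y)
    (hd : ∀ a, F z ∈ L.U a → DifferentiableAt ℂ (θ a) z)
    (hF : MDifferentiableAt 𝓘(ℂ, V) 𝓘(ℂ, E) F z) (w : ℂ) :
    MDifferentiableAt 𝓘(ℂ, V × ℂ) 𝓘(ℂ, E) (sprayMap L F θ) (z, w) := by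
  have hi := L.idx_mem (F z)
  set a := L.idx (F z) with ha
  have hU : ∀ᶠ y in 𝓝 z, F y ∈ L.U a := hF.continuousAt.eventually ((L.isOpen_U _).mem_nhds hi)
  have hF' : MDifferentiableAt 𝓘(ℂ, V × ℂ) 𝓘(ℂ, E) (fun p : V × ℂ => F p.1) (z, w) := by
    have h3 : MDifferentiableAt 𝓘(ℂ, V × ℂ) 𝓘(ℂ, V) (fun p : V × ℂ => p.1) (z, w) := by
      apply DifferentiableAt.mdifferentiableAt
      (clear * -; fun_prop)
    exact MDifferentiableAt.comp (g := F) (f := fun p : V × ℂ => p.1) (z, w) hF h3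
  have hs : DifferentiableAt ℂ (fun p : V × ℂ => θ a p.1 * p.2) (z, w) := by
    have h1 : DifferentiableAt ℂ (fun p : V × ℂ => θ a p.1) (z, w) :=
      DifferentiableAt.comp (f := fun p : V × ℂ => p.1) (g := θ a) (z, w) (hd a hi) (by fun_prop)
    exact h1.mul (by fun_prop)
  have h1 := L.φ_hol a (V × ℂ) (fun p => F p.1) (fun p => θ a p.1 * p.2) (z, w) hF' hs hi
  refine h1.congr_of_eventuallyEq ?_
  have hfst : Tendsto (fun p : V × ℂ => p.1) (𝓝 (z, w)) (𝓝 z) := continuous_fst.tendsto (z, w)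
  filter_upwards [hfst.eventually hθ, hfst.eventually hU] with p h1 h2
  exact sprayMap_eq h1 h2 p.2

end lemmas

end Vale.Agent.P290
end
end

section

section

open Set Filter Metric
open scoped Manifold ContDiff Topology NNReal

namespace Vale.Agent.P290

/-- extension of a local one parameter group to a global one -/
theorem exists_group_ext {G : Type} [Monoid G] {F : ℂ → G} {ρ : ℝ} (hρ : 0 < ρ) (h0 : F 0 = 1)
    (hadd : ∀ s t, ‖s‖ < ρ → ‖t‖ < ρ → ‖s + t‖ < ρ → F (s + t) = F s * F t) :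
    ∃ Φ : ℂ → G, (∀ w, ∀ n : ℕ, 0 < n → ‖w‖ < n * ρ → Φ w = (F (w / n)) ^ n) ∧
      ∀ s t, Φ (s + t) = Φ s * Φ t := by
  have hpow : ∀ s : ℂ, ‖s‖ < ρ → ∀ m : ℕ, 0 < m → F (s / m) ^ m = F s := by
    intro s hs m hm
    have hm' : (0 : ℝ) < m := by exact_mod_cast hm
    have hmc : (m : ℂ) ≠ 0 := by exact_mod_cast hm.ne'
    have claim : ∀ j : ℕ, j ≤ m → F (j * (s / m)) = F (s / m) ^ j := by
      intro j
      induction j with
      | zero => intro _; simpa only [CharP.cast_eq_zero, zero_mul, pow_zero] using h0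
      | succ j ih =>
        intro hj
        have e1 : ((j + 1 : ℕ) : ℂ) * (s / m) = j * (s / m) + s / m := by push_cast; ring
        have nrm : ∀ i : ℕ, i ≤ m → ‖(i : ℂ) * (s / m)‖ < ρ := by
          intro i hi
          rw [norm_mul, norm_div, Complex.norm_natCast, Complex.norm_natCast]
          have hi' : (i : ℝ) ≤ m := by exact_mod_cast hi
          calc (i : ℝ) * (‖s‖ / m) = (i / m) * ‖s‖ := by ring
            _ ≤ 1 * ‖s‖ := by
                gcongr
                rw [div_le_one hm']; exact hi'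
            _ < ρ := by simpa using hs
        rw [e1, hadd, ih (by omega), pow_succ]
        · exact nrm j (by omega)
        · simpa only [Complex.norm_div, RCLike.norm_natCast, Nat.cast_one, one_mul] using nrm 1 (by omega)
        · rw [← e1]; exact nrm (j + 1) hj
    rw [← claim m le_rfl, mul_div_cancel₀ _ hmc]
  have hdivn : ∀ (w : ℂ) (n : ℕ), 0 < n → ‖w‖ < n * ρ → ‖w / n‖ < ρ := by
    intro w n hn hw
    have hn' : (0 : ℝ) < n := by exact_mod_cast hn
    rw [norm_div, Complex.norm_natCast, div_lt_iff₀ hn']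
    linarith only [hw]
  have indep : ∀ (w : ℂ) (n m : ℕ), 0 < n → 0 < m → ‖w‖ < n * ρ → ‖w‖ < m * ρ →
      F (w / n) ^ n = F (w / m) ^ m := by
    intro w n m hn hm hwn hwm
    rw [← hpow _ (hdivn w n hn hwn) m hm, ← hpow _ (hdivn w m hm hwm) n hn, ← pow_mul, ← pow_mul,
      div_div, div_div, mul_comm (n : ℂ) (m : ℂ), mul_comm n m]
  set N : ℂ → ℕ := fun w => ⌊‖w‖ / ρ⌋₊ + 1 with hN
  have hNpos : ∀ w, 0 < N w := fun w => Nat.succ_pos _
  have hNlt : ∀ w, ‖w‖ < N w * ρ := by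
    intro w
    have := Nat.lt_floor_add_one (‖w‖ / ρ)
    rw [div_lt_iff₀ hρ] at this
    simpa only [hN, Nat.cast_add, Nat.cast_one, gt_iff_lt] using this
  have hΦ : ∀ w, ∀ n : ℕ, 0 < n → ‖w‖ < n * ρ → (F (w / N w)) ^ (N w) = (F (w / n)) ^ n :=
    fun w n hn hw => indep w _ _ (hNpos w) hn (hNlt w) hw
  refine ⟨fun w => (F (w / N w)) ^ (N w), hΦ, fun s t => ?_⟩
  obtain ⟨n, hn⟩ := exists_nat_gt ((‖s‖ + ‖t‖) / ρ)
  have hnr : (0 : ℝ) < n := lt_of_le_of_lt (by (clear * - hρ; positivity)) hn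
  have hn0 : 0 < n := by exact_mod_cast hnr
  rw [div_lt_iff₀ hρ] at hn
  have hs : ‖s‖ < n * ρ := by linarith only [hn, norm_nonneg t]
  have ht : ‖t‖ < n * ρ := by linarith only [hn, norm_nonneg s]
  have hst : ‖s + t‖ < n * ρ := (norm_add_le s t).trans_lt hn
  have hts : ‖t + s‖ < n * ρ := by rwa [add_comm]
  simp only
  rw [hΦ _ n hn0 hst, hΦ s n hn0 hs, hΦ t n hn0 ht]
  have e1 : F ((s + t) / n) = F (s / n) * F (t / n) := by
    rw [add_div]
    refine hadd _ _ (hdivn s n hn0 hs) (hdivn t n hn0 ht) ?_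
    rw [← add_div]; exact hdivn _ n hn0 hst
  have e2 : F ((t + s) / n) = F (t / n) * F (s / n) := by
    rw [add_div]
    refine hadd _ _ (hdivn t n hn0 ht) (hdivn s n hn0 hs) ?_
    rw [← add_div]; exact hdivn _ n hn0 hts
  have hcomm : Commute (F (s / n)) (F (t / n)) := by
    show F (s / n) * F (t / n) = F (t / n) * F (s / n)
    rw [← e1, ← e2, add_comm]
  rw [e1, hcomm.mul_pow]

section

variable {E X : Type} [NormedAddCommGroup E] [NormedSpace ℂ E] [TopologicalSpace X]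
  [ChartedSpace E X] {U : Set X} {v : OpenPartialHomeomorph X E → E → E}

theorem LocF.mono {B B' : Set X} {ρ ρ' : ℝ} {Ψ : X → ℂ → X} (h : LocF U v B ρ Ψ)
    (hB : B' ⊆ B) (hρ : ρ' ≤ ρ) : LocF U v B' ρ' Ψ := by
  refine ⟨fun x hx => h.zero x (hB hx), fun x hx w hw => h.ic x (hB hx) w
    (ball_subset_ball hρ hw), ?_⟩
  intro V _ _ F w z hF hw hFz hwz
  exact h.hol V F w z hF hw (hB hFz) (ball_subset_ball hρ hwz)

theorem VF.exists_uniform [FiniteDimensional ℂ E] [IsManifold 𝓘(ℂ, E) 1 X] [T2Space X]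
    (hV : VF U v) {K U₁ : Set X} (hK : IsCompact K) (hKU : K ⊆ U) (hU₁ : IsOpen U₁)
    (hUK : U₁ ⊆ K) : ∃ ρ > 0, ∃ Ψ, LocF U v U₁ ρ Ψ := by
  classical
  have h1 : ∃ ρ > 0, ∀ x ∈ K, ∃ B, IsOpen B ∧ x ∈ B ∧ ∃ Ψ, LocF U v B ρ Ψ := by
    refine hK.induction_on (p := fun S => ∃ ρ > 0, ∀ x ∈ S, ∃ B, IsOpen B ∧ x ∈ B ∧
      ∃ Ψ, LocF U v B ρ Ψ) ?_ ?_ ?_ ?_
    · exact ⟨1, one_pos, by simp only [mem_empty_iff_false, IsEmpty.forall_iff, implies_true]⟩
    · rintro s t hst ⟨ρ, hρ, h⟩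
      exact ⟨ρ, hρ, fun x hx => h x (hst hx)⟩
    · rintro s t ⟨ρ, hρ, h⟩ ⟨ρ', hρ', h'⟩
      refine ⟨min ρ ρ', lt_min hρ hρ', ?_⟩
      rintro x (hx | hx)
      · obtain ⟨B, hB, hxB, Ψ, hΨ⟩ := h x hx
        exact ⟨B, hB, hxB, Ψ, hΨ.mono subset_rfl (min_le_left _ _)⟩
      · obtain ⟨B, hB, hxB, Ψ, hΨ⟩ := h' x hx
        exact ⟨B, hB, hxB, Ψ, hΨ.mono subset_rfl (min_le_right _ _)⟩
    · intro x hx
      obtain ⟨B, hB, hxB, ρ, hρ, Ψ, hΨ⟩ := hV.exists_locF (hKU hx)
      exact ⟨B, mem_nhdsWithin_of_mem_nhds (hB.mem_nhds hxB), ρ, hρ, fun y hy =>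
        ⟨B, hB, hy, Ψ, hΨ⟩⟩
  obtain ⟨ρ, hρ, h⟩ := h1
  choose! B hB hxB Ψ hΨ using h
  have heq : ∀ x ∈ K, ∀ y ∈ K, y ∈ B x → EqOn (Ψ y y) (Ψ x y) (ball 0 ρ) := by
    intro x hx y hy hyx
    refine IC.eqOn hV (convex_ball _ _).isPreconnected isOpen_ball
      (fun w hw => (hΨ y hy).ic y (hxB y hy) w hw) (fun w hw => (hΨ x hx).ic y hyx w hw)
      (mem_ball_self hρ) ?_
    rw [(hΨ y hy).zero y (hxB y hy), (hΨ x hx).zero y hyx]
  refine ⟨ρ, hρ, fun x => Ψ x x, ?_, ?_, ?_⟩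
  · intro x hx
    exact (hΨ x (hUK hx)).zero x (hxB x (hUK hx))
  · intro x hx w hw
    exact (hΨ x (hUK hx)).ic x (hxB x (hUK hx)) w hw
  · intro V _ _ F w z hF hw hFz hwz
    have hz := hUK hFz
    refine ((hΨ _ hz).hol V F w z hF hw (hxB _ hz) hwz).congr_of_eventuallyEq ?_
    have a1 : ∀ᶠ z' in 𝓝 z, F z' ∈ U₁ := hF.continuousAt.preimage_mem_nhds (hU₁.mem_nhds hFz)
    have a2 : ∀ᶠ z' in 𝓝 z, F z' ∈ B (F z) :=
      hF.continuousAt.preimage_mem_nhds ((hB _ hz).mem_nhds (hxB _ hz))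
    have a3 : ∀ᶠ z' in 𝓝 z, w z' ∈ ball (0 : ℂ) ρ :=
      hw.continuousAt.preimage_mem_nhds (isOpen_ball.mem_nhds hwz)
    filter_upwards [a1, a2, a3] with z' b1 b2 b3
    exact heq _ hz _ (hUK b1) b2 b3

/-- global flow over `U₁` -/
structure GlobF (U : Set X) (v : OpenPartialHomeomorph X E → E → E) (U₁ : Set X)
    (φ : X → ℂ → X) : Prop where
  mem : ∀ x ∈ U₁, ∀ w, φ x w ∈ U₁
  zero : ∀ x ∈ U₁, φ x 0 = x
  add : ∀ x ∈ U₁, ∀ w w', φ (φ x w) w' = φ x (w + w')
  ic : ∀ x ∈ U₁, ∀ w, IC U v (φ x) w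
  hol : ∀ (V : Type) [NormedAddCommGroup V] [NormedSpace ℂ V] (F : V → X) (w : V → ℂ)
    (z : V), MDifferentiableAt 𝓘(ℂ, V) 𝓘(ℂ, E) F z → DifferentiableAt ℂ w z → F z ∈ U₁ →
    MDifferentiableAt 𝓘(ℂ, V) 𝓘(ℂ, E) (fun z => φ (F z) (w z)) z

theorem LocF.globF [FiniteDimensional ℂ E] [T2Space X] (hV : VF U v) {U₁ : Set X}
    (hU₁ : IsOpen U₁) {ρ : ℝ} (hρ : 0 < ρ) {Ψ : X → ℂ → X} (hΨ : LocF U v U₁ ρ Ψ)
    (hinv : ∀ (c : ℂ → X), c 0 ∈ U₁ → (∀ w ∈ ball (0 : ℂ) ρ, IC U v c w) →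
      ∀ w ∈ ball (0 : ℂ) ρ, c w ∈ U₁) : ∃ φ, GlobF U v U₁ φ := by
  classical
  have hmem : ∀ x ∈ U₁, ∀ w ∈ ball (0 : ℂ) ρ, Ψ x w ∈ U₁ := by
    intro x hx w hw
    refine hinv (Ψ x) ?_ (fun w hw => hΨ.ic x hx w hw) w hw
    rw [hΨ.zero x hx]; exact hx
  -- local additivity
  have hadd0 : ∀ x ∈ U₁, ∀ s t : ℂ, ‖s‖ < ρ → ‖t‖ < ρ → ‖s + t‖ < ρ →
      Ψ (Ψ x s) t = Ψ x (s + t) := by
    intro x hx s t hs ht hst
    have hs' : s ∈ ball (0 : ℂ) ρ := by simpa only [mem_ball, dist_zero_right] using hs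
    have hW : IsPreconnected (ball (0 : ℂ) ρ ∩ ball (-s) ρ) :=
      ((convex_ball _ _).inter (convex_ball _ _)).isPreconnected
    have hWo : IsOpen (ball (0 : ℂ) ρ ∩ ball (-s) ρ) := isOpen_ball.inter isOpen_ball
    have key := IC.eqOn hV (c₁ := Ψ (Ψ x s)) (c₂ := fun t => Ψ x (s + t)) hW hWo
      (fun w hw => hΨ.ic _ (hmem x hx s hs') w hw.1)
      (fun w hw => by
        apply IC.shift
        apply hΨ.ic x hx
        have h2 := hw.2
        rw [mem_ball, dist_eq_norm] at h2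
        rw [mem_ball_zero_iff]
        have e : s + w = w - -s := by ring
        rw [e]; exact h2)
      (w₀ := 0) ⟨mem_ball_self hρ, by simpa only [mem_ball, dist_eq_norm, sub_neg_eq_add, zero_add] using hs⟩
      (by simp only [add_zero]; rw [hΨ.zero _ (hmem x hx s hs')])
    refine key ⟨by simpa only [mem_ball, dist_zero_right] using ht, ?_⟩
    rw [mem_ball, dist_eq_norm]
    have e : t - -s = s + t := by ring
    rw [e]; exact hst
  -- the local one parameter group of maps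
  let G : ℂ → Function.End X := fun s x => if x ∈ U₁ ∧ ‖s‖ < ρ then Ψ x s else x
  have hGin : ∀ s x, x ∈ U₁ → ‖s‖ < ρ → G s x = Ψ x s := fun s x hx hs => by
    simp only [G, if_pos (And.intro hx hs)]
  have hGout : ∀ s x, x ∉ U₁ → G s x = x := fun s x hx => by
    simp only [G]; rw [if_neg]; exact fun h => hx h.1
  have hGmem : ∀ s x, x ∈ U₁ → G s x ∈ U₁ := by
    intro s x hx
    by_cases hs : ‖s‖ < ρ
    · rw [hGin s x hx hs]; exact hmem x hx s (by simpa only [mem_ball, dist_zero_right] using hs)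
    · simp only [G]; rw [if_neg]
      · exact hx
      · exact fun h => hs h.2
  have hG0 : G 0 = 1 := by
    funext x
    by_cases hx : x ∈ U₁
    · rw [hGin 0 x hx (by simpa only [norm_zero] using hρ), hΨ.zero x hx]; rfl
    · rw [hGout 0 x hx]; rfl
  have hGadd : ∀ s t, ‖s‖ < ρ → ‖t‖ < ρ → ‖s + t‖ < ρ → G (s + t) = G s * G t := by
    intro s t hs ht hst
    funext x
    show G (s + t) x = G s (G t x)
    by_cases hx : x ∈ U₁
    · have htm : Ψ x t ∈ U₁ := hmem x hx t (by simpa using ht)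
      rw [hGin t x hx ht, hGin s _ htm hs, hGin (s + t) x hx hst,
        hadd0 x hx t s ht hs (by rwa [add_comm]), add_comm]
    · rw [hGout _ x hx, hGout t x hx, hGout s x hx]
  obtain ⟨Φ, hΦ, hΦadd⟩ := exists_group_ext hρ hG0 hGadd
  have hpowmem : ∀ (n : ℕ) s x, x ∈ U₁ → (G s ^ n) x ∈ U₁ := by
    intro n
    induction n with
    | zero => intro s x hx; exact hx
    | succ n ih =>
      intro s x hx
      rw [pow_succ']
      exact hGmem s _ (ih s x hx)
  have hΦsmall : ∀ x ∈ U₁, ∀ w : ℂ, ‖w‖ < ρ → Φ w x = Ψ x w := by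
    intro x hx w hw
    rw [hΦ w 1 one_pos (by simpa only [Nat.cast_one, one_mul] using hw), pow_one]
    simp only [Nat.cast_one, div_one]
    exact hGin w x hx hw
  have hΦmem : ∀ x ∈ U₁, ∀ w, Φ w x ∈ U₁ := by
    intro x hx w
    obtain ⟨n, hn⟩ := exists_nat_gt (‖w‖ / ρ)
    have hnr : (0 : ℝ) < n := lt_of_le_of_lt (by (clear * - hρ; positivity)) hn
    have hn0 : 0 < n := by exact_mod_cast hnr
    rw [div_lt_iff₀ hρ] at hn
    rw [hΦ w n hn0 hn]
    exact hpowmem n _ x hx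
  have hΦadd' : ∀ x w w', Φ w' (Φ w x) = Φ (w + w') x := by
    intro x w w'
    rw [add_comm, hΦadd]; rfl
  refine ⟨fun x w => Φ w x, hΦmem, ?_, fun x _ w w' => hΦadd' x w w', ?_, ?_⟩
  · intro x hx
    show Φ 0 x = x
    rw [hΦsmall x hx 0 (by simpa only [norm_zero] using hρ), hΨ.zero x hx]
  · intro x hx w
    have h1 : IC U v (fun t => Φ t (Φ w x)) 0 := by
      refine (hΨ.ic _ (hΦmem x hx w) 0 (mem_ball_self hρ)).congr ?_
      filter_upwards [ball_mem_nhds (0 : ℂ) hρ] with t ht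
      exact hΦsmall _ (hΦmem x hx w) t (by simpa only [mem_ball, dist_zero_right] using ht)
    have h2 : IC U v (fun t => Φ (w + t) x) 0 := by
      refine h1.congr (Eventually.of_forall fun t => ?_)
      exact (hΦadd' x w t).symm
    have h3 : IC U v (fun t => Φ (w + t) x) (-w + w) := by
      rw [neg_add_cancel]; exact h2
    have h4 := h3.shift
    refine h4.congr (Eventually.of_forall fun t => ?_)
    show Φ t x = Φ (w + (-w + t)) x
    rw [add_neg_cancel_left]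
  · intro V _ _ F w z hF hw hFz
    obtain ⟨n, hn⟩ := exists_nat_gt (‖w z‖ / ρ)
    have hnr : (0 : ℝ) < n := lt_of_le_of_lt (by (clear * - hρ; positivity)) hn
    have hn0 : 0 < n := by exact_mod_cast hnr
    rw [div_lt_iff₀ hρ] at hn
    have a1 : ∀ᶠ z' in 𝓝 z, F z' ∈ U₁ := hF.continuousAt.preimage_mem_nhds (hU₁.mem_nhds hFz)
    have a2 : ∀ᶠ z' in 𝓝 z, ‖w z'‖ < n * ρ :=
      hw.continuousAt.norm.eventually_lt continuousAt_const hn
    have claim : ∀ k : ℕ, MDifferentiableAt 𝓘(ℂ, V) 𝓘(ℂ, E)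
        (fun z' => (G (w z' / n) ^ k) (F z')) z := by
      intro k
      induction k with
      | zero => exact hF
      | succ k ih =>
        have h5 := hΨ.hol V (fun z' => (G (w z' / n) ^ k) (F z')) (fun z' => w z' / n) z ih
          (by simpa only [div_eq_mul_inv] using hw.mul_const ((n : ℂ)⁻¹)) (hpowmem k _ _ hFz) (by
            rw [mem_ball_zero_iff, norm_div, Complex.norm_natCast, div_lt_iff₀ hnr]
            linarith only [hn])
        refine h5.congr_of_eventuallyEq ?_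
        filter_upwards [a1, a2] with z' b1 b2
        rw [pow_succ']
        refine hGin _ _ (hpowmem k _ _ b1) ?_
        rw [norm_div, Complex.norm_natCast, div_lt_iff₀ hnr]
        linarith only [b2]
    refine (claim n).congr_of_eventuallyEq ?_
    filter_upwards [a2] with z' b2
    rw [hΦ _ n hn0 b2]

end

end Vale.Agent.P290
end
end

section

section

open Set Filter Metric
open scoped Manifold ContDiff Topology

namespace Vale.Agent.P290.K

/-! ### The structure group -/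

/-- The element `(u, e)` of the group `ℂˣ ⋉ ℂ⁴` acts on the representations of points. -/
noncomputable def act (lam : Fin 4 → C2) (g : ℂ × (Fin 4 → ℂ)) (x : ND) : ND :=
  ((x.1.1 / g.1 ^ 2,
    fun k => x.1.2.1 k * Cf (x.1.1 / g.1 ^ 2) (g.2 k) +
      x.1.1 / g.1 ^ 2 * (g.1 * x.1.2.2 k * Sf (x.1.1 / g.1 ^ 2) (g.2 k)),
    fun k => g.1 * x.1.2.2 k * Cf (x.1.1 / g.1 ^ 2) (g.2 k) +
      x.1.2.1 k * Sf (x.1.1 / g.1 ^ 2) (g.2 k)),
    g.1 • x.2 - Lm lam g.2)

variable {lam : Fin 4 → C2}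

theorem log_act {g : ℂ × (Fin 4 → ℂ)} (hg : g.1 ≠ 0) {x : ND} {n : Fin 4 → ℤ} {a : Fin 4 → ℂ}
    (h : Log x.1 n a) : Log (act lam g x).1 n (g.1 • a + g.2) := by
  intro k
  obtain ⟨h1, h2⟩ := h k
  have hc := Cf_scale x.1.1 (a k) hg
  have hs := Sf_scale x.1.1 (a k) hg
  simp only [act, Pi.add_apply, Pi.smul_apply, smul_eq_mul]
  rw [Cf_add, Sf_add, hc, hs, h1, h2]
  constructor <;> ring

theorem pell_act {g : ℂ × (Fin 4 → ℂ)} (hg : g.1 ≠ 0) {x : ND} (h : Pell x.1) :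
    Pell (act lam g x).1 := by
  obtain ⟨n, a, hl⟩ := exists_log_of_pell h
  exact (log_act hg hl).pell

theorem PP_scale {u : ℂ} (hu : u ≠ 0) {s : ℂ} {c : C2} (h : (s, c) ∈ PP lam) :
    (s / u ^ 2, u • c) ∈ PP lam := by
  obtain ⟨h1, h2⟩ := h
  refine ⟨smul_ne_zero hu h1, fun w hw n hn => ?_⟩
  have hw' : w ^ 2 = s / u ^ 2 := hw
  have h3 := h2 (w * u) (by
    change (w * u) ^ 2 = s
    rw [mul_pow, hw', div_mul_cancel₀ _ (pow_ne_zero 2 hu)]) n hn
  rw [mul_smul] at h3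
  exact h3

/-- the shifted fibre coordinate -/
theorem act_snd (g : ℂ × (Fin 4 → ℂ)) (x : ND) (a : Fin 4 → ℂ) :
    (act lam g x).2 + Lm lam (g.1 • a + g.2) = g.1 • (x.2 + Lm lam a) := by
  simp only [act]
  rw [Lm_add, Lm_smul, smul_add]
  abel

theorem avoid_act {g : ℂ × (Fin 4 → ℂ)} (hg : g.1 ≠ 0) {x : ND} (h : Avoid lam x) :
    Avoid lam (act lam g x) := by
  obtain ⟨n, a, hl, hp⟩ := h
  refine ⟨n, g.1 • a + g.2, log_act hg hl, ?_⟩
  rw [act_snd]
  exact PP_scale hg hp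

/-- the action is by a group -/
theorem act_act {g g' : ℂ × (Fin 4 → ℂ)} (hg : g.1 ≠ 0) (hg' : g'.1 ≠ 0) (x : ND) :
    act lam g' (act lam g x) = act lam (g'.1 * g.1, g'.1 • g.2 + g'.2) x := by
  obtain ⟨⟨h, p, q⟩, b⟩ := x
  obtain ⟨u, e⟩ := g
  obtain ⟨u', e'⟩ := g'
  simp only at hg hg'
  have hh : h / u ^ 2 / u' ^ 2 = h / (u' * u) ^ 2 := by
    rw [mul_pow, div_div, mul_comm]
  have h1 : ∀ k, Cf (h / (u' * u) ^ 2) (u' * e k) = Cf (h / u ^ 2) (e k) := fun k => by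
    rw [← hh]; exact Cf_scale _ _ hg'
  have h2 : ∀ k, Sf (h / (u' * u) ^ 2) (u' * e k) = u' * Sf (h / u ^ 2) (e k) := fun k => by
    rw [← hh]; exact Sf_scale _ _ hg'
  simp only [act, Prod.mk.injEq, Pi.add_apply, Pi.smul_apply, smul_eq_mul]
  refine ⟨⟨hh, ?_, ?_⟩, ?_⟩
  · funext k
    rw [Cf_add, Sf_add, h1, h2, hh]
    have h3 : h / u ^ 2 = u' ^ 2 * (h / (u' * u) ^ 2) := by
      (clear * - hg' hg; field_simp)
    generalize Cf (h / u ^ 2) (e k) = A
    generalize Sf (h / u ^ 2) (e k) = B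
    rw [h3]
    ring
  · funext k
    rw [Cf_add, Sf_add, h1, h2, hh]
    have h3 : h / u ^ 2 = u' ^ 2 * (h / (u' * u) ^ 2) := by
      (clear * - hg' hg; field_simp)
    generalize Cf (h / u ^ 2) (e k) = A
    generalize Sf (h / u ^ 2) (e k) = B
    rw [h3]
    ring
  · rw [Lm_add, Lm_smul, smul_sub, smul_smul]
    abel

theorem lat_zero (lam : Fin 4 → C2) : lat lam 0 = 0 := by simp only [lat, Pi.zero_apply, Int.cast_zero, zero_smul, Finset.sum_const_zero]

theorem act_inj (hlam : LinearIndependent ℝ lam) {x : ND} (hx : Avoid lam x)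
    {g g' : ℂ × (Fin 4 → ℂ)} (hg : g.1 ≠ 0) (hg' : g'.1 ≠ 0)
    (h : act lam g x = act lam g' x) : g = g' := by
  obtain ⟨n, a, hl, hp⟩ := hx
  have l1 : Log (act lam g x).1 n (g.1 • a + g.2) := log_act hg hl
  have l2 : Log (act lam g x).1 n (g'.1 • a + g'.2) := by rw [h]; exact log_act hg' hl
  have e1 := act_snd (lam := lam) g x a
  have e2 := act_snd (lam := lam) g' x a
  rw [← h] at e2
  set c := x.2 + Lm lam a with hc
  have hc0 : c ≠ 0 := hp.1
  have hs : x.1.1 / g.1 ^ 2 = x.1.1 / g'.1 ^ 2 := congrArg (fun y : ND => y.1.1) h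
  have fin : g.1 = g'.1 → g.2 = g'.2 → g = g' := fun h1 h2 => Prod.ext h1 h2
  by_cases h0 : x.1.1 = 0
  · have h0' : (act lam g x).1.1 = 0 := by simp only [act, h0, zero_div, zero_mul, add_zero]
    obtain ⟨h1, -⟩ := log_unique_zero l1 l2 h0'
    rw [h1] at e2
    have h2 : g.1 • c = g'.1 • c := e1.symm.trans e2
    have h3 : g.1 = g'.1 := smul_left_injective ℂ hc0 h2
    refine fin h3 ?_
    rw [h3] at h1
    exact (add_left_cancel h1).symm
  · have hsq : g.1 ^ 2 = g'.1 ^ 2 := by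
      have h1 : g.1 ^ 2 ≠ 0 := pow_ne_zero 2 hg
      have h2 : g'.1 ^ 2 ≠ 0 := pow_ne_zero 2 hg'
      rw [div_eq_div_iff h1 h2] at hs
      exact (mul_left_cancel₀ h0 hs).symm
    obtain ⟨w, hw⟩ : ∃ w : ℂ, w ^ 2 = x.1.1 / g.1 ^ 2 := IsAlgClosed.exists_pow_nat_eq _ two_pos
    have hw0 : w ≠ 0 := by
      rintro rfl
      have : x.1.1 / g.1 ^ 2 ≠ 0 := div_ne_zero h0 (pow_ne_zero 2 hg)
      exact this (by rw [← hw]; simp)
    obtain ⟨m, hm⟩ := log_unique_ne l1 l2 (w := w) hw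
    have hLm : w • (g'.1 • c - g.1 • c) = lat lam m := by
      rw [← e1, ← e2, add_sub_add_left_eq_sub]
      have h5 : Lm lam (fun k => Real.pi * Complex.I * (((0 : Fin 4 → ℤ) k : ℂ) + 2 * m k)) =
          (1 / 2 : ℂ) • lat lam 0 + lat lam m := Lm_pi lam 0 m
      rw [lat_zero, smul_zero, zero_add] at h5
      rw [← h5]
      have h6 : (fun k => Real.pi * Complex.I * (((0 : Fin 4 → ℤ) k : ℂ) + 2 * m k)) =
          w • ((g'.1 • a + g'.2) + (-1 : ℂ) • (g.1 • a + g.2)) := by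
        funext k
        have h7 := hm k
        simp only [sub_self, zero_add] at h7
        simp only [Pi.zero_apply, Int.cast_zero, zero_add, Pi.smul_apply, Pi.add_apply,
          smul_eq_mul] at h7 ⊢
        rw [← h7]
        ring
      rw [h6, Lm_smul, Lm_add lam (g'.1 • a + g'.2), Lm_smul lam (-1), neg_one_smul,
        sub_eq_add_neg]
    rcases sq_eq_sq_iff_eq_or_eq_neg.1 hsq with h1 | h1
    · rw [h1, sub_self, smul_zero] at hLm
      have hm0 := lat_eq_zero hlam hLm.symm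
      refine fin h1 ?_
      funext k
      have h7 := hm k
      rw [hm0] at h7
      simp only [Pi.add_apply, h1, add_sub_add_left_eq_sub, sub_self, Pi.zero_apply, Int.cast_zero, mul_zero, add_zero] at h7
      rcases mul_eq_zero.1 h7 with h8 | h8
      · exact absurd h8 hw0
      · exact (sub_eq_zero.1 h8).symm
    · exfalso
      rw [h1] at hLm
      have h9 : (w * g'.1) • c = (1 / 2 : ℂ) • lat lam m := by
        rw [← hLm, mul_smul, neg_smul, sub_neg_eq_add, ← two_smul ℂ, smul_comm w (2 : ℂ),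
          smul_smul (1 / 2 : ℂ)]
        norm_num
      have h10 : (w * g'.1) ^ 2 = x.1.1 := by
        rw [mul_pow, hw, hs, div_mul_cancel₀ _ (pow_ne_zero 2 hg')]
      by_cases hm0 : m = 0
      · rw [hm0, lat_zero, smul_zero] at h9
        rcases smul_eq_zero.1 h9 with h11 | h11
        · exact mul_ne_zero hw0 hg' h11
        · exact hc0 h11
      · exact hp.2 _ h10 m hm0 h9

theorem act_differentiableAt {V : Type} [NormedAddCommGroup V] [NormedSpace ℂ V] {x : V → ND}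
    {g : V → ℂ × (Fin 4 → ℂ)} {z : V} (hx : DifferentiableAt ℂ x z) (hg : DifferentiableAt ℂ g z)
    (hne : (g z).1 ≠ 0) : DifferentiableAt ℂ (fun z => act lam (g z) (x z)) z := by
  have x1 : DifferentiableAt ℂ (fun z => (x z).1.1) z := hx.fst.fst
  have x2 : DifferentiableAt ℂ (fun z => (x z).1.2.1) z := hx.fst.snd.fst
  have x3 : DifferentiableAt ℂ (fun z => (x z).1.2.2) z := hx.fst.snd.snd
  have x4 : DifferentiableAt ℂ (fun z => (x z).2) z := hx.snd
  have g1 : DifferentiableAt ℂ (fun z => (g z).1) z := hg.fst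
  have g2 : DifferentiableAt ℂ (fun z => (g z).2) z := hg.snd
  have hs : DifferentiableAt ℂ (fun z => (x z).1.1 / (g z).1 ^ 2) z :=
    by
      simp only [div_eq_mul_inv]
      exact x1.mul ((g1.fun_pow 2).fun_inv (pow_ne_zero 2 hne))
  have hC : ∀ k, DifferentiableAt ℂ (fun z => Cf ((x z).1.1 / (g z).1 ^ 2) ((g z).2 k)) z :=
    fun k => DifferentiableAt.comp (g := fun y : ℂ × ℂ => Cf y.1 y.2)
      (f := fun z => ((x z).1.1 / (g z).1 ^ 2, (g z).2 k)) z (differentiable_Cf _)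
      (hs.prodMk (differentiableAt_pi.1 g2 k))
  have hS : ∀ k, DifferentiableAt ℂ (fun z => Sf ((x z).1.1 / (g z).1 ^ 2) ((g z).2 k)) z :=
    fun k => DifferentiableAt.comp (g := fun y : ℂ × ℂ => Sf y.1 y.2)
      (f := fun z => ((x z).1.1 / (g z).1 ^ 2, (g z).2 k)) z (differentiable_Sf _)
      (hs.prodMk (differentiableAt_pi.1 g2 k))
  have p1 : ∀ k, DifferentiableAt ℂ (fun z => (x z).1.2.1 k) z := differentiableAt_pi.1 x2
  have p2 : ∀ k, DifferentiableAt ℂ (fun z => (x z).1.2.2 k) z := differentiableAt_pi.1 x3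
  have hL : DifferentiableAt ℂ (fun z => Lm lam (g z).2) z :=
    DifferentiableAt.comp (g := Lm lam) (f := fun z => (g z).2) z (differentiable_Lm lam _) g2
  refine DifferentiableAt.prodMk (DifferentiableAt.prodMk hs (DifferentiableAt.prodMk ?_ ?_)) ?_
  · rw [differentiableAt_pi]
    intro k
    exact ((p1 k).mul (hC k)).add (hs.mul ((g1.mul (p2 k)).mul (hS k)))
  · rw [differentiableAt_pi]
    intro k
    exact ((g1.mul (p2 k)).mul (hC k)).add ((p1 k).mul (hS k))
  · exact (g1.smul x4).sub hL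

section

variable {X : Type} [TopologicalSpace X] [ChartedSpace C2 X] (D : KummerData lam X)

theorem KRel_scale {u : ℂ} (hu : u ≠ 0) (n : Fin 4 → ℤ) (s : ℂ) (c : C2) :
    KRel lam n (s, c) n (s / u ^ 2, u • c) := by
  by_cases hs : s = 0
  · left
    refine ⟨hs, by simp [hs], ⟨0, by simp⟩, u, hu, rfl⟩
  · right
    obtain ⟨w, hw⟩ : ∃ w : ℂ, w ^ 2 = s := IsAlgClosed.exists_pow_nat_eq _ two_pos
    refine ⟨hs, div_ne_zero hs (pow_ne_zero 2 hu), w, w / u, hw, ?_, 0, ?_⟩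
    · rw [div_pow, hw]
    · rw [lat_zero, add_zero]
      simp only
      rw [smul_smul, div_mul_cancel₀ _ hu]

theorem rep_act {g : ℂ × (Fin 4 → ℂ)} (hg : g.1 ≠ 0) {x : ND} {y : X} (h : Rep D x y) :
    Rep D (act lam g x) y := by
  obtain ⟨n, a, hl, hp, hy⟩ := h
  refine ⟨n, g.1 • a + g.2, log_act hg hl, ?_, ?_⟩
  · rw [act_snd]
    exact PP_scale hg hp
  · rw [act_snd, ← hy]
    have h1 : (x.1.1 / g.1 ^ 2, g.1 • (x.2 + Lm lam a)) ∈ PP lam := PP_scale hg hp
    exact ((D.rel n _ hp n _ h1).2 (KRel_scale hg n _ _)).symm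

theorem Rep.unique {x : ND} {y y' : X} (h : Rep D x y) (h' : Rep D x y') : y = y' := by
  obtain ⟨n, a, hl, hp, hy⟩ := h
  obtain ⟨n', a', hl', hp', hy'⟩ := h'
  rw [← hy, ← hy', D.rel n _ hp n' _ hp']
  by_cases h0 : x.1.1 = 0
  · left
    obtain ⟨h1, m, hm⟩ := log_unique_zero hl hl' h0
    exact ⟨h0, h0, ⟨m, hm⟩, 1, one_ne_zero, by rw [h1, one_smul]⟩
  · right
    obtain ⟨w, hw⟩ : ∃ w : ℂ, w ^ 2 = x.1.1 := IsAlgClosed.exists_pow_nat_eq _ two_pos
    obtain ⟨m, hm⟩ := log_unique_ne hl hl' hw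
    refine ⟨h0, h0, w, w, hw, hw, m, ?_⟩
    simp only
    have h1 := Lm_pi lam (n - n') m
    have h2 : (fun k => Real.pi * Complex.I * (((n - n') k : ℤ) + 2 * m k : ℂ)) =
        w • (a' + (-1 : ℂ) • a) := by
      funext k
      have h7 := hm k
      simp only [Pi.sub_apply, Int.cast_sub, Pi.smul_apply, Pi.add_apply, smul_eq_mul]
      rw [← h7]
      ring
    rw [h2, Lm_smul, Lm_add, Lm_smul, lat_sub] at h1
    have h3 : w • Lm lam a' = w • Lm lam a + ((1 / 2 : ℂ) • (lat lam n - lat lam n') + lat lam m) := by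
      rw [← h1, smul_add, smul_smul, mul_neg_one, neg_smul]
      abel
    rw [smul_add, smul_add, h3, smul_sub]
    abel

end

end Vale.Agent.P290.K
end
end

section

section

set_option linter.all false

open Set Filter Metric MeasureTheory
open scoped Topology ENNReal NNReal

namespace Vale.Agent.P290.K

section
variable {V R : Type} [NormedAddCommGroup V] [NormedSpace ℂ V] [FiniteDimensional ℂ V]
  [NormedCommRing R] [NormedAlgebra ℂ R] [CompleteSpace R] [SecondCountableTopology R]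
  [MeasurableSpace R] [BorelSpace R]

private theorem scV : SecondCountableTopology (V →L[ℂ] ℂ) := by
  haveI : FiniteDimensional ℂ (V →L[ℂ] ℂ) := inferInstance
  haveI : ProperSpace (V →L[ℂ] ℂ) := FiniteDimensional.proper ℂ _
  infer_instance

private theorem cont_int (z : V) :
    Continuous (fun p : (V →L[ℂ] ℂ) × R => Complex.exp (p.1 z) • p.2) := by
  have h1 : Continuous (fun p : (V →L[ℂ] ℂ) × R => p.1 z) :=
    (ContinuousLinearMap.apply ℂ ℂ z).continuous.comp continuous_fst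
  exact (Complex.continuous_exp.comp h1).smul continuous_snd

private theorem enorm_int (z : V) (p : (V →L[ℂ] ℂ) × R) :
    ‖Complex.exp (p.1 z) • p.2‖ₑ = ENNReal.ofReal (Real.exp (p.1 z).re) * ‖p.2‖ₑ := by
  rw [enorm_smul, ← ofReal_norm_eq_enorm, Complex.norm_exp]

theorem EN.integrable {K : Set V} {μ : Measure ((V →L[ℂ] ℂ) × R)} {M : ℝ≥0}
    (h : ∫⁻ p, ‖p.2‖ₑ * wt K p.1 ∂μ ≤ M) {z : V} (hz : z ∈ K) :
    Integrable (fun p : (V →L[ℂ] ℂ) × R => Complex.exp (p.1 z) • p.2) μ := by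
  haveI : SecondCountableTopology (V →L[ℂ] ℂ) := scV
  refine ⟨(cont_int z).aestronglyMeasurable, ?_⟩
  refine lt_of_le_of_lt (lintegral_mono (fun p => ?_)) (lt_of_le_of_lt h ENNReal.coe_lt_top)
  rw [enorm_int, mul_comm]
  gcongr
  exact le_wt hz _

theorem EN.mono_set {K K' : Set V} (hK : K' ⊆ K) {g : V → R} {M : ℝ≥0} (h : EN K g M) :
    EN K' g M := by
  obtain ⟨μ, h1, h2, h3⟩ := h
  refine ⟨μ, h1, le_trans (lintegral_mono (fun p => ?_)) h2, fun z hz => h3 z (hK hz)⟩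
  gcongr
  exact wt_mono hK _

theorem EN.mono {K : Set V} {g : V → R} {M M' : ℝ≥0} (h : EN K g M) (hM : M ≤ M') :
    EN K g M' := by
  obtain ⟨μ, h1, h2, h3⟩ := h
  exact ⟨μ, h1, h2.trans (by exact_mod_cast hM), h3⟩

theorem EN.congr {K : Set V} {g g' : V → R} {M : ℝ≥0} (h : EN K g M) (hg : ∀ z ∈ K, g z = g' z) :
    EN K g' M := by
  obtain ⟨μ, h1, h2, h3⟩ := h
  exact ⟨μ, h1, h2, fun z hz => (hg z hz) ▸ h3 z hz⟩

theorem EN.bound {K : Set V} {g : V → R} {M : ℝ≥0} (h : EN K g M) {z : V} (hz : z ∈ K) :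
    ‖g z‖ ≤ M := by
  obtain ⟨μ, h1, h2, h3⟩ := h
  have h4 : ‖g z‖ₑ ≤ (M : ℝ≥0∞) := by
    rw [h3 z hz]
    refine (enorm_integral_le_lintegral_enorm _).trans ((lintegral_mono (fun p => ?_)).trans h2)
    rw [enorm_int, mul_comm]
    gcongr
    exact le_wt hz _
  rw [← ofReal_norm_eq_enorm] at h4
  have h5 := ENNReal.toReal_mono ENNReal.coe_ne_top h4
  rwa [ENNReal.toReal_ofReal (norm_nonneg _), ENNReal.coe_toReal] at h5

theorem EN.zero (K : Set V) : EN K (fun _ => (0 : R)) 0 := by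
  refine ⟨0, inferInstance, by simp only [lintegral_zero_measure, ENNReal.coe_zero, Std.le_refl], fun z hz => by simp⟩

private theorem measurable_wt' (K : Set V) :
    Measurable (fun p : (V →L[ℂ] ℂ) × R => wt K p.1) := (measurable_wt K).comp measurable_fst

private theorem measurable_f (K : Set V) :
    Measurable (fun p : (V →L[ℂ] ℂ) × R => ‖p.2‖ₑ * wt K p.1) :=
  (measurable_snd.enorm).mul (measurable_wt' K)

theorem EN.one (K : Set V) : EN K (fun _ => (1 : R)) ‖(1 : R)‖₊ := by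
  haveI : SecondCountableTopology (V →L[ℂ] ℂ) := scV
  refine ⟨Measure.dirac (0, 1), inferInstance, ?_, fun z hz => ?_⟩
  · rw [lintegral_dirac' _ (measurable_f K)]
    have : wt K (0 : V →L[ℂ] ℂ) ≤ 1 := by
      unfold wt
      simp only [zero_apply, Complex.zero_re, Real.exp_zero, ENNReal.ofReal_one, iSup_le_iff, Std.le_refl, implies_true]
    calc ‖(1 : R)‖ₑ * wt K (0 : V →L[ℂ] ℂ) ≤ ‖(1 : R)‖ₑ * 1 := by (clear * - this; gcongr)
      _ = _ := by simp only [enorm_eq_nnnorm, mul_one]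
  · rw [integral_dirac' _ _ ((cont_int z).stronglyMeasurable)]
    simp only [zero_apply, Complex.exp_zero, one_smul]

theorem EN.add {K : Set V} {g g' : V → R} {M M' : ℝ≥0} (h : EN K g M) (h' : EN K g' M') :
    EN K (fun z => g z + g' z) (M + M') := by
  obtain ⟨μ, h1, h2, h3⟩ := h
  obtain ⟨μ', h1', h2', h3'⟩ := h'
  refine ⟨μ + μ', inferInstance, ?_, fun z hz => ?_⟩
  · rw [lintegral_add_measure]
    push_cast
    exact add_le_add h2 h2'
  · rw [integral_add_measure (EN.integrable h2 hz) (EN.integrable h2' hz), ← h3 z hz, ← h3' z hz]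

theorem EN.neg {K : Set V} {g : V → R} {M : ℝ≥0} (h : EN K g M) :
    EN K (fun z => - g z) M := by
  haveI : SecondCountableTopology (V →L[ℂ] ℂ) := scV
  obtain ⟨μ, h1, h2, h3⟩ := h
  have hm : Measurable (fun p : (V →L[ℂ] ℂ) × R => (p.1, -p.2)) :=
    measurable_fst.prodMk measurable_snd.neg
  refine ⟨μ.map (fun p => (p.1, -p.2)), inferInstance, ?_, fun z hz => ?_⟩
  · rw [lintegral_map (measurable_f K) hm]
    simpa only [enorm_neg] using h2
  · rw [integral_map hm.aemeasurable ((cont_int z).aestronglyMeasurable)]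
    simp only [smul_neg]
    rw [integral_neg, h3 z hz]

theorem EN.sub {K : Set V} {g g' : V → R} {M M' : ℝ≥0} (h : EN K g M) (h' : EN K g' M') :
    EN K (fun z => g z - g' z) (M + M') := by
  refine (h.add h'.neg).congr (fun z _ => (sub_eq_add_neg _ _).symm)

theorem EN.tsum {K : Set V} {g : ℕ → V → R} {M : ℕ → ℝ≥0} (h : ∀ n, EN K (g n) (M n))
    (hM : Summable M) : EN K (fun z => ∑' n, g n z) (∑' n, M n) := by
  choose μ h1 h2 h3 using h
  have hle : ∫⁻ p, ‖p.2‖ₑ * wt K p.1 ∂(Measure.sum μ) ≤ ((∑' n, M n : ℝ≥0) : ℝ≥0∞) := by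
    rw [lintegral_sum_measure, ENNReal.coe_tsum hM]
    exact ENNReal.tsum_le_tsum h2
  haveI := h1
  refine ⟨Measure.sum μ, inferInstance, hle, fun z hz => ?_⟩
  have h4 := hasSum_integral_measure (EN.integrable hle hz)
  rw [← h4.tsum_eq]
  exact tsum_congr (fun n => h3 n z hz)

/-- splitting with constant one -/
theorem EN.split {A B : Set V} (hA : Good A) (hB : Good B) (hAB : Convex ℝ (A ∪ B)) {g : V → R}
    {M : ℝ≥0} (h : EN (A ∩ B) g M) :
    ∃ u v : V → R, EN A u M ∧ EN B v M ∧ ∀ z ∈ A ∩ B, g z = u z - v z := by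
  haveI : SecondCountableTopology (V →L[ℂ] ℂ) := scV
  obtain ⟨μ, h1, h2, h3⟩ := h
  haveI := h1
  set S : Set ((V →L[ℂ] ℂ) × R) := {p | wt A p.1 ≤ wt B p.1} with hS
  have hSm : MeasurableSet S := measurableSet_le (measurable_wt' A) (measurable_wt' B)
  have e1 : ∫⁻ p, ‖p.2‖ₑ * wt A p.1 ∂(μ.restrict S) ≤ M := by
    refine le_trans (le_of_eq (setLIntegral_congr_fun hSm (g := fun p => ‖p.2‖ₑ * wt (A ∩ B) p.1)
      (fun p hp => ?_))) ((lintegral_mono' Measure.restrict_le_self le_rfl).trans h2)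
    have hp' : wt A p.1 ≤ wt B p.1 := hp
    simp only [wt_inter hA hB hAB, min_eq_left hp']
  have e2 : ∫⁻ p, ‖p.2‖ₑ * wt B p.1 ∂(μ.restrict Sᶜ) ≤ M := by
    refine le_trans (le_of_eq (setLIntegral_congr_fun hSm.compl
      (g := fun p => ‖p.2‖ₑ * wt (A ∩ B) p.1)
      (fun p hp => ?_))) ((lintegral_mono' Measure.restrict_le_self le_rfl).trans h2)
    have hp' : wt B p.1 ≤ wt A p.1 := le_of_lt (not_le.mp hp)
    simp only [wt_inter hA hB hAB, min_eq_right hp']
  refine ⟨fun z => ∫ p, Complex.exp (p.1 z) • p.2 ∂(μ.restrict S),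
    fun z => - ∫ p, Complex.exp (p.1 z) • p.2 ∂(μ.restrict Sᶜ),
    ⟨_, inferInstance, e1, fun z hz => rfl⟩, EN.neg ⟨_, inferInstance, e2, fun z hz => rfl⟩,
    fun z hz => ?_⟩
  rw [h3 z hz, sub_neg_eq_add, integral_add_compl hSm (EN.integrable h2 hz)]

end

end Vale.Agent.P290.K
end
end

section

section

set_option linter.all false

open Set Filter Metric MeasureTheory
open scoped Topology ENNReal NNReal

namespace Vale.Agent.P290.K

section
variable {V R : Type} [NormedAddCommGroup V] [NormedSpace ℂ V] [FiniteDimensional ℂ V]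
  [NormedCommRing R] [NormedAlgebra ℂ R] [CompleteSpace R] [SecondCountableTopology R]
  [MeasurableSpace R] [BorelSpace R]

theorem EN.mul {K : Set V} {g g' : V → R} {M M' : ℝ≥0} (h : EN K g M) (h' : EN K g' M') :
    EN K (fun z => g z * g' z) (M * M') := by
  obtain ⟨μ, hμ, hM, hg⟩ := h
  obtain ⟨μ', hμ', hM', hg'⟩ := h'
  haveI := hμ
  haveI := hμ'
  haveI : SecondCountableTopology (V →L[ℂ] ℂ) := by
    haveI : FiniteDimensional ℂ (V →L[ℂ] ℂ) := inferInstance
    haveI : ProperSpace (V →L[ℂ] ℂ) := FiniteDimensional.proper ℂ _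
    infer_instance
  set m : ((V →L[ℂ] ℂ) × R) × ((V →L[ℂ] ℂ) × R) → (V →L[ℂ] ℂ) × R :=
    fun q => (q.1.1 + q.2.1, q.1.2 * q.2.2) with hm
  have hmc : Continuous m := by (clear * -; fun_prop)
  have hmm : Measurable m := hmc.measurable
  refine ⟨(μ.prod μ').map m, inferInstance, ?_, ?_⟩
  · have hw : Measurable (fun p : (V →L[ℂ] ℂ) × R => ‖p.2‖ₑ * wt K p.1) :=
      (measurable_snd.enorm).mul ((measurable_wt K).comp measurable_fst)
    rw [lintegral_map hw hmm]
    calc ∫⁻ q, ‖(m q).2‖ₑ * wt K (m q).1 ∂(μ.prod μ')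
        ≤ ∫⁻ q, (‖q.1.2‖ₑ * wt K q.1.1) * (‖q.2.2‖ₑ * wt K q.2.1) ∂(μ.prod μ') := by
          refine lintegral_mono fun q => ?_
          have h1 : ‖q.1.2 * q.2.2‖ₑ ≤ ‖q.1.2‖ₑ * ‖q.2.2‖ₑ := by
            rw [enorm_eq_nnnorm, enorm_eq_nnnorm, enorm_eq_nnnorm, ← ENNReal.coe_mul,
              ENNReal.coe_le_coe]
            exact nnnorm_mul_le _ _
          calc ‖q.1.2 * q.2.2‖ₑ * wt K (q.1.1 + q.2.1)
              ≤ (‖q.1.2‖ₑ * ‖q.2.2‖ₑ) * (wt K q.1.1 * wt K q.2.1) :=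
                mul_le_mul' h1 (wt_add_le K _ _)
            _ = _ := by ring
      _ = (∫⁻ p, ‖p.2‖ₑ * wt K p.1 ∂μ) * ∫⁻ p, ‖p.2‖ₑ * wt K p.1 ∂μ' :=
          lintegral_prod_mul hw.aemeasurable hw.aemeasurable
      _ ≤ (M : ℝ≥0∞) * M' := mul_le_mul' hM hM'
      _ = ((M * M' : ℝ≥0) : ℝ≥0∞) := by push_cast; rfl
  · intro z hz
    have hi := EN.integrable (R := R) hM hz
    have hi' := EN.integrable (R := R) hM' hz
    have hce : Continuous fun p : (V →L[ℂ] ℂ) × R => Complex.exp (p.1 z) • p.2 := by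
      (clear * -; fun_prop)
    rw [integral_map hmm.aemeasurable hce.aestronglyMeasurable]
    have e1 : ∀ q : ((V →L[ℂ] ℂ) × R) × ((V →L[ℂ] ℂ) × R),
        Complex.exp ((m q).1 z) • (m q).2 =
          ContinuousLinearMap.mul ℂ R (Complex.exp (q.1.1 z) • q.1.2)
            (Complex.exp (q.2.1 z) • q.2.2) := by
      intro q
      simp only [hm, ContinuousLinearMap.mul_apply', ContinuousLinearMap.add_apply, Complex.exp_add]
      rw [smul_mul_smul_comm]
    simp_rw [e1]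
    rw [integral_prod_bilin (ContinuousLinearMap.mul ℂ R) hi hi']
    rw [ContinuousLinearMap.mul_apply', hg z hz, hg' z hz]

theorem EN.pow_mul {K : Set V} {g g' : V → R} {M M' : ℝ≥0} (h : EN K g M) (h' : EN K g' M')
    (i : ℕ) : EN K (fun z => g z ^ i * g' z) (M ^ i * M') := by
  induction i with
  | zero => simpa only [pow_zero, one_mul] using h'
  | succ i ih =>
    have := EN.mul h ih
    have e1 : (fun z => g z ^ (i + 1) * g' z) = fun z => g z * (g z ^ i * g' z) := by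
      funext z; ring
    have e2 : M ^ (i + 1) * M' = M * (M ^ i * M') := by ring
    rw [e1, e2]
    exact this

end

end Vale.Agent.P290.K
end
end

section

section

set_option linter.all false

open Set Filter Metric MeasureTheory
open scoped Topology ENNReal NNReal

namespace Vale.Agent.P290.K

/-- the power series with coefficients `a` at the point `(x 0, x 1)` -/
noncomputable def psr {V R : Type} [NormedCommRing R] (a : ℕ × ℕ → V → R) (x : Fin 2 → V → R)
    (z : V) : R :=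
  ∑' β : ℕ × ℕ, a β z * (x 0 z ^ β.1 * x 1 z ^ β.2)

section
variable {V R : Type} [NormedAddCommGroup V] [NormedSpace ℂ V] [FiniteDimensional ℂ V]
  [NormedCommRing R] [NormedAlgebra ℂ R] [CompleteSpace R]
  [SecondCountableTopology R] [MeasurableSpace R] [BorelSpace R]

private theorem EN.tsum_prod {K : Set V} {g : ℕ × ℕ → V → R} {M : ℕ × ℕ → ℝ≥0}
    (h : ∀ β, EN K (g β) (M β)) (hM : Summable M) :
    EN K (fun z => ∑' β, g β z) (∑' β, M β) := by
  have h1 := EN.tsum (K := K) (g := fun n => g (Nat.pairEquiv.symm n))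
    (M := fun n => M (Nat.pairEquiv.symm n)) (fun n => h _)
    (Nat.pairEquiv.symm.summable_iff.2 hM)
  rw [Equiv.tsum_eq Nat.pairEquiv.symm M] at h1
  refine h1.congr fun z _ => ?_
  exact Equiv.tsum_eq Nat.pairEquiv.symm (fun β => g β z)

private theorem EN.summable_pt {ι : Type} {K : Set V} {g : ι → V → R} {M : ι → ℝ≥0}
    (h : ∀ β, EN K (g β) (M β)) (hM : Summable M) {z : V} (hz : z ∈ K) :
    Summable (fun β => g β z) :=
  Summable.of_norm_bounded (g := fun β => (M β : ℝ)) (NNReal.summable_coe.2 hM)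
    (fun β => (h β).bound hz)

private theorem EN.psr_term {K : Set V} {ρ : ℝ≥0} {a : V → R} {m : ℝ≥0} (ha : EN K a m)
    {x : Fin 2 → V → R} (hx : ∀ i, EN K (x i) ρ) (β : ℕ × ℕ) :
    EN K (fun z => a z * (x 0 z ^ β.1 * x 1 z ^ β.2)) (m * ρ ^ (β.1 + β.2)) := by
  have h1 := (hx 0).pow_mul ((hx 1).pow_mul ha β.2) β.1
  have e : ρ ^ β.1 * (ρ ^ β.2 * m) = m * ρ ^ (β.1 + β.2) := by ring
  rw [e] at h1
  exact h1.congr fun z _ => by ring

private theorem EN.pow_sub {K : Set V} {σ δ : ℝ≥0} {x y : V → R} (hx : EN K x σ)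
    (hy : EN K y σ) (hd : EN K (fun z => y z - x z) (σ * δ)) (i : ℕ) :
    EN K (fun z => y z ^ i - x z ^ i) (i * σ ^ i * δ) := by
  induction i with
  | zero =>
    have h0 := EN.zero (V := V) (R := R) K
    refine (h0.congr fun z _ => ?_).mono (by simp)
    simp
  | succ i ih =>
    have h3 := (hy.mul ih).add (hx.pow_mul hd i)
    have e : σ * (i * σ ^ i * δ) + σ ^ i * (σ * δ) =
        ((i + 1 : ℕ) : ℝ≥0) * σ ^ (i + 1) * δ := by
      push_cast
      ring
    rw [e] at h3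
    exact h3.congr fun z _ => by ring

private theorem EN.term_sub {K : Set V} {ρ : ℝ≥0} (hρ : 0 < ρ) {a : V → R} {m : ℝ≥0}
    (ha : EN K a m) {x y : Fin 2 → V → R} (hx : ∀ i, EN K (x i) (ρ / 2))
    (hy : ∀ i, EN K (y i) (ρ / 2)) {d : ℝ≥0} (hd : ∀ i, EN K (fun z => y i z - x i z) d)
    (β : ℕ × ℕ) :
    EN K (fun z => a z * (y 0 z ^ β.1 * y 1 z ^ β.2) - a z * (x 0 z ^ β.1 * x 1 z ^ β.2))
      (m * ρ ^ (β.1 + β.2) * (2 * d / ρ)) := by
  have hσδ : (ρ / 2) * (2 * d / ρ) = d := by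
    field_simp
  have hd' : ∀ i, EN K (fun z => y i z - x i z) ((ρ / 2) * (2 * d / ρ)) := fun i => by
    rw [hσδ]
    exact hd i
  have h1 := (hy 1).pow_mul (EN.pow_sub (hx 0) (hy 0) (hd' 0) β.1) β.2
  have h2 := (hx 0).pow_mul (EN.pow_sub (hx 1) (hy 1) (hd' 1) β.2) β.1
  have h3 := ha.mul (h1.add h2)
  refine (h3.congr fun z _ => ?_).mono ?_
  · ring
  · have h4 : ((β.1 : ℝ≥0) + β.2) * (ρ / 2) ^ (β.1 + β.2) ≤ ρ ^ (β.1 + β.2) := by
      rw [div_pow, mul_div_assoc']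
      refine div_le_of_le_mul₀ (by (clear * -; positivity)) (by (clear * - hρ; positivity)) ?_
      rw [mul_comm]
      refine mul_le_mul_right ?_ _
      have : (β.1 + β.2) ≤ 2 ^ (β.1 + β.2) := (Nat.lt_two_pow_self).le
      exact_mod_cast this
    calc m * ((ρ / 2) ^ β.2 * (β.1 * (ρ / 2) ^ β.1 * (2 * d / ρ)) +
          (ρ / 2) ^ β.1 * (β.2 * (ρ / 2) ^ β.2 * (2 * d / ρ)))
        = m * (((β.1 : ℝ≥0) + β.2) * (ρ / 2) ^ (β.1 + β.2)) * (2 * d / ρ) := by ring
      _ ≤ m * ρ ^ (β.1 + β.2) * (2 * d / ρ) := by (clear * - h4; gcongr)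

end

section
variable {V R : Type} [NormedAddCommGroup V] [NormedSpace ℂ V] [FiniteDimensional ℂ V]
  [NormedCommRing R] [NormedAlgebra ℂ R] [NormOneClass R] [CompleteSpace R]
  [SecondCountableTopology R] [MeasurableSpace R] [BorelSpace R]

theorem EN.psr {K : Set V} {ρ M : ℝ≥0} {a : ℕ × ℕ → V → R} {m : ℕ × ℕ → ℝ≥0}
    (ha : ∀ β, EN K (a β) (m β)) (hs : Summable (fun β => m β * ρ ^ (β.1 + β.2)))
    (hM : ∑' β, m β * ρ ^ (β.1 + β.2) ≤ M) {x : Fin 2 → V → R} (hx : ∀ i, EN K (x i) ρ) :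
    EN K (Vale.Agent.P290.K.psr a x) M :=
  (EN.tsum_prod (fun β => EN.psr_term (ha β) hx β) hs).mono hM

/-- Lipschitz estimate -/
theorem EN.psr_sub {K : Set V} {ρ M : ℝ≥0} (hρ : 0 < ρ) {a : ℕ × ℕ → V → R} {m : ℕ × ℕ → ℝ≥0}
    (ha : ∀ β, EN K (a β) (m β)) (hs : Summable (fun β => m β * ρ ^ (β.1 + β.2)))
    (hM : ∑' β, m β * ρ ^ (β.1 + β.2) ≤ M) {x y : Fin 2 → V → R} (hx : ∀ i, EN K (x i) (ρ / 2))
    (hy : ∀ i, EN K (y i) (ρ / 2)) {d : ℝ≥0} (hd : ∀ i, EN K (fun z => y i z - x i z) d) :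
    EN K (fun z => Vale.Agent.P290.K.psr a y z - Vale.Agent.P290.K.psr a x z) (2 * M * d / ρ) := by
  have hρ2 : ρ / 2 ≤ ρ := half_le_self ρ.2
  have h1 := EN.tsum_prod (fun β => EN.term_sub hρ (ha β) hx hy hd β) (hs.mul_right (2 * d / ρ))
  refine (h1.congr fun z hz => ?_).mono ?_
  · have hy' := EN.summable_pt (fun β => EN.psr_term (ha β) (fun i => (hy i).mono hρ2) β) hs hz
    have hx' := EN.summable_pt (fun β => EN.psr_term (ha β) (fun i => (hx i).mono hρ2) β) hs hz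
    exact hy'.tsum_sub hx'
  · rw [NNReal.tsum_mul_right]
    calc (∑' β : ℕ × ℕ, m β * ρ ^ (β.1 + β.2)) * (2 * d / ρ) ≤ M * (2 * d / ρ) := by (clear * - hM; gcongr)
      _ = 2 * M * d / ρ := by ring

private theorem geom_le : ∑' n : ℕ, (1 / 4 : ℝ≥0) ^ n ≤ 2 := by
  rw [tsum_geometric_nnreal (by rw [← NNReal.coe_lt_coe]; norm_num)]
  rw [← NNReal.coe_le_coe]
  have : ((1 - 1 / 4 : ℝ≥0) : ℝ) = 3 / 4 := by
    rw [NNReal.coe_sub (by rw [← NNReal.coe_le_coe]; (clear * -; norm_num))]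
    norm_num
  rw [NNReal.coe_inv, this]
  norm_num

private theorem summable_geom (M : ℝ≥0) : Summable (fun n : ℕ => M * (1 / 4) ^ n) := by
  have h1 : Summable (fun n : ℕ => (1 / 4 : ℝ≥0) ^ n) :=
    NNReal.summable_geometric (by
      rw [← NNReal.coe_lt_coe]
      norm_num)
  exact h1.mul_left M

private theorem EN.tail {B : Set V} {M : ℝ≥0} {v : ℕ → V → R}
    (hv : ∀ n, EN B (v n) (M * (1 / 4) ^ n)) (n : ℕ) :
    EN B (fun z => ∑' k, v k z - ∑ k ∈ Finset.range n, v k z) (2 * (M * (1 / 4) ^ n)) := by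
  have hMs := summable_geom M
  have hMs' : Summable (fun k => M * (1 / 4 : ℝ≥0) ^ (k + n)) :=
    (summable_geom (M * (1 / 4) ^ n)).congr fun k => by
      rw [pow_add]
      ring
  have h1 : EN B (fun z => ∑' k, v (k + n) z) (∑' k, M * (1 / 4 : ℝ≥0) ^ (k + n)) :=
    EN.tsum (g := fun k => v (k + n)) (fun k => hv (k + n)) hMs'
  have h4 : ∑' k : ℕ, M * (1 / 4 : ℝ≥0) ^ (k + n) ≤ 2 * (M * (1 / 4) ^ n) := by
    have h2 : ∀ k, M * (1 / 4 : ℝ≥0) ^ (k + n) = M * (1 / 4) ^ n * (1 / 4) ^ k := fun k => by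
      rw [pow_add]
      ring
    have h5 : ∑' k : ℕ, M * (1 / 4 : ℝ≥0) ^ (k + n) =
        M * (1 / 4) ^ n * ∑' k : ℕ, (1 / 4 : ℝ≥0) ^ k := by
      rw [← NNReal.tsum_mul_left]
      exact tsum_congr h2
    rw [h5, mul_comm 2]
    exact mul_le_mul_right geom_le _
  have h6 : ∀ z ∈ B, ∑' k, v (k + n) z = ∑' k, v k z - ∑ k ∈ Finset.range n, v k z := by
    intro z hz
    have h3 := (EN.summable_pt hv hMs hz).sum_add_tsum_nat_add n
    exact eq_sub_of_add_eq' h3
  exact (h1.congr h6).mono h4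

private theorem exists_split_seq (F : Fin 2 → (Fin 2 → V → R) → V → R)
    (sp : (V → R) → ℝ≥0 → (V → R) × (V → R)) (Mn : ℕ → ℝ≥0) :
    ∃ tn dn un vn : ℕ → Fin 2 → V → R, (∀ n i, un n i = (sp (dn n i) (Mn n)).1) ∧
      (∀ n i, vn n i = (sp (dn n i) (Mn n)).2) ∧ (tn 0 = fun _ _ => 0) ∧
      (∀ n, tn (n + 1) = fun i z => tn n i z + vn n i z) ∧
      (∀ i, dn 0 i = F i (tn 0)) ∧
      ∀ n i, dn (n + 1) i = fun z => F i (tn (n + 1)) z - F i (tn n) z := by
  let st : ℕ → (Fin 2 → V → R) × (Fin 2 → V → R) := fun n =>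
    Nat.rec ((fun _ _ => 0), fun i => F i (fun _ _ => 0))
      (fun n p => ((fun i z => p.1 i z + (sp (p.2 i) (Mn n)).2 z),
        fun i z => F i (fun i z => p.1 i z + (sp (p.2 i) (Mn n)).2 z) z -
          F i p.1 z)) n
  exact ⟨fun n => (st n).1, fun n => (st n).2, fun n i => (sp ((st n).2 i) (Mn n)).1,
    fun n i => (sp ((st n).2 i) (Mn n)).2, fun _ _ => rfl, fun _ _ => rfl, rfl, fun _ => rfl,
    fun _ => rfl, fun _ _ => rfl⟩

/-- Nonlinear splitting -/
theorem EN.nonlinear_split {A B : Set V} (hA : Good A) (hB : Good B) (hAB : Convex ℝ (A ∪ B))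
    {ρ M : ℝ≥0} (hρ : 0 < ρ) (hMρ : 8 * M ≤ ρ)
    {a : Fin 2 → ℕ × ℕ → V → R} {m : Fin 2 → ℕ × ℕ → ℝ≥0}
    (ha : ∀ i β, EN (A ∩ B) (a i β) (m i β))
    (hs : ∀ i, Summable (fun β => m i β * ρ ^ (β.1 + β.2)))
    (hM : ∀ i, ∑' β, m i β * ρ ^ (β.1 + β.2) ≤ M) :
    ∃ α τ : Fin 2 → V → R, (∀ i, EN A (α i) (2 * M)) ∧ (∀ i, EN B (τ i) (2 * M)) ∧
      ∀ i, ∀ z ∈ A ∩ B, α i z - τ i z = Vale.Agent.P290.K.psr (a i) τ z := by
  classical
  -- the splitting operator
  have hsp : ∀ (g : V → R) (L : ℝ≥0), ∃ uv : (V → R) × (V → R), EN (A ∩ B) g L →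
      EN A uv.1 L ∧ EN B uv.2 L ∧ ∀ z ∈ A ∩ B, g z = uv.1 z - uv.2 z := by
    intro g L
    by_cases h : EN (A ∩ B) g L
    · obtain ⟨u, v, hu, hv, huv⟩ := EN.split hA hB hAB h
      exact ⟨(u, v), fun _ => ⟨hu, hv, huv⟩⟩
    · exact ⟨(0, 0), fun h' => absurd h' h⟩
  choose sp hsp using hsp
  set Mn : ℕ → ℝ≥0 := fun n => M * (1 / 4) ^ n with hMn
  -- the sequence
  obtain ⟨tn, dn, un, vn, hun, hvn, ht0, hts, hd0, hds⟩ :=
    exists_split_seq (fun i x => Vale.Agent.P290.K.psr (a i) x) sp Mn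
  -- sums
  have hMs : Summable Mn := summable_geom M
  have hg := geom_le
  have hM2 : ∑' n, Mn n ≤ 2 * M := by
    rw [hMn, NNReal.tsum_mul_left]
    calc M * ∑' n : ℕ, (1 / 4 : ℝ≥0) ^ n ≤ M * 2 := by (clear * - hg; gcongr)
      _ = 2 * M := mul_comm _ _
  have hpart : ∀ n, ∑ k ∈ Finset.range n, Mn k ≤ 2 * M := fun n =>
    (hMs.sum_le_tsum _ (fun _ _ => zero_le)).trans hM2
  have h2ρ : 2 * M ≤ ρ / 2 := by
    rw [← NNReal.coe_le_coe] at hMρ ⊢
    push_cast at hMρ ⊢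
    have := M.2
    linarith only [hMρ]
  have hstep : ∀ n, 2 * M * Mn n / ρ ≤ Mn (n + 1) := by
    intro n
    have h1 : 2 * M * Mn n / ρ = (8 * M / ρ) * (Mn n * (1 / 4)) := by
      rw [← NNReal.coe_inj]
      push_cast
      ring
    have h2 : Mn (n + 1) = 1 * (Mn n * (1 / 4)) := by
      simp only [hMn, pow_succ]
      ring
    rw [h1, h2]
    have h3 : 8 * M / ρ ≤ 1 := div_le_one_of_le₀ hMρ zero_le
    (clear * - h3; gcongr)
  -- the invariants
  have hinv : ∀ n, (∀ i, EN (A ∩ B) (dn n i) (Mn n)) ∧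
      ∀ i, EN B (tn n i) (∑ k ∈ Finset.range n, Mn k) := by
    intro n
    induction n with
    | zero =>
      refine ⟨fun i => ?_, fun i => ?_⟩
      · rw [hd0, ht0]
        refine (EN.psr (ha i) (hs i) (hM i) (fun j => (EN.zero (A ∩ B)).mono zero_le)).mono ?_
        simp only [hMn, one_div, inv_pow, pow_zero, inv_one, mul_one, Std.le_refl]
      · rw [ht0]
        simpa using EN.zero B
    | succ n ih =>
      obtain ⟨ihd, iht⟩ := ih
      have htB : ∀ i, EN B (tn (n + 1) i) (∑ k ∈ Finset.range (n + 1), Mn k) := fun i => by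
        rw [hts, Finset.sum_range_succ]
        refine (iht i).add ?_
        rw [hvn]
        exact (hsp _ _ (ihd i)).2.1
      refine ⟨fun i => ?_, htB⟩
      rw [hds]
      refine (EN.psr_sub hρ (ha i) (hs i) (hM i) (x := tn n) (y := tn (n + 1)) (d := Mn n)
        (fun j => ((iht j).mono_set inter_subset_right).mono ((hpart n).trans h2ρ))
        (fun j => ((htB j).mono_set inter_subset_right).mono ((hpart (n + 1)).trans h2ρ))
        (fun j => ?_)).mono (hstep n)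
      refine ((hsp _ _ (ihd j)).2.1.mono_set inter_subset_right).congr fun z _ => ?_
      rw [hts, ← hvn]
      show vn n j z = tn n j z + vn n j z - tn n j z
      ring
  have hu : ∀ n i, EN A (un n i) (Mn n) := fun n i => by
    rw [hun]
    exact (hsp _ _ ((hinv n).1 i)).1
  have hv : ∀ n i, EN B (vn n i) (Mn n) := fun n i => by
    rw [hvn]
    exact (hsp _ _ ((hinv n).1 i)).2.1
  have huv : ∀ n i, ∀ z ∈ A ∩ B, dn n i z = un n i z - vn n i z := fun n i => by
    rw [hun, hvn]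
    exact (hsp _ _ ((hinv n).1 i)).2.2
  -- the limits
  have hτEN : ∀ i, EN B (fun z => ∑' n, vn n i z) (2 * M) := fun i =>
    (EN.tsum (fun n => hv n i) hMs).mono hM2
  refine ⟨fun i z => ∑' n, un n i z, fun i z => ∑' n, vn n i z,
    fun i => (EN.tsum (fun n => hu n i) hMs).mono hM2, hτEN, ?_⟩
  intro i z hz
  have hus : Summable (fun n => un n i z) := EN.summable_pt (fun n => hu n i) hMs hz.1
  have hvs : ∀ j, ∀ y ∈ B, Summable (fun n => vn n j y) := fun j y hy =>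
    EN.summable_pt (fun n => hv n j) hMs hy
  have hd : HasSum (fun n => dn n i z) (∑' n, un n i z - ∑' n, vn n i z) := by
    have h1 : (fun n => dn n i z) = fun n => un n i z - vn n i z := by
      funext n
      exact huv n i z hz
    rw [h1]
    exact hus.hasSum.sub (hvs i z hz.2).hasSum
  have hlim1 : Tendsto (fun n => Vale.Agent.P290.K.psr (a i) (tn n) z) atTop
      (𝓝 (∑' n, un n i z - ∑' n, vn n i z)) := by
    have h1 := (tendsto_add_atTop_iff_nat 1).2 hd.tendsto_sum_nat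
    refine h1.congr fun n => ?_
    induction n with
    | zero => simp only [zero_add, Finset.range_one, Finset.sum_singleton, hd0]
    | succ n ih =>
      rw [Finset.sum_range_succ, ih, hds]
      ring
  -- the difference `τ - τ_n`
  have htsum : ∀ n j z, tn n j z = ∑ k ∈ Finset.range n, vn k j z := by
    intro n
    induction n with
    | zero => intro j z; simp [ht0]
    | succ n ih =>
      intro j z
      rw [hts, Finset.sum_range_succ, ← ih]
  have hdiff : ∀ n j, EN B (fun z => ∑' k, vn k j z - tn n j z) (2 * Mn n) := by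
    intro n j
    refine (EN.tail (M := M) (v := fun k => vn k j) (fun k => hv k j) n).congr fun z _ => ?_
    rw [htsum]
  have hlim2 : Tendsto (fun n => Vale.Agent.P290.K.psr (a i) (tn n) z) atTop
      (𝓝 (Vale.Agent.P290.K.psr (a i) (fun j z => ∑' n, vn n j z) z)) := by
    rw [tendsto_iff_norm_sub_tendsto_zero]
    have hb : ∀ n, ‖Vale.Agent.P290.K.psr (a i) (tn n) z -
        Vale.Agent.P290.K.psr (a i) (fun j z => ∑' n, vn n j z) z‖ ≤
        ((2 * M * 2 / ρ * Mn n : ℝ≥0) : ℝ) := by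
      intro n
      have h1 := EN.psr_sub hρ (ha i) (hs i) (hM i) (x := tn n)
        (y := fun j z => ∑' n, vn n j z) (d := 2 * Mn n)
        (fun j => (((hinv n).2 j).mono_set inter_subset_right).mono ((hpart n).trans h2ρ))
        (fun j => ((hτEN j).mono_set inter_subset_right).mono h2ρ)
        (fun j => (hdiff n j).mono_set inter_subset_right)
      have h2 := h1.bound hz
      rw [norm_sub_rev]
      refine h2.trans (le_of_eq ?_)
      rw [NNReal.coe_inj]
      ring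
    have hM0 : Tendsto (fun n => ((2 * M * 2 / ρ * Mn n : ℝ≥0) : ℝ)) atTop (𝓝 0) := by
      have h1 : Tendsto (fun n => 2 * M * 2 / ρ * Mn n) atTop (𝓝 (2 * M * 2 / ρ * 0)) :=
        (NNReal.tendsto_atTop_zero_of_summable hMs).const_mul _
      rw [mul_zero] at h1
      exact (NNReal.tendsto_coe.2 h1)
    exact squeeze_zero (fun n => norm_nonneg _) hb hM0
  exact tendsto_nhds_unique hlim1 hlim2

end

end Vale.Agent.P290.K
end
end

section

section

open Set Filter Metric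
open scoped Manifold ContDiff Topology

namespace Vale.Agent.P290

/-- first basis vector -/
def E1 : C2 := (1, 0)

/-- second basis vector -/
def E2 : C2 := (0, 1)

theorem C2_eq_sum (u : C2) : u = u.1 • E1 + u.2 • E2 := by
  ext <;> simp only [E1, Prod.smul_mk, smul_eq_mul, mul_one, mul_zero, E2, Prod.mk_add_mk, add_zero, zero_add, Prod.mk.eta]

theorem C2_map_eq {F : Type} [NormedAddCommGroup F] [NormedSpace ℂ F] (A : C2 →L[ℂ] F) (u : C2) :
    A u = u.1 • A E1 + u.2 • A E2 := by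
  conv_lhs => rw [C2_eq_sum u]
  rw [map_add, map_smul, map_smul]

theorem C2_det (A : C2 →L[ℂ] C2) :
    A.det = (A E1).1 * (A E2).2 - (A E2).1 * (A E1).2 := by
  have h := LinearMap.det_toMatrix (Module.Basis.finTwoProd ℂ) (A : C2 →ₗ[ℂ] C2)
  have h2 : A.det = LinearMap.det (A : C2 →ₗ[ℂ] C2) := rfl
  rw [h2, ← h, Matrix.det_fin_two]
  simp only [Fin.isValue, LinearMap.toMatrix_apply, Module.Basis.finTwoProd_zero, ContinuousLinearMap.coe_coe, Module.Basis.coe_finTwoProd_repr, Nat.succ_eq_add_one, Nat.reduceAdd, Matrix.cons_val_zero, Module.Basis.finTwoProd_one, Matrix.cons_val_one, Matrix.cons_val_fin_one, E1, E2]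

theorem area_map (A : C2 →L[ℂ] C2) (u w : C2) : area (A u) (A w) = A.det * area u w := by
  rw [C2_det, C2_map_eq A u, C2_map_eq A w]
  simp only [area, Prod.fst_add, Prod.smul_fst, smul_eq_mul, Prod.snd_add, Prod.smul_snd]
  ring

theorem area_ext {a b : C2} (h : ∀ u, area a u = area b u) : a = b := by
  have h0 := h E1
  have h1 := h E2
  simp only [area, E1, mul_zero, mul_one, zero_sub, neg_inj, E2, sub_zero] at h0 h1
  ext
  · exact h1
  · exact h0

theorem area_self (a : C2) : area a a = 0 := by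
  simp only [area]; ring

theorem area_smul_left (c : ℂ) (u v : C2) : area (c • u) v = c * area u v := by
  simp only [area, Prod.smul_fst, Prod.smul_snd, smul_eq_mul]; ring

theorem area_smul_right (c : ℂ) (u v : C2) : area u (c • v) = c * area u v := by
  simp only [area, Prod.smul_fst, Prod.smul_snd, smul_eq_mul]; ring

theorem area_add_right (u v w : C2) : area u (v + w) = area u v + area u w := by
  simp only [area, Prod.fst_add, Prod.snd_add]; ring

theorem area_add_left (a b c : C2) : area (a + b) c = area a c + area b c := by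
  simp only [area, Prod.fst_add, Prod.snd_add]; ring

end Vale.Agent.P290
end
end

section

section

open Set Filter Metric
open scoped Manifold ContDiff Topology

namespace Vale.Agent.P290

section linalg

theorem area_sum_left {J : Type} (s : Finset J) (f : J → C2) (b : C2) :
    area (∑ j ∈ s, f j) b = ∑ j ∈ s, area (f j) b := by
  classical
  induction s using Finset.induction_on with
  | empty => simp only [area, Finset.sum_empty, Prod.fst_zero, zero_mul, Prod.snd_zero, sub_self, Finset.sum_sub_distrib]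
  | insert i s hi ih => rw [Finset.sum_insert hi, Finset.sum_insert hi, area_add_left, ih]

theorem area_swap (a b : C2) : area a b = - area b a := by
  simp only [area]; ring

theorem area_triple (a b u : C2) : area a b • u = area u b • a + area a u • b := by
  ext <;> simp only [area, Prod.smul_fst, Prod.smul_snd, Prod.fst_add, Prod.snd_add,
    smul_eq_mul] <;> ring

theorem clm_pi_eq {J : Type} [Fintype J] [DecidableEq J] (D : (J → ℂ) →L[ℂ] C2) (u : J → ℂ) :
    D u = ∑ k, u k • D (Pi.single k 1) := by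
  conv_lhs => rw [← Finset.univ_sum_single u]
  rw [map_sum]
  refine Finset.sum_congr rfl fun k _ => ?_
  rw [← map_smul]
  congr 1
  ext l
  by_cases h : l = k
  · subst h; simp
  · simp [h]

end linalg

section

variable {X V J : Type} [TopologicalSpace X] [ChartedSpace C2 X]
    [IsManifold 𝓘(ℂ, C2) 1 X] [NormedAddCommGroup V] [NormedSpace ℂ V]
    [Fintype J]

/-- derivative in a fixed chart -/
theorem mfderiv_eq_fderiv_chart {W : Type} [NormedAddCommGroup W] [NormedSpace ℂ W]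
    {s : W → X} {w₀ : W} (hs : MDifferentiableAt 𝓘(ℂ, W) 𝓘(ℂ, C2) s w₀) :
    (mfderiv 𝓘(ℂ, W) 𝓘(ℂ, C2) s w₀ : W →L[ℂ] C2) =
      fderiv ℂ (fun w => chartAt C2 (s w₀) (s w)) w₀ := by
  rw [hs.mfderiv]
  simp only [writtenInExtChartAt, extChartAt, mfld_simps, fderivWithin_univ]
  rfl

theorem diffAt_chart {W : Type} [NormedAddCommGroup W] [NormedSpace ℂ W]
    {s : W → X} {w₀ : W} (hs : MDifferentiableAt 𝓘(ℂ, W) 𝓘(ℂ, C2) s w₀)
    {e : OpenPartialHomeomorph X C2} (he : e ∈ atlas C2 X) (h : s w₀ ∈ e.source) :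
    DifferentiableAt ℂ (fun w => e (s w)) w₀ :=
  ((mdifferentiableAt_atlas (I := 𝓘(ℂ, C2)) he h).comp w₀ hs).differentiableAt

theorem fderiv_chart_change {W : Type} [NormedAddCommGroup W] [NormedSpace ℂ W]
    {s : W → X} {w₀ : W} (hs : MDifferentiableAt 𝓘(ℂ, W) 𝓘(ℂ, C2) s w₀)
    {e e' : OpenPartialHomeomorph X C2} (he : e ∈ atlas C2 X) (he' : e' ∈ atlas C2 X)
    (h : s w₀ ∈ e.source) (h' : s w₀ ∈ e'.source) :
    fderiv ℂ (fun w => e' (s w)) w₀ =
      (fderiv ℂ (fun q => e' (e.symm q)) (e (s w₀))).comp (fderiv ℂ (fun w => e (s w)) w₀) := by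
  have h1 : DifferentiableAt ℂ (fun w => e (s w)) w₀ := diffAt_chart hs he h
  have h2 : DifferentiableAt ℂ (fun q => e' (e.symm q)) (e (s w₀)) := by
    refine differentiableAt_transition he he' (e.map_source h) ?_
    rw [e.left_inv h]; exact h'
  have h3 : (fun w => e' (s w)) =ᶠ[𝓝 w₀] (fun q => e' (e.symm q)) ∘ (fun w => e (s w)) := by
    filter_upwards [hs.continuousAt.preimage_mem_nhds (e.open_source.mem_nhds h)] with w hw
    simp only [Function.comp_apply]
    rw [e.left_inv hw]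
  rw [h3.fderiv_eq]
  exact fderiv_comp w₀ h2 h1

/-- the volume of two derivatives of a spray is holomorphic in the parameter -/
theorem holNear_vol_area [DecidableEq J] (vol : VolForm X) {Q : Set V}
    (S : V × (J → ℂ) → X) (hS : MHolNear C2 (Q ×ˢ {(0 : J → ℂ)}) S)
    (D : V → (J → ℂ) →L[ℂ] C2)
    (hD : ∀ z, D z = mfderiv 𝓘(ℂ, J → ℂ) 𝓘(ℂ, C2) (fun w => S (z, w)) 0) (i j : J) :
    HolNear Q (fun z => vol.coef (chartAt C2 (S (z, 0))) (chartAt C2 (S (z, 0)) (S (z, 0))) *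
      area (D z (Pi.single i 1)) (D z (Pi.single j 1))) := by
  rw [HolNear, eventually_nhdsSet_iff_forall]
  intro z₀ hz₀
  have hS0 : ∀ᶠ p in 𝓝 (z₀, (0 : J → ℂ)), MDifferentiableAt 𝓘(ℂ, V × (J → ℂ)) 𝓘(ℂ, C2) S p :=
    eventually_nhdsSet_iff_forall.1 hS (z₀, 0) ⟨hz₀, rfl⟩
  obtain ⟨W, hWs, hWo, hW⟩ := _root_.eventually_nhds_iff.1 hS0
  -- it suffices to treat every point near z₀
  have hi : ContinuousAt (fun z : V => (z, (0 : J → ℂ))) z₀ := by fun_prop
  filter_upwards [hi.preimage_mem_nhds (hWo.mem_nhds hW)] with z₁ hz₁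
  set x₁ := S (z₁, 0) with hx₁
  set e := chartAt C2 x₁ with he
  have hea : e ∈ atlas C2 X := chart_mem_atlas _ _
  have hxe : x₁ ∈ e.source := mem_chart_source _ _
  have hSc : ContinuousAt S (z₁, 0) := (hWs _ hz₁).continuousAt
  have hev : ∀ᶠ p in 𝓝 (z₁, (0 : J → ℂ)), p ∈ W ∧ S p ∈ e.source :=
    Filter.Eventually.and (hWo.mem_nhds (show (z₁, (0 : J → ℂ)) ∈ W from hz₁))
      (hSc.preimage_mem_nhds (e.open_source.mem_nhds hxe))
  have hi1 : ContinuousAt (fun z : V => (z, (0 : J → ℂ))) z₁ := by fun_prop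
  have hev1 : ∀ᶠ z in 𝓝 z₁, (z, (0 : J → ℂ)) ∈ W ∧ S (z, 0) ∈ e.source := hi1.eventually hev
  -- the derivatives in the fixed chart
  set v : J → V → C2 := fun k z => deriv (fun w : ℂ => e (S (z, w • Pi.single k 1))) 0 with hv
  have hvd : ∀ k, DifferentiableAt ℂ (v k) z₁ := by
    intro k
    refine differentiableAt_deriv_of_prod (z₀ := z₁) (w₀ := 0)
      (G := fun p : V × ℂ => e (S (p.1, p.2 • (Pi.single k (1 : ℂ) : J → ℂ)))) ?_
    have hc : ContinuousAt (fun p : V × ℂ => (p.1, p.2 • (Pi.single k (1 : ℂ) : J → ℂ)))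
        (z₁, 0) := by (clear * -; fun_prop)
    have h0 : (fun p : V × ℂ => (p.1, p.2 • (Pi.single k (1 : ℂ) : J → ℂ))) (z₁, 0) =
        (z₁, 0) := by simp
    have h1 : ∀ᶠ p : V × ℂ in 𝓝 (z₁, 0), (p.1, p.2 • (Pi.single k (1 : ℂ) : J → ℂ)) ∈ W ∧
        S (p.1, p.2 • (Pi.single k (1 : ℂ) : J → ℂ)) ∈ e.source := by
      have hev' : ∀ᶠ q in 𝓝 ((fun p : V × ℂ => (p.1, p.2 • (Pi.single k (1 : ℂ) : J → ℂ)))
          (z₁, 0)), q ∈ W ∧ S q ∈ e.source := by
        rw [h0]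
        exact hev
      exact Filter.Tendsto.eventually (p := fun q => q ∈ W ∧ S q ∈ e.source) hc hev'
    filter_upwards [h1] with p hp
    have h2 : DifferentiableAt ℂ
        (fun p : V × ℂ => (p.1, p.2 • (Pi.single k (1 : ℂ) : J → ℂ))) p := by (clear * -; fun_prop)
    exact diffAt_chart ((hWs _ hp.1).comp p h2.mdifferentiableAt) hea hp.2
  -- the comparison
  have hcmp : ∀ᶠ z in 𝓝 z₁,
      vol.coef (chartAt C2 (S (z, 0))) (chartAt C2 (S (z, 0)) (S (z, 0))) *
        area (D z (Pi.single i 1)) (D z (Pi.single j 1)) =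
      vol.coef e (e (S (z, 0))) * area (v i z) (v j z) := by
    filter_upwards [hev1] with z hz
    have hsz : MDifferentiableAt 𝓘(ℂ, J → ℂ) 𝓘(ℂ, C2) (fun w => S (z, w)) 0 := by
      have h2 : DifferentiableAt ℂ (fun w : J → ℂ => (z, w)) 0 := by fun_prop
      exact (hWs _ hz.1).comp (0 : J → ℂ) h2.mdifferentiableAt
    have h3 : D z = fderiv ℂ (fun w => chartAt C2 (S (z, 0)) (S (z, w))) 0 := by
      rw [hD z]
      exact mfderiv_eq_fderiv_chart hsz
    have h4 := fderiv_chart_change hsz hea (chart_mem_atlas C2 (S (z, 0))) hz.2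
      (mem_chart_source C2 _)
    have h5 : ∀ k, fderiv ℂ (fun w => e (S (z, w))) 0 (Pi.single k 1) = v k z := by
      intro k
      have h6 : HasDerivAt (fun w : ℂ => w • (Pi.single k (1 : ℂ) : J → ℂ))
          (Pi.single k (1 : ℂ) : J → ℂ) 0 := by
        simpa using (hasDerivAt_id (0 : ℂ)).smul_const (Pi.single k (1 : ℂ) : J → ℂ)
      have h7 : DifferentiableAt ℂ (fun w => e (S (z, w))) ((0 : ℂ) • (Pi.single k (1 : ℂ) : J → ℂ)) := by
        rw [zero_smul]
        exact diffAt_chart hsz hea hz.2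
      have h8 := h7.hasFDerivAt.comp_hasDerivAt (0 : ℂ) h6
      rw [zero_smul] at h8
      exact h8.deriv.symm
    have h9 := vol.compat e hea _ (chart_mem_atlas C2 (S (z, 0))) (e (S (z, 0)))
      (e.map_source hz.2) (by rw [e.left_inv hz.2]; exact mem_chart_source C2 _)
    rw [e.left_inv hz.2] at h9
    rw [h3, h4]
    simp only [ContinuousLinearMap.comp_apply]
    rw [h5, h5, area_map, h9]
    ring
  have hcd : DifferentiableAt ℂ (fun z => vol.coef e (e (S (z, 0)))) z₁ := by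
    have h2 : DifferentiableAt ℂ (fun z : V => (z, (0 : J → ℂ))) z₁ := by (clear * -; fun_prop)
    have h3 : DifferentiableAt ℂ (fun z => e (S (z, 0))) z₁ :=
      diffAt_chart ((hWs _ hz₁).comp z₁ h2.mdifferentiableAt) hea hxe
    have h4 : DifferentiableAt ℂ (vol.coef e) (e (S (z₁, 0))) :=
      (vol.holo e hea).differentiableAt (e.open_target.mem_nhds (e.map_source hxe))
    exact DifferentiableAt.comp (f := fun z => e (S (z, 0))) z₁ h4 h3
  refine DifferentiableAt.congr_of_eventuallyEq ?_ hcmp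
  refine hcd.mul ?_
  exact ((hvd i).fst.mul (hvd j).snd).sub ((hvd i).snd.mul (hvd j).fst)

end

/-- holomorphic projectors complementary to the kernel of a surjective family of derivatives -/
theorem exists_projector {X V J : Type} [TopologicalSpace X] [ChartedSpace C2 X]
    [IsManifold 𝓘(ℂ, C2) 1 X] [NormedAddCommGroup V] [NormedSpace ℂ V]
    [FiniteDimensional ℂ V] [Fintype J] (vol : VolForm X) {Q : Set V} (hQ : Good Q)
    (S : V × (J → ℂ) → X) (hS : MHolNear C2 (Q ×ˢ {(0 : J → ℂ)}) S)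
    (D : V → (J → ℂ) →L[ℂ] C2)
    (hD : ∀ z, D z = mfderiv 𝓘(ℂ, J → ℂ) 𝓘(ℂ, C2) (fun w => S (z, w)) 0)
    (hsurj : ∀ z ∈ Q, Function.Surjective (D z)) :
    ∃ P : V → (J → ℂ) →L[ℂ] (J → ℂ), HolNear Q P ∧
      ∀ᶠ z in 𝓝ˢ Q, Function.Surjective (D z) ∧ (∀ u, D z (P z u) = D z u) ∧
        (∀ u, D z u = 0 → P z u = 0) := by
  classical
  set κ : V → ℂ := fun z =>
    vol.coef (chartAt C2 (S (z, 0))) (chartAt C2 (S (z, 0)) (S (z, 0))) with hκ
  have hκ0 : ∀ z, κ z ≠ 0 := fun z =>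
    vol.ne_zero _ (chart_mem_atlas C2 _) _ (mem_chart_target C2 _)
  set v : J → V → C2 := fun k z => D z (Pi.single k 1) with hv
  set g : J × J → V → ℂ := fun p z => κ z * area (v p.1 z) (v p.2 z) with hg
  have hgh : ∀ p, HolNear Q (g p) := fun p => holNear_vol_area vol S hS D hD p.1 p.2
  have hne : ∀ z ∈ Q, ∃ p, g p z ≠ 0 := by
    intro z hz
    by_contra hcon
    push Not at hcon
    have h1 : ∀ i j, area (v i z) (v j z) = 0 := by
      intro i j
      have := hcon (i, j)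
      simp only [hg] at this
      exact (mul_eq_zero.1 this).resolve_left (hκ0 z)
    have h2 : ∀ u u', area (D z u) (D z u') = 0 := by
      intro u u'
      rw [clm_pi_eq (D z) u, area_sum_left]
      refine Finset.sum_eq_zero fun i _ => ?_
      rw [area_smul_left, area_swap, clm_pi_eq (D z) u', area_sum_left]
      have : ∑ j, area (u' j • D z (Pi.single j 1)) (D z (Pi.single i 1)) = 0 := by
        refine Finset.sum_eq_zero fun j _ => ?_
        rw [area_smul_left]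
        have := h1 j i
        simp only [hv] at this
        rw [this, mul_zero]
      rw [this, neg_zero, mul_zero]
    obtain ⟨u, hu⟩ := hsurj z hz E1
    obtain ⟨u', hu'⟩ := hsurj z hz E2
    have h3 := h2 u u'
    rw [hu, hu'] at h3
    simp only [area, E1, E2, mul_one, mul_zero, sub_zero, one_ne_zero] at h3
  obtain ⟨c, hc, hcg⟩ := hQ.bezout g hgh hne
  -- the reproducing identity
  have hrep : ∀ z, ∑ p, c p z * g p z = 1 → ∀ y : C2,
      y = ∑ p : J × J, (c p z * κ z) • (area y (v p.2 z) • v p.1 z + area (v p.1 z) y • v p.2 z) := by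
    intro z hz y
    have h1 : ∀ p : J × J, (c p z * κ z) •
        (area y (v p.2 z) • v p.1 z + area (v p.1 z) y • v p.2 z) = (c p z * g p z) • y := by
      intro p
      rw [← area_triple, smul_smul]
      congr 1
      simp only [hg]
      ring
    rw [Finset.sum_congr rfl fun p _ => h1 p, ← Finset.sum_smul, hz, one_smul]
  set M : J → J → V → ℂ := fun i k z => ∑ j, (c (i, j) z - c (j, i) z) * g (k, j) z with hM
  have hMh : ∀ i k, HolNear Q (M i k) := fun i k =>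
    HolNear.fsum _ fun j => ((hc (i, j)).fsub (hc (j, i))).fmul (hgh (k, j))
  let E : J → J → ((J → ℂ) →L[ℂ] (J → ℂ)) := fun i k =>
    (ContinuousLinearMap.proj (R := ℂ) (φ := fun _ : J => ℂ) k).smulRight (Pi.single i (1 : ℂ))
  have hE : ∀ i k u, E i k u = u k • Pi.single i (1 : ℂ) := fun i k u => rfl
  refine ⟨fun z => ∑ i, ∑ k, M i k z • E i k, ?_, ?_⟩
  · have h1 : ∀ᶠ z in 𝓝ˢ Q, ∀ i ∈ (Finset.univ : Finset J), ∀ k ∈ (Finset.univ : Finset J),
        DifferentiableAt ℂ (M i k) z :=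
      (Finset.eventually_all _).2 fun i _ => (Finset.eventually_all _).2 fun k _ => hMh i k
    filter_upwards [h1] with z hz
    refine DifferentiableAt.fun_sum fun i hi => DifferentiableAt.fun_sum fun k hk => ?_
    exact (hz i hi k hk).smul_const _
  · filter_upwards [hcg] with z hz
    have hDsum : ∀ (a : J × J → ℂ) (b : J × J → ℂ),
        D z (∑ p : J × J, (a p • Pi.single p.1 (1 : ℂ) + b p • Pi.single p.2 (1 : ℂ))) =
          ∑ p : J × J, (a p • v p.1 z + b p • v p.2 z) := by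
      intro a b
      rw [map_sum]
      refine Finset.sum_congr rfl fun p _ => ?_
      rw [map_add, map_smul, map_smul]
    -- the coordinates of the projector
    have hPc : ∀ u : J → ℂ, (∑ i, ∑ k, M i k z • E i k : (J → ℂ) →L[ℂ] (J → ℂ)) u =
        ∑ i, (∑ j, (c (i, j) z - c (j, i) z) * (κ z * area (D z u) (v j z))) •
          Pi.single i (1 : ℂ) := by
      intro u
      rw [ContinuousLinearMap.sum_apply]
      refine Finset.sum_congr rfl fun i _ => ?_
      rw [ContinuousLinearMap.sum_apply]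
      have h1 : ∀ k, (M i k z • E i k) u = (M i k z * u k) • Pi.single i (1 : ℂ) := by
        intro k
        rw [ContinuousLinearMap.smul_apply, hE, smul_smul]
      rw [Finset.sum_congr rfl fun k _ => h1 k, ← Finset.sum_smul]
      congr 1
      simp only [hM]
      simp_rw [Finset.sum_mul]
      rw [Finset.sum_comm]
      refine Finset.sum_congr rfl fun j _ => ?_
      rw [clm_pi_eq (D z) u, area_sum_left, Finset.mul_sum, Finset.mul_sum]
      refine Finset.sum_congr rfl fun k _ => ?_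
      rw [area_smul_left]
      simp only [hg, hv]
      ring
    refine ⟨?_, ?_, ?_⟩
    · intro y
      refine ⟨∑ p : J × J, ((c p z * κ z * area y (v p.2 z)) • Pi.single p.1 (1 : ℂ) +
        (c p z * κ z * area (v p.1 z) y) • Pi.single p.2 (1 : ℂ)), ?_⟩
      rw [hDsum]
      conv_rhs => rw [hrep z hz y]
      refine Finset.sum_congr rfl fun p _ => ?_
      rw [smul_add, smul_smul, smul_smul]
    · intro u
      rw [hPc]
      rw [map_sum]
      have h1 : ∀ i, D z ((∑ j, (c (i, j) z - c (j, i) z) * (κ z * area (D z u) (v j z))) •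
          Pi.single i (1 : ℂ)) =
          (∑ j, (c (i, j) z - c (j, i) z) * (κ z * area (D z u) (v j z))) • v i z := by
        intro i
        rw [map_smul]
      rw [Finset.sum_congr rfl fun i _ => h1 i]
      conv_rhs => rw [hrep z hz (D z u)]
      rw [Fintype.sum_prod_type]
      simp only [smul_add, smul_smul, Finset.sum_add_distrib]
      have h2 : ∑ x, ∑ y, (c (x, y) z * κ z * area (v x z) (D z u)) • v y z =
          ∑ x, ∑ y, (c (y, x) z * κ z * area (v y z) (D z u)) • v x z := Finset.sum_comm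
      rw [h2, ← Finset.sum_add_distrib]
      refine Finset.sum_congr rfl fun i _ => ?_
      rw [← Finset.sum_smul, ← Finset.sum_smul, ← add_smul, ← Finset.sum_add_distrib]
      congr 1
      refine Finset.sum_congr rfl fun j _ => ?_
      rw [area_swap (v j z) (D z u)]
      ring
    · intro u hu
      rw [hPc, hu]
      refine Finset.sum_eq_zero fun i _ => ?_
      have : ∑ j, (c (i, j) z - c (j, i) z) * (κ z * area 0 (v j z)) = 0 := by
        refine Finset.sum_eq_zero fun j _ => ?_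
        simp only [area, Prod.fst_zero, zero_mul, Prod.snd_zero, sub_self, mul_zero]
      rw [this, zero_smul]

end Vale.Agent.P290
end
end

section

section

/-! Part F of the Kummer formalisation (helper250): straightening of a path of lattices.
Definitions. -/

open Set Filter Metric
open scoped Manifold ContDiff Topology

namespace Vale.Agent.P290.K

/-- the unit interval as a compact parameter space -/
abbrev UI : Type := ↥(Icc (0 : ℝ) 1)

/-- `f` is Lipschitz on `[0,1]` -/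
def Lip01 {E : Type} [NormedAddCommGroup E] (f : ℝ → E) : Prop :=
  ∃ L : ℝ, ∀ s ∈ Icc (0 : ℝ) 1, ∀ s' ∈ Icc (0 : ℝ) 1, ‖f s - f s'‖ ≤ L * |s - s'|

/-- Coordinates `(X s k, Y s k)`, `k < 4`, of the basis vectors of a path of lattices of `ℂ²`; the
second coordinate of every lattice point has integer imaginary part. -/
structure Coords (X Y : ℝ → Fin 4 → ℂ) : Prop where
  lipX : ∀ k, Lip01 fun s => X s k
  lipY : ∀ k, Lip01 fun s => Y s k
  li : ∀ s ∈ Icc (0 : ℝ) 1, LinearIndependent ℝ fun k => ((X s k, Y s k) : C2)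
  im : ∀ s ∈ Icc (0 : ℝ) 1, ∀ k, (Y s k).im = if k = 3 then 1 else 0

/-- `∑ n_k X_k` -/
noncomputable def cx (X : Fin 4 → ℂ) (n : Fin 4 → ℤ) : ℂ := ∑ k, (n k : ℂ) * X k

/-- the function `exp (cosh 2πy - y²)` -/
noncomputable def uu (y : ℂ) : ℂ := Complex.exp (Complex.cosh (2 * Real.pi * y) - y ^ 2)

/-- the new first coordinate of the lattice points -/
noncomputable def pp (X Y : Fin 4 → ℂ) (t τ : ℂ) (n : Fin 4 → ℤ) : ℂ :=
  (cx X n + t * cx Y n + τ * cx Y n ^ 3) * uu (cx Y n)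

/-- A continuous family (parameter `s ∈ S`) of odd automorphisms `ψ_s` of `ℂ²` with inverses,
homogenised: `Θ s (h, c) = ψ_s (√h c) / √h`. -/
structure IsAutFam {S : Type} [TopologicalSpace S] (Θ Θ' : S → ℂ × C2 → C2) : Prop where
  cont : Continuous fun x : S × (ℂ × C2) => Θ x.1 x.2
  cont' : Continuous fun x : S × (ℂ × C2) => Θ' x.1 x.2
  diff : ∀ s, Differentiable ℂ (Θ s)
  diff' : ∀ s, Differentiable ℂ (Θ' s)
  left : ∀ s x, Θ' s (x.1, Θ s x) = x.2
  right : ∀ s x, Θ s (x.1, Θ' s x) = x.2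
  homog : ∀ s (w h : ℂ) (c : C2), w • Θ s (w ^ 2 * h, c) = Θ s (h, w • c)

end Vale.Agent.P290.K
end
end

section

section

open Set Filter Metric
open scoped Manifold ContDiff Topology

namespace Vale.Agent.P290.K

/-! ### Linear coordinates along a segment of lattices -/

namespace FOne

/-- The projections and coordinate inclusions. -/
noncomputable def P1 : C2 →L[ℂ] C2 := (ContinuousLinearMap.fst ℂ ℂ ℂ).prod 0
noncomputable def P2 : C2 →L[ℂ] C2 := (ContinuousLinearMap.snd ℂ ℂ ℂ).prod 0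
noncomputable def P3 : C2 →L[ℂ] C2 :=
  (0 : C2 →L[ℂ] ℂ).prod (ContinuousLinearMap.fst ℂ ℂ ℂ)
noncomputable def P4 : C2 →L[ℂ] C2 :=
  (0 : C2 →L[ℂ] ℂ).prod (ContinuousLinearMap.snd ℂ ℂ ℂ)

/-- A two by two matrix as a linear map. -/
noncomputable def mat (p q r s : ℂ) : C2 →L[ℂ] C2 := p • P1 + q • P2 + r • P3 + s • P4

theorem mat_apply (p q r s : ℂ) (v : C2) :
    mat p q r s v = (p * v.1 + q * v.2, r * v.1 + s * v.2) := by
  ext <;> simp [mat, P1, P2, P3, P4]

theorem lip_add {E : Type} [NormedAddCommGroup E] {f g : ℝ → E} (hf : Lip01 f) (hg : Lip01 g) :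
    Lip01 fun s => f s + g s := by
  obtain ⟨L, hL⟩ := hf
  obtain ⟨M, hM⟩ := hg
  refine ⟨L + M, fun s hs s' hs' => ?_⟩
  calc ‖f s + g s - (f s' + g s')‖ = ‖(f s - f s') + (g s - g s')‖ := by congr 1; abel
    _ ≤ ‖f s - f s'‖ + ‖g s - g s'‖ := norm_add_le _ _
    _ ≤ L * |s - s'| + M * |s - s'| := add_le_add (hL s hs s' hs') (hM s hs s' hs')
    _ = (L + M) * |s - s'| := by ring

theorem lip_smul {E : Type} [NormedAddCommGroup E] [NormedSpace ℂ E] {f : ℝ → ℂ}
    (hf : Lip01 f) (P : E) : Lip01 fun s => f s • P := by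
  obtain ⟨L, hL⟩ := hf
  refine ⟨L * ‖P‖, fun s hs s' hs' => ?_⟩
  rw [← sub_smul, norm_smul]
  calc ‖f s - f s'‖ * ‖P‖ ≤ (L * |s - s'|) * ‖P‖ := by gcongr; exact hL s hs s' hs'
    _ = _ := by ring

theorem lip_conj {f : ℝ → ℂ} (hf : Lip01 f) : Lip01 fun s => (starRingEnd ℂ) (f s) := by
  obtain ⟨L, hL⟩ := hf
  refine ⟨L, fun s hs s' hs' => ?_⟩
  rw [← map_sub, RCLike.norm_conj]
  exact hL s hs s' hs'

theorem lip_neg {f : ℝ → ℂ} (hf : Lip01 f) : Lip01 fun s => -f s := by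
  obtain ⟨L, hL⟩ := hf
  refine ⟨L, fun s hs s' hs' => ?_⟩
  rw [← neg_sub', norm_neg]
  exact hL s hs s' hs'

theorem lip_cont {E : Type} [NormedAddCommGroup E] {f : ℝ → E} (hf : Lip01 f) :
    ContinuousOn f (Icc (0 : ℝ) 1) := by
  obtain ⟨L, hL⟩ := hf
  have h : LipschitzOnWith (Real.toNNReal L) f (Icc (0 : ℝ) 1) := by
    refine LipschitzOnWith.of_dist_le_mul fun s hs s' hs' => ?_
    rw [dist_eq_norm, dist_eq_norm, Real.norm_eq_abs]
    refine (hL s hs s' hs').trans ?_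
    gcongr
    exact Real.le_coe_toNNReal L
  exact h.continuousOn

theorem lip_bdd {E : Type} [NormedAddCommGroup E] {f : ℝ → E} (hf : Lip01 f) :
    ∃ M : ℝ, ∀ s ∈ Icc (0 : ℝ) 1, ‖f s‖ ≤ M :=
  isCompact_Icc.exists_bound_of_continuousOn (lip_cont hf)

theorem lip_mat {p q r s : ℝ → ℂ} (hp : Lip01 p) (hq : Lip01 q) (hr : Lip01 r) (hs : Lip01 s) :
    Lip01 fun t => mat (p t) (q t) (r t) (s t) :=
  lip_add (lip_add (lip_add (lip_smul hp _) (lip_smul hq _)) (lip_smul hr _)) (lip_smul hs _)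

theorem cont_mat {p q r s : ℝ → ℂ} {U : Set ℝ} (hp : ContinuousOn p U) (hq : ContinuousOn q U)
    (hr : ContinuousOn r U) (hs : ContinuousOn s U) :
    ContinuousOn (fun t => mat (p t) (q t) (r t) (s t)) U := by
  unfold mat
  (clear * - hp hq hr hs; fun_prop)

/-- The frame as a linear map. -/
noncomputable def TT (lam : Fin 4 → C2) : (Fin 4 → ℝ) →L[ℝ] C2 :=
  ∑ k, (ContinuousLinearMap.proj k : (Fin 4 → ℝ) →L[ℝ] ℝ).smulRight (lam k)

theorem TT_apply (lam : Fin 4 → C2) (r : Fin 4 → ℝ) : TT lam r = ∑ k, r k • lam k := by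
  simp only [TT, sum_apply, ContinuousLinearMap.smulRight_apply, ContinuousLinearMap.proj_apply]

theorem TT_single (lam : Fin 4 → C2) (k : Fin 4) : TT lam (Pi.single k 1) = lam k := by
  rw [TT_apply, Finset.sum_eq_single k]
  · simp
  · intro j _ hj
    simp only [Pi.single_eq_of_ne hj, zero_smul]
  · simp

theorem seg_eq (lam₀ lam₁ : Fin 4 → C2) (s : ℝ) (k : Fin 4) :
    seg lam₀ lam₁ s k = lam₀ k + s • (lam₁ k - lam₀ k) := by
  rw [seg]
  ext <;> simp <;> ring

theorem TT_seg (lam₀ lam₁ : Fin 4 → C2) (s : ℝ) :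
    TT (seg lam₀ lam₁ s) = TT lam₀ + s • (TT lam₁ - TT lam₀) := by
  apply ContinuousLinearMap.ext
  intro r
  simp only [_root_.add_apply, _root_.smul_apply,
    _root_.sub_apply, TT_apply, seg_eq, smul_add, smul_sub, Finset.smul_sum,
    Finset.sum_add_distrib, Finset.sum_sub_distrib]
  simp only [smul_comm s]

theorem TT_equiv {lam : Fin 4 → C2} (h : LinearIndependent ℝ lam) :
    ∃ e : (Fin 4 → ℝ) ≃L[ℝ] C2, (e : (Fin 4 → ℝ) →L[ℝ] C2) = TT lam := by
  have hinj : Function.Injective (TT lam : (Fin 4 → ℝ) →ₗ[ℝ] C2) := by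
    rw [← LinearMap.ker_eq_bot, LinearMap.ker_eq_bot']
    intro r hr
    rw [ContinuousLinearMap.coe_coe, TT_apply] at hr
    exact funext (Fintype.linearIndependent_iff.mp h r hr)
  have hfin : Module.finrank ℝ (Fin 4 → ℝ) = Module.finrank ℝ C2 := by
    rw [Module.finrank_fin_fun, Module.finrank_prod, Complex.finrank_real_complex]
  refine ⟨(LinearEquiv.ofInjectiveOfFinrankEq _ hinj hfin).toContinuousLinearEquiv, ?_⟩
  apply ContinuousLinearMap.ext
  intro r
  rfl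

end FOne

open FOne

theorem exists_linear_coords (lam₀ lam₁ : Fin 4 → C2)
    (hLI : ∀ s ∈ Icc (0 : ℝ) 1, LinearIndependent ℝ (seg lam₀ lam₁ s)) :
    ∃ A B : ℝ → C2 →L[ℂ] C2, Lip01 A ∧ ContinuousOn B (Icc (0 : ℝ) 1) ∧
      (∀ s ∈ Icc (0 : ℝ) 1, ∀ c, A s (B s c) = c) ∧ (∀ s ∈ Icc (0 : ℝ) 1, ∀ c, B s (A s c) = c) ∧
      ∀ s ∈ Icc (0 : ℝ) 1, ∀ k, (A s (seg lam₀ lam₁ s k)).2.im = if k = 3 then 1 else 0 := by
  set U : ℝ → C2 →L[ℝ] (Fin 4 → ℝ) := fun s =>
    ContinuousLinearMap.inverse (TT (seg lam₀ lam₁ s)) with hU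
  have hUT : ∀ s ∈ Icc (0 : ℝ) 1, ∀ k, U s (seg lam₀ lam₁ s k) = Pi.single k 1 := by
    intro s hs k
    obtain ⟨e, he⟩ := TT_equiv (hLI s hs)
    have h1 : U s = (e.symm : C2 →L[ℝ] (Fin 4 → ℝ)) := by
      simp only [hU]
      rw [← he, ContinuousLinearMap.inverse_equiv]
    rw [h1]
    have h2 : seg lam₀ lam₁ s k = e (Pi.single k 1) := by
      have h3 := TT_single (seg lam₀ lam₁ s) k
      rw [← he] at h3
      exact h3.symm
    rw [h2]
    simp
  have hUL : Lip01 U := by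
    have hT : ContDiff ℝ 1 (fun s : ℝ => TT (seg lam₀ lam₁ s)) := by
      simp only [TT_seg]
      exact contDiff_const.add (contDiff_id.smul contDiff_const)
    have h1 : ContDiffOn ℝ 1 U (Icc (0 : ℝ) 1) := by
      intro s hs
      obtain ⟨e, he⟩ := TT_equiv (hLI s hs)
      have h2 : ContDiffAt ℝ 1 (ContinuousLinearMap.inverse :
          ((Fin 4 → ℝ) →L[ℝ] C2) → (C2 →L[ℝ] (Fin 4 → ℝ))) (TT (seg lam₀ lam₁ s)) := by
        rw [← he]
        exact contDiffAt_map_inverse e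
      exact (ContDiffAt.comp s h2 hT.contDiffAt).contDiffWithinAt
    obtain ⟨L, hL⟩ := h1.exists_lipschitzOnWith (by norm_num) (convex_Icc 0 1) isCompact_Icc
    refine ⟨L, fun s hs s' hs' => ?_⟩
    have h2 := hL.dist_le_mul s hs s' hs'
    rwa [dist_eq_norm, dist_eq_norm, Real.norm_eq_abs] at h2
  -- the functional
  set ξ : ℝ → C2 → ℝ := fun s v => U s v 3 with hξ
  have hξL : ∀ v, Lip01 fun s => ((ξ s v : ℝ) : ℂ) := by
    intro v
    obtain ⟨L, hL⟩ := hUL
    refine ⟨L * ‖v‖, fun s hs s' hs' => ?_⟩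
    rw [← Complex.ofReal_sub, Complex.norm_real]
    calc ‖ξ s v - ξ s' v‖ = ‖(U s v - U s' v) 3‖ := by simp only [hξ, Fin.isValue, Real.norm_eq_abs, Pi.sub_apply]
      _ ≤ ‖U s v - U s' v‖ := norm_le_pi_norm _ _
      _ = ‖(U s - U s') v‖ := by simp
      _ ≤ ‖U s - U s'‖ * ‖v‖ := ContinuousLinearMap.le_opNorm _ _
      _ ≤ (L * |s - s'|) * ‖v‖ := by gcongr; exact hL s hs s' hs'
      _ = _ := by ring
  set a : ℝ → ℂ := fun s => (ξ s (Complex.I, 0) : ℂ) + (ξ s (1, 0) : ℂ) • Complex.I with ha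
  set b : ℝ → ℂ := fun s => (ξ s (0, Complex.I) : ℂ) + (ξ s (0, 1) : ℂ) • Complex.I with hb
  have haL : Lip01 a := lip_add (hξL _) (lip_smul (hξL _) _)
  have hbL : Lip01 b := lip_add (hξL _) (lip_smul (hξL _) _)
  have him : ∀ s, ∀ v : C2, (a s * v.1 + b s * v.2).im = ξ s v := by
    intro s v
    have h1 : v = v.1.re • ((1, 0) : C2) + v.1.im • ((Complex.I, 0) : C2) +
        v.2.re • ((0, 1) : C2) + v.2.im • ((0, Complex.I) : C2) := by
      ext <;> simp only [Prod.smul_mk, Complex.real_smul, mul_one, smul_zero, Prod.mk_add_mk, Complex.re_add_im, add_zero, zero_add, Prod.mk.eta]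
    have h2 : ξ s v = v.1.re * ξ s (1, 0) + v.1.im * ξ s (Complex.I, 0) +
        v.2.re * ξ s (0, 1) + v.2.im * ξ s (0, Complex.I) := by
      conv_lhs => rw [h1]
      simp only [hξ, map_add, map_smul, Pi.add_apply, Pi.smul_apply, smul_eq_mul]
    rw [h2]
    simp only [ha, smul_eq_mul, hb, Complex.add_im, Complex.mul_im, Complex.add_re, Complex.ofReal_re, Complex.mul_re, Complex.I_re, mul_zero, Complex.ofReal_im, Complex.I_im, mul_one, sub_self, add_zero, zero_add]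
    ring
  have hab : ∀ s ∈ Icc (0 : ℝ) 1, a s ≠ 0 ∨ b s ≠ 0 := by
    intro s hs
    by_contra hn
    push Not at hn
    have h1 := him s (seg lam₀ lam₁ s 3)
    rw [hn.1, hn.2] at h1
    simp only [hξ] at h1
    rw [hUT s hs 3] at h1
    simp at h1
  set D : ℝ → ℂ := fun s => a s * (starRingEnd ℂ) (a s) + b s * (starRingEnd ℂ) (b s) with hD
  have hD0 : ∀ s ∈ Icc (0 : ℝ) 1, D s ≠ 0 := by
    intro s hs h0
    simp only [hD, Complex.mul_conj] at h0
    rw [← Complex.ofReal_add] at h0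
    have h1 : Complex.normSq (a s) + Complex.normSq (b s) = 0 := by exact_mod_cast h0
    have h2 := Complex.normSq_nonneg (a s)
    have h3 := Complex.normSq_nonneg (b s)
    rcases hab s hs with h | h
    · apply h
      exact Complex.normSq_eq_zero.mp (by linarith only [h2, h1, h3])
    · apply h
      exact Complex.normSq_eq_zero.mp (by linarith only [h3, h1, h2])
  have hac := lip_cont haL
  have hbc := lip_cont hbL
  have hac' := lip_cont (lip_conj haL)
  have hbc' := lip_cont (lip_conj hbL)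
  have hDc : ContinuousOn D (Icc (0 : ℝ) 1) := (hac.mul hac').add (hbc.mul hbc')
  refine ⟨fun s => mat (-(starRingEnd ℂ) (b s)) ((starRingEnd ℂ) (a s)) (a s) (b s),
    fun s => mat (-b s / D s) ((starRingEnd ℂ) (a s) / D s) (a s / D s)
      ((starRingEnd ℂ) (b s) / D s),
    lip_mat (lip_neg (lip_conj hbL)) (lip_conj haL) haL hbL, ?_, ?_, ?_, ?_⟩
  · exact cont_mat (hbc.neg.div hDc hD0) (hac'.div hDc hD0) (hac.div hDc hD0)
      (hbc'.div hDc hD0)
  · intro s hs c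
    have h0 := hD0 s hs
    have h1 : D s = a s * (starRingEnd ℂ) (a s) + b s * (starRingEnd ℂ) (b s) := rfl
    rw [mat_apply, mat_apply]
    ext1
    · show _ = c.1
      field_simp
      rw [h1]
      ring
    · show _ = c.2
      field_simp
      rw [h1]
      ring
  · intro s hs c
    have h0 := hD0 s hs
    have h1 : D s = a s * (starRingEnd ℂ) (a s) + b s * (starRingEnd ℂ) (b s) := rfl
    rw [mat_apply, mat_apply]
    ext1
    · show _ = c.1
      field_simp
      rw [h1]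
      ring
    · show _ = c.2
      field_simp
      rw [h1]
      ring
  · intro s hs k
    rw [mat_apply]
    show (a s * (seg lam₀ lam₁ s k).1 + b s * (seg lam₀ lam₁ s k).2).im = _
    rw [him]
    simp only [hξ]
    rw [hUT s hs k, Pi.single_apply]
    simp only [Fin.isValue, eq_comm]

theorem coords_of_linear {lam₀ lam₁ : Fin 4 → C2}
    (hLI : ∀ s ∈ Icc (0 : ℝ) 1, LinearIndependent ℝ (seg lam₀ lam₁ s))
    {A B : ℝ → C2 →L[ℂ] C2} (hA : Lip01 A) (hBA : ∀ s ∈ Icc (0 : ℝ) 1, ∀ c, B s (A s c) = c)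
    (him : ∀ s ∈ Icc (0 : ℝ) 1, ∀ k, (A s (seg lam₀ lam₁ s k)).2.im = if k = 3 then 1 else 0) :
    Coords (fun s k => (A s (seg lam₀ lam₁ s k)).1) (fun s k => (A s (seg lam₀ lam₁ s k)).2) := by
  have key : ∀ k, Lip01 fun s => A s (seg lam₀ lam₁ s k) := by
    intro k
    obtain ⟨M, hM⟩ := lip_bdd hA
    obtain ⟨L, hL⟩ := hA
    have hM0 : 0 ≤ M := (norm_nonneg _).trans (hM 0 (by simp only [mem_Icc, Std.le_refl, zero_le_one, and_self]))
    have hsL : Lip01 fun s => seg lam₀ lam₁ s k := by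
      refine ⟨‖lam₁ k - lam₀ k‖, fun s hs s' hs' => ?_⟩
      show ‖seg lam₀ lam₁ s k - seg lam₀ lam₁ s' k‖ ≤ _
      rw [seg_eq, seg_eq]
      have h1 : lam₀ k + s • (lam₁ k - lam₀ k) - (lam₀ k + s' • (lam₁ k - lam₀ k)) =
          (s - s') • (lam₁ k - lam₀ k) := by
        rw [sub_smul]; abel
      rw [h1, norm_smul, Real.norm_eq_abs, mul_comm]
    obtain ⟨M', hM'⟩ := lip_bdd hsL
    obtain ⟨L', hL'⟩ := hsL
    have hM0' : 0 ≤ M' := (norm_nonneg _).trans (hM' 0 (by simp only [mem_Icc, Std.le_refl, zero_le_one, and_self]))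
    refine ⟨L * M' + M * L', fun s hs s' hs' => ?_⟩
    have h1 : A s (seg lam₀ lam₁ s k) - A s' (seg lam₀ lam₁ s' k) =
        (A s - A s') (seg lam₀ lam₁ s k) + A s' (seg lam₀ lam₁ s k - seg lam₀ lam₁ s' k) := by
      simp only [sub_apply, map_sub, sub_add_sub_cancel]
    rw [h1]
    calc _ ≤ ‖(A s - A s') (seg lam₀ lam₁ s k)‖ +
          ‖A s' (seg lam₀ lam₁ s k - seg lam₀ lam₁ s' k)‖ := norm_add_le _ _
      _ ≤ ‖A s - A s'‖ * ‖seg lam₀ lam₁ s k‖ + ‖A s'‖ * ‖seg lam₀ lam₁ s k - seg lam₀ lam₁ s' k‖ :=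
          add_le_add (ContinuousLinearMap.le_opNorm _ _) (ContinuousLinearMap.le_opNorm _ _)
      _ ≤ (L * |s - s'|) * M' + M * (L' * |s - s'|) := by
          have h2 : 0 ≤ L * |s - s'| := (norm_nonneg _).trans (hL s hs s' hs')
          exact add_le_add (mul_le_mul (hL s hs s' hs') (hM' s hs) (norm_nonneg _) h2)
            (mul_le_mul (hM s' hs') (hL' s hs s' hs') (norm_nonneg _) hM0)
      _ = _ := by ring
  refine ⟨fun k => ?_, fun k => ?_, ?_, him⟩
  · obtain ⟨L, hL⟩ := key k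
    exact ⟨L, fun s hs s' hs' => (norm_fst_le _).trans (hL s hs s' hs')⟩
  · obtain ⟨L, hL⟩ := key k
    exact ⟨L, fun s hs s' hs' => (norm_snd_le _).trans (hL s hs s' hs')⟩
  · intro s hs
    have h1 : (fun k => (((A s (seg lam₀ lam₁ s k)).1, (A s (seg lam₀ lam₁ s k)).2) : C2)) =
        ((A s).restrictScalars ℝ : C2 →ₗ[ℝ] C2) ∘ seg lam₀ lam₁ s := by
      funext k
      simp
    rw [h1]
    refine (hLI s hs).map' _ ?_
    rw [LinearMap.ker_eq_bot]
    intro x y hxy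
    have h2 : A s x = A s y := by simpa using hxy
    rw [← hBA s hs x, h2, hBA s hs y]

end Vale.Agent.P290.K
end
end

section

section

open Set Filter Metric
open scoped Manifold ContDiff Topology

namespace Vale.Agent.P290.K

/-! ### Uniqueness of representations of maps -/

theorem log_ext {σ τ : SG} {n : Fin 4 → ℤ} {a : Fin 4 → ℂ} (h : σ.1 = τ.1) (h1 : Log σ n a)
    (h2 : Log τ n a) : σ = τ := by
  refine Prod.ext h (Prod.ext ?_ ?_)
  · funext k
    rw [(h1 k).1, (h2 k).1, h]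
  · funext k
    rw [(h1 k).2, (h2 k).2, h]

theorem log_add_two {σ : SG} {n m : Fin 4 → ℤ} {a : Fin 4 → ℂ} (h : Log σ (n + 2 • m) a) :
    Log σ n a := by
  intro k
  have h1 := h k
  have h2 : (-1 : ℂ) ^ ((n + 2 • m) k) = (-1 : ℂ) ^ (n k) := by
    have : (n + 2 • m) k = n k + 2 * m k := by simp
    rw [this, zpow_add₀ (by norm_num), zpow_mul]
    norm_num
  rw [h2] at h1
  exact h1

theorem log_shift {σ : SG} {n N : Fin 4 → ℤ} {a A : Fin 4 → ℂ} (h : Log σ n a) {w : ℂ}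
    (hw : w ^ 2 = σ.1) (hw0 : w ≠ 0)
    (hN : ∀ k, w * (A k - a k) = Real.pi * Complex.I * N k) : Log σ (n + N) A := by
  intro k
  obtain ⟨h1, h2⟩ := h k
  have h3 : w * A k = w * a k + N k * (Real.pi * Complex.I) := by
    have := hN k
    linear_combination this
  have hc : Complex.cosh (w * A k) = (-1 : ℂ) ^ (N k) * Complex.cosh (w * a k) := by
    rw [h3, Complex.cosh, Complex.cosh, neg_add, Complex.exp_add, Complex.exp_add,
      Complex.exp_neg (N k * (Real.pi * Complex.I)), Complex.exp_int_mul, Complex.exp_pi_mul_I]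
    rcases Int.even_or_odd (N k) with h | h
    · rw [h.neg_one_zpow]; simp only [mul_one, inv_one, one_mul]
    · rw [h.neg_one_zpow]; simp only [mul_neg, mul_one, inv_neg, inv_one, neg_mul, one_mul]; ring
  have hs : Complex.sinh (w * A k) = (-1 : ℂ) ^ (N k) * Complex.sinh (w * a k) := by
    rw [h3, Complex.sinh, Complex.sinh, neg_add, Complex.exp_add, Complex.exp_add,
      Complex.exp_neg (N k * (Real.pi * Complex.I)), Complex.exp_int_mul, Complex.exp_pi_mul_I]
    rcases Int.even_or_odd (N k) with h | h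
    · rw [h.neg_one_zpow]; simp only [mul_one, inv_one, one_mul]
    · rw [h.neg_one_zpow]; simp only [mul_neg, mul_one, inv_neg, inv_one, sub_neg_eq_add, neg_mul, one_mul]; ring
  rw [← Cf_sq, ← Cf_sq, hw] at hc
  rw [← Sf_sq, ← Sf_sq, hw] at hs
  have hs' : Sf σ.1 (A k) = (-1 : ℂ) ^ (N k) * Sf σ.1 (a k) := by
    apply mul_left_cancel₀ hw0
    rw [hs]; ring
  have h4 : (-1 : ℂ) ^ ((n + N) k) = (-1 : ℂ) ^ (n k) * (-1 : ℂ) ^ (N k) := by
    rw [Pi.add_apply, zpow_add₀ (by norm_num)]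
  have h5 : (-1 : ℂ) ^ (N k) * (-1 : ℂ) ^ (N k) = 1 := by
    rw [← mul_zpow]; (clear * -; norm_num)
  rw [h4, hc, hs', h1, h2]
  constructor
  · linear_combination (-2 * (-1 : ℂ) ^ (n k) * Cf σ.1 (a k)) * h5
  · linear_combination (-2 * (-1 : ℂ) ^ (n k) * Sf σ.1 (a k)) * h5

variable {lam : Fin 4 → C2}

theorem lat_isolated (hlam : LinearIndependent ℝ lam) :
    ∃ δ > 0, ∀ n : Fin 4 → ℤ, ‖lat lam n‖ < δ → n = 0 := by
  obtain ⟨κ, hκ, h⟩ := exists_lat_bound hlam
  refine ⟨κ, hκ, fun n hn => ?_⟩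
  have h1 := h.self_of_nhds n
  funext k
  have h2 := (h1 k).trans_lt hn
  have h3 : |(n k : ℝ)| < 1 := by
    by_contra h4
    push Not at h4
    nlinarith
  rw [← Int.cast_abs] at h3
  have h4 : |n k| < 1 := by exact_mod_cast h3
  simpa using Int.abs_lt_one_iff.1 h4

theorem lat_near (hlam : LinearIndependent ℝ lam) (v : C2) :
    ∀ᶠ y in 𝓝 v, ∀ n : Fin 4 → ℤ, y = lat lam n → y = v := by
  obtain ⟨δ, hδ, h⟩ := lat_isolated hlam
  by_cases hex : ∃ n₁ : Fin 4 → ℤ, lat lam n₁ ≠ v ∧ dist (lat lam n₁) v < δ / 2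
  · obtain ⟨n₁, h1, h2⟩ := hex
    have hpos : 0 < dist (lat lam n₁) v := dist_pos.2 h1
    filter_upwards [ball_mem_nhds v (lt_min hpos (half_pos hδ))] with y hy n hn
    exfalso
    rw [mem_ball, lt_min_iff] at hy
    have h3 : ‖lat lam (n - n₁)‖ < δ := by
      rw [lat_sub, ← hn, ← dist_eq_norm]
      calc dist y (lat lam n₁) ≤ dist y v + dist v (lat lam n₁) := dist_triangle _ _ _
        _ < δ / 2 + δ / 2 := by rw [dist_comm v]; exact add_lt_add hy.2 h2
        _ = δ := by ring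
    have h4 : n = n₁ := sub_eq_zero.1 (h _ h3)
    rw [hn, h4] at hy
    exact lt_irrefl _ hy.1
  · push Not at hex
    filter_upwards [ball_mem_nhds v (half_pos hδ)] with y hy n hn
    by_contra h1
    have h2 := hex n (by rw [← hn]; exact h1)
    rw [← hn] at h2
    exact absurd hy (not_lt.2 h2)

theorem exists_sqrt_near {V : Type} [NormedAddCommGroup V] [NormedSpace ℂ V] {s : V → ℂ} {z₀ : V}
    (hs : ∀ᶠ z in 𝓝 z₀, DifferentiableAt ℂ s z) (h0 : s z₀ ≠ 0) :
    ∃ w : V → ℂ, ∀ᶠ z in 𝓝 z₀, DifferentiableAt ℂ w z ∧ w z ^ 2 = s z ∧ w z ≠ 0 := by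
  obtain ⟨w₀, hw₀⟩ : ∃ w : ℂ, w ^ 2 = s z₀ := IsAlgClosed.exists_pow_nat_eq _ two_pos
  have hw₀' : w₀ ≠ 0 := by
    rintro rfl
    exact h0 (by rw [← hw₀]; simp)
  refine ⟨fun z => w₀ * Complex.exp (Complex.log (s z / s z₀) / 2), ?_⟩
  have hc : ContinuousAt s z₀ := hs.self_of_nhds.continuousAt
  have h1 : ∀ᶠ z in 𝓝 z₀, s z / s z₀ ∈ Complex.slitPlane := by
    have : ContinuousAt (fun z => s z / s z₀) z₀ := hc.div_const _
    refine this.eventually (Complex.isOpen_slitPlane.mem_nhds ?_)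
    simp only [div_self h0]
    exact Complex.one_mem_slitPlane
  filter_upwards [hs, h1] with z hz hz1
  have hne : s z / s z₀ ≠ 0 := Complex.slitPlane_ne_zero hz1
  refine ⟨?_, ?_, mul_ne_zero hw₀' (Complex.exp_ne_zero _)⟩
  · have h2 : DifferentiableAt ℂ (fun z => s z / s z₀) z := by
      simp only [div_eq_mul_inv]
      exact hz.mul_const _
    have h3 : DifferentiableAt ℂ (fun z => Complex.log (s z / s z₀) / 2) z := by
      simp only [div_eq_mul_inv _ (2 : ℂ)]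
      exact (h2.clog hz1).mul_const _
    exact (differentiableAt_const _).mul h3.cexp
  · rw [mul_pow, hw₀, ← Complex.exp_nat_mul]
    have h4 : ((2 : ℕ) : ℂ) * (Complex.log (s z / s z₀) / 2) = Complex.log (s z / s z₀) := by
      push_cast; ring
    rw [h4, Complex.exp_log hne, mul_div_cancel₀ _ h0]

section

variable {X : Type} [TopologicalSpace X] [ChartedSpace C2 X]
  (D : KummerData lam X)

/-- a local lift of a represented map -/
theorem exists_lift_near (hlam : LinearIndependent ℝ lam) {V : Type} [NormedAddCommGroup V]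
    [NormedSpace ℂ V] {x : V → ND} {f : V → X} {z₀ : V}
    (hx : ∀ᶠ z in 𝓝 z₀, DifferentiableAt ℂ x z)
    (hP : ∀ᶠ z in 𝓝 z₀, Pell (x z).1)
    (hR : ∀ᶠ z in 𝓝 z₀, Rep D (x z) (f z)) :
    ∃ (n : Fin 4 → ℤ) (a : V → Fin 4 → ℂ), ∀ᶠ z in 𝓝 z₀, DifferentiableAt ℂ a z ∧
      Log (x z).1 n (a z) ∧ ((x z).1.1, (x z).2 + Lm lam (a z)) ∈ PP lam ∧
      D.N n ((x z).1.1, (x z).2 + Lm lam (a z)) = f z := by
  obtain ⟨n, a₀, hl, hp, -⟩ := hR.self_of_nhds
  obtain ⟨A, hA0, hAd, hAl⟩ := exists_log_fun hl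
  have hxc : ContinuousAt x z₀ := hx.self_of_nhds.continuousAt
  have hσc : Tendsto (fun z => (x z).1) (𝓝 z₀) (𝓝 (x z₀).1) := hxc.fst
  have hAc : ContinuousAt A (x z₀).1 := hAd.self_of_nhds.continuousAt
  have hac : ContinuousAt (fun z => A (x z).1) z₀ :=
    ContinuousAt.comp (f := fun z => (x z).1) (g := A) hAc hσc
  have hLc : Continuous (Lm lam) := (differentiable_Lm lam).continuous
  have hcc : ContinuousAt (fun z => ((lam, ((x z).1.1, (x z).2 + Lm lam (A (x z).1))) :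
      (Fin 4 → C2) × (ℂ × C2))) z₀ := by
    refine continuousAt_const.prodMk (hxc.fst.fst.prodMk (hxc.snd.add ?_))
    exact ContinuousAt.comp (f := fun z => A (x z).1) (g := Lm lam) hLc.continuousAt hac
  have hPP : ∀ᶠ z in 𝓝 z₀, ((x z).1.1, (x z).2 + Lm lam (A (x z).1)) ∈ PP lam := by
    have h1 := PP_open hlam hp
    rw [← hA0] at h1
    exact hcc.eventually h1
  refine ⟨n, fun z => A (x z).1, ?_⟩
  filter_upwards [hx, hσc.eventually hAd, hσc.eventually hAl, hP, hPP, hR] with z h1 h2 h3 h4 h5 h6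
  refine ⟨DifferentiableAt.comp (f := fun z => (x z).1) (g := A) z h2 h1.fst, h3 h4, h5, ?_⟩
  exact Rep.unique D ⟨n, A (x z).1, h3 h4, h5, rfl⟩ h6

/-- two representations of the same map differ locally by the action of the group -/
theorem exists_act_near (hlam : LinearIndependent ℝ lam) {V : Type} [NormedAddCommGroup V]
    [NormedSpace ℂ V] [FiniteDimensional ℂ V] {x x' : V → ND} {f : V → X} {z₀ : V}
    (hx : ∀ᶠ z in 𝓝 z₀, DifferentiableAt ℂ x z) (hx' : ∀ᶠ z in 𝓝 z₀, DifferentiableAt ℂ x' z)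
    (hP : ∀ᶠ z in 𝓝 z₀, Pell (x z).1) (hP' : ∀ᶠ z in 𝓝 z₀, Pell (x' z).1)
    (hR : ∀ᶠ z in 𝓝 z₀, Rep D (x z) (f z)) (hR' : ∀ᶠ z in 𝓝 z₀, Rep D (x' z) (f z)) :
    ∃ g : V → ℂ × (Fin 4 → ℂ), ∀ᶠ z in 𝓝 z₀, DifferentiableAt ℂ g z ∧ (g z).1 ≠ 0 ∧
      x' z = act lam (g z) (x z) := by
  obtain ⟨n, a, ha⟩ := exists_lift_near D hlam hx hP hR
  obtain ⟨n', a', ha'⟩ := exists_lift_near D hlam hx' hP' hR'
  have hLd := differentiable_Lm lam
  set c : V → C2 := fun z => (x z).2 + Lm lam (a z) with hc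
  set c' : V → C2 := fun z => (x' z).2 + Lm lam (a' z) with hc'
  have hcd : ∀ᶠ z in 𝓝 z₀, DifferentiableAt ℂ c z := by
    filter_upwards [hx, ha] with z h1 h2
    exact h1.snd.add (DifferentiableAt.comp (f := a) (g := Lm lam) z (hLd _) h2.1)
  have hcd' : ∀ᶠ z in 𝓝 z₀, DifferentiableAt ℂ c' z := by
    filter_upwards [hx', ha'] with z h1 h2
    exact h1.snd.add (DifferentiableAt.comp (f := a') (g := Lm lam) z (hLd _) h2.1)
  have hrel : ∀ᶠ z in 𝓝 z₀, KRel lam n ((x z).1.1, c z) n' ((x' z).1.1, c' z) := by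
    filter_upwards [ha, ha'] with z h1 h2
    exact (D.rel n _ h1.2.2.1 n' _ h2.2.2.1).1 (h1.2.2.2.trans h2.2.2.2.symm)
  by_cases hs0 : (x z₀).1.1 = 0
  · -- over the branch locus
    obtain ⟨-, hs0', ⟨m, hm⟩, t, ht, hct⟩ | ⟨h, -⟩ := hrel.self_of_nhds
    swap
    · exact absurd hs0 h
    simp only at hs0' hct
    have hc0 : c z₀ ≠ 0 := ha.self_of_nhds.2.2.1.1
    obtain ⟨ℓ, hℓ⟩ : ∃ ℓ : C2 →L[ℂ] ℂ, ℓ (c z₀) ≠ 0 := by
      by_contra hcon
      push Not at hcon
      refine hc0 (Prod.ext ?_ ?_)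
      · exact hcon (ContinuousLinearMap.fst ℂ ℂ ℂ)
      · exact hcon (ContinuousLinearMap.snd ℂ ℂ ℂ)
    have hℓ' : ℓ (c' z₀) ≠ 0 := by
      rw [hct, map_smul]
      exact mul_ne_zero ht hℓ
    have hcc : ContinuousAt c z₀ := hcd.self_of_nhds.continuousAt
    have hcc' : ContinuousAt c' z₀ := hcd'.self_of_nhds.continuousAt
    have e1 : ∀ᶠ z in 𝓝 z₀, ℓ (c z) ≠ 0 :=
      (ContinuousAt.comp (f := c) (g := ℓ) ℓ.continuous.continuousAt hcc).eventually_ne hℓ
    have e2 : ∀ᶠ z in 𝓝 z₀, ℓ (c' z) ≠ 0 :=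
      (ContinuousAt.comp (f := c') (g := ℓ) ℓ.continuous.continuousAt hcc').eventually_ne hℓ'
    obtain ⟨δ, hδ, hiso⟩ := lat_isolated hlam
    -- smallness of `√s c`
    have small : ∀ (y : V → ND) (d : V → C2), ContinuousAt y z₀ → ContinuousAt d z₀ →
        (y z₀).1.1 = 0 → ∀ᶠ z in 𝓝 z₀, ∀ w : ℂ, w ^ 2 = (y z).1.1 → ‖w • d z‖ < δ / 2 := by
      intro y d hy hd h0
      have h1 : ContinuousAt (fun z => ‖(y z).1.1‖ * ‖d z‖ ^ 2) z₀ :=
        hy.fst.fst.norm.mul (hd.norm.pow 2)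
      have h2 : ∀ᶠ z in 𝓝 z₀, ‖(y z).1.1‖ * ‖d z‖ ^ 2 < (δ / 2) ^ 2 := by
        refine h1.eventually (gt_mem_nhds ?_)
        simp only [h0, norm_zero, zero_mul]
        (clear * - hδ; positivity)
      filter_upwards [h2] with z hz w hw
      rw [← hw, norm_pow, ← mul_pow, ← norm_smul] at hz
      exact lt_of_pow_lt_pow_left₀ 2 (by (clear * - hδ; positivity)) hz
    have sm1 := small x c hx.self_of_nhds.continuousAt hcc hs0
    have sm2 := small x' c' hx'.self_of_nhds.continuousAt hcc' hs0'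
    set u : V → ℂ := fun z => ℓ (c' z) / ℓ (c z) with hu
    have key : ∀ᶠ z in 𝓝 z₀, c' z = u z • c z ∧ (x' z).1.1 = (x z).1.1 / u z ^ 2 := by
      filter_upwards [hrel, e1, e2, sm1, sm2] with z h1 h2 h3 h4 h5
      rcases h1 with ⟨k1, k2, -, t, ht, k3⟩ | ⟨k1, k2, w, w', k3, k4, m', k5⟩
      · simp only at k1 k2 k3
        have h6 : u z = t := by
          simp only [hu]
          rw [k3, map_smul, smul_eq_mul, mul_div_cancel_right₀ _ h2]
        rw [h6, k1, k2, k3]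
        simp
      · simp only at k1 k2 k3 k4 k5
        have k6 : w' • c' z - w • c z = lat lam (m' - m) := by
          have h7 : lat lam n' = lat lam n + (2 : ℂ) • lat lam m := by
            rw [hm, lat_add, two_smul, two_smul, lat_add]
          rw [h7, smul_add, smul_smul] at k5
          norm_num at k5
          rw [lat_sub]
          have := k5
          linear_combination (norm := module) (1 : ℂ) • this
        have k7 : m' - m = 0 := by
          apply hiso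
          rw [← k6]
          calc ‖w' • c' z - w • c z‖ ≤ ‖w' • c' z‖ + ‖w • c z‖ := norm_sub_le _ _
            _ < δ / 2 + δ / 2 := add_lt_add (h5 w' k4) (h4 w k3)
            _ = δ := by ring
        rw [k7, lat_zero, sub_eq_zero] at k6
        have hw' : w' ≠ 0 := by
          rintro rfl
          exact k2 (by rw [← k4]; simp)
        have hw : w ≠ 0 := by
          rintro rfl
          exact k1 (by rw [← k3]; simp)
        have k8 : w' * ℓ (c' z) = w * ℓ (c z) := by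
          have := congrArg ℓ k6
          simpa only [map_smul, smul_eq_mul] using this
        have k9 : u z = w / w' := by
          simp only [hu]
          rw [div_eq_div_iff h2 hw']
          linear_combination k8
        rw [k9]
        constructor
        · have : w' • c' z = w' • ((w / w') • c z) := by
            rw [k6, smul_smul, mul_div_cancel₀ _ hw']
          exact smul_right_injective _ hw' this
        · rw [div_pow, k3, k4, div_div_cancel₀ k1]
    refine ⟨fun z => (u z, a' z - u z • a z), ?_⟩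
    filter_upwards [key, ha, ha', e1, e2, hcd, hcd'] with z h1 h2 h3 h4 h5 h6 h7
    have hune : u z ≠ 0 := div_ne_zero h5 h4
    have hud : DifferentiableAt ℂ u z := by
      have t1 : DifferentiableAt ℂ (fun z => ℓ (c' z)) z :=
        DifferentiableAt.comp (f := c') (g := ℓ) z ℓ.differentiableAt h7
      have t2 : DifferentiableAt ℂ (fun z => ℓ (c z)) z :=
        DifferentiableAt.comp (f := c) (g := ℓ) z ℓ.differentiableAt h6
      simp only [hu, div_eq_mul_inv]
      exact t1.mul (t2.fun_inv h4)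
    refine ⟨hud.prodMk (h3.1.sub (hud.smul h2.1)), hune, ?_⟩
    set g : ℂ × (Fin 4 → ℂ) := (u z, a' z - u z • a z) with hg
    have hga : g.1 • a z + g.2 = a' z := by simp [hg]
    have l1 : Log (act lam g (x z)).1 n (a' z) := by
      have := log_act (lam := lam) (g := g) hune h2.2.1
      rwa [hga] at this
    have l2 : Log (x' z).1 n (a' z) := by
      have := h3.2.1
      rw [hm] at this
      exact log_add_two this
    have h8 : (x' z).1 = (act lam g (x z)).1 := log_ext h1.2 l2 l1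
    refine Prod.ext h8 ?_
    have h9 := act_snd (lam := lam) g (x z) (a z)
    rw [hga] at h9
    have h10 : (x' z).2 + Lm lam (a' z) = g.1 • ((x z).2 + Lm lam (a z)) := h1.1
    exact add_right_cancel (h10.trans h9.symm)
  · -- outside the branch locus
    have hs0' : (x' z₀).1.1 ≠ 0 := by
      obtain ⟨h, -⟩ | ⟨-, h, -⟩ := hrel.self_of_nhds
      · exact absurd h hs0
      · exact h
    have hsd : ∀ᶠ z in 𝓝 z₀, DifferentiableAt ℂ (fun z => (x z).1.1) z := by
      filter_upwards [hx] with z h using h.fst.fst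
    have hsd' : ∀ᶠ z in 𝓝 z₀, DifferentiableAt ℂ (fun z => (x' z).1.1) z := by
      filter_upwards [hx'] with z h using h.fst.fst
    obtain ⟨w, hw⟩ := exists_sqrt_near hsd hs0
    -- choose the sign of the second root
    obtain ⟨v, hv, m, hm⟩ : ∃ v : V → ℂ, (∀ᶠ z in 𝓝 z₀, DifferentiableAt ℂ v z ∧
        v z ^ 2 = (x' z).1.1 ∧ v z ≠ 0) ∧ ∃ m : Fin 4 → ℤ,
        (1 / 2 : ℂ) • lat lam n' + v z₀ • c' z₀ =
          (1 / 2 : ℂ) • lat lam n + w z₀ • c z₀ + lat lam m := by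
      obtain ⟨v, hv⟩ := exists_sqrt_near hsd' hs0'
      obtain ⟨h, -⟩ | ⟨-, -, w₁, w₁', k1, k2, m₁, k3⟩ := hrel.self_of_nhds
      · exact absurd h hs0
      simp only at k1 k2 k3
      have q1 : w₁ = w z₀ ∨ w₁ = - w z₀ :=
        sq_eq_sq_iff_eq_or_eq_neg.1 (k1.trans hw.self_of_nhds.2.1.symm)
      have q2 : w₁' = v z₀ ∨ w₁' = - v z₀ :=
        sq_eq_sq_iff_eq_or_eq_neg.1 (k2.trans hv.self_of_nhds.2.1.symm)
      -- first normalise `w₁`
      have q3 : ∃ (w₂ : ℂ) (m₂ : Fin 4 → ℤ), (w₂ = v z₀ ∨ w₂ = - v z₀) ∧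
          (1 / 2 : ℂ) • lat lam n' + w₂ • c' z₀ =
            (1 / 2 : ℂ) • lat lam n + w z₀ • c z₀ + lat lam m₂ := by
        rcases q1 with q1 | q1
        · exact ⟨w₁', m₁, q2, by rw [k3, q1]⟩
        · refine ⟨-w₁', n' - n - m₁, ?_, ?_⟩
          · rcases q2 with q2 | q2
            · right; rw [q2]
            · left; rw [q2, neg_neg]
          · rw [q1] at k3
            rw [lat_sub, lat_sub]
            linear_combination (norm := module) (-1 : ℂ) • k3
      obtain ⟨w₂, m₂, q4, q5⟩ := q3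
      rcases q4 with q4 | q4
      · exact ⟨v, hv, m₂, by rw [← q4]; exact q5⟩
      · refine ⟨fun z => - v z, ?_, m₂, by simp only [← q4]; exact q5⟩
        filter_upwards [hv] with z hz
        exact ⟨hz.1.neg, by rw [neg_pow_two]; exact hz.2.1, neg_ne_zero.2 hz.2.2⟩
    have hcc : ContinuousAt c z₀ := hcd.self_of_nhds.continuousAt
    have hcc' : ContinuousAt c' z₀ := hcd'.self_of_nhds.continuousAt
    have hwc : ContinuousAt w z₀ := hw.self_of_nhds.1.continuousAt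
    have hvc : ContinuousAt v z₀ := hv.self_of_nhds.1.continuousAt
    -- the relation persists
    set Δ : V → C2 := fun z => (1 / 2 : ℂ) • lat lam n' + v z • c' z -
      ((1 / 2 : ℂ) • lat lam n + w z • c z) with hΔ
    set Γ : V → C2 := fun z => (1 / 2 : ℂ) • lat lam n' - v z • c' z -
      ((1 / 2 : ℂ) • lat lam n + w z • c z) with hΓ
    have hΔc : ContinuousAt Δ z₀ :=
      (continuousAt_const.add (hvc.smul hcc')).sub (continuousAt_const.add (hwc.smul hcc))
    have hΓc : ContinuousAt Γ z₀ :=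
      (continuousAt_const.sub (hvc.smul hcc')).sub (continuousAt_const.add (hwc.smul hcc))
    have hΔ0 : Δ z₀ = lat lam m := by
      simp only [hΔ]
      rw [hm]
      abel
    have hΓ0 : ∀ j : Fin 4 → ℤ, Γ z₀ ≠ lat lam j := by
      intro j hj
      have h1 : (2 : ℂ) • (v z₀ • c' z₀) = lat lam (m - j) := by
        rw [lat_sub, ← hj, ← hΔ0, two_smul]
        simp only [hΔ, hΓ]
        abel
      have h2 : v z₀ • c' z₀ = (1 / 2 : ℂ) • lat lam (m - j) := by
        rw [← h1, smul_smul]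
        norm_num
      have hp' := ha'.self_of_nhds.2.2.1
      by_cases h3 : m - j = 0
      · rw [h3, lat_zero, smul_zero] at h2
        rcases smul_eq_zero.1 h2 with h4 | h4
        · exact hv.self_of_nhds.2.2 h4
        · exact hp'.1 h4
      · exact hp'.2 (v z₀) hv.self_of_nhds.2.1 _ h3 h2
    have per : ∀ᶠ z in 𝓝 z₀, Δ z = lat lam m := by
      have t1 := hΔc.eventually (lat_near hlam (Δ z₀))
      have t2 := hΓc.eventually (lat_near hlam (Γ z₀))
      filter_upwards [t1, t2, hrel, hw, hv, hx.self_of_nhds.continuousAt.fst.fst.eventually_ne hs0]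
        with z h1 h2 h3 h4 h5 h6
      obtain ⟨h, -⟩ | ⟨-, -, w₁, w₁', k1, k2, m₁, k3⟩ := h3
      · exact absurd h h6
      simp only at k1 k2 k3
      have q1 : w₁ = w z ∨ w₁ = - w z := sq_eq_sq_iff_eq_or_eq_neg.1 (k1.trans h4.2.1.symm)
      have q2 : w₁' = v z ∨ w₁' = - v z := sq_eq_sq_iff_eq_or_eq_neg.1 (k2.trans h5.2.1.symm)
      have alt : (∃ j, Δ z = lat lam j) ∨ ∃ j, Γ z = lat lam j := by
        rcases q1 with q1 | q1 <;> rcases q2 with q2 | q2 <;> rw [q1, q2] at k3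
        · left
          refine ⟨m₁, ?_⟩
          simp only [hΔ]
          linear_combination (norm := module) (1 : ℂ) • k3
        · right
          refine ⟨m₁, ?_⟩
          simp only [hΓ]
          linear_combination (norm := module) (1 : ℂ) • k3
        · right
          refine ⟨n' - n - m₁, ?_⟩
          rw [lat_sub, lat_sub]
          simp only [hΓ]
          linear_combination (norm := module) (-1 : ℂ) • k3
        · left
          refine ⟨n' - n - m₁, ?_⟩
          rw [lat_sub, lat_sub]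
          simp only [hΔ]
          linear_combination (norm := module) (-1 : ℂ) • k3
      rcases alt with ⟨j, hj⟩ | ⟨j, hj⟩
      · rw [h1 j hj, hΔ0]
      · exact absurd ((h2 j hj).symm.trans hj) (hΓ0 j)
    -- the group element
    set A : V → Fin 4 → ℂ := fun z k =>
      a' z k + Real.pi * Complex.I * ((n' k : ℂ) - n k - 2 * m k) / v z with hA
    refine ⟨fun z => (w z / v z, A z - (w z / v z) • a z), ?_⟩
    filter_upwards [per, ha, ha', hw, hv] with z h1 h2 h3 h4 h5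
    have hune : w z / v z ≠ 0 := div_ne_zero h4.2.2 h5.2.2
    have hud : DifferentiableAt ℂ (fun z => w z / v z) z := by
      simp only [div_eq_mul_inv]
      exact h4.1.mul (h5.1.fun_inv h5.2.2)
    have hAd : DifferentiableAt ℂ A z := by
      rw [differentiableAt_pi]
      intro k
      simp only [hA, div_eq_mul_inv]
      exact (differentiableAt_pi.1 h3.1 k).add ((differentiableAt_const _).mul (h5.1.fun_inv h5.2.2))
    refine ⟨hud.prodMk (hAd.sub (hud.smul h2.1)), hune, ?_⟩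
    set g : ℂ × (Fin 4 → ℂ) := (w z / v z, A z - (w z / v z) • a z) with hg
    have hga : g.1 • a z + g.2 = A z := by simp [hg]
    have l1 : Log (act lam g (x z)).1 n (A z) := by
      have := log_act (lam := lam) (g := g) hune h2.2.1
      rwa [hga] at this
    have hvA : ∀ k, v z * (A z k - a' z k) = Real.pi * Complex.I * ((n' - n - 2 • m) k : ℤ) := by
      intro k
      have := h5.2.2
      simp only [hA, Pi.sub_apply, Pi.smul_apply]
      push_cast
      field_simp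
      simp only [add_sub_cancel_left, Int.nsmul_eq_mul, Nat.cast_ofNat, Int.cast_mul, Int.cast_ofNat]
    have l2 : Log (x' z).1 n (A z) := by
      have := log_shift h3.2.1 h5.2.1 h5.2.2 hvA
      have e : n' + (n' - n - 2 • m) = n + 2 • (n' - n - m) := by
        rw [two_smul, two_smul]; abel
      rw [e] at this
      exact log_add_two this
    have hs' : (x' z).1.1 = (act lam g (x z)).1.1 := by
      simp only [act, hg]
      rw [← h4.2.1, ← h5.2.1, div_pow, div_div_cancel₀ (pow_ne_zero 2 h4.2.2)]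
    have h8 : (x' z).1 = (act lam g (x z)).1 := log_ext hs' l2 l1
    refine Prod.ext h8 ?_
    have h9 := act_snd (lam := lam) g (x z) (a z)
    rw [hga] at h9
    -- `v (A - a')` is in the lattice
    have h10 : v z • (Lm lam (A z) - Lm lam (a' z)) =
        (1 / 2 : ℂ) • (lat lam n' - lat lam n) - lat lam m := by
      have e1 := Lm_pi lam (n' - n) (-m)
      have e2 : (fun k => Real.pi * Complex.I * (((n' - n) k : ℤ) + 2 * ((-m) k : ℤ) : ℂ)) =
          v z • (A z + (-1 : ℂ) • a' z) := by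
        funext k
        have e3 := hvA k
        simp only [Pi.smul_apply, Pi.add_apply, smul_eq_mul]
        have e4 : v z * (A z k + -1 * a' z k) = v z * (A z k - a' z k) := by ring
        rw [e4, e3]
        simp only [Pi.sub_apply, Pi.smul_apply, Pi.neg_apply]
        push_cast
        simp only [mul_neg, Int.nsmul_eq_mul, Nat.cast_ofNat, Int.cast_mul, Int.cast_ofNat, mul_eq_mul_left_iff, mul_eq_zero, Complex.ofReal_eq_zero, Real.pi_ne_zero, Complex.I_ne_zero, or_self, or_false]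
        ring
      rw [e2, Lm_smul, Lm_add, Lm_smul, lat_sub, lat_neg] at e1
      rw [← sub_eq_add_neg] at e1
      rw [← e1]
      module
    have h11 : v z • ((x' z).2 + Lm lam (A z)) = v z • ((act lam g (x z)).2 + Lm lam (A z)) := by
      rw [h9]
      have h12 : g.1 = w z / v z := rfl
      rw [h12, smul_smul, mul_div_cancel₀ _ h5.2.2]
      have h13 : (1 / 2 : ℂ) • lat lam n' + v z • c' z -
        ((1 / 2 : ℂ) • lat lam n + w z • c z) = lat lam m := h1
      simp only [hc, hc'] at h13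
      linear_combination (norm := module) (1 : ℂ) • h13 + (1 : ℂ) • h10
    exact add_right_cancel (smul_right_injective _ h5.2.2 h11)

/-- two representations of the same map differ by the action of the group -/
theorem exists_act (hlam : LinearIndependent ℝ lam) {V : Type} [NormedAddCommGroup V]
    [NormedSpace ℂ V] [FiniteDimensional ℂ V] {S : Set V} {x x' : V → ND} {f : V → X}
    (hx : HolNear S x) (hx' : HolNear S x')
    (hP : ∀ᶠ z in 𝓝ˢ S, Pell (x z).1) (hP' : ∀ᶠ z in 𝓝ˢ S, Pell (x' z).1)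
    (hR : ∀ᶠ z in 𝓝ˢ S, Rep D (x z) (f z)) (hR' : ∀ᶠ z in 𝓝ˢ S, Rep D (x' z) (f z)) :
    ∃ g : V → ℂ × (Fin 4 → ℂ), HolNear S g ∧
      ∀ᶠ z in 𝓝ˢ S, (g z).1 ≠ 0 ∧ x' z = act lam (g z) (x z) := by
  classical
  have hloc : ∀ z₀ ∈ S, ∃ g : V → ℂ × (Fin 4 → ℂ), ∀ᶠ z in 𝓝 z₀, DifferentiableAt ℂ g z ∧
      (g z).1 ≠ 0 ∧ x' z = act lam (g z) (x z) := by
    intro z₀ hz₀
    have hle : 𝓝 z₀ ≤ 𝓝ˢ S := nhds_le_nhdsSet hz₀
    exact exists_act_near D hlam (hx.filter_mono hle) (hx'.filter_mono hle) (hP.filter_mono hle)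
      (hP'.filter_mono hle) (hR.filter_mono hle) (hR'.filter_mono hle)
  set G : V → ℂ × (Fin 4 → ℂ) := fun z =>
    if h : ∃ g : ℂ × (Fin 4 → ℂ), g.1 ≠ 0 ∧ x' z = act lam g (x z) then h.choose else 0 with hG
  have hGe : ∀ (z : V) (g : ℂ × (Fin 4 → ℂ)), Avoid lam (x z) → g.1 ≠ 0 →
      x' z = act lam g (x z) → G z = g := by
    intro z g hA hg hgx
    have hex : ∃ g : ℂ × (Fin 4 → ℂ), g.1 ≠ 0 ∧ x' z = act lam g (x z) := ⟨g, hg, hgx⟩
    simp only [hG, dif_pos hex]
    obtain ⟨h1, h2⟩ := hex.choose_spec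
    exact act_inj hlam hA h1 hg (h2.symm.trans hgx)
  have hA : ∀ᶠ z in 𝓝ˢ S, Avoid lam (x z) := by
    filter_upwards [hR] with z hz
    obtain ⟨n, a, h1, h2, -⟩ := hz
    exact ⟨n, a, h1, h2⟩
  refine ⟨G, ?_, ?_⟩
  · rw [HolNear, eventually_nhdsSet_iff_forall]
    intro z₀ hz₀
    obtain ⟨g, hg⟩ := hloc z₀ hz₀
    have hA₀ := hA.filter_mono (nhds_le_nhdsSet hz₀)
    have heq : ∀ᶠ z in 𝓝 z₀, G z = g z := by
      filter_upwards [hg, hA₀] with z h1 h2
      exact hGe z _ h2 h1.2.1 h1.2.2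
    filter_upwards [heq.eventually_nhds, hg] with z h1 h2
    exact h2.1.congr_of_eventuallyEq h1
  · rw [eventually_nhdsSet_iff_forall]
    intro z₀ hz₀
    obtain ⟨g, hg⟩ := hloc z₀ hz₀
    have hA₀ := hA.filter_mono (nhds_le_nhdsSet hz₀)
    filter_upwards [hg, hA₀] with z h1 h2
    rw [hGe z _ h2 h1.2.1 h1.2.2]
    exact h1.2

end

end Vale.Agent.P290.K
end
end

section

section

open Set Filter Metric
open scoped Manifold ContDiff Topology

namespace Vale.Agent.P290.K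

/-! ### Existence of representations -/

section

variable {lam : Fin 4 → C2} {X : Type} [TopologicalSpace X] [ChartedSpace C2 X]
  (D : KummerData lam X) {V : Type} [NormedAddCommGroup V] [NormedSpace ℂ V]
  [FiniteDimensional ℂ V]

/-- the submersion `N n` has local holomorphic sections -/
theorem exists_section [IsManifold 𝓘(ℂ, C2) 1 X] (hlam : LinearIndependent ℝ lam)
    (n : Fin 4 → ℤ) {x₀ : ℂ × C2} (hx₀ : x₀ ∈ PP lam) :
    ∃ σ : X → ℂ × C2, ∀ᶠ y in 𝓝 (D.N n x₀), MDifferentiableAt 𝓘(ℂ, C2) 𝓘(ℂ, ℂ × C2) σ y ∧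
      σ y ∈ PP lam ∧ D.N n (σ y) = y := by
  -- the good set is open for the fixed lattice
  have hopen : ∀ᶠ x in 𝓝 x₀, x ∈ PP lam := by
    have h1 := PP_open hlam hx₀
    have h2 : Tendsto (fun x : ℂ × C2 => (lam, x)) (𝓝 x₀) (𝓝 (lam, x₀)) :=
      (Continuous.prodMk_right lam).tendsto x₀
    exact h2.eventually h1
  obtain ⟨r, hr, hball⟩ := Metric.eventually_nhds_iff_ball.1 hopen
  set e := chartAt C2 (D.N n x₀) with he
  have hes : D.N n x₀ ∈ e.source := mem_chart_source C2 _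
  have hea : e ∈ atlas C2 X := chart_mem_atlas C2 _
  set z₀ : C2 := e (D.N n x₀) with hz₀
  set S : C2 × (ℂ × C2) → X := fun p => D.N n (x₀ + p.2) with hS
  have hSd : ∀ᶠ p in 𝓝 (z₀, (0 : ℂ × C2)),
      MDifferentiableAt 𝓘(ℂ, C2 × (ℂ × C2)) 𝓘(ℂ, C2) S p := by
    have h2 : Tendsto (fun p : C2 × (ℂ × C2) => x₀ + p.2) (𝓝 (z₀, (0 : ℂ × C2))) (𝓝 x₀) := by
      have : Continuous (fun p : C2 × (ℂ × C2) => x₀ + p.2) := by (clear * -; fun_prop)
      simpa only [add_zero] using this.tendsto (z₀, (0 : ℂ × C2))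
    filter_upwards [h2.eventually hopen] with p hp
    have h3 : MDifferentiableAt 𝓘(ℂ, C2 × (ℂ × C2)) 𝓘(ℂ, ℂ × C2)
        (fun p : C2 × (ℂ × C2) => x₀ + p.2) p := by
      apply DifferentiableAt.mdifferentiableAt
      (clear * -; fun_prop)
    exact MDifferentiableAt.comp (g := D.N n) (f := fun p : C2 × (ℂ × C2) => x₀ + p.2) p
      (D.holo n _ hp) h3
  have hDd : MDifferentiableAt 𝓘(ℂ, ℂ × C2) 𝓘(ℂ, ℂ × C2) (fun w : ℂ × C2 => x₀ + w) 0 := by
    apply DifferentiableAt.mdifferentiableAt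
    fun_prop
  have hN0 : MDifferentiableAt 𝓘(ℂ, ℂ × C2) 𝓘(ℂ, C2) (D.N n) (x₀ + 0) := by
    rw [add_zero]; exact D.holo n _ hx₀
  have hD0 : mfderiv 𝓘(ℂ, ℂ × C2) 𝓘(ℂ, C2) (fun w => S (z₀, w)) 0 =
      (mfderiv 𝓘(ℂ, ℂ × C2) 𝓘(ℂ, C2) (D.N n) (x₀ + 0)).comp
        (mfderiv 𝓘(ℂ, ℂ × C2) 𝓘(ℂ, ℂ × C2) (fun w : ℂ × C2 => x₀ + w) 0) :=
    mfderiv_comp (g := D.N n) (f := fun w : ℂ × C2 => x₀ + w) 0 hN0 hDd
  have hDid : mfderiv 𝓘(ℂ, ℂ × C2) 𝓘(ℂ, ℂ × C2) (fun w : ℂ × C2 => x₀ + w) 0 =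
      ContinuousLinearMap.id ℂ (ℂ × C2) := by
    rw [mfderiv_eq_fderiv, fderiv_const_add]
    exact fderiv_fun_id
  set D' : (ℂ × C2) →L[ℂ] C2 := mfderiv 𝓘(ℂ, ℂ × C2) 𝓘(ℂ, C2) (fun w => S (z₀, w)) 0 with hD'
  have hDa : ∀ u : ℂ × C2, D' u =
      (mfderiv 𝓘(ℂ, ℂ × C2) 𝓘(ℂ, C2) (D.N n) (x₀ + 0) : (ℂ × C2) →L[ℂ] C2) u := by
    intro u
    have h2 : (mfderiv 𝓘(ℂ, ℂ × C2) 𝓘(ℂ, ℂ × C2) (fun w : ℂ × C2 => x₀ + w) 0 :
        (ℂ × C2) →L[ℂ] (ℂ × C2)) u = u :=
      congrArg (fun L : (ℂ × C2) →L[ℂ] (ℂ × C2) => L u) hDid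
    have h3 : D' u = (mfderiv 𝓘(ℂ, ℂ × C2) 𝓘(ℂ, C2) (D.N n) (x₀ + 0) : (ℂ × C2) →L[ℂ] C2)
        ((mfderiv 𝓘(ℂ, ℂ × C2) 𝓘(ℂ, ℂ × C2) (fun w : ℂ × C2 => x₀ + w) 0 :
        (ℂ × C2) →L[ℂ] (ℂ × C2)) u) :=
      congrArg (fun L : (ℂ × C2) →L[ℂ] C2 => L u) hD0
    exact h3.trans (congrArg _ h2)
  have hsurj : Function.Surjective D' := by
    intro y
    obtain ⟨u, hu⟩ := D.subm n (x₀ + 0) (by rwa [add_zero]) y
    exact ⟨u, (hDa u).trans hu⟩
  obtain ⟨T, hT⟩ : ∃ T : C2 →L[ℂ] (ℂ × C2), D' ∘L T = ContinuousLinearMap.id ℂ C2 :=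
    ContinuousLinearMap.exists_rightInverse_of_surjective D' (LinearMap.range_eq_top.2 hsurj)
  have hT' : ∀ y, D' (T y) = y := fun y => by
    have := congrArg (fun L : C2 →L[ℂ] C2 => L y) hT
    simpa only [ContinuousLinearMap.comp_apply, ContinuousLinearMap.id_apply] using this
  obtain ⟨-, -, -, -, -, hloc⟩ := manifold_local (E := C2) S (fun _ => D.N n x₀) z₀ hSd
    (by simp [hS]) (fun _ => T ∘L D') (Filter.Eventually.of_forall fun _ => by fun_prop)
    D' rfl hsurj (fun u => by simp [hT']) (fun u hu => by simp [hu])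
    (Filter.Eventually.of_forall fun _ u => by simp [hT'])
  obtain ⟨𝒱, h𝒱o, h𝒱m, w', hw', hw'd⟩ := hloc r hr
  have hse : e.symm z₀ = D.N n x₀ := e.left_inv hes
  refine ⟨fun y => x₀ + w' (e y, y), ?_⟩
  have hnear : ∀ᶠ y in 𝓝 (D.N n x₀), y ∈ e.source ∧ (e y, y) ∈ 𝒱 := by
    refine Filter.Eventually.and (e.open_source.mem_nhds hes) ?_
    have hc : ContinuousAt (fun y : X => ((e y, y) : C2 × X)) (D.N n x₀) :=
      (e.continuousAt hes).prodMk continuousAt_id
    exact hc.eventually (h𝒱o.mem_nhds h𝒱m)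
  filter_upwards [hnear] with y hy
  obtain ⟨hy1, hy2⟩ := hy
  obtain ⟨k1, -, k3⟩ := hw' _ hy2
  refine ⟨?_, ?_, k1⟩
  · have hsy : e.symm (e y) = y := e.left_inv hy1
    have h1 : MDifferentiableAt 𝓘(ℂ, C2) 𝓘(ℂ, C2) e.symm (e y) :=
      mdifferentiableAt_atlas_symm hea (e.map_source hy1)
    have h2 : DifferentiableAt ℂ (fun z => w' (z, e.symm z)) (e y) :=
      hw'd e.symm (e y) h1 (by rw [hsy]; exact hy2)
    have h3 : DifferentiableAt ℂ (fun z => x₀ + w' (z, e.symm z)) (e y) := h2.const_add x₀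
    have h4 : MDifferentiableAt 𝓘(ℂ, C2) 𝓘(ℂ, C2) e y := mdifferentiableAt_atlas hea hy1
    have h5 : MDifferentiableAt 𝓘(ℂ, C2) 𝓘(ℂ, ℂ × C2)
        ((fun z => x₀ + w' (z, e.symm z)) ∘ e) y := h3.mdifferentiableAt.comp y h4
    refine h5.congr_of_eventuallyEq ?_
    filter_upwards [e.open_source.mem_nhds hy1] with x hx
    simp only [Function.comp]
    rw [e.left_inv hx]
  · apply hball
    rw [mem_ball, dist_eq_norm, add_sub_cancel_left]
    exact k3

theorem exists_rep_near [IsManifold 𝓘(ℂ, C2) 1 X] (hlam : LinearIndependent ℝ lam) {f : V → X}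
    {z₀ : V} (hf : ∀ᶠ z in 𝓝 z₀, MDifferentiableAt 𝓘(ℂ, V) 𝓘(ℂ, C2) f z) :
    ∃ x : V → ND, ∀ᶠ z in 𝓝 z₀, DifferentiableAt ℂ x z ∧ Pell (x z).1 ∧ Rep D (x z) (f z) := by
  obtain ⟨n, x₀, hx₀, hN⟩ := D.cover (f z₀)
  obtain ⟨σ, hσ⟩ := exists_section D hlam n hx₀
  rw [hN] at hσ
  have hfc : ContinuousAt f z₀ := hf.self_of_nhds.continuousAt
  refine ⟨fun z => (((σ (f z)).1, fun k => 2 * (-1 : ℂ) ^ (n k), fun _ => 0), (σ (f z)).2), ?_⟩
  filter_upwards [hf, hfc.eventually hσ] with z hz hσz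
  obtain ⟨h1, h2, h3⟩ := hσz
  have hd : DifferentiableAt ℂ (fun z => σ (f z)) z :=
    (MDifferentiableAt.comp (g := σ) (f := f) z h1 hz).differentiableAt
  refine ⟨?_, ?_, ?_⟩
  · have hd1 : DifferentiableAt ℂ (fun z => (σ (f z)).1) z := hd.fst
    have hd2 : DifferentiableAt ℂ (fun z => (σ (f z)).2) z := hd.snd
    exact (hd1.prodMk (differentiableAt_const _)).prodMk hd2
  · intro k
    have : ((-1 : ℂ) ^ (n k)) ^ 2 = 1 := by
      rw [← zpow_natCast, ← zpow_mul, mul_comm, zpow_mul]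
      simp only [Nat.cast_ofNat, zpow_ofNat, even_two, Even.neg_pow, one_pow, one_zpow]
    simp only [mul_pow, this]
    norm_num
  · refine ⟨n, 0, ?_, ?_, ?_⟩
    · intro k
      simp [Cf_zero_right, Sf_zero_right]
    · simpa [Lm] using h2
    · simpa [Lm] using h3

end

end Vale.Agent.P290.K
end
end

section

section

open Set Filter Metric
open scoped Manifold ContDiff Topology

namespace Vale.Agent.P290.K

/-! ### The point represented by Pell data -/

section

variable {lam : Fin 4 → C2} {X : Type} [TopologicalSpace X] [ChartedSpace C2 X]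
  (D : KummerData lam X)

/-- near a point of the good set, the point of the Kummer surface is a holomorphic function -/
theorem exists_pt_near (hlam : LinearIndependent ℝ lam) {x₀ : ND} (h : Avoid lam x₀) :
    ∃ Φ : ND → X, ∀ᶠ x in 𝓝 x₀, MDifferentiableAt 𝓘(ℂ, ND) 𝓘(ℂ, C2) Φ x ∧
      (Pell x.1 → Rep D x (Φ x)) := by
  obtain ⟨n, a, hlog, hPP⟩ := h
  obtain ⟨A, hA0, hAd, hAlog⟩ := exists_log_fun hlog
  have hfst : Tendsto (fun x : ND => x.1) (𝓝 x₀) (𝓝 x₀.1) := continuous_fst.continuousAt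
  have hAd' : ∀ᶠ x : ND in 𝓝 x₀, DifferentiableAt ℂ A x.1 := hfst.eventually hAd
  have hAlog' : ∀ᶠ x : ND in 𝓝 x₀, Pell x.1 → Log x.1 n (A x.1) := hfst.eventually hAlog
  have hgd : ∀ x : ND, DifferentiableAt ℂ A x.1 →
      DifferentiableAt ℂ (fun x : ND => ((x.1.1, x.2 + Lm lam (A x.1)) : ℂ × C2)) x := by
    intro x hx
    have h1 : DifferentiableAt ℂ (fun x : ND => x.1) x := differentiableAt_fst
    have h2 : DifferentiableAt ℂ (fun x : ND => A x.1) x := hx.comp x h1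
    have h3 : DifferentiableAt ℂ (fun x : ND => Lm lam (A x.1)) x :=
      DifferentiableAt.comp (g := Lm lam) (f := fun x : ND => A x.1) x
        (differentiable_Lm lam (A x.1)) h2
    exact (h1.fst).prodMk (differentiableAt_snd.add h3)
  have hPP' : ∀ᶠ x : ND in 𝓝 x₀, (x.1.1, x.2 + Lm lam (A x.1)) ∈ PP lam := by
    have h1 : (x₀.1.1, x₀.2 + Lm lam (A x₀.1)) ∈ PP lam := by rw [hA0]; exact hPP
    have h2 := PP_open hlam h1
    have h3 : ContinuousAt (fun x : ND => (lam, ((x.1.1, x.2 + Lm lam (A x.1)) : ℂ × C2))) x₀ :=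
      continuousAt_const.prodMk (hgd x₀ hAd'.self_of_nhds).continuousAt
    exact h3.eventually h2
  refine ⟨fun x => D.N n (x.1.1, x.2 + Lm lam (A x.1)), ?_⟩
  filter_upwards [hAd', hAlog', hPP'] with x h1 h2 h3
  refine ⟨?_, fun hP => ⟨n, A x.1, h2 hP, h3, rfl⟩⟩
  exact (D.holo n _ h3).comp x (hgd x h1).mdifferentiableAt

/-- the point represented by `x` -/
noncomputable def pt [Nonempty X] (x : ND) : X := Classical.epsilon fun y => Rep D x y

theorem rep_pt [Nonempty X] {x : ND} (h : Avoid lam x) : Rep D x (pt D x) := by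
  obtain ⟨n, a, h1, h2⟩ := h
  exact Classical.epsilon_spec (p := fun y => Rep D x y) ⟨_, n, a, h1, h2, rfl⟩

theorem Rep.avoid {x : ND} {y : X} (h : Rep D x y) : Avoid lam x := by
  obtain ⟨n, a, h1, h2, -⟩ := h
  exact ⟨n, a, h1, h2⟩

theorem Rep.pt_eq [Nonempty X] {x : ND} {y : X} (h : Rep D x y) : pt D x = y :=
  Rep.unique D (rep_pt D (Rep.avoid D h)) h

theorem pt_mdifferentiableAt [Nonempty X] (hlam : LinearIndependent ℝ lam) {V : Type}
    [NormedAddCommGroup V] [NormedSpace ℂ V] {x : V → ND} {z : V}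
    (hx : DifferentiableAt ℂ x z) (hP : ∀ᶠ y in 𝓝 z, Pell (x y).1) (hA : Avoid lam (x z)) :
    MDifferentiableAt 𝓘(ℂ, V) 𝓘(ℂ, C2) (fun y => pt D (x y)) z := by
  obtain ⟨Φ, hΦ⟩ := exists_pt_near D hlam hA
  have h1 : MDifferentiableAt 𝓘(ℂ, V) 𝓘(ℂ, C2) (Φ ∘ x) z :=
    hΦ.self_of_nhds.1.comp z hx.mdifferentiableAt
  refine h1.congr_of_eventuallyEq ?_
  filter_upwards [hP, hx.continuousAt.eventually hΦ] with y hy1 hy2
  exact Rep.pt_eq D (hy2.2 hy1)

/-- uniform continuity of `pt` near the compact image of a map -/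
theorem pt_close [Nonempty X] (hlam : LinearIndependent ℝ lam) {V : Type} [TopologicalSpace V]
    {K : Set V} (hK : IsCompact K) {x : V → ND} (hx : ContinuousOn x K)
    (hP : ∀ z ∈ K, Pell (x z).1) (hA : ∀ z ∈ K, Avoid lam (x z)) (d : X → X → ℝ)
    (hd : Continuous (fun p : X × X => d p.1 p.2)) (hd0 : ∀ y, d y y = 0) {ε : ℝ} (hε : 0 < ε) :
    ∃ δ > 0, ∀ z ∈ K, ∀ x' : ND, Pell x'.1 → ‖x' - x z‖ < δ →
      Avoid lam x' ∧ d (pt D x') (pt D (x z)) < ε := by
  have key : ∀ s : K, ∃ c : Set ND, IsOpen c ∧ x s ∈ c ∧ ∃ Φ : ND → X, ∀ x' ∈ c, ∀ x'' ∈ c,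
      (Pell x'.1 → Rep D x' (Φ x')) ∧ d (Φ x') (Φ x'') < ε := by
    intro s
    obtain ⟨Φ, hΦ⟩ := exists_pt_near D hlam (hA s s.2)
    have hcΦ : ContinuousAt Φ (x s) := hΦ.self_of_nhds.1.continuousAt
    have h1 : ContinuousAt (fun p : ND × ND => d (Φ p.1) (Φ p.2)) (x s, x s) := by
      have h2 : ContinuousAt (fun p : ND × ND => (Φ p.1, Φ p.2)) (x s, x s) :=
        (ContinuousAt.comp (f := fun p : ND × ND => p.1) (x := (x s, x s)) hcΦ
          continuousAt_fst).prodMk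
          (ContinuousAt.comp (f := fun p : ND × ND => p.2) (x := (x s, x s)) hcΦ
          continuousAt_snd)
      exact ContinuousAt.comp (g := fun p : X × X => d p.1 p.2) hd.continuousAt h2
    have h3 : ∀ᶠ p : ND × ND in 𝓝 (x s, x s), d (Φ p.1) (Φ p.2) < ε := by
      apply h1.eventually_lt_const
      change d (Φ (x s)) (Φ (x s)) < ε
      rw [hd0]
      exact hε
    rw [nhds_prod_eq] at h3
    obtain ⟨S, hS, hS2⟩ := (eventually_prod_self_iff (r := fun u v => d (Φ u) (Φ v) < ε)).1 h3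
    obtain ⟨c, hc1, hc2, hc3⟩ := _root_.mem_nhds_iff.1 (inter_mem hS hΦ)
    exact ⟨c, hc2, hc3, Φ, fun x' hx' x'' hx'' =>
      ⟨(hc1 hx').2.2, hS2 x' (hc1 hx').1 x'' (hc1 hx'').1⟩⟩
  choose c hc1 hc2 Φ hΦ using key
  obtain ⟨δ, hδ, hL⟩ := lebesgue_number_lemma_of_metric (s := x '' K) (c := c)
    (hK.image_of_continuousOn hx) hc1 (by
      rintro _ ⟨z, hz, rfl⟩
      exact mem_iUnion.2 ⟨⟨z, hz⟩, hc2 ⟨z, hz⟩⟩)
  refine ⟨δ, hδ, fun z hz x' hx'P hx' => ?_⟩
  obtain ⟨s, hs⟩ := hL (x z) (mem_image_of_mem x hz)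
  have h1 : x z ∈ c s := hs (mem_ball_self hδ)
  have h2 : x' ∈ c s := hs (by rw [mem_ball, dist_eq_norm]; exact hx')
  obtain ⟨h3, h4⟩ := hΦ s x' h2 (x z) h1
  have h5 := h3 hx'P
  have h6 := (hΦ s (x z) h1 (x z) h1).1 (hP z hz)
  refine ⟨Rep.avoid D h5, ?_⟩
  rw [Rep.pt_eq D h5, Rep.pt_eq D h6]
  exact h4

end

end Vale.Agent.P290.K
end
end

section

section

open scoped Manifold ContDiff Topology
open Set

namespace Vale.Agent.P290

/-- a bundled complex K3 surface -/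
structure K3 where
  X : Type
  [top : TopologicalSpace X]
  [charts : ChartedSpace C2 X]
  isK3 : IsK3 X

attribute [instance] K3.top K3.charts

/-- a bundled Riemann surface -/
structure RS where
  C : Type
  [top : TopologicalSpace C]
  [t2 : T2Space C]
  [charts : ChartedSpace ℂ C]
  [manifold : IsManifold 𝓘(ℂ) ω C]

attribute [instance] RS.top RS.t2 RS.charts RS.manifold

/-- both partial derivatives of a map from a surface to a Riemann surface vanish at `x` (in the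
preferred charts): `x` is a critical point of `π` -/
def Critical {X C : Type} [TopologicalSpace X] [ChartedSpace C2 X] [TopologicalSpace C]
    [ChartedSpace ℂ C] (π : X → C) (x : X) : Prop :=
  ∀ e t y, e = chartAt C2 x → t = chartAt ℂ (π x) → y = e x →
    deriv (fun s => t (π (e.symm (s, y.2)))) y.1 = 0 ∧
      deriv (fun s => t (π (e.symm (y.1, s)))) y.2 = 0

/-- the derivative of a function on a Riemann surface in the preferred chart -/
noncomputable def dS {C : Type} [TopologicalSpace C] [ChartedSpace ℂ C] (S : C → ℂ) (p : C) : ℂ :=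
  deriv (fun s => S ((chartAt ℂ p).symm s)) (chartAt ℂ p p)

/-- `c` is an integral curve, in complex time, of the Hamiltonian vector field of `H` with respect
to the holomorphic symplectic form `vol`: Hamilton's equations hold in every chart. -/
def IsHamCurve {X : Type} [TopologicalSpace X] [ChartedSpace C2 X] (vol : VolForm X) (H : X → ℂ)
    (c : ℂ → X) : Prop :=
  ∀ t, ContinuousAt c t ∧ ∀ e ∈ atlas C2 X, c t ∈ e.source → ∀ y, y = e (c t) →
    ∃ v : C2, HasDerivAt (fun s => e (c s)) v t ∧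
      vol.coef e y * v.1 = deriv (fun s => H (e.symm (y.1, s))) y.2 ∧
      vol.coef e y * v.2 = - deriv (fun s => H (e.symm (s, y.2))) y.1

/-- `Y` is a Tate-Shafarevich twist of `X`: over the sets of an open cover of the Riemann surface `C`
the maps `π : X → C` and `ρ : Y → C` are isomorphic, and over the intersections the isomorphisms
differ by the time one map of the Hamiltonian flow of a function pulled back from the base -/
structure Twist {X Y C : Type} [TopologicalSpace X] [ChartedSpace C2 X] [TopologicalSpace Y]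
    [ChartedSpace C2 Y] [TopologicalSpace C] [ChartedSpace ℂ C] (vol : VolForm X)
    (π : X → C) (ρ : Y → C) where
  A : Type
  O : A → Set C
  h : A → X → Y
  g : A → Y → X
  S : A → A → C → ℂ
  isOpen : ∀ a, IsOpen (O a)
  cover : ∀ p, ∃ a, p ∈ O a
  h_hol : ∀ a x, π x ∈ O a → MDifferentiableAt 𝓘(ℂ, C2) 𝓘(ℂ, C2) (h a) x
  g_hol : ∀ a y, ρ y ∈ O a → MDifferentiableAt 𝓘(ℂ, C2) 𝓘(ℂ, C2) (g a) y
  h_base : ∀ a x, π x ∈ O a → ρ (h a x) = π x
  g_base : ∀ a y, ρ y ∈ O a → π (g a y) = ρ y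
  gh : ∀ a x, π x ∈ O a → g a (h a x) = x
  hg : ∀ a y, ρ y ∈ O a → h a (g a y) = y
  S_hol : ∀ a b p, p ∈ O a → p ∈ O b → MDifferentiableAt 𝓘(ℂ) 𝓘(ℂ) (S a b) p
  S_coc : ∀ a b c p, p ∈ O a → p ∈ O b → p ∈ O c → dS (S a c) p = dS (S a b) p + dS (S b c) p
  trans : ∀ a b x, π x ∈ O a → π x ∈ O b →
    ∃ c, IsHamCurve vol (fun x => S a b (π x)) c ∧ c 0 = x ∧ h b (c 1) = h a x

/-- two K3 surfaces are twists of each other -/
def IsTwist (X Y : K3) : Prop :=
  ∃ (vol : VolForm X.X) (C : RS) (π : X.X → C.C) (ρ : Y.X → C.C),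
    MDifferentiable 𝓘(ℂ, C2) 𝓘(ℂ) π ∧ MDifferentiable 𝓘(ℂ, C2) 𝓘(ℂ) ρ ∧
      Nonempty (Twist vol π ρ)

end Vale.Agent.P290
end
end

section

section

open Set Filter Metric
open scoped Manifold ContDiff Topology

namespace Vale.Agent.P290.K

/-- local square roots -/
theorem exists_local_sqrt {h₀ w₀ : ℂ} (h0 : h₀ ≠ 0) (hw : w₀ ^ 2 = h₀) :
    ∃ r : ℂ → ℂ, AnalyticAt ℂ r h₀ ∧ r h₀ = w₀ ∧ ∀ᶠ h in 𝓝 h₀, r h ^ 2 = h ∧
      ∃ r' : ℂ, HasDerivAt r r' h ∧ r h * r' = 1 / 2 := by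
  set r : ℂ → ℂ := fun h => w₀ * Complex.exp (Complex.log (h / h₀) / 2) with hr
  have hslit : h₀ / h₀ ∈ Complex.slitPlane := by rw [div_self h0]; simp
  have hra : AnalyticAt ℂ r h₀ := by
    have h1 : AnalyticAt ℂ (fun h : ℂ => h / h₀) h₀ := analyticAt_id.div analyticAt_const h0
    have h2 : AnalyticAt ℂ (fun h : ℂ => Complex.log (h / h₀)) h₀ := h1.clog hslit
    have h3 : AnalyticAt ℂ (fun h : ℂ => Complex.log (h / h₀) / 2) h₀ :=
      h2.div analyticAt_const two_ne_zero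
    exact analyticAt_const.mul h3.cexp
  have hsq : ∀ᶠ h in 𝓝 h₀, r h ^ 2 = h := by
    filter_upwards [isOpen_ne.mem_nhds h0] with h hh
    simp only [hr]
    have hh' : h ≠ 0 := hh
    rw [mul_pow, hw, ← Complex.exp_nat_mul]
    have : ((2 : ℕ) : ℂ) * (Complex.log (h / h₀) / 2) = Complex.log (h / h₀) := by
      push_cast; ring
    rw [this, Complex.exp_log (div_ne_zero hh' h0)]
    field_simp
  refine ⟨r, hra, ?_, ?_⟩
  · simp only [hr]
    rw [div_self h0, Complex.log_one, zero_div, Complex.exp_zero, mul_one]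
  · filter_upwards [hsq, hsq.eventually_nhds, hra.eventually_analyticAt] with h h1 h2 h3
    refine ⟨h1, deriv r h, h3.differentiableAt.hasDerivAt, ?_⟩
    have h4 : HasDerivAt (fun h => r h ^ 2) (2 * r h * deriv r h) h := by
      have h7 := h3.differentiableAt.hasDerivAt.pow 2
      have h8 : (fun h => r h ^ 2) = r ^ 2 := rfl
      rw [h8]
      simpa only [Nat.cast_ofNat, Nat.add_one_sub_one, pow_one] using h7
    have h5 : HasDerivAt (fun h => r h ^ 2) 1 h := (hasDerivAt_id h).congr_of_eventuallyEq h2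
    have h6 := h4.unique h5
    linear_combination h6 / 2

variable {lam : Fin 4 → C2}

theorem det_of_hasFDerivAt {f : C2 → C2} {v : C2} {A B : C2 →L[ℂ] ℂ} {d : ℂ}
    (hA : HasFDerivAt (fun v => (f v).1) A v) (hB : HasFDerivAt (fun v => (f v).2) B v)
    (hd : A (1, 0) * B (0, 1) - A (0, 1) * B (1, 0) = d) : (fderiv ℂ f v).det = d := by
  have h1 : HasFDerivAt f (A.prod B) v := hA.prodMk hB
  rw [h1.fderiv, C2_det]
  exact hd

/-- the transition `(h, u) ↦ (h u², -1/u)` -/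
theorem swap_slice {v : C2} (hv : v.2 ≠ 0) :
    AnalyticAt ℂ (fun v : C2 => ((v.1 * v.2 ^ 2, - v.2⁻¹) : C2)) v ∧
      (fderiv ℂ (fun v : C2 => ((v.1 * v.2 ^ 2, - v.2⁻¹) : C2)) v).det = 1 := by
  refine ⟨?_, ?_⟩
  · exact (analyticAt_fst.mul (analyticAt_snd.pow 2)).prod (analyticAt_snd.inv hv).neg
  · have h1 : HasFDerivAt (fun v : C2 => v.1 * v.2 ^ 2)
        (v.1 • ((2 * v.2) • ContinuousLinearMap.snd ℂ ℂ ℂ) +
          (v.2 ^ 2) • ContinuousLinearMap.fst ℂ ℂ ℂ) v := by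
      have h2 : HasFDerivAt (fun v : C2 => v.2 ^ 2)
          ((2 * v.2) • ContinuousLinearMap.snd ℂ ℂ ℂ) v := by
        have := (hasFDerivAt_snd (𝕜 := ℂ) (p := v)).pow 2
        simpa only [mul_comm, Nat.add_one_sub_one, pow_one, nsmul_eq_mul, Nat.cast_ofNat] using this
      exact hasFDerivAt_fst.mul h2
    have h3 : HasFDerivAt (fun v : C2 => - v.2⁻¹)
        (((v.2 ^ 2)⁻¹) • ContinuousLinearMap.snd ℂ ℂ ℂ) v := by
      have h4 : HasDerivAt (fun z : ℂ => - z⁻¹) ((v.2 ^ 2)⁻¹) v.2 := by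
        have := (hasDerivAt_inv hv).neg
        rw [neg_neg] at this
        exact this
      exact h4.comp_hasFDerivAt v hasFDerivAt_snd
    refine det_of_hasFDerivAt (f := fun v : C2 => ((v.1 * v.2 ^ 2, - v.2⁻¹) : C2)) h1 h3 ?_
    simp only [add_apply, smul_apply, ContinuousLinearMap.coe_snd', smul_eq_mul, mul_zero, ContinuousLinearMap.coe_fst', mul_one, zero_add, add_zero, sub_zero]
    field_simp

/-- the transitions away from the exceptional curves -/
theorem sqrt_slice (b b' : Bool) {v w : C2} (h0 : v.1 ≠ 0) {w₀ w₀' : ℂ} (hw : w₀ ^ 2 = v.1)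
    (hw' : w₀' ^ 2 = w.1) (hw0' : w₀' ≠ 0) (e : C2)
    (he : w₀' • (sl b' w).2 = w₀ • (sl b v).2 + e) :
    ∃ φ : C2 → C2, AnalyticAt ℂ φ v ∧ φ v = w ∧ ∀ᶠ v' in 𝓝 v, (fderiv ℂ φ v').det = 1 ∧
      ∃ r r' : ℂ, r ≠ 0 ∧ r' ≠ 0 ∧ r ^ 2 = v'.1 ∧ r' ^ 2 = (φ v').1 ∧
        r' • (sl b' (φ v')).2 = r • (sl b v').2 + e := by
  obtain ⟨r, hra, hr0, hrev⟩ := exists_local_sqrt h0 hw
  -- the map `ζ`
  obtain ⟨ζ, hζa, hζ0, hζev⟩ : ∃ ζ : C2 → C2, AnalyticAt ℂ ζ v ∧ ζ v = w₀' • (sl b' w).2 ∧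
      ∀ᶠ v' in 𝓝 v, (fderiv ℂ ζ v').det = 1 / 2 ∧ DifferentiableAt ℂ ζ v' ∧
        ζ v' = r v'.1 • (sl b v').2 + e := by
    have hra' : AnalyticAt ℂ (fun v : C2 => r v.1) v :=
      AnalyticAt.fun_comp (g := r) (f := fun v : C2 => v.1) hra analyticAt_fst
    have hev := (continuous_fst.tendsto v).eventually hrev
    cases b
    · refine ⟨fun v => (r v.1 + e.1, r v.1 * v.2 + e.2), ?_, ?_, ?_⟩
      · exact (hra'.add analyticAt_const).prod ((hra'.mul analyticAt_snd).add analyticAt_const)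
      · rw [he]
        ext <;> simp [sl_false, hr0]
      · filter_upwards [hev] with v' hv'
        obtain ⟨-, r', hr', hrr'⟩ := hv'
        have h1 : HasFDerivAt (fun v : C2 => r v.1) (r' • ContinuousLinearMap.fst ℂ ℂ ℂ) v' :=
          hr'.comp_hasFDerivAt v' hasFDerivAt_fst
        have h2 := h1.add_const e.1
        have h3 := (h1.mul (hasFDerivAt_snd (p := v'))).add_const e.2
        refine ⟨det_of_hasFDerivAt (f := fun v : C2 => ((r v.1 + e.1, r v.1 * v.2 + e.2) : C2))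
          h2 h3 ?_, (h2.prodMk h3).differentiableAt, ?_⟩
        · simp
          linear_combination hrr'
        · ext <;> simp [sl_false]
    · refine ⟨fun v => (- (r v.1 * v.2) + e.1, r v.1 + e.2), ?_, ?_, ?_⟩
      · exact ((hra'.mul analyticAt_snd).neg.add analyticAt_const).prod
          (hra'.add analyticAt_const)
      · rw [he]
        ext <;> simp [sl_true, hr0]
      · filter_upwards [hev] with v' hv'
        obtain ⟨-, r', hr', hrr'⟩ := hv'
        have h1 : HasFDerivAt (fun v : C2 => r v.1) (r' • ContinuousLinearMap.fst ℂ ℂ ℂ) v' :=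
          hr'.comp_hasFDerivAt v' hasFDerivAt_fst
        have h2 := h1.add_const e.2
        have h3 := (h1.mul (hasFDerivAt_snd (p := v'))).neg.add_const e.1
        refine ⟨det_of_hasFDerivAt (f := fun v : C2 => ((- (r v.1 * v.2) + e.1, r v.1 + e.2) : C2))
          h3 h2 ?_, (h3.prodMk h2).differentiableAt, ?_⟩
        · simp only [neg_add_rev, add_apply, neg_apply, smul_apply, ContinuousLinearMap.coe_fst', smul_eq_mul, mul_one, ContinuousLinearMap.coe_snd', mul_zero, neg_zero, add_zero, zero_add, neg_mul, sub_neg_eq_add, one_div]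
          linear_combination hrr'
        · ext <;> simp [sl_true]
  -- the map `ψ`
  obtain ⟨ψ, hψa, hψ0, hψev⟩ : ∃ ψ : C2 → C2, AnalyticAt ℂ ψ (ζ v) ∧ ψ (ζ v) = w ∧
      ∀ᶠ z in 𝓝 (ζ v), (fderiv ℂ ψ z).det = 2 ∧ DifferentiableAt ℂ ψ z ∧
        ∃ r' : ℂ, r' ≠ 0 ∧ r' ^ 2 = (ψ z).1 ∧ r' • (sl b' (ψ z)).2 = z := by
    cases b'
    · have hz : (ζ v).1 = w₀' := by rw [hζ0]; simp [sl_false]
      have hz2 : (ζ v).2 = w₀' * w.2 := by rw [hζ0]; simp [sl_false]
      have hzn : (ζ v).1 ≠ 0 := by rw [hz]; exact hw0'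
      refine ⟨fun z => (z.1 ^ 2, z.2 * z.1⁻¹), ?_, ?_, ?_⟩
      · exact (analyticAt_fst.pow 2).prod (analyticAt_snd.mul (analyticAt_fst.inv hzn))
      · refine Prod.ext ?_ ?_
        · simp only; rw [hz, hw']
        · simp only; rw [hz, hz2]; (clear * - hw0'; field_simp)
      · filter_upwards [continuous_fst.continuousAt.eventually (isOpen_ne.mem_nhds hzn)] with z hz
        have hz' : z.1 ≠ 0 := hz
        have h1 : HasFDerivAt (fun z : C2 => z.1 ^ 2)
            ((2 * z.1) • ContinuousLinearMap.fst ℂ ℂ ℂ) z := by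
          have := (hasFDerivAt_fst (𝕜 := ℂ) (p := z)).pow 2
          simpa only [mul_comm, Nat.add_one_sub_one, pow_one, nsmul_eq_mul, Nat.cast_ofNat] using this
        have h3 : HasFDerivAt (fun z : C2 => z.1⁻¹)
            ((-(z.1 ^ 2)⁻¹) • ContinuousLinearMap.fst ℂ ℂ ℂ) z :=
          (hasDerivAt_inv hz').comp_hasFDerivAt z hasFDerivAt_fst
        have h4 := (hasFDerivAt_snd (𝕜 := ℂ) (p := z)).mul h3
        refine ⟨det_of_hasFDerivAt (f := fun z : C2 => ((z.1 ^ 2, z.2 * z.1⁻¹) : C2)) h1 h4 ?_,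
          (h1.prodMk h4).differentiableAt, z.1, hz', rfl, ?_⟩
        · simp only [smul_apply, ContinuousLinearMap.coe_fst', smul_eq_mul, mul_one, add_apply, mul_zero, ContinuousLinearMap.coe_snd', zero_add, mul_neg, add_zero, zero_mul, neg_zero, sub_zero]
          field_simp
        · ext
          · simp only [sl_false, Prod.smul_mk, smul_eq_mul, mul_one]
          · simp only [sl_false, Prod.smul_mk, smul_eq_mul, mul_one]; (clear * - hz'; field_simp)
    · have hz : (ζ v).2 = w₀' := by rw [hζ0]; simp [sl_true]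
      have hz2 : (ζ v).1 = - (w₀' * w.2) := by rw [hζ0]; simp only [sl_true, Prod.smul_mk, smul_eq_mul, mul_neg, mul_one]
      have hzn : (ζ v).2 ≠ 0 := by rw [hz]; exact hw0'
      refine ⟨fun z => (z.2 ^ 2, - (z.1 * z.2⁻¹)), ?_, ?_, ?_⟩
      · exact (analyticAt_snd.pow 2).prod (analyticAt_fst.mul (analyticAt_snd.inv hzn)).neg
      · refine Prod.ext ?_ ?_
        · simp only; rw [hz, hw']
        · simp only; rw [hz, hz2]; (clear * - hw0'; field_simp)
      · filter_upwards [continuous_snd.continuousAt.eventually (isOpen_ne.mem_nhds hzn)] with z hz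
        have hz' : z.2 ≠ 0 := hz
        have h1 : HasFDerivAt (fun z : C2 => z.2 ^ 2)
            ((2 * z.2) • ContinuousLinearMap.snd ℂ ℂ ℂ) z := by
          have := (hasFDerivAt_snd (𝕜 := ℂ) (p := z)).pow 2
          simpa only [mul_comm, Nat.add_one_sub_one, pow_one, nsmul_eq_mul, Nat.cast_ofNat] using this
        have h3 : HasFDerivAt (fun z : C2 => z.2⁻¹)
            ((-(z.2 ^ 2)⁻¹) • ContinuousLinearMap.snd ℂ ℂ ℂ) z :=
          (hasDerivAt_inv hz').comp_hasFDerivAt z hasFDerivAt_snd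
        have h4 := ((hasFDerivAt_fst (𝕜 := ℂ) (p := z)).mul h3).neg
        refine ⟨det_of_hasFDerivAt (f := fun z : C2 => ((z.2 ^ 2, - (z.1 * z.2⁻¹)) : C2)) h1 h4 ?_,
          (h1.prodMk h4).differentiableAt, z.2, hz', rfl, ?_⟩
        · simp only [smul_apply, ContinuousLinearMap.coe_snd', smul_eq_mul, mul_zero, neg_add_rev, add_apply, neg_apply, ContinuousLinearMap.coe_fst', neg_zero, mul_one, mul_neg, neg_neg, zero_add, zero_mul, add_zero, sub_neg_eq_add]
          (clear * - hz'; field_simp)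
        · ext
          · simp only [sl_true, neg_neg, Prod.smul_mk, smul_eq_mul, mul_one]; (clear * - hz'; field_simp)
          · simp only [sl_true, neg_neg, Prod.smul_mk, smul_eq_mul, mul_one]
  refine ⟨ψ ∘ ζ, hψa.comp hζa, hψ0, ?_⟩
  have hev := (continuous_fst.tendsto v).eventually hrev
  have hne : ∀ᶠ v' : C2 in 𝓝 v, v'.1 ≠ 0 := continuous_fst.continuousAt.eventually
    (isOpen_ne.mem_nhds h0)
  filter_upwards [hζev, hζa.continuousAt.eventually hψev, hev, hne] with v' h1 h2 h3 h4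
  obtain ⟨r', hr', hr'2, hr'3⟩ := h2.2.2
  refine ⟨?_, r v'.1, r', ?_, hr', h3.1, hr'2, ?_⟩
  · rw [fderiv_comp v' h2.2.1 h1.2.1]
    have h5 : ((fderiv ℂ ψ (ζ v')).comp (fderiv ℂ ζ v')).det =
        (fderiv ℂ ψ (ζ v')).det * (fderiv ℂ ζ v').det := by
      simp only [ContinuousLinearMap.det]
      exact LinearMap.det_comp _ _
    rw [h5, h2.1, h1.1]; norm_num
  · intro h0'
    apply h4
    rw [← h3.1, h0']; ring
  · simp only [Function.comp_apply]
    rw [hr'3, h1.2.2]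

end Vale.Agent.P290.K
end
end

section

section

open Set Filter Metric
open scoped Manifold ContDiff Topology

namespace Vale.Agent.P290.K

variable {lam : Fin 4 → C2}

theorem kq_scale (hlam : LinearIndependent ℝ lam) (n m : Fin 4 → ℤ) {x y : ℂ × C2} {τ : ℂ}
    (hτ : τ ≠ 0) (hx : x ∈ PP lam) (hy : y = (x.1 / τ ^ 2, τ • x.2)) :
    y ∈ PP lam ∧ kq hlam (n + 2 • m) y = kq hlam n x := by
  subst hy
  have h2 := scale_mem_PP (s := x.1) (c := x.2) hx hτ
  exact ⟨h2, ((kq_eq_iff hlam hx h2).2 (g_KRel_scale n m x.1 τ x.2 hτ)).symm⟩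

theorem kq_trans (hlam : LinearIndependent ℝ lam) (i j : (Fin 4 → ℤ) × Bool) {v w : C2}
    (hv : sl i.2 v ∈ PP lam) (hw : sl j.2 w ∈ PP lam)
    (hvw : kq hlam i.1 (sl i.2 v) = kq hlam j.1 (sl j.2 w)) :
    ∃ φ : C2 → C2, AnalyticAt ℂ φ v ∧ φ v = w ∧ ∀ᶠ v' in 𝓝 v, φ v' ∈ {v | sl j.2 v ∈ PP lam} ∧
      kq hlam j.1 (sl j.2 (φ v')) = kq hlam i.1 (sl i.2 v') ∧ (fderiv ℂ φ v').det = 1 := by
  obtain ⟨n, b⟩ := i
  obtain ⟨n', b'⟩ := j
  simp only at hv hw hvw ⊢
  have hPP : ∀ᶠ v' in 𝓝 v, sl b v' ∈ PP lam :=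
    (continuous_sl b).continuousAt.eventually ((isOpen_PP hlam).mem_nhds hv)
  rcases (kq_eq_iff hlam hv hw).1 hvw with ⟨h1, h2, ⟨m, hm⟩, t, ht, htc⟩ |
    ⟨h1, h2, w₀, w₀', hw0, hw0', m, hm⟩
  · subst hm
    rw [sl_fst] at h1 h2
    by_cases hb : b = b'
    · -- the same slice
      subst hb
      have hvw' : v = w := by
        cases b
        · simp only [sl_false, Prod.smul_mk, Prod.mk.injEq, smul_eq_mul, mul_one] at htc
          refine Prod.ext (by rw [h1, h2]) ?_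
          rw [htc.2, ← htc.1, one_mul]
        · simp only [sl_true, Prod.smul_mk, Prod.mk.injEq, smul_eq_mul, mul_one] at htc
          refine Prod.ext (by rw [h1, h2]) ?_
          have := htc.1
          rw [← htc.2, one_mul] at this
          exact (neg_injective this).symm
      refine ⟨id, analyticAt_id, hvw', ?_⟩
      filter_upwards [hPP] with v' hv'
      obtain ⟨h3, h4⟩ := kq_scale hlam n m (x := sl b v') (y := sl b v') (τ := 1) one_ne_zero hv'
        (by simp)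
      refine ⟨h3, h4, ?_⟩
      rw [fderiv_id]
      simp only [ContinuousLinearMap.det, ContinuousLinearMap.coe_id, LinearMap.det_id]
    · have hu : v.2 ≠ 0 ∧ w.2 = - v.2⁻¹ := by
        cases b
        · obtain rfl : b' = true := by cases b' <;> simp_all
          simp only [sl_false, sl_true, Prod.smul_mk, Prod.mk.injEq, smul_eq_mul, mul_one] at htc
          have h3 : v.2 ≠ 0 := by
            intro h0
            rw [h0, mul_zero] at htc
            exact one_ne_zero htc.2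
          refine ⟨h3, ?_⟩
          have h4 : w.2 * v.2 = -1 := by linear_combination (-v.2) * htc.1 + htc.2
          field_simp
          linear_combination h4
        · obtain rfl : b' = false := by cases b' <;> simp_all
          simp only [sl_false, sl_true, Prod.smul_mk, Prod.mk.injEq, smul_eq_mul, mul_one] at htc
          have h3 : v.2 ≠ 0 := by
            intro h0
            rw [h0, neg_zero, mul_zero] at htc
            exact one_ne_zero htc.1
          refine ⟨h3, ?_⟩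
          have h4 : w.2 * v.2 = -1 := by linear_combination (v.2) * htc.2 + htc.1
          field_simp
          linear_combination h4
      obtain ⟨hu1, hu2⟩ := hu
      refine ⟨fun v => (v.1 * v.2 ^ 2, - v.2⁻¹), (swap_slice hu1).1, ?_, ?_⟩
      · refine Prod.ext ?_ ?_
        · simp only; rw [h1, h2, zero_mul]
        · simp only; rw [hu2]
      · filter_upwards [hPP, continuous_snd.continuousAt.eventually (isOpen_ne.mem_nhds hu1)]
          with v' hv' hv'2
        have hv'2' : v'.2 ≠ 0 := hv'2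
        have h5 : sl b' (v'.1 * v'.2 ^ 2, - v'.2⁻¹) ∈ PP lam ∧
            kq hlam (n + 2 • m) (sl b' (v'.1 * v'.2 ^ 2, - v'.2⁻¹)) = kq hlam n (sl b v') := by
          cases b
          · obtain rfl : b' = true := by cases b' <;> simp_all
            refine kq_scale hlam n m (τ := v'.2⁻¹) (inv_ne_zero hv'2') hv' ?_
            ext <;> simp [sl_true, sl_false, hv'2', div_eq_mul_inv]
          · obtain rfl : b' = false := by cases b' <;> simp_all
            refine kq_scale hlam n m (τ := -v'.2⁻¹) (neg_ne_zero.2 (inv_ne_zero hv'2')) hv' ?_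
            ext <;> simp [sl_true, sl_false, hv'2', div_eq_mul_inv]
        exact ⟨h5.1, h5.2, (swap_slice hv'2').2⟩
  · -- away from the exceptional curves
    rw [sl_fst] at h1 h2 hw0 hw0'
    have hw0'ne : w₀' ≠ 0 := by
      intro h; apply h2; rw [← hw0', h]; ring
    set e : C2 := (1 / 2 : ℂ) • lat lam n + lat lam m - (1 / 2 : ℂ) • lat lam n' with he
    have h3 : w₀' • (sl b' w).2 = w₀ • (sl b v).2 + e := by
      have : w₀' • (sl b' w).2 = ((1 / 2 : ℂ) • lat lam n' + w₀' • (sl b' w).2) -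
          (1 / 2 : ℂ) • lat lam n' := by abel
      rw [this, hm, he]; abel
    obtain ⟨φ, hφa, hφ0, hφev⟩ := sqrt_slice b b' h1 hw0 hw0' hw0'ne e h3
    refine ⟨φ, hφa, hφ0, ?_⟩
    have hPP' : ∀ᶠ v' in 𝓝 v, sl b' (φ v') ∈ PP lam := by
      have hc : ContinuousAt (fun v' => sl b' (φ v')) v :=
        ContinuousAt.comp (continuous_sl b').continuousAt hφa.continuousAt
      refine hc.eventually ((isOpen_PP hlam).mem_nhds ?_)
      change sl b' (φ v) ∈ PP lam
      rw [hφ0]; exact hw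
    filter_upwards [hφev, hPP, hPP'] with v' ⟨hdet, r, r', hr, hr', hr2, hr'2, hrr⟩ h5 h6
    refine ⟨h6, ?_, hdet⟩
    rw [kq_eq_iff hlam h6 h5]
    refine KRel_symm (Or.inr ⟨?_, ?_, r, r', ?_, ?_, m, ?_⟩)
    · rw [sl_fst, ← hr2]; exact pow_ne_zero 2 hr
    · rw [sl_fst, ← hr'2]; exact pow_ne_zero 2 hr'
    · rw [sl_fst, hr2]
    · rw [sl_fst, hr'2]
    · rw [hrr, he]; abel

/-- the Kummer surface -/
noncomputable def kAtlas (hlam : LinearIndependent ℝ lam) : EtaleAtlas where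
  Z := Quotient ⟨_, KRel_equivalence hlam⟩
  I := (Fin 4 → ℤ) × Bool
  U i := {v | sl i.2 v ∈ PP lam}
  g i v := kq hlam i.1 (sl i.2 v)
  open_U := fun i => (isOpen_PP hlam).preimage (continuous_sl i.2)
  cover := kq_cover hlam
  trans := fun i j _ hv _ hw h => kq_trans hlam i j hv hw h
  inj := fun i _ hv => kq_inj hlam i hv

theorem t2_kAtlas (hlam : LinearIndependent ℝ lam) : T2Space (kAtlas hlam).Space := by
  refine (kAtlas hlam).t2 ?_
  intro i j v hv w hw hf
  obtain ⟨n, b⟩ := i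
  obtain ⟨n', b'⟩ := j
  change sl b v ∈ PP lam at hv
  change sl b' w ∈ PP lam at hw
  change ∃ᶠ p : C2 × C2 in 𝓝 (v, w), kq hlam n (sl b p.1) = kq hlam n' (sl b' p.2) at hf
  change kq hlam n (sl b v) = kq hlam n' (sl b' w)
  rw [kq_eq_iff hlam hv hw]
  refine KRel_closed hlam hv hw ?_
  have hcont : Continuous (fun p : C2 × C2 => (sl b p.1, sl b' p.2)) :=
    ((continuous_sl b).comp continuous_fst).prodMk ((continuous_sl b').comp continuous_snd)
  have hPP : ∀ᶠ p : C2 × C2 in 𝓝 (v, w), sl b p.1 ∈ PP lam ∧ sl b' p.2 ∈ PP lam := by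
    have h1 : IsOpen (PP lam ×ˢ PP lam) := (isOpen_PP hlam).prod (isOpen_PP hlam)
    exact hcont.continuousAt.eventually (h1.mem_nhds ⟨hv, hw⟩)
  have h2 : ∃ᶠ p : C2 × C2 in 𝓝 (v, w), KRel lam n (sl b p.1) n' (sl b' p.2) := by
    refine (hf.and_eventually hPP).mono ?_
    rintro p ⟨h3, h4, h5⟩
    exact (kq_eq_iff hlam h4 h5).1 h3
  exact (hcont.tendsto (v, w)).frequently h2

/-! ### Kummer data -/

theorem kq_eventually (hlam : LinearIndependent ℝ lam) (n : Fin 4 → ℤ) {x : ℂ × C2}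
    (hx : x ∈ PP lam) : ∃ b : Bool, ∃ α : ℂ × C2 → C2, DifferentiableAt ℂ α x ∧
      Function.Surjective (fderiv ℂ α x) ∧ sl b (α x) ∈ PP lam ∧
      ∀ᶠ y in 𝓝 x, kq hlam n y = kq hlam n (sl b (α y)) := by
  have hPP : ∀ᶠ y in 𝓝 x, y ∈ PP lam := (isOpen_PP hlam).mem_nhds hx
  by_cases h : x.2.1 = 0
  · have h2 : x.2.2 ≠ 0 := fun h' => hx.1 (Prod.ext h h')
    set α : ℂ × C2 → C2 := fun x => (x.1 * x.2.2 ^ 2, - x.2.1 / x.2.2) with hα
    have hdα : DifferentiableAt ℂ α x := by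
      refine DifferentiableAt.prodMk (by (clear * -; fun_prop)) ?_
      (clear * - h2; fun_prop (disch := exact h2))
    refine ⟨true, α, hdα, ?_, ((kq_slice hlam n hx).2 h2).1, ?_⟩
    · set j : C2 → ℂ × C2 := fun v => (v.1 / x.2.2 ^ 2, (- (x.2.2 * v.2), x.2.2)) with hj
      have hjx : j (α x) = x := by
        refine Prod.ext ?_ (Prod.ext ?_ ?_)
        · simp only [hj, hα]; (clear * - h2; field_simp)
        · simp only [hj, hα]; field_simp
        · simp only [hj]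
      have hdj : DifferentiableAt ℂ j (α x) := by
        simp only [hj]; (clear * -; fun_prop)
      have hid : α ∘ j = id := by
        funext v
        refine Prod.ext ?_ ?_
        · simp only [Function.comp_apply, hα, hj, id]; (clear * - h2; field_simp)
        · simp only [Function.comp_apply, hα, hj, id]; (clear * - h2; field_simp)
      have h3 : (fderiv ℂ α (j (α x))).comp (fderiv ℂ j (α x)) = ContinuousLinearMap.id ℂ C2 := by
        rw [← fderiv_comp (α x) (by rw [hjx]; exact hdα) hdj, hid, fderiv_id]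
      rw [hjx] at h3
      intro y
      exact ⟨fderiv ℂ j (α x) y, congrArg (fun L => L y) h3⟩
    · have h4 : ∀ᶠ y : ℂ × C2 in 𝓝 x, y.2.2 ≠ 0 := by
        have hc : ContinuousAt (fun y : ℂ × C2 => y.2.2) x := by fun_prop
        exact hc.eventually (isOpen_ne.mem_nhds h2)
      filter_upwards [hPP, h4] with y hy hy2
      exact ((kq_slice hlam n hy).2 hy2).2.symm
  · set α : ℂ × C2 → C2 := fun x => (x.1 * x.2.1 ^ 2, x.2.2 / x.2.1) with hα
    have hdα : DifferentiableAt ℂ α x := by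
      refine DifferentiableAt.prodMk (by fun_prop) ?_
      fun_prop (disch := exact h)
    refine ⟨false, α, hdα, ?_, ((kq_slice hlam n hx).1 h).1, ?_⟩
    · set j : C2 → ℂ × C2 := fun v => (v.1 / x.2.1 ^ 2, (x.2.1, x.2.1 * v.2)) with hj
      have hjx : j (α x) = x := by
        refine Prod.ext ?_ (Prod.ext ?_ ?_)
        · simp only [hj, hα]; (clear * - h; field_simp)
        · simp only [hj]
        · simp only [hj, hα]; (clear * - h; field_simp)
      have hdj : DifferentiableAt ℂ j (α x) := by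
        simp only [hj]; (clear * -; fun_prop)
      have hid : α ∘ j = id := by
        funext v
        refine Prod.ext ?_ ?_
        · simp only [Function.comp_apply, hα, hj, id]; (clear * - h; field_simp)
        · simp only [Function.comp_apply, hα, hj, id]; field_simp
      have h3 : (fderiv ℂ α (j (α x))).comp (fderiv ℂ j (α x)) = ContinuousLinearMap.id ℂ C2 := by
        rw [← fderiv_comp (α x) (by rw [hjx]; exact hdα) hdj, hid, fderiv_id]
      rw [hjx] at h3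
      intro y
      exact ⟨fderiv ℂ j (α x) y, congrArg (fun L => L y) h3⟩
    · have h4 : ∀ᶠ y : ℂ × C2 in 𝓝 x, y.2.1 ≠ 0 := by
        have hc : ContinuousAt (fun y : ℂ × C2 => y.2.1) x := by fun_prop
        exact hc.eventually (isOpen_ne.mem_nhds h)
      filter_upwards [hPP, h4] with y hy hy2
      exact ((kq_slice hlam n hy).1 hy2).2.symm

theorem kq_mdifferentiableAt (hlam : LinearIndependent ℝ lam) (n : Fin 4 → ℤ) {x : ℂ × C2}
    (hx : x ∈ PP lam) : MDifferentiableAt 𝓘(ℂ, ℂ × C2) 𝓘(ℂ, C2) (M' := (kAtlas hlam).Space)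
      (kq hlam n) x ∧
    Function.Surjective (mfderiv 𝓘(ℂ, ℂ × C2) 𝓘(ℂ, C2) (M' := (kAtlas hlam).Space)
      (kq hlam n) x) := by
  obtain ⟨b, α, hα, hs, hPP, hev⟩ := kq_eventually hlam n hx
  set q : ℂ × C2 → (kAtlas hlam).Space := fun y => kq hlam n y with hq
  have h1 : MDifferentiableAt 𝓘(ℂ, C2) 𝓘(ℂ, C2) ((kAtlas hlam).gS (n, b)) (α x) :=
    (kAtlas hlam).mdifferentiableAt_g (n, b) hPP
  have h1s := (kAtlas hlam).surjective_mfderiv_g (n, b) (v := α x) hPP
  have h2 : MDifferentiableAt 𝓘(ℂ, ℂ × C2) 𝓘(ℂ, C2) α x := hα.mdifferentiableAt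
  have h3 : q =ᶠ[𝓝 x] ((kAtlas hlam).gS (n, b)) ∘ α := hev
  have h4 := h1.comp x h2
  have h5 : MDifferentiableAt 𝓘(ℂ, ℂ × C2) 𝓘(ℂ, C2) q x := h4.congr_of_eventuallyEq h3
  refine ⟨h5, ?_⟩
  have h6 : mfderiv 𝓘(ℂ, ℂ × C2) 𝓘(ℂ, C2) q x =
      (mfderiv 𝓘(ℂ, C2) 𝓘(ℂ, C2) ((kAtlas hlam).gS (n, b)) (α x)).comp
        (mfderiv 𝓘(ℂ, ℂ × C2) 𝓘(ℂ, C2) α x) := by
    rw [h3.mfderiv_eq]
    exact mfderiv_comp x h1 h2
  change Function.Surjective (mfderiv 𝓘(ℂ, ℂ × C2) 𝓘(ℂ, C2) q x)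
  rw [h6]
  have h7 : Function.Surjective (mfderiv 𝓘(ℂ, ℂ × C2) 𝓘(ℂ, C2) α x) := by
    rw [mfderiv_eq_fderiv]; exact hs
  exact h1s.comp h7

/-- the Kummer data of the Kummer surface -/
noncomputable def kData (hlam : LinearIndependent ℝ lam) :
    KummerData lam (kAtlas hlam).Space where
  N n x := kq hlam n x
  holo := fun n _ hx => (kq_mdifferentiableAt hlam n hx).1
  subm := fun n _ hx => (kq_mdifferentiableAt hlam n hx).2
  rel := fun _ _ hx _ _ hx' => kq_eq_iff hlam hx hx'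
  cover := exists_kq hlam

/-- holomorphic maps on the Kummer surface -/
theorem mdifferentiable_of_kq (hlam : LinearIndependent ℝ lam) {M : Type} [TopologicalSpace M]
    [ChartedSpace ℂ M] (f : (kAtlas hlam).Space → M)
    (h : ∀ n, ∀ x ∈ PP lam, MDifferentiableAt 𝓘(ℂ, ℂ × C2) 𝓘(ℂ) (fun y => f (kq hlam n y)) x) :
    MDifferentiable 𝓘(ℂ, C2) 𝓘(ℂ) f := by
  intro z
  obtain ⟨⟨n, b⟩, v, hv, rfl⟩ := (kAtlas hlam).cover z
  refine (kAtlas hlam).mdifferentiableAt_of_comp f (n, b) hv ?_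
  have h1 := h n (sl b v) hv
  have h2 : MDifferentiableAt 𝓘(ℂ, C2) 𝓘(ℂ, ℂ × C2) (sl b) v :=
    (differentiable_sl b v).mdifferentiableAt
  exact h1.comp v h2

theorem lift_kq (hlam : LinearIndependent ℝ lam) {M : Type} (F : (Fin 4 → ℤ) → ℂ × C2 → M)
    (hF : ∀ n, ∀ x ∈ PP lam, ∀ n', ∀ x' ∈ PP lam, KRel lam n x n' x' → F n x = F n' x') :
    ∃ f : (kAtlas hlam).Space → M, ∀ n, ∀ x ∈ PP lam, f (kq hlam n x) = F n x := by
  choose N X hX hNX using exists_kq hlam
  refine ⟨fun z => F (N z) (X z), fun n x hx => ?_⟩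
  exact hF _ _ (hX _) _ _ hx ((kq_eq_iff hlam (hX _) hx).1 (hNX _))

end Vale.Agent.P290.K
end
end

section

section

open Set Filter Metric
open scoped Manifold ContDiff Topology

namespace Vale.Agent.P290

theorem surj_of_det_ne_zero {A : C2 →L[ℂ] C2} (h : A.det ≠ 0) : Function.Surjective A := by
  have h2 : LinearMap.det (A : C2 →ₗ[ℂ] C2) ≠ 0 := h
  have h3 : ((A : C2 →ₗ[ℂ] C2).equivOfDetNeZero h2 : C2 → C2) = A := by
    funext x
    rfl
  rw [← h3]
  exact LinearEquiv.surjective _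

section

variable {X C : Type} [TopologicalSpace X] [ChartedSpace C2 X]
  (vol : VolForm X) [TopologicalSpace C] [ChartedSpace ℂ C] (π : X → C)

/-- the function `t ∘ π` in the chart `e` -/
noncomputable def hloc (t : OpenPartialHomeomorph C ℂ) (e : OpenPartialHomeomorph X C2) : C2 → ℂ :=
  fun z => t (π (e.symm z))

/-- the Hamiltonian field of `t ∘ π` in the chart `e` -/
noncomputable def ham (t : OpenPartialHomeomorph C ℂ) (e : OpenPartialHomeomorph X C2)
    (y : C2) : C2 :=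
  (vol.coef e y)⁻¹ • (
    (fderiv ℂ (hloc π t e) y (E2)) •
        E1 -
    (fderiv ℂ (hloc π t e) y (E1)) •
        E2)

variable {π} {t : OpenPartialHomeomorph C ℂ} {e : OpenPartialHomeomorph X C2}

theorem ham_spec {y : C2} (hc : vol.coef e y ≠ 0) (u : C2) :
    vol.coef e y * area (ham vol π t e y) u = fderiv ℂ (hloc π t e) y u := by
  rw [C2_map_eq (fderiv ℂ (hloc π t e) y) u]
  simp only [area, ham, E2, E1, Prod.smul_fst, Prod.fst_sub, smul_eq_mul, Prod.smul_snd, Prod.snd_sub]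
  field_simp
  ring

variable [IsManifold 𝓘(ℂ, C2) 1 X] [IsManifold 𝓘(ℂ) 1 C]

theorem hloc_diff (hπ : MDifferentiable 𝓘(ℂ, C2) 𝓘(ℂ) π) (ht : t ∈ atlas ℂ C)
    (he : e ∈ atlas C2 X) {y : C2} (hy : y ∈ e.target) (hyt : π (e.symm y) ∈ t.source) :
    DifferentiableAt ℂ (hloc π t e) y := by
  have h1 := mdifferentiableAt_atlas_symm (I := 𝓘(ℂ, C2)) he hy
  have h2 := (hπ (e.symm y)).comp y h1
  have h3 := mdifferentiableAt_atlas (I := 𝓘(ℂ)) ht hyt
  exact (h3.comp y h2).differentiableAt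

theorem ham_diff (hπ : MDifferentiable 𝓘(ℂ, C2) 𝓘(ℂ) π) (ht : t ∈ atlas ℂ C)
    (he : e ∈ atlas C2 X) :
    DifferentiableOn ℂ (ham vol π t e) (e.target ∩ e.symm ⁻¹' (π ⁻¹' t.source)) := by
  have hπc : Continuous π := hπ.continuous
  have hO : IsOpen (e.target ∩ e.symm ⁻¹' (π ⁻¹' t.source)) :=
    e.isOpen_inter_preimage_symm (t.open_source.preimage hπc)
  have h1 : DifferentiableOn ℂ (hloc π t e) (e.target ∩ e.symm ⁻¹' (π ⁻¹' t.source)) :=
    fun y hy => (hloc_diff hπ ht he hy.1 hy.2).differentiableWithinAt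
  have h2 := differentiableOn_fderiv_apply hO h1 (E2)
  have h3 := differentiableOn_fderiv_apply hO h1 (E1)
  have h4 : DifferentiableOn ℂ (fun y => (vol.coef e y)⁻¹)
      (e.target ∩ e.symm ⁻¹' (π ⁻¹' t.source)) :=
    fun y hy => ((differentiableAt_inv (vol.ne_zero e he y hy.1)).comp_differentiableWithinAt y
      (vol.holo e he y hy.1)).mono inter_subset_left
  exact h4.smul ((h2.smul_const _).sub (h3.smul_const _))

/-- comparison of Hamiltonian fields of two functions in two charts -/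
theorem ham_compat (hπ : MDifferentiable 𝓘(ℂ, C2) 𝓘(ℂ) π) (ht : t ∈ atlas ℂ C)
    {e' : OpenPartialHomeomorph X C2} (he : e ∈ atlas C2 X) (he' : e' ∈ atlas C2 X) {y : C2}
    (hy : y ∈ e.target) (hy' : e.symm y ∈ e'.source) (hyt : π (e.symm y) ∈ t.source) :
    fderiv ℂ (fun z => e' (e.symm z)) y (ham vol π t e y) =
      ham vol π t e' (e' (e.symm y)) := by
  set y' := e' (e.symm y) with hy'def
  set D := fderiv ℂ (fun z => e' (e.symm z)) y with hD
  have hy't : y' ∈ e'.target := e'.map_source hy'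
  have hs : e'.symm y' = e.symm y := e'.left_inv hy'
  have hc := vol.ne_zero e he y hy
  have hc' := vol.ne_zero e' he' y' hy't
  have hcomp := vol.compat e he e' he' y hy hy'
  have hdet : D.det ≠ 0 := by
    intro h0
    rw [← hD, h0, mul_zero] at hcomp
    exact hc hcomp
  have hdt : DifferentiableAt ℂ (fun z => e' (e.symm z)) y :=
    differentiableAt_transition he he' hy hy'
  have hh : DifferentiableAt ℂ (hloc π t e') y' :=
    hloc_diff hπ ht he' hy't (by rw [hs]; exact hyt)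
  have hfd : fderiv ℂ (hloc π t e) y = (fderiv ℂ (hloc π t e') y').comp D := by
    have h1 : hloc π t e =ᶠ[𝓝 y] (hloc π t e') ∘ (fun z => e' (e.symm z)) := by
      have h2 : ∀ᶠ z in 𝓝 y, e.symm z ∈ e'.source :=
        (e.continuousAt_symm hy).preimage_mem_nhds (e'.open_source.mem_nhds hy')
      filter_upwards [h2] with z hz
      simp only [hloc, Function.comp_apply, e'.left_inv hz]
    rw [h1.fderiv_eq]
    exact fderiv_comp y hh hdt
  refine area_ext fun u' => ?_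
  obtain ⟨u, rfl⟩ := surj_of_det_ne_zero hdet u'
  have e1 := ham_spec vol (π := π) (t := t) hc u
  have e2 := ham_spec vol (π := π) (t := t) hc' (D u)
  rw [area_map]
  rw [hfd] at e1
  simp only [ContinuousLinearMap.comp_apply] at e1
  rw [← e2, hcomp, ← hD] at e1
  refine mul_left_cancel₀ hc' ?_
  rw [← e1]
  ring

theorem ham_VF (hπ : MDifferentiable 𝓘(ℂ, C2) 𝓘(ℂ) π) (ht : t ∈ atlas ℂ C) :
    VF (π ⁻¹' t.source) (ham vol π t) :=
  ⟨t.open_source.preimage hπ.continuous, fun _ he => ham_diff vol hπ ht he,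
    fun _ he _ he' _ hy hy' hyt => ham_compat vol hπ ht he he' hy hy' hyt⟩

/-- `t ∘ π` has zero derivative along integral curves -/
theorem IC.hasDerivAt_pi (hπ : MDifferentiable 𝓘(ℂ, C2) 𝓘(ℂ) π) (ht : t ∈ atlas ℂ C)
    {c : ℂ → X} {w : ℂ} (h : IC (π ⁻¹' t.source) (ham vol π t) c w) :
    HasDerivAt (fun s => t (π (c s))) 0 w := by
  set e := chartAt C2 (c w) with he
  have hea : e ∈ atlas C2 X := chart_mem_atlas C2 _
  have hs : c w ∈ e.source := mem_chart_source C2 _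
  have hy := e.map_source hs
  have hsy : e.symm (e (c w)) = c w := e.left_inv hs
  have h1 := h.2.2 e hea hs
  have h2 := hloc_diff hπ ht hea hy (by rw [hsy]; exact h.2.1)
  have h3 := h2.hasFDerivAt.comp_hasDerivAt w h1
  rw [← ham_spec vol (vol.ne_zero e hea _ hy), area_self, mul_zero] at h3
  refine h3.congr_of_eventuallyEq ?_
  filter_upwards [h.1.preimage_mem_nhds (e.open_source.mem_nhds hs)] with s hs'
  simp only [hloc, Function.comp_apply, e.left_inv hs']

/-- integral curves stay in the fibres -/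
theorem IC.pi_const (hπ : MDifferentiable 𝓘(ℂ, C2) 𝓘(ℂ) π) (ht : t ∈ atlas ℂ C)
    {c : ℂ → X} {ρ : ℝ} (h : ∀ w ∈ ball (0 : ℂ) ρ, IC (π ⁻¹' t.source) (ham vol π t) c w)
    {w : ℂ} (hw : w ∈ ball (0 : ℂ) ρ) : π (c w) = π (c 0) := by
  have h0 : (0 : ℂ) ∈ ball (0 : ℂ) ρ := mem_ball_self (pos_of_mem_ball hw)
  have h1 : t (π (c w)) = t (π (c 0)) := by
    refine isOpen_ball.is_const_of_deriv_eq_zero (𝕜 := ℂ) (f := fun s => t (π (c s)))
      (convex_ball _ _).isPreconnected ?_ ?_ hw h0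
    · exact fun w hw =>
        ((h w hw).hasDerivAt_pi vol hπ ht).differentiableAt.differentiableWithinAt
    · exact fun w hw => ((h w hw).hasDerivAt_pi vol hπ ht).deriv
  exact t.injOn (h w hw).2.1 (h 0 h0).2.1 h1

/-- change of the function `t` -/
theorem ham_trans (hπ : MDifferentiable 𝓘(ℂ, C2) 𝓘(ℂ) π) {t' : OpenPartialHomeomorph C ℂ}
    (ht : t ∈ atlas ℂ C) (ht' : t' ∈ atlas ℂ C) (he : e ∈ atlas C2 X) {y : C2}
    (hy : y ∈ e.target) (hyt : π (e.symm y) ∈ t.source) (hyt' : π (e.symm y) ∈ t'.source) :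
    ham vol π t e y = (deriv (fun s => t (t'.symm s)) (t' (π (e.symm y)))) •
      ham vol π t' e y := by
  have hc := vol.ne_zero e he y hy
  refine area_ext fun u => mul_left_cancel₀ hc ?_
  have h1 : hloc π t e =ᶠ[𝓝 y] (fun s => t (t'.symm s)) ∘ (hloc π t' e) := by
    have h2 : ∀ᶠ z in 𝓝 y, π (e.symm z) ∈ t'.source :=
      (ContinuousAt.comp (f := e.symm) (g := π) hπ.continuous.continuousAt
        (e.continuousAt_symm hy)).preimage_mem_nhds (t'.open_source.mem_nhds hyt')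
    filter_upwards [h2] with z hz
    simp only [hloc, Function.comp_apply, t'.left_inv hz]
  have hd : DifferentiableAt ℂ (fun s => t (t'.symm s)) (hloc π t' e y) := by
    refine differentiableAt_transition ht' ht (t'.map_source hyt') ?_
    simp only [hloc, t'.left_inv hyt']
    exact hyt
  rw [ham_spec vol hc, h1.fderiv_eq, fderiv_comp y hd (hloc_diff hπ ht' he hy hyt')]
  have h3 : area ((deriv (fun s => t (t'.symm s)) (t' (π (e.symm y)))) • ham vol π t' e y) u =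
      (deriv (fun s => t (t'.symm s)) (t' (π (e.symm y)))) * area (ham vol π t' e y) u := by
    exact area_smul_left _ _ _
  rw [h3, mul_left_comm, ham_spec vol hc]
  simp only [ContinuousLinearMap.comp_apply]
  rw [fderiv_eq_smul_deriv, smul_eq_mul, mul_comm]
  rfl

end

end Vale.Agent.P290
end
end

section

section

open Set Filter Metric
open scoped Manifold ContDiff Topology

namespace Vale.Agent.P290

section

variable {X C : Type} [TopologicalSpace X] [ChartedSpace C2 X] [IsManifold 𝓘(ℂ, C2) 1 X]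
  (vol : VolForm X) [TopologicalSpace C] [ChartedSpace ℂ C] [IsManifold 𝓘(ℂ) 1 C] {π : X → C}

/-- global Hamiltonian flow over a relatively compact piece of a chart of the base -/
theorem exists_ham_globF [T2Space X] [CompactSpace X] [T2Space C]
    (hπ : MDifferentiable 𝓘(ℂ, C2) 𝓘(ℂ) π) {t : OpenPartialHomeomorph C ℂ}
    (ht : t ∈ atlas ℂ C) {K : Set C} (hK : IsCompact K) (hKt : K ⊆ t.source) :
    ∃ φ, GlobF (π ⁻¹' t.source) (ham vol π t) (π ⁻¹' interior K) φ := by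
  have hV := ham_VF vol hπ ht
  have hU₁ : IsOpen (π ⁻¹' interior K) := isOpen_interior.preimage hπ.continuous
  obtain ⟨ρ, hρ, Ψ, hΨ⟩ := hV.exists_uniform (K := π ⁻¹' K) (U₁ := π ⁻¹' interior K)
    ((hK.isClosed.preimage hπ.continuous).isCompact) (preimage_mono hKt) hU₁
    (preimage_mono interior_subset)
  refine hΨ.globF hV hU₁ hρ ?_
  intro c hc hic w hw
  show π (c w) ∈ interior K
  rw [IC.pi_const vol hπ ht hic hw]
  exact hc

theorem GlobF.pi_eq (hπ : MDifferentiable 𝓘(ℂ, C2) 𝓘(ℂ) π) {t : OpenPartialHomeomorph C ℂ}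
    (ht : t ∈ atlas ℂ C) {U₁ : Set X} {φ : X → ℂ → X}
    (h : GlobF (π ⁻¹' t.source) (ham vol π t) U₁ φ) {x : X} (hx : x ∈ U₁) (w : ℂ) :
    π (φ x w) = π x := by
  have h1 := IC.pi_const vol hπ ht (c := φ x) (ρ := ‖w‖ + 1) (w := w)
    (fun s _ => h.ic x hx s) (by rw [mem_ball_zero_iff]; linarith)
  rw [h1, h.zero x hx]

end

/-- Hamiltonian flow along the fibres of a map to a Riemann surface -/
theorem exists_lineFlow {X C : Type} [TopologicalSpace X] [ChartedSpace C2 X] [T2Space X]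
    [CompactSpace X] [IsManifold 𝓘(ℂ, C2) 1 X] (vol : VolForm X)
    [TopologicalSpace C] [ChartedSpace ℂ C] [T2Space C] [IsManifold 𝓘(ℂ) 1 C] (π : X → C)
    (hπ : MDifferentiable 𝓘(ℂ, C2) 𝓘(ℂ) π) :
    ∃ L : LineFlow C2 X, ∀ x, ∃ a, x ∈ L.U a ∧ ∀ u : C2,
      vol.coef (chartAt C2 x) (chartAt C2 x x) * area (vel L a x) u =
        (mfderiv 𝓘(ℂ, C2) 𝓘(ℂ) π x : C2 →L[ℂ] ℂ) u := by
  have hlc : LocallyCompactSpace C := ChartedSpace.locallyCompactSpace ℂ C
  have hKex : ∀ c : C, ∃ K : Set C, IsCompact K ∧ c ∈ interior K ∧ K ⊆ (chartAt ℂ c).source :=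
    fun c => exists_compact_subset (chartAt ℂ c).open_source (mem_chart_source ℂ c)
  choose K hK hcK hKt using hKex
  choose φ hφ using fun c : C => exists_ham_globF vol hπ (chart_mem_atlas ℂ c) (hK c) (hKt c)
  have hpi : ∀ (a : C) x (w : ℂ), x ∈ π ⁻¹' interior (K a) → π (φ a x w) = π x :=
    fun a x w hx => (hφ a).pi_eq vol hπ (chart_mem_atlas ℂ a) hx w
  set τ : C → C → ℂ → ℂ := fun a b s => chartAt ℂ a ((chartAt ℂ b).symm s) with hτ
  have hin : ∀ (a : C) x, x ∈ π ⁻¹' interior (K a) → π x ∈ (chartAt ℂ a).source :=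
    fun a x hx => hKt a (interior_subset hx)
  have hτd : ∀ (a b : C) (p : C), p ∈ (chartAt ℂ a).source → p ∈ (chartAt ℂ b).source →
      DifferentiableAt ℂ (τ a b) (chartAt ℂ b p) := by
    intro a b p hpa hpb
    refine differentiableAt_transition (chart_mem_atlas ℂ b) (chart_mem_atlas ℂ a)
      ((chartAt ℂ b).map_source hpb) ?_
    rw [(chartAt ℂ b).left_inv hpb]
    exact hpa
  have hcoc : ∀ (a b c : C) (p : C), p ∈ (chartAt ℂ a).source → p ∈ (chartAt ℂ b).source →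
      p ∈ (chartAt ℂ c).source →
      deriv (τ a c) (chartAt ℂ c p) = deriv (τ b c) (chartAt ℂ c p) *
        deriv (τ a b) (chartAt ℂ b p) := by
    intro a b c p hpa hpb hpc
    have h1 : τ a c =ᶠ[𝓝 (chartAt ℂ c p)] (τ a b) ∘ (τ b c) := by
      have h2 : ∀ᶠ s in 𝓝 (chartAt ℂ c p), (chartAt ℂ c).symm s ∈ (chartAt ℂ b).source := by
        refine ((chartAt ℂ c).continuousAt_symm
          ((chartAt ℂ c).map_source hpc)).preimage_mem_nhds ?_
        rw [(chartAt ℂ c).left_inv hpc]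
        exact (chartAt ℂ b).open_source.mem_nhds hpb
      filter_upwards [h2] with s hs
      simp only [hτ, Function.comp_apply]
      rw [(chartAt ℂ b).left_inv hs]
    have e1 : τ b c (chartAt ℂ c p) = chartAt ℂ b p := by
      simp only [hτ]
      rw [(chartAt ℂ c).left_inv hpc]
    rw [h1.deriv_eq, deriv_comp (chartAt ℂ c p) (by rw [e1]; exact hτd a b p hpa hpb)
      (hτd b c p hpb hpc), e1, mul_comm]
  have hself : ∀ (a p : C), p ∈ (chartAt ℂ a).source → deriv (τ a a) (chartAt ℂ a p) = 1 := by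
    intro a p hpa
    have h1 : τ a a =ᶠ[𝓝 (chartAt ℂ a p)] fun s => s := by
      filter_upwards [(chartAt ℂ a).open_target.mem_nhds ((chartAt ℂ a).map_source hpa)] with s hs
      simp only [hτ]
      rw [(chartAt ℂ a).right_inv hs]
    rw [h1.deriv_eq, deriv_id'']
  let L : LineFlow C2 X :=
    { A := C
      U := fun a => π ⁻¹' interior (K a)
      isOpen_U := fun a => isOpen_interior.preimage hπ.continuous
      cover := fun x => ⟨π x, hcK (π x)⟩
      φ := φ
      φ_mem := fun a x w hx => (hφ a).mem x hx w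
      φ_zero := fun a x hx => (hφ a).zero x hx
      φ_add := fun a x w w' hx => (hφ a).add x hx w w'
      φ_hol := fun a V _ _ F w z hF hw hFz => (hφ a).hol V F w z hF hw hFz
      γ := fun a b x => deriv (τ a b) (chartAt ℂ b (π x))
      γ_hol := by
        intro a b V _ _ F z hF ha hb
        have hpa := hin a _ ha
        have hpb := hin b _ hb
        have h1 : DifferentiableAt ℂ (fun z => chartAt ℂ b (π (F z))) z := by
          have h2 := (hπ (F z)).comp z hF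
          exact ((mdifferentiableAt_atlas (I := 𝓘(ℂ)) (chart_mem_atlas ℂ b) hpb).comp z
            h2).differentiableAt
        have hO : IsOpen ((chartAt ℂ b).target ∩ (chartAt ℂ b).symm ⁻¹' (chartAt ℂ a).source) :=
          (chartAt ℂ b).isOpen_inter_preimage_symm (chartAt ℂ a).open_source
        have h3 : DifferentiableOn ℂ (τ a b)
            ((chartAt ℂ b).target ∩ (chartAt ℂ b).symm ⁻¹' (chartAt ℂ a).source) := by
          intro s hs
          exact (differentiableAt_transition (chart_mem_atlas ℂ b) (chart_mem_atlas ℂ a) hs.1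
            hs.2).differentiableWithinAt
        have h4 : DifferentiableAt ℂ (deriv (τ a b)) (chartAt ℂ b (π (F z))) := by
          refine (h3.deriv hO).differentiableAt (hO.mem_nhds ⟨(chartAt ℂ b).map_source hpb, ?_⟩)
          rw [mem_preimage, (chartAt ℂ b).left_inv hpb]
          exact hpa
        exact DifferentiableAt.comp (f := fun z => chartAt ℂ b (π (F z))) z h4 h1
      γ_ne := by
        intro a b x ha hb h0
        have h1 := hcoc a b a (π x) (hin a _ ha) (hin b _ hb) (hin a _ ha)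
        rw [hself a _ (hin a _ ha), h0, mul_zero] at h1
        exact one_ne_zero h1
      γ_coc := fun a b c x ha hb hc => hcoc a b c (π x) (hin a _ ha) (hin b _ hb) (hin c _ hc)
      γ_inv := by
        intro a b x w ha _
        simp only [hpi a x w ha]
      φ_trans := by
        intro a b x w ha hb
        set g := deriv (τ a b) (chartAt ℂ b (π x)) with hg
        have hVa := ham_VF vol hπ (chart_mem_atlas ℂ a)
        have hic : ∀ w ∈ (univ : Set ℂ), IC (π ⁻¹' (chartAt ℂ a).source)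
            (ham vol π (chartAt ℂ a)) (fun w => φ b x (g * w)) w := by
          intro w _
          obtain ⟨i1, i2, i3⟩ := (hφ b).ic x hb (g * w)
          have hpx : π (φ b x (g * w)) = π x := hpi b x _ hb
          refine ⟨?_, ?_, ?_⟩
          · exact ContinuousAt.comp (f := fun w : ℂ => g * w) (g := φ b x) i1 (by (clear * -; fun_prop))
          · have h8 : π (φ b x (g * w)) ∈ (chartAt ℂ a).source := by
              rw [hpx]; exact hin a _ ha
            exact h8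
          · intro e he hs
            have h5 : HasDerivAt (fun w : ℂ => g * w) g w := by
              simpa using (hasDerivAt_id w).const_mul g
            have h6 := (i3 e he hs).scomp w h5
            have h7 := ham_trans vol (t := chartAt ℂ a) (t' := chartAt ℂ b) hπ
              (chart_mem_atlas ℂ a) (chart_mem_atlas ℂ b) he (e.map_source hs)
              (by rw [e.left_inv hs, hpx]; exact hin a _ ha)
              (by rw [e.left_inv hs, hpx]; exact hin b _ hb)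
            rw [e.left_inv hs, hpx] at h7
            rw [h7]
            exact h6
        have := IC.eqOn hVa (c₁ := φ a x) (c₂ := fun w => φ b x (g * w)) isPreconnected_univ
          isOpen_univ (fun w _ => (hφ a).ic x ha w) hic (w₀ := 0) (mem_univ _)
          (by simp only [mul_zero]; rw [(hφ a).zero x ha, (hφ b).zero x hb])
        exact this (mem_univ w) }
  refine ⟨L, fun x => ⟨π x, hcK (π x), fun u => ?_⟩⟩
  have hs := mem_chart_source C2 x
  have hvel : vel L (π x) x = ham vol π (chartAt ℂ (π x)) (chartAt C2 x) (chartAt C2 x x) := by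
    have h1 := (hφ (π x)).ic x (hcK (π x)) 0
    have h0 : φ (π x) x 0 = x := (hφ (π x)).zero x (hcK (π x))
    have h2 := h1.2.2 (chartAt C2 x) (chart_mem_atlas C2 x) (by rw [h0]; exact hs)
    rw [h0] at h2
    exact h2.deriv
  rw [hvel, ham_spec vol (vol.ne_zero _ (chart_mem_atlas C2 x) _ (mem_chart_target C2 x))]
  have h3 : ∀ f' : C2 →L[ℂ] ℂ, f' = (mfderiv 𝓘(ℂ, C2) 𝓘(ℂ) π x : C2 →L[ℂ] ℂ) →
      fderiv ℂ (hloc π (chartAt ℂ (π x)) (chartAt C2 x)) (chartAt C2 x x) = f' := by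
    intro f' hf'
    have h4 := (hπ x).hasMFDerivAt.2
    simp only [writtenInExtChartAt, extChartAt, OpenPartialHomeomorph.extend, modelWithCornersSelf_partialEquiv, PartialEquiv.trans_refl, OpenPartialHomeomorph.toFun_eq_coe, OpenPartialHomeomorph.coe_toPartialEquiv_symm, modelWithCornersSelf_coe, range_id] at h4
    have h5 : HasFDerivWithinAt (hloc π (chartAt ℂ (π x)) (chartAt C2 x))
      f' univ (chartAt C2 x x) := by
      rw [hf']; exact h4
    exact (hasFDerivWithinAt_univ.1 h5).fderiv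
  rw [h3 _ rfl]
  rfl

end Vale.Agent.P290
end
end

section

section

open Set Filter Metric
open scoped Manifold ContDiff Topology

namespace Vale.Agent.P290

section base

variable {C : Type} [TopologicalSpace C] [ChartedSpace ℂ C]

/-- the derivative of a function on a Riemann surface in the preferred chart at `b` -/
noncomputable def dch (b : C) (S : C → ℂ) (q : C) : ℂ :=
  deriv (fun s => S ((chartAt ℂ b).symm s)) (chartAt ℂ b q)

theorem dch_self {a q : C} (ha : q ∈ (chartAt ℂ a).source) : dch a (chartAt ℂ a) q = 1 := by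
  have h1 : (fun s => chartAt ℂ a ((chartAt ℂ a).symm s)) =ᶠ[𝓝 (chartAt ℂ a q)] fun s => s := by
    filter_upwards [(chartAt ℂ a).open_target.mem_nhds ((chartAt ℂ a).map_source ha)] with s hs
    rw [(chartAt ℂ a).right_inv hs]
  rw [dch, h1.deriv_eq, deriv_id'']

variable [IsManifold 𝓘(ℂ) 1 C]

theorem mdiff_chart {a q : C} (ha : q ∈ (chartAt ℂ a).source) :
    MDifferentiableAt 𝓘(ℂ) 𝓘(ℂ) (chartAt ℂ a) q :=
  mdifferentiableAt_atlas (I := 𝓘(ℂ)) (chart_mem_atlas ℂ a) ha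

theorem diff_symm {S : C → ℂ} {b q : C} (hb : q ∈ (chartAt ℂ b).source)
    (hS : MDifferentiableAt 𝓘(ℂ) 𝓘(ℂ) S q) :
    DifferentiableAt ℂ (fun s => S ((chartAt ℂ b).symm s)) (chartAt ℂ b q) := by
  have h1 := mdifferentiableAt_atlas_symm (I := 𝓘(ℂ)) (chart_mem_atlas ℂ b)
    ((chartAt ℂ b).map_source hb)
  have h2 : MDifferentiableAt 𝓘(ℂ) 𝓘(ℂ) S ((chartAt ℂ b).symm (chartAt ℂ b q)) := by
    rw [(chartAt ℂ b).left_inv hb]; exact hS
  exact (h2.comp _ h1).differentiableAt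

theorem dch_chain {S : C → ℂ} {a b q : C} (ha : q ∈ (chartAt ℂ a).source)
    (hb : q ∈ (chartAt ℂ b).source) (hS : MDifferentiableAt 𝓘(ℂ) 𝓘(ℂ) S q) :
    dch b S q = dch b (chartAt ℂ a) q * dch a S q := by
  have h1 : (fun s => S ((chartAt ℂ b).symm s)) =ᶠ[𝓝 (chartAt ℂ b q)]
      (fun s => S ((chartAt ℂ a).symm s)) ∘ (fun s => chartAt ℂ a ((chartAt ℂ b).symm s)) := by
    have h2 : ∀ᶠ s in 𝓝 (chartAt ℂ b q), (chartAt ℂ b).symm s ∈ (chartAt ℂ a).source := by
      refine ((chartAt ℂ b).continuousAt_symm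
        ((chartAt ℂ b).map_source hb)).preimage_mem_nhds ?_
      rw [(chartAt ℂ b).left_inv hb]
      exact (chartAt ℂ a).open_source.mem_nhds ha
    filter_upwards [h2] with s hs
    simp only [Function.comp_apply]
    rw [(chartAt ℂ a).left_inv hs]
  have e1 : chartAt ℂ a ((chartAt ℂ b).symm (chartAt ℂ b q)) = chartAt ℂ a q := by
    rw [(chartAt ℂ b).left_inv hb]
  rw [dch, h1.deriv_eq, deriv_comp (chartAt ℂ b q) (by rw [e1]; exact diff_symm ha hS)
    (diff_symm hb (mdiff_chart ha)), e1, mul_comm]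
  rfl

theorem dch_mdiff {S : C → ℂ} {b q : C} {O : Set C} (hO : IsOpen O)
    (hS : ∀ p ∈ O, MDifferentiableAt 𝓘(ℂ) 𝓘(ℂ) S p) (hq : q ∈ O)
    (hb : q ∈ (chartAt ℂ b).source) : MDifferentiableAt 𝓘(ℂ) 𝓘(ℂ) (dch b S) q := by
  have hW : IsOpen ((chartAt ℂ b).target ∩ (chartAt ℂ b).symm ⁻¹' O) :=
    (chartAt ℂ b).isOpen_inter_preimage_symm hO
  have h3 : DifferentiableOn ℂ (fun s => S ((chartAt ℂ b).symm s))
      ((chartAt ℂ b).target ∩ (chartAt ℂ b).symm ⁻¹' O) := by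
    intro s hs
    have h4 := diff_symm (b := b) (q := (chartAt ℂ b).symm s) ((chartAt ℂ b).map_target hs.1)
      (hS _ hs.2)
    rw [(chartAt ℂ b).right_inv hs.1] at h4
    exact h4.differentiableWithinAt
  have h4 : DifferentiableAt ℂ (deriv (fun s => S ((chartAt ℂ b).symm s))) (chartAt ℂ b q) := by
    refine (h3.deriv hW).differentiableAt (hW.mem_nhds ⟨(chartAt ℂ b).map_source hb, ?_⟩)
    rw [mem_preimage, (chartAt ℂ b).left_inv hb]
    exact hq
  exact h4.mdifferentiableAt.comp q (mdiff_chart hb)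

end base

section ham

variable {X C : Type} [TopologicalSpace X] [ChartedSpace C2 X] [IsManifold 𝓘(ℂ, C2) 1 X]
  (vol : VolForm X) [TopologicalSpace C] [ChartedSpace ℂ C] [IsManifold 𝓘(ℂ) 1 C] {π : X → C}

theorem fderiv_pull {S : C → ℂ} (hπ : MDifferentiable 𝓘(ℂ, C2) 𝓘(ℂ) π) {p : C}
    {e : OpenPartialHomeomorph X C2} (he : e ∈ atlas C2 X) {y : C2} (hy : y ∈ e.target)
    (hp : π (e.symm y) ∈ (chartAt ℂ p).source)
    (hS : MDifferentiableAt 𝓘(ℂ) 𝓘(ℂ) S (π (e.symm y))) :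
    HasFDerivAt (fun z => S (π (e.symm z)))
      ((dch p S (π (e.symm y))) • fderiv ℂ (hloc π (chartAt ℂ p) e) y) y := by
  have h1 : (fun z => S (π (e.symm z))) =ᶠ[𝓝 y]
      (fun s => S ((chartAt ℂ p).symm s)) ∘ (hloc π (chartAt ℂ p) e) := by
    have h2 : ∀ᶠ z in 𝓝 y, π (e.symm z) ∈ (chartAt ℂ p).source :=
      (ContinuousAt.comp (f := e.symm) (g := π) hπ.continuous.continuousAt
        (e.continuousAt_symm hy)).preimage_mem_nhds ((chartAt ℂ p).open_source.mem_nhds hp)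
    filter_upwards [h2] with z hz
    simp only [hloc, Function.comp_apply, (chartAt ℂ p).left_inv hz]
  have h3 := hloc_diff hπ (chart_mem_atlas ℂ p) he hy hp
  have h4 : HasDerivAt (fun s => S ((chartAt ℂ p).symm s)) (dch p S (π (e.symm y)))
      (hloc π (chartAt ℂ p) e y) := (diff_symm hp hS).hasDerivAt
  exact (h4.comp_hasFDerivAt y h3.hasFDerivAt).congr_of_eventuallyEq h1

/-- Hamilton's equations for a function pulled back from the base -/
theorem IsHamCurve.hasDerivAt {S : C → ℂ} (hπ : MDifferentiable 𝓘(ℂ, C2) 𝓘(ℂ) π) {c : ℂ → X}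
    (hc : IsHamCurve vol (fun x => S (π x)) c) {w : ℂ} {p : C}
    (hp : π (c w) ∈ (chartAt ℂ p).source) (hS : MDifferentiableAt 𝓘(ℂ) 𝓘(ℂ) S (π (c w)))
    {e : OpenPartialHomeomorph X C2} (he : e ∈ atlas C2 X) (hs : c w ∈ e.source) :
    HasDerivAt (fun s => e (c s)) (dch p S (π (c w)) • ham vol π (chartAt ℂ p) e (e (c w))) w := by
  obtain ⟨v, hv, h1, h2⟩ := (hc w).2 e he hs (e (c w)) rfl
  have hy := e.map_source hs
  have hsy : e.symm (e (c w)) = c w := e.left_inv hs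
  have hne := vol.ne_zero e he _ hy
  have h3 := fderiv_pull (S := S) (p := p) hπ he hy (by rw [hsy]; exact hp)
    (by rw [hsy]; exact hS)
  rw [hsy] at h3
  set y := e (c w) with hydef
  set D := fderiv ℂ (hloc π (chartAt ℂ p) e) y with hD
  set σ := dch p S (π (c w)) with hσ
  have i1 : HasFDerivAt (fun z : C2 => S (π (e.symm z))) (σ • D) (y.1, y.2) := h3
  have a1 : deriv (fun s => S (π (e.symm (y.1, s)))) y.2 = σ * D E2 := by
    have j1 : HasDerivAt (fun s : ℂ => ((y.1, s) : C2)) (0, 1) y.2 :=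
      (hasDerivAt_const _ _).prodMk (hasDerivAt_id _)
    have j2 := i1.comp_hasDerivAt y.2 j1
    exact j2.deriv
  have a2 : deriv (fun s => S (π (e.symm (s, y.2)))) y.1 = σ * D E1 := by
    have j1 : HasDerivAt (fun s : ℂ => ((s, y.2) : C2)) (1, 0) y.1 :=
      (hasDerivAt_id _).prodMk (hasDerivAt_const _ _)
    have j2 := i1.comp_hasDerivAt y.1 j1
    exact j2.deriv
  have hveq : v = σ • ham vol π (chartAt ℂ p) e y := by
    refine Prod.ext ?_ ?_
    · refine mul_left_cancel₀ hne ?_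
      rw [h1, a1]
      simp only [ham, ← hD, E1, E2, Prod.smul_fst, Prod.fst_sub, smul_eq_mul]
      field_simp
      ring
    · refine mul_left_cancel₀ hne ?_
      rw [h2, a2]
      simp only [E1, ham, ← hD, E2, Prod.smul_snd, Prod.snd_sub, smul_eq_mul]
      field_simp
      ring
  rw [← hveq]
  exact hv

/-- the Hamiltonian flow of a function pulled back from the base preserves the fibres -/
theorem IsHamCurve.pi_const [T2Space C] {S : C → ℂ} (hπ : MDifferentiable 𝓘(ℂ, C2) 𝓘(ℂ) π)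
    {c : ℂ → X} (hc : IsHamCurve vol (fun x => S (π x)) c) {O : Set C} (hO : IsOpen O)
    (hS : ∀ p ∈ O, MDifferentiableAt 𝓘(ℂ) 𝓘(ℂ) S p) (h0 : π (c 0) ∈ O) (w : ℂ) :
    π (c w) = π (c 0) := by
  have hcc : Continuous c := continuous_iff_continuousAt.2 fun t => (hc t).1
  have hπc : Continuous (fun s => π (c s)) := hπ.continuous.comp hcc
  have hder : ∀ (p : C) (s : ℂ), π (c s) ∈ (chartAt ℂ p).source → π (c s) ∈ O →
      HasDerivAt (fun s => chartAt ℂ p (π (c s))) 0 s := by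
    intro p s hp hsO
    set e := chartAt C2 (c s) with he
    have hea : e ∈ atlas C2 X := chart_mem_atlas C2 _
    have hs : c s ∈ e.source := mem_chart_source C2 _
    have hy := e.map_source hs
    have hsy : e.symm (e (c s)) = c s := e.left_inv hs
    have h1 := hc.hasDerivAt vol hπ hp (hS _ hsO) hea hs
    have h2 := hloc_diff hπ (chart_mem_atlas ℂ p) hea hy (by rw [hsy]; exact hp)
    have h3 := h2.hasFDerivAt.comp_hasDerivAt s h1
    rw [map_smul, ← ham_spec vol (vol.ne_zero e hea _ hy), area_self, mul_zero, smul_zero] at h3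
    refine h3.congr_of_eventuallyEq ?_
    filter_upwards [hcc.continuousAt.preimage_mem_nhds (e.open_source.mem_nhds hs)] with s hs'
    simp only [hloc, Function.comp_apply, e.left_inv hs']
  have hcl : IsClosed {w : ℂ | π (c w) = π (c 0)} := isClosed_eq hπc continuous_const
  have hop : IsOpen {w : ℂ | π (c w) = π (c 0)} := by
    rw [isOpen_iff_mem_nhds]
    intro w₀ hw₀
    have hw₀' : π (c w₀) = π (c 0) := hw₀
    set p := π (c 0) with hp
    have hev : ∀ᶠ s in 𝓝 w₀, π (c s) ∈ (chartAt ℂ p).source ∩ O := by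
      refine hπc.continuousAt.preimage_mem_nhds (((chartAt ℂ p).open_source.inter hO).mem_nhds ?_)
      show π (c w₀) ∈ _
      rw [hw₀']
      exact ⟨mem_chart_source ℂ p, h0⟩
    obtain ⟨r, hr, hball⟩ := Metric.eventually_nhds_iff_ball.1 hev
    filter_upwards [ball_mem_nhds w₀ hr] with s hs
    have h1 : chartAt ℂ p (π (c s)) = chartAt ℂ p (π (c w₀)) := by
      refine isOpen_ball.is_const_of_deriv_eq_zero (𝕜 := ℂ)
        (f := fun s => chartAt ℂ p (π (c s))) (convex_ball _ _).isPreconnected ?_ ?_ hs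
        (mem_ball_self hr)
      · exact fun w hw =>
          (hder p w (hball w hw).1 (hball w hw).2).differentiableAt.differentiableWithinAt
      · exact fun w hw => (hder p w (hball w hw).1 (hball w hw).2).deriv
    have h2 := (chartAt ℂ p).injOn (hball s hs).1 (hball w₀ (mem_ball_self hr)).1 h1
    show π (c s) = _
    rw [h2, hw₀']
  have huniv : {w : ℂ | π (c w) = π (c 0)} = univ :=
    IsClopen.eq_univ ⟨hcl, hop⟩ ⟨0, rfl⟩
  have : w ∈ {w : ℂ | π (c w) = π (c 0)} := by rw [huniv]; trivial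
  exact this

omit [IsManifold 𝓘(ℂ, C2) 1 X] in
theorem VF.smul {U : Set X} {v : OpenPartialHomeomorph X C2 → C2 → C2} (h : VF U v) (σ : ℂ) :
    VF U (fun e y => σ • v e y) := by
  refine ⟨h.isOpen, fun e he => (h.holo e he).const_smul σ, ?_⟩
  intro e he e' he' y hy hy' hyU
  rw [map_smul, h.compat e he e' he' y hy hy' hyU]

/-- a Hamiltonian curve of a function pulled back from the base is a rescaled flow line -/
theorem IsHamCurve.eq_flow [T2Space X] [T2Space C] {S : C → ℂ}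
    (hπ : MDifferentiable 𝓘(ℂ, C2) 𝓘(ℂ) π) {c : ℂ → X}
    (hc : IsHamCurve vol (fun x => S (π x)) c) {O : Set C} (hO : IsOpen O)
    (hS : ∀ p ∈ O, MDifferentiableAt 𝓘(ℂ) 𝓘(ℂ) S p) {p : C} {U₁ : Set X} {φ : X → ℂ → X}
    (hφ : GlobF (π ⁻¹' (chartAt ℂ p).source) (ham vol π (chartAt ℂ p)) U₁ φ) {x : X}
    (hx : x ∈ U₁) (hxO : π x ∈ O) (h0 : c 0 = x) :
    c 1 = φ x (dch p S (π x)) := by
  set σ := dch p S (π x) with hσ
  have hpi : ∀ w, π (c w) = π x := by
    intro w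
    have h00 : π (c 0) ∈ O := by rw [h0]; exact hxO
    rw [hc.pi_const vol hπ hO hS h00, h0]
  have hxs : π x ∈ (chartAt ℂ p).source := by
    have h1 := (hφ.ic x hx 0).2.1
    rw [hφ.zero x hx] at h1
    exact h1
  have hV := (ham_VF vol hπ (chart_mem_atlas ℂ p)).smul σ
  have hic₁ : ∀ w ∈ (univ : Set ℂ), IC (π ⁻¹' (chartAt ℂ p).source)
      (fun e y => σ • ham vol π (chartAt ℂ p) e y) c w := by
    intro w _
    refine ⟨(hc w).1, ?_, ?_⟩
    · have h1 : π (c w) ∈ (chartAt ℂ p).source := by rw [hpi w]; exact hxs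
      exact h1
    · intro e he hs
      have hwO : π (c w) ∈ O := by rw [hpi w]; exact hxO
      have h1 := hc.hasDerivAt vol hπ (w := w) (p := p) (by rw [hpi w]; exact hxs)
        (hS _ hwO) he hs
      rw [hpi w] at h1
      exact h1
  have hic₂ : ∀ w ∈ (univ : Set ℂ), IC (π ⁻¹' (chartAt ℂ p).source)
      (fun e y => σ • ham vol π (chartAt ℂ p) e y) (fun w => φ x (σ * w)) w := by
    intro w _
    obtain ⟨i1, i2, i3⟩ := hφ.ic x hx (σ * w)
    refine ⟨?_, i2, ?_⟩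
    · exact ContinuousAt.comp (f := fun w : ℂ => σ * w) (g := φ x) i1 (by (clear * -; fun_prop))
    · intro e he hs
      have h5 : HasDerivAt (fun w : ℂ => σ * w) σ w := by
        simpa only [id_eq, mul_one] using (hasDerivAt_id w).const_mul σ
      exact (i3 e he hs).scomp w h5
  have := IC.eqOn hV (c₁ := c) (c₂ := fun w => φ x (σ * w)) isPreconnected_univ
    isOpen_univ hic₁ hic₂ (w₀ := 0) (mem_univ _)
    (by simp only [mul_zero]; rw [h0, hφ.zero x hx])
  have h2 := this (mem_univ 1)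
  simpa using h2

/-- comparison of the flows in two charts of the base -/
theorem GlobF.trans_chart [T2Space X] (hπ : MDifferentiable 𝓘(ℂ, C2) 𝓘(ℂ) π) {p p' : C}
    {U₁ U₂ : Set X} {φ φ' : X → ℂ → X}
    (hφ : GlobF (π ⁻¹' (chartAt ℂ p).source) (ham vol π (chartAt ℂ p)) U₁ φ)
    (hφ' : GlobF (π ⁻¹' (chartAt ℂ p').source) (ham vol π (chartAt ℂ p')) U₂ φ') {x : X}
    (hx : x ∈ U₁) (hx' : x ∈ U₂) (w : ℂ) :
    φ x w = φ' x (dch p' (chartAt ℂ p) (π x) * w) := by
  set g := dch p' (chartAt ℂ p) (π x) with hg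
  have hxs : π x ∈ (chartAt ℂ p).source := by
    have h1 := (hφ.ic x hx 0).2.1
    rw [hφ.zero x hx] at h1
    exact h1
  have hxs' : π x ∈ (chartAt ℂ p').source := by
    have h1 := (hφ'.ic x hx' 0).2.1
    rw [hφ'.zero x hx'] at h1
    exact h1
  have hVa := ham_VF vol hπ (chart_mem_atlas ℂ p)
  have hic : ∀ w ∈ (univ : Set ℂ), IC (π ⁻¹' (chartAt ℂ p).source)
      (ham vol π (chartAt ℂ p)) (fun w => φ' x (g * w)) w := by
    intro w _
    obtain ⟨i1, i2, i3⟩ := hφ'.ic x hx' (g * w)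
    have hpx : π (φ' x (g * w)) = π x := hφ'.pi_eq vol hπ (chart_mem_atlas ℂ p') hx' _
    refine ⟨?_, ?_, ?_⟩
    · exact ContinuousAt.comp (f := fun w : ℂ => g * w) (g := φ' x) i1 (by (clear * -; fun_prop))
    · have h8 : π (φ' x (g * w)) ∈ (chartAt ℂ p).source := by
        rw [hpx]; exact hxs
      exact h8
    · intro e he hs
      have h5 : HasDerivAt (fun w : ℂ => g * w) g w := by
        simpa only [id_eq, mul_one] using (hasDerivAt_id w).const_mul g
      have h6 := (i3 e he hs).scomp w h5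
      have h7 := ham_trans vol (t := chartAt ℂ p) (t' := chartAt ℂ p') hπ
        (chart_mem_atlas ℂ p) (chart_mem_atlas ℂ p') he (e.map_source hs)
        (by rw [e.left_inv hs, hpx]; exact hxs)
        (by rw [e.left_inv hs, hpx]; exact hxs')
      rw [e.left_inv hs, hpx] at h7
      rw [h7]
      exact h6
  have := IC.eqOn hVa (c₁ := φ x) (c₂ := fun w => φ' x (g * w)) isPreconnected_univ
    isOpen_univ (fun w _ => hφ.ic x hx w) hic (w₀ := 0) (mem_univ _)
    (by simp only [mul_zero]; rw [hφ.zero x hx, hφ'.zero x hx'])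
  exact this (mem_univ w)

end ham

/-- a twist gives a transfer -/
theorem Twist.exists_transfer {X Y C : Type} [TopologicalSpace X] [ChartedSpace C2 X]
    [TopologicalSpace Y] [ChartedSpace C2 Y] [TopologicalSpace C] [ChartedSpace ℂ C]
    [T2Space X] [CompactSpace X] [IsManifold 𝓘(ℂ, C2) 1 X] [IsManifold 𝓘(ℂ, C2) 1 Y]
    [T2Space C] [IsManifold 𝓘(ℂ) 1 C] {vol : VolForm X} {π : X → C} {ρ : Y → C}
    (hπ : MDifferentiable 𝓘(ℂ, C2) 𝓘(ℂ) π) (_hρ : MDifferentiable 𝓘(ℂ, C2) 𝓘(ℂ) ρ)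
    (T : Twist vol π ρ) : Nonempty (Transfer π ρ) := by
  have hlc : LocallyCompactSpace C := ChartedSpace.locallyCompactSpace ℂ C
  have hKex : ∀ c : C, ∃ K : Set C, IsCompact K ∧ c ∈ interior K ∧ K ⊆ (chartAt ℂ c).source :=
    fun c => exists_compact_subset (chartAt ℂ c).open_source (mem_chart_source ℂ c)
  choose K hK hcK hKt using hKex
  choose φ hφ using fun c : C => exists_ham_globF vol hπ (chart_mem_atlas ℂ c) (hK c) (hKt c)
  have hpi : ∀ (a : C) x (w : ℂ), x ∈ π ⁻¹' interior (K a) → π (φ a x w) = π x :=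
    fun a x w hx => (hφ a).pi_eq vol hπ (chart_mem_atlas ℂ a) hx w
  have hin : ∀ (a q : C), q ∈ interior (K a) → q ∈ (chartAt ℂ a).source :=
    fun a q hq => hKt a (interior_subset hq)
  refine ⟨{
    A := C × T.A
    O := fun a => interior (K a.1) ∩ T.O a.2
    isOpen_O := fun a => isOpen_interior.inter (T.isOpen a.2)
    cover := ?_
    γ := fun a b => dch b.1 (chartAt ℂ a.1)
    σ := fun a b => dch b.1 (T.S a.2 b.2)
    γ_hol := ?_
    σ_hol := ?_
    γ_ne := ?_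
    γ_coc := ?_
    σ_coc := ?_
    ψ := fun a x w => T.h a.2 (φ a.1 x w)
    ψ' := fun a y w => φ a.1 (T.g a.2 y) (-w)
    ψ_base := ?_
    ψ'_base := ?_
    left_inv := ?_
    right_inv := ?_
    ψ_hol := ?_
    ψ'_hol := ?_
    ψ_trans := ?_ }⟩
  · intro q
    obtain ⟨b, hb⟩ := T.cover q
    exact ⟨(q, b), hcK q, hb⟩
  · intro a b q ha hb
    exact dch_mdiff (chartAt ℂ a.1).open_source (fun p hp => mdiff_chart hp) (hin _ _ ha.1)
      (hin _ _ hb.1)
  · intro a b q ha hb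
    exact dch_mdiff ((T.isOpen a.2).inter (T.isOpen b.2))
      (fun p hp => T.S_hol a.2 b.2 p hp.1 hp.2) ⟨ha.2, hb.2⟩ (hin _ _ hb.1)
  · intro a b q ha hb h0
    have h1 := dch_chain (S := chartAt ℂ a.1) (a := b.1) (b := a.1) (q := q) (hin _ _ hb.1)
      (hin _ _ ha.1) (mdiff_chart (hin _ _ ha.1))
    rw [dch_self (hin _ _ ha.1), h0, mul_zero] at h1
    exact one_ne_zero h1
  · intro a b c q ha hb hc
    exact dch_chain (S := chartAt ℂ a.1) (a := b.1) (b := c.1) (q := q) (hin _ _ hb.1)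
      (hin _ _ hc.1) (mdiff_chart (hin _ _ ha.1))
  · intro a b c q ha hb hc
    have hq : q ∈ (chartAt ℂ q).source := mem_chart_source ℂ q
    have e1 := dch_chain (S := T.S a.2 c.2) (a := q) (b := c.1) (q := q) hq (hin _ _ hc.1)
      (T.S_hol a.2 c.2 q ha.2 hc.2)
    have e2 := dch_chain (S := T.S a.2 b.2) (a := q) (b := b.1) (q := q) hq (hin _ _ hb.1)
      (T.S_hol a.2 b.2 q ha.2 hb.2)
    have e3 := dch_chain (S := T.S b.2 c.2) (a := q) (b := c.1) (q := q) hq (hin _ _ hc.1)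
      (T.S_hol b.2 c.2 q hb.2 hc.2)
    have e4 := dch_chain (S := chartAt ℂ q) (a := b.1) (b := c.1) (q := q) (hin _ _ hb.1)
      (hin _ _ hc.1) (mdiff_chart hq)
    have e5 : dch q (T.S a.2 c.2) q = dch q (T.S a.2 b.2) q + dch q (T.S b.2 c.2) q :=
      T.S_coc a.2 b.2 c.2 q ha.2 hb.2 hc.2
    rw [e1, e2, e3, e5, e4]
    ring
  · intro a x w hx
    have h1 : π (φ a.1 x w) = π x := hpi a.1 x w hx.1
    rw [T.h_base a.2 _ (by rw [h1]; exact hx.2), h1]
  · intro a y w hy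
    have h1 : π (T.g a.2 y) = ρ y := T.g_base a.2 y hy.2
    rw [hpi a.1 _ _ (by rw [mem_preimage, h1]; exact hy.1), h1]
  · intro a x w hx
    have h1 : π (φ a.1 x w) = π x := hpi a.1 x w hx.1
    rw [T.gh a.2 _ (by rw [h1]; exact hx.2), (hφ a.1).add x hx.1, add_neg_cancel,
      (hφ a.1).zero x hx.1]
  · intro a y w hy
    have h1 : π (T.g a.2 y) = ρ y := T.g_base a.2 y hy.2
    have h2 : T.g a.2 y ∈ π ⁻¹' interior (K a.1) := by rw [mem_preimage, h1]; exact hy.1
    rw [(hφ a.1).add _ h2, neg_add_cancel, (hφ a.1).zero _ h2, T.hg a.2 y hy.2]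
  · intro a V _ _ F w z hF hw hFz
    have h1 := (hφ a.1).hol V F w z hF hw hFz.1
    have h2 : π (φ a.1 (F z) (w z)) = π (F z) := hpi a.1 _ _ hFz.1
    exact (T.h_hol a.2 _ (by rw [h2]; exact hFz.2)).comp z h1
  · intro a V _ _ G w z hG hw hGz
    have h1 : π (T.g a.2 (G z)) = ρ (G z) := T.g_base a.2 _ hGz.2
    have h2 : MDifferentiableAt 𝓘(ℂ, V) 𝓘(ℂ, C2) (fun z => T.g a.2 (G z)) z :=
      (T.g_hol a.2 _ hGz.2).comp z hG
    exact (hφ a.1).hol V (fun z => T.g a.2 (G z)) (fun z => -w z) z h2 hw.neg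
      (by rw [mem_preimage, h1]; exact hGz.1)
  · intro a b x w ha hb
    have h1 : π (φ a.1 x w) = π x := hpi a.1 x w ha.1
    obtain ⟨c, hc, hc0, hc1⟩ := T.trans a.2 b.2 (φ a.1 x w) (by rw [h1]; exact ha.2)
      (by rw [h1]; exact hb.2)
    have hx₁ : φ a.1 x w ∈ π ⁻¹' interior (K b.1) := by rw [mem_preimage, h1]; exact hb.1
    have h2 := hc.eq_flow vol hπ ((T.isOpen a.2).inter (T.isOpen b.2))
      (fun p hp => T.S_hol a.2 b.2 p hp.1 hp.2) (hφ b.1) hx₁ (by rw [h1]; exact ⟨ha.2, hb.2⟩) hc0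
    rw [h1] at h2
    have h3 : φ a.1 x w = φ b.1 x (dch b.1 (chartAt ℂ a.1) (π x) * w) :=
      (hφ a.1).trans_chart vol hπ (hφ b.1) ha.1 hb.1 w
    rw [← hc1, h2, h3, (hφ b.1).add x hb.1]

end Vale.Agent.P290
end
end

section

section

open Set Filter Metric
open scoped Manifold ContDiff Topology

namespace Vale.Agent.P290.K

theorem g_linearIndependent_std : LinearIndependent ℝ std := by
  rw [Fintype.linearIndependent_iff]
  intro g hg
  simp only [std, Fin.sum_univ_four, Matrix.cons_val_zero, Matrix.cons_val_one, Matrix.cons_val,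
    Prod.smul_mk, Prod.mk_add_mk, smul_zero, add_zero, zero_add, Prod.mk_eq_zero,
    Complex.ext_iff] at hg
  simp only [Fin.isValue, Complex.real_smul, mul_one, Complex.add_re, Complex.ofReal_re, Complex.mul_re, Complex.I_re, mul_zero, Complex.ofReal_im, Complex.I_im, sub_self, add_zero, Complex.zero_re, Complex.add_im, Complex.mul_im, zero_add, Complex.zero_im] at hg
  intro i
  fin_cases i <;> simp [hg]

theorem lat_std (n : Fin 4 → ℤ) :
    lat std n = ((n 0 : ℂ) + n 2 * Complex.I, (n 1 : ℂ) + n 3 * Complex.I) := by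
  simp only [lat, std, Fin.sum_univ_four, Fin.isValue, Matrix.cons_val_zero, Prod.smul_mk, smul_eq_mul, mul_one, mul_zero, Matrix.cons_val_one, Prod.mk_add_mk, add_zero, zero_add, Matrix.cons_val]

/-- the Kummer surface of the lattice `ℤ[i]²` -/
abbrev ZZ : Type := (kAtlas g_linearIndependent_std).Space

/-- the first fibration `℘(y₁)` in the parameters -/
noncomputable def Xf (n : Fin 4 → ℤ) (x : ℂ × C2) : P1 :=
  g_Gf (((n 0 : ℂ) + n 2 * Complex.I) / 2) (x.1 * x.2.1 ^ 2)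

/-- the second fibration `℘(y₂)` in the parameters -/
noncomputable def Yf (n : Fin 4 → ℤ) (x : ℂ × C2) : P1 :=
  g_Gf (((n 1 : ℂ) + n 3 * Complex.I) / 2) (x.1 * x.2.2 ^ 2)

/-- quotient of points of the Riemann sphere -/
noncomputable def P1.div (p q : P1) : P1 :=
  P1.mk (p.exists_rep.choose * q.exists_rep.choose_spec.choose)
    (p.exists_rep.choose_spec.choose * q.exists_rep.choose)

open Classical in
/-- the third fibration `(℘(y₂) - ℘(1/2))/(℘(y₁) - ℘(1/2))` in the parameters -/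
noncomputable def Rf (n : Fin 4 → ℤ) (x : ℂ × C2) : P1 :=
  if Xf n x = P1.mk 1 0 ∧ Yf n x = P1.mk 1 0 then P1.mk (x.2.1 ^ 2) (x.2.2 ^ 2) else
    if Xf n x = P1.mk 0 1 ∧ Yf n x = P1.mk 0 1 then P1.mk (x.2.2 ^ 2) (x.2.1 ^ 2) else
      P1.div (Yf n x) (Xf n x)

end Vale.Agent.P290.K
end
end

section

section

open Set Filter Metric
open scoped Manifold ContDiff Topology

namespace Vale.Agent.P290.K

theorem rG5_mem_LI (a b : ℤ) : (a : ℂ) + b * Complex.I ∈ LI.lattice := by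
  rw [PeriodPair.mem_lattice]
  exact ⟨a, b, by simp [LI]⟩

theorem rG5_mem_LI_iff (z : ℂ) : z ∈ LI.lattice ↔ ∃ a b : ℤ, z = (a : ℂ) + b * Complex.I := by
  rw [PeriodPair.mem_lattice]
  constructor
  · rintro ⟨a, b, h⟩
    exact ⟨a, b, by rw [← h]; simp [LI]⟩
  · rintro ⟨a, b, h⟩
    exact ⟨a, b, by rw [h]; simp [LI]⟩

theorem rG5_krel {n n' : Fin 4 → ℤ} {x x' : ℂ × C2} (h : KRel std n x n' x') :
    ∃ w w' : ℂ, w ^ 2 = x.1 ∧ w' ^ 2 = x'.1 ∧ ∃ m : Fin 4 → ℤ,
    (1 / 2 : ℂ) • lat std n' + w' • x'.2 = (1 / 2 : ℂ) • lat std n + w • x.2 + lat std m := by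
  rcases h with ⟨h0, h0', ⟨m, hm⟩, -⟩ | ⟨-, -, w, w', hw, hw', m, hm⟩
  · refine ⟨0, 0, by simp [h0], by simp [h0'], m, ?_⟩
    rw [hm]
    simp only [lat_std]
    simp
    constructor <;> ring
  · exact ⟨w, w', hw, hw', m, hm⟩

theorem rG5_X (n : Fin 4 → ℤ) (x : ℂ × C2) (w : ℂ) (hw : w ^ 2 = x.1) :
    Xf n x = Qf (((1 / 2 : ℂ) • lat std n + w • x.2).1) := by
  rw [Xf, ← hw, ← mul_pow, Gf_sq]
  · congr 1
    simp only [Fin.isValue, one_div, lat_std, Prod.smul_mk, smul_eq_mul, Prod.fst_add, Prod.smul_fst, add_left_inj]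
    ring
  · have := rG5_mem_LI (n 0) (n 2)
    convert this using 1
    ring

theorem rG5_Y (n : Fin 4 → ℤ) (x : ℂ × C2) (w : ℂ) (hw : w ^ 2 = x.1) :
    Yf n x = Qf (((1 / 2 : ℂ) • lat std n + w • x.2).2) := by
  rw [Yf, ← hw, ← mul_pow, Gf_sq]
  · congr 1
    simp only [Fin.isValue, one_div, lat_std, Prod.smul_mk, smul_eq_mul, Prod.snd_add, Prod.smul_snd, add_left_inj]
    ring
  · have := rG5_mem_LI (n 1) (n 3)
    convert this using 1
    ring

theorem Xf_rel {n n' : Fin 4 → ℤ} {x x' : ℂ × C2} (hx : x ∈ PP std) (hx' : x' ∈ PP std)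
    (h : KRel std n x n' x') : Xf n x = Xf n' x' := by
  obtain ⟨w, w', hw, hw', m, hm⟩ := rG5_krel h
  rw [rG5_X n x w hw, rG5_X n' x' w' hw', hm, Qf_eq_iff]
  left
  have := rG5_mem_LI (m 0) (m 2)
  convert this using 1
  simp only [one_div, lat_std, Fin.isValue, Prod.smul_mk, smul_eq_mul, Prod.fst_add, Prod.smul_fst, add_sub_cancel_left]

theorem Yf_rel {n n' : Fin 4 → ℤ} {x x' : ℂ × C2} (hx : x ∈ PP std) (hx' : x' ∈ PP std)
    (h : KRel std n x n' x') : Yf n x = Yf n' x' := by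
  obtain ⟨w, w', hw, hw', m, hm⟩ := rG5_krel h
  rw [rG5_Y n x w hw, rG5_Y n' x' w' hw', hm, Qf_eq_iff]
  left
  have := rG5_mem_LI (m 1) (m 3)
  convert this using 1
  simp only [one_div, lat_std, Fin.isValue, Prod.smul_mk, smul_eq_mul, Prod.snd_add, Prod.smul_snd, add_sub_cancel_left]

/-- reduction to the slices -/
theorem rG5_slice (c : C2) (hc : c ≠ 0) : ∃ b : Bool, ∃ u t : ℂ, t ≠ 0 ∧ ‖u‖ ≤ 1 ∧
    (t = c.1 ∨ t = c.2) ∧ ∀ h : ℂ, (sl b (h, u)).1 = h ∧ t • (sl b (h, u)).2 = c := by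
  rcases le_total ‖c.2‖ ‖c.1‖ with h | h
  · have h1 : c.1 ≠ 0 := by
      intro h0
      rw [h0, norm_zero] at h
      have h2 : c.2 = 0 := norm_le_zero_iff.1 h
      exact hc (Prod.ext h0 h2)
    refine ⟨false, c.2 / c.1, c.1, h1, ?_, Or.inl rfl, fun k => ⟨rfl, ?_⟩⟩
    · rw [norm_div]
      exact div_le_one_of_le₀ h (norm_nonneg _)
    · refine Prod.ext ?_ ?_
      · simp only [sl, Bool.false_eq_true, ↓reduceIte, Prod.smul_mk, smul_eq_mul, mul_one]
      · simp only [sl, Bool.false_eq_true, ↓reduceIte, Prod.smul_mk, smul_eq_mul, mul_one]; field_simp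
  · have h1 : c.2 ≠ 0 := by
      intro h0
      rw [h0, norm_zero] at h
      have h2 : c.1 = 0 := norm_le_zero_iff.1 h
      exact hc (Prod.ext h2 h0)
    refine ⟨true, -(c.1 / c.2), c.2, h1, ?_, Or.inr rfl, fun k => ⟨rfl, ?_⟩⟩
    · rw [norm_neg, norm_div]
      exact div_le_one_of_le₀ h (norm_nonneg _)
    · refine Prod.ext ?_ ?_
      · simp only [sl, ↓reduceIte, neg_neg, Prod.smul_mk, smul_eq_mul, mul_one]; (clear * - h1; field_simp)
      · simp only [sl, ↓reduceIte, neg_neg, Prod.smul_mk, smul_eq_mul, mul_one]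

/-- the compact set of parameters in the slices -/
def SS : Set C2 := closedBall (0 : ℂ) (1 / 8) ×ˢ closedBall (0 : ℂ) 1

theorem rG5_compact : IsCompact SS :=
  (isCompact_closedBall _ _).prod (isCompact_closedBall _ _)

theorem rG5_norm_int (a b : ℤ) (h : a ≠ 0 ∨ b ≠ 0) : 1 ≤ ‖(a : ℂ) + b * Complex.I‖ ^ 2 := by
  have h1 : ‖(a : ℂ) + b * Complex.I‖ ^ 2 = (a : ℝ) ^ 2 + (b : ℝ) ^ 2 := by
    rw [← Complex.normSq_eq_norm_sq, Complex.normSq_apply]
    simp only [Complex.add_re, Complex.intCast_re, Complex.mul_re, Complex.I_re, mul_zero, Complex.intCast_im, Complex.I_im, mul_one, sub_self, add_zero, Complex.add_im, Complex.mul_im, zero_add]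
    ring
  rw [h1]
  have h2 : (1 : ℤ) ≤ a ^ 2 + b ^ 2 := by
    rcases h with h | h
    · have := Int.one_le_abs h
      linarith only [mul_nonneg (sub_nonneg.2 this) (sub_nonneg.2 this), sq_nonneg b, sq_abs a, this]
    · have := Int.one_le_abs h
      linarith only [mul_nonneg (sub_nonneg.2 this) (sub_nonneg.2 this), sq_nonneg a, sq_abs b, this]
  exact_mod_cast h2

theorem rG5_ne_half {c : C2} (h1 : ‖c.1‖ ^ 2 ≤ 1 / 8) (h2 : ‖c.2‖ ^ 2 ≤ 1 / 8)
    {n : Fin 4 → ℤ} (hn : n ≠ 0) : c ≠ (1 / 2 : ℂ) • lat std n := by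
  intro h
  rw [lat_std] at h
  have e1 : c.1 = (1 / 2 : ℂ) * ((n 0 : ℂ) + n 2 * Complex.I) := by rw [h]; rfl
  have e2 : c.2 = (1 / 2 : ℂ) * ((n 1 : ℂ) + n 3 * Complex.I) := by rw [h]; rfl
  rw [e1, norm_mul, mul_pow] at h1
  rw [e2, norm_mul, mul_pow] at h2
  have h3 : ‖(1 / 2 : ℂ)‖ ^ 2 = 1 / 4 := by norm_num
  rw [h3] at h1 h2
  apply hn
  have a0 : ¬ (n 0 ≠ 0 ∨ n 2 ≠ 0) := fun hh => by
    have := rG5_norm_int _ _ hh
    linarith only [this, h1]
  have a1 : ¬ (n 1 ≠ 0 ∨ n 3 ≠ 0) := fun hh => by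
    have := rG5_norm_int _ _ hh
    linarith only [this, h2]
  push Not at a0 a1
  funext i
  fin_cases i <;> simp [a0, a1]

theorem rG5_SS_sub (b : Bool) (v : C2) (hv : v ∈ SS) : sl b v ∈ PP std := by
  obtain ⟨hv1, hv2⟩ := hv
  rw [mem_closedBall_zero_iff] at hv1 hv2
  cases b
  · refine ⟨by simp [sl], ?_⟩
    intro w hw n hn
    have hw2 : ‖w‖ ^ 2 ≤ 1 / 8 := by
      rw [← norm_pow, hw]; simpa only [sl, Bool.false_eq_true, ↓reduceIte, one_div] using hv1
    apply rG5_ne_half _ _ hn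
    · simpa only [sl, Bool.false_eq_true, ↓reduceIte, Prod.smul_mk, smul_eq_mul, mul_one, one_div] using hw2
    · simp only [sl, Bool.false_eq_true, if_false, Prod.smul_mk, smul_eq_mul, norm_mul, mul_pow]
      have : ‖v.2‖ ^ 2 ≤ 1 := by linarith only [mul_nonneg (sub_nonneg.2 hv2) (sub_nonneg.2 (norm_nonneg v.2)), mul_nonneg (sub_nonneg.2 hv2) (sub_nonneg.2 hv2)]
      linarith only [mul_nonneg (sub_nonneg.2 this) (sq_nonneg ‖v.2‖), mul_nonneg (sub_nonneg.2 this) (sub_nonneg.2 this), mul_nonneg (sub_nonneg.2 hw2) (sq_nonneg ‖v.2‖)]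
  · refine ⟨by simp only [sl, ↓reduceIte, ne_eq, Prod.mk_eq_zero, neg_eq_zero, one_ne_zero, and_false, not_false_eq_true], ?_⟩
    intro w hw n hn
    have hw2 : ‖w‖ ^ 2 ≤ 1 / 8 := by
      rw [← norm_pow, hw]; simpa only [sl, ↓reduceIte, one_div] using hv1
    apply rG5_ne_half _ _ hn
    · simp only [sl, if_true, Prod.smul_mk, smul_eq_mul, norm_mul, mul_pow, norm_neg]
      have : ‖v.2‖ ^ 2 ≤ 1 := by linarith only [mul_nonneg (sub_nonneg.2 hv2) (sub_nonneg.2 (norm_nonneg v.2)), mul_nonneg (sub_nonneg.2 hv2) (sub_nonneg.2 hv2)]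
      linarith only [mul_nonneg (sub_nonneg.2 this) (sq_nonneg ‖v.2‖), mul_nonneg (sub_nonneg.2 this) (sub_nonneg.2 this), mul_nonneg (sub_nonneg.2 hw2) (sq_nonneg ‖v.2‖)]
    · simpa only [sl, ↓reduceIte, Prod.smul_mk, smul_eq_mul, mul_neg, mul_one, one_div] using hw2

/-- not a half lattice point -/
theorem rG5_not_half {n : Fin 4 → ℤ} {x : ℂ × C2} (hx : x ∈ PP std) (hx0 : x.1 ≠ 0) {w : ℂ}
    (hw : w ^ 2 = x.1) (k : Fin 4 → ℤ) :
    (1 / 2 : ℂ) • lat std n + w • x.2 ≠ (1 / 2 : ℂ) • lat std k := by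
  intro h
  have h1 : w • x.2 = (1 / 2 : ℂ) • lat std (k - n) := by
    have : lat std (k - n) = lat std k - lat std n := by
      simp only [lat_std, Fin.isValue, Pi.sub_apply, Int.cast_sub, Prod.mk_sub_mk, Prod.mk.injEq]
      constructor <;> ring
    rw [this, smul_sub, ← h]
    abel
  by_cases hk : k - n = 0
  · rw [hk] at h1
    have h2 : lat std 0 = 0 := by simp only [lat_std, Pi.zero_apply, Int.cast_zero, zero_mul, add_zero, Prod.mk_eq_zero, and_self]
    rw [h2, smul_zero, smul_eq_zero] at h1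
    rcases h1 with h1 | h1
    · rw [h1] at hw
      apply hx0
      rw [← hw]; simp
    · exact hx.1 h1
  · exact hx.2 w hw _ hk h1


theorem rG5_round (r : ℝ) : |r - (round (2 * r) : ℝ) / 2| ≤ 1 / 4 := by
  have := abs_sub_round (2 * r)
  rw [abs_le] at this ⊢
  constructor <;> linarith only [this]

theorem rG5_sq_le {z : ℂ} (h1 : |z.re| ≤ 1 / 4) (h2 : |z.im| ≤ 1 / 4) : ‖z‖ ^ 2 ≤ 1 / 8 := by
  rw [← Complex.normSq_eq_norm_sq, Complex.normSq_apply]
  have a1 : z.re * z.re ≤ 1 / 16 := by nlinarith [abs_nonneg z.re, abs_mul_abs_self z.re]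
  have a2 : z.im * z.im ≤ 1 / 16 := by linarith only [h2, mul_eq_zero_of_left (sub_eq_zero.2 (abs_mul_abs_self z.im)) (|z.im| - (0)), mul_eq_zero_of_left (sub_eq_zero.2 (abs_mul_abs_self z.im)) (1 / 4 - (|z.im|)), mul_nonneg (sub_nonneg.2 h2) (sub_nonneg.2 (abs_nonneg z.im))]
  linarith only [a2, a1]

/-- the nearest half lattice point -/
theorem rG5_nearest (ζ : C2) : ∃ k : Fin 4 → ℤ, ‖(ζ - (1 / 2 : ℂ) • lat std k).1‖ ^ 2 ≤ 1 / 8 ∧
    ‖(ζ - (1 / 2 : ℂ) • lat std k).2‖ ^ 2 ≤ 1 / 8 := by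
  refine ⟨![round (2 * ζ.1.re), round (2 * ζ.2.re), round (2 * ζ.1.im), round (2 * ζ.2.im)],
    rG5_sq_le ?_ ?_, rG5_sq_le ?_ ?_⟩
  · have := rG5_round ζ.1.re
    convert this using 2
    simp only [one_div, lat_std, Fin.isValue, Matrix.cons_val_zero, Matrix.cons_val, Matrix.cons_val_one, Prod.smul_mk, smul_eq_mul, Prod.fst_sub, Complex.sub_re, Complex.mul_re, Complex.inv_re, Complex.re_ofNat, Complex.normSq_ofNat, div_self_mul_self', Complex.add_re, Complex.intCast_re, Complex.I_re, mul_zero, Complex.intCast_im, Complex.I_im, mul_one, sub_self, add_zero, Complex.inv_im, Complex.im_ofNat, neg_zero, zero_div, Complex.add_im, Complex.mul_im, zero_add, zero_mul, sub_zero, sub_right_inj]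
    ring
  · have := rG5_round ζ.1.im
    convert this using 2
    simp only [one_div, lat_std, Fin.isValue, Matrix.cons_val_zero, Matrix.cons_val, Matrix.cons_val_one, Prod.smul_mk, smul_eq_mul, Prod.fst_sub, Complex.sub_im, Complex.mul_im, Complex.inv_re, Complex.re_ofNat, Complex.normSq_ofNat, div_self_mul_self', Complex.add_im, Complex.intCast_im, Complex.intCast_re, Complex.I_im, mul_one, Complex.I_re, mul_zero, add_zero, zero_add, Complex.inv_im, Complex.im_ofNat, neg_zero, zero_div, Complex.add_re, Complex.mul_re, sub_self, zero_mul, sub_right_inj]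
    ring
  · have := rG5_round ζ.2.re
    convert this using 2
    simp only [one_div, lat_std, Fin.isValue, Matrix.cons_val_zero, Matrix.cons_val, Matrix.cons_val_one, Prod.smul_mk, smul_eq_mul, Prod.snd_sub, Complex.sub_re, Complex.mul_re, Complex.inv_re, Complex.re_ofNat, Complex.normSq_ofNat, div_self_mul_self', Complex.add_re, Complex.intCast_re, Complex.I_re, mul_zero, Complex.intCast_im, Complex.I_im, mul_one, sub_self, add_zero, Complex.inv_im, Complex.im_ofNat, neg_zero, zero_div, Complex.add_im, Complex.mul_im, zero_add, zero_mul, sub_zero, sub_right_inj]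
    ring
  · have := rG5_round ζ.2.im
    convert this using 2
    simp only [one_div, lat_std, Fin.isValue, Matrix.cons_val_zero, Matrix.cons_val, Matrix.cons_val_one, Prod.smul_mk, smul_eq_mul, Prod.snd_sub, Complex.sub_im, Complex.mul_im, Complex.inv_re, Complex.re_ofNat, Complex.normSq_ofNat, div_self_mul_self', Complex.add_im, Complex.intCast_im, Complex.intCast_re, Complex.I_im, mul_one, Complex.I_re, mul_zero, add_zero, zero_add, Complex.inv_im, Complex.im_ofNat, neg_zero, zero_div, Complex.add_re, Complex.mul_re, sub_self, zero_mul, sub_right_inj]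
    ring

/-- integer vector with entries `0` and `1` -/
def kk (p : Fin 4 → Fin 2) : Fin 4 → ℤ := fun i => ((p i : ℕ) : ℤ)

theorem rG5_kk (k : Fin 4 → ℤ) : ∃ p : Fin 4 → Fin 2, ∃ m : Fin 4 → ℤ, kk p = k + 2 • m := by
  refine ⟨fun i => ⟨(k i % 2).toNat, by omega⟩, fun i => -(k i / 2), ?_⟩
  funext i
  simp only [kk, Pi.add_apply, Pi.smul_apply]
  have : (2 : ℕ) • (-(k i / 2)) = -(2 * (k i / 2)) := by simp
  rw [this]
  omega

theorem rG5_lat_add (n m : Fin 4 → ℤ) : lat std (n + m) = lat std n + lat std m := by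
  simp only [lat_std, Fin.isValue, Pi.add_apply, Int.cast_add, Prod.mk_add_mk, Prod.mk.injEq]
  constructor <;> ring

theorem rG5_lat_two (m : Fin 4 → ℤ) : (1 / 2 : ℂ) • lat std (2 • m) = lat std m := by
  simp only [one_div, nsmul_eq_mul, Nat.cast_ofNat, lat_std, Fin.isValue, Pi.mul_apply, Pi.ofNat_apply, Int.cast_mul, Int.cast_ofNat, Prod.smul_mk, smul_eq_mul, Prod.mk.injEq]
  constructor <;> ring

theorem rG5_lat_sub (n m : Fin 4 → ℤ) : lat std (n - m) = lat std n - lat std m := by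
  simp only [lat_std, Fin.isValue, Pi.sub_apply, Int.cast_sub, Prod.mk_sub_mk, Prod.mk.injEq]
  constructor <;> ring

theorem rG5_lat_neg (m : Fin 4 → ℤ) : lat std (-m) = -lat std m := by
  simp only [lat_std, Fin.isValue, Pi.neg_apply, Int.cast_neg, neg_mul, Prod.neg_mk, neg_add_rev, Prod.mk.injEq]
  constructor <;> ring

theorem rG5_cover (n : Fin 4 → ℤ) (x : ℂ × C2) (hx : x ∈ PP std) :
    ∃ p : Fin 4 → Fin 2, ∃ b : Bool, ∃ v ∈ SS, KRel std n x (kk p) (sl b v) := by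
  by_cases hx0 : x.1 = 0
  · obtain ⟨b, u, t, ht, hu, -, hsl⟩ := rG5_slice x.2 hx.1
    obtain ⟨p, m, hp⟩ := rG5_kk n
    refine ⟨p, b, (0, u), ⟨by simp only [one_div, mem_closedBall, dist_self, inv_nonneg, Nat.ofNat_nonneg], by simpa only [mem_closedBall, dist_zero_right] using hu⟩, Or.inl ⟨hx0, (hsl 0).1, ⟨m, hp⟩, t⁻¹,
      inv_ne_zero ht, ?_⟩⟩
    rw [← (hsl 0).2, smul_smul, inv_mul_cancel₀ ht, one_smul]
  · obtain ⟨w, hw⟩ := IsAlgClosed.exists_pow_nat_eq x.1 (n := 2) two_pos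
    obtain ⟨k, hk1, hk2⟩ := rG5_nearest ((1 / 2 : ℂ) • lat std n + w • x.2)
    have hη0 : (1 / 2 : ℂ) • lat std n + w • x.2 - (1 / 2 : ℂ) • lat std k ≠ 0 :=
      sub_ne_zero.2 (rG5_not_half hx hx0 hw k)
    obtain ⟨b, u, t, ht, hu, ht', hsl⟩ := rG5_slice _ hη0
    obtain ⟨p, m, hp⟩ := rG5_kk k
    have htn : ‖t‖ ^ 2 ≤ 1 / 8 := by
      rcases ht' with rfl | rfl
      · exact hk1
      · exact hk2
    refine ⟨p, b, (t ^ 2, u), ⟨by simpa only [one_div, mem_closedBall, dist_zero_right, norm_pow] using htn, by simpa only [mem_closedBall, dist_zero_right] using hu⟩, Or.inr ⟨hx0, ?_, w, t, hw,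
      ((hsl _).1).symm, m, ?_⟩⟩
    · rw [(hsl _).1]
      exact pow_ne_zero 2 ht
    · rw [(hsl _).2, hp, rG5_lat_add, smul_add, rG5_lat_two]
      abel

theorem compactSpace_ZZ : CompactSpace ZZ := by
  constructor
  have h : (univ : Set ZZ) = ⋃ p : Fin 4 → Fin 2, ⋃ b : Bool,
      ((kAtlas g_linearIndependent_std).g (show (kAtlas g_linearIndependent_std).I from (kk p, b)) ''
        SS : Set ZZ) := by
    refine (eq_univ_iff_forall.2 ?_).symm
    intro z
    obtain ⟨i, v, hv, hz⟩ := (kAtlas g_linearIndependent_std).cover z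
    obtain ⟨p, b, v', hv', hr⟩ := rG5_cover i.1 (sl i.2 v) hv
    rw [mem_iUnion]
    refine ⟨p, ?_⟩
    rw [mem_iUnion]
    refine ⟨b, v', hv', ?_⟩
    rw [← hz]
    exact ((kq_eq_iff g_linearIndependent_std hv (rG5_SS_sub b v' hv')).2 hr).symm
  rw [h]
  refine isCompact_iUnion fun p => isCompact_iUnion fun b => ?_
  exact (kAtlas g_linearIndependent_std).isCompact_image (kk p, b) rG5_compact
    fun v hv => rG5_SS_sub b v hv

/-! ### Joint fibres -/

theorem rG5_PP_one {c : C2} (hc : c ≠ 0) (h : ∀ k, c ≠ (1 / 2 : ℂ) • lat std k) :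
    ((1 : ℂ), c) ∈ PP std := by
  refine ⟨hc, fun w hw n hn => ?_⟩
  have hw' : w = 1 ∨ w = -1 := by
    have : (w - 1) * (w + 1) = 0 := by
      have h2 : w ^ 2 = 1 := hw
      linear_combination h2
    rcases mul_eq_zero.1 this with h1 | h1
    · left; linear_combination h1
    · right; linear_combination h1
  rcases hw' with rfl | rfl
  · rw [one_smul]; exact h n
  · rw [neg_one_smul]
    intro h1
    apply h (-n)
    rw [rG5_lat_neg, smul_neg, ← h1, neg_neg]

theorem rG5_half_of (z l : ℂ) (hl : ∃ a b : ℤ, z + l = (a : ℂ) + b * Complex.I ∨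
    l - z = (a : ℂ) + b * Complex.I) (h : ∃ a b : ℤ, l = (1 / 2 : ℂ) * ((a : ℂ) + b * Complex.I)) :
    ∃ a b : ℤ, z = (1 / 2 : ℂ) * ((a : ℂ) + b * Complex.I) := by
  obtain ⟨a, b, hab⟩ := hl
  obtain ⟨a', b', rfl⟩ := h
  rcases hab with hab | hab
  · refine ⟨2 * a - a', 2 * b - b', ?_⟩
    push_cast
    linear_combination hab
  · refine ⟨a' - 2 * a, b' - 2 * b, ?_⟩
    push_cast
    linear_combination -hab

theorem rG5_lat_ext {c : C2} {a b a' b' : ℤ} (h1 : c.1 = (a : ℂ) + b * Complex.I)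
    (h2 : c.2 = (a' : ℂ) + b' * Complex.I) : c = lat std ![a, a', b, b'] := by
  rw [lat_std]
  exact Prod.ext (by simpa only [Fin.isValue, Matrix.cons_val_zero, Matrix.cons_val] using h1) (by simpa using h2)

theorem rG5_half_ext {c : C2} {a b a' b' : ℤ} (h1 : c.1 = (1 / 2 : ℂ) * ((a : ℂ) + b * Complex.I))
    (h2 : c.2 = (1 / 2 : ℂ) * ((a' : ℂ) + b' * Complex.I)) :
    c = (1 / 2 : ℂ) • lat std ![a, a', b, b'] := by
  rw [lat_std]
  exact Prod.ext (by simpa only [one_div, Fin.isValue, Matrix.cons_val_zero, Matrix.cons_val, Matrix.cons_val_one, Prod.smul_mk,     smul_eq_mul] using h1) (by simpa only [one_div, Fin.isValue, Matrix.cons_val_zero, Matrix.cons_val, Matrix.cons_val_one, Prod.smul_mk,     smul_eq_mul] using h2)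

theorem rG5_Qf {z z' : ℂ} (h : Qf z' = Qf z) : (∃ a b : ℤ, z - z' = (a : ℂ) + b * Complex.I) ∨
    ∃ a b : ℤ, z + z' = (a : ℂ) + b * Complex.I := by
  rw [Qf_eq_iff] at h
  rcases h with h | h
  · exact Or.inl ((rG5_mem_LI_iff _).1 h)
  · exact Or.inr ((rG5_mem_LI_iff _).1 h)

theorem rG5_Qf_half {z l : ℂ} (h : Qf z = Qf l)
    (hl : ∃ a b : ℤ, l = (1 / 2 : ℂ) * ((a : ℂ) + b * Complex.I)) :
    ∃ a b : ℤ, z = (1 / 2 : ℂ) * ((a : ℂ) + b * Complex.I) := by
  refine rG5_half_of z l ?_ hl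
  rcases rG5_Qf h with ⟨a, b, h⟩ | ⟨a, b, h⟩
  · exact ⟨a, b, Or.inr h⟩
  · exact ⟨a, b, Or.inl (by rw [add_comm]; exact h)⟩

/-- if one of the two points has `s = 0`, so has the other one -/
theorem rG5_zero {n n' : Fin 4 → ℤ} {x x' : ℂ × C2} (hx : x ∈ PP std)
    (h0 : x'.1 = 0) (hX : Xf n' x' = Xf n x) (hY : Yf n' x' = Yf n x) : x.1 = 0 := by
  by_contra hx0
  obtain ⟨w, hw⟩ := IsAlgClosed.exists_pow_nat_eq x.1 (n := 2) two_pos
  rw [rG5_X n x w hw, rG5_X n' x' 0 (by rw [h0]; simp)] at hX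
  rw [rG5_Y n x w hw, rG5_Y n' x' 0 (by rw [h0]; simp)] at hY
  obtain ⟨a, b, h1⟩ := rG5_Qf_half hX.symm ⟨n' 0, n' 2, by simp only [one_div, lat_std, Fin.isValue, Prod.smul_mk, smul_eq_mul, zero_smul, add_zero]⟩
  obtain ⟨a', b', h2⟩ := rG5_Qf_half hY.symm ⟨n' 1, n' 3, by simp only [one_div, lat_std, Fin.isValue, Prod.smul_mk, smul_eq_mul, zero_smul, add_zero]⟩
  exact rG5_not_half hx hx0 hw _ (rG5_half_ext h1 h2)

theorem rG5_even {a b c d : ℤ} (h : Qf ((1 / 2 : ℂ) * ((a : ℂ) + b * Complex.I)) =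
    Qf ((1 / 2 : ℂ) * ((c : ℂ) + d * Complex.I))) : ∃ e f : ℤ, a = c + 2 * e ∧ b = d + 2 * f := by
  rcases rG5_Qf h with ⟨p, q, h⟩ | ⟨p, q, h⟩
  · have h1 : (c : ℂ) + d * Complex.I - ((a : ℂ) + b * Complex.I)
        = 2 * ((p : ℂ) + q * Complex.I) := by linear_combination 2 * h
    rw [Complex.ext_iff] at h1
    simp only [Complex.sub_re, Complex.add_re, Complex.intCast_re, Complex.mul_re, Complex.I_re, mul_zero, Complex.intCast_im, Complex.I_im, mul_one, sub_self, add_zero, Complex.re_ofNat, Complex.im_ofNat, Complex.add_im, Complex.mul_im, zero_add, zero_mul, sub_zero, Complex.sub_im] at h1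
    refine ⟨-p, -q, ?_, ?_⟩
    · have := h1.1
      have h2 : ((c - a : ℤ) : ℝ) = ((2 * p : ℤ) : ℝ) := by push_cast; linarith only [h1]
      have h2 := Int.cast_injective h2
      omega
    · have := h1.2
      have h2 : ((d - b : ℤ) : ℝ) = ((2 * q : ℤ) : ℝ) := by push_cast; linarith only [h1]
      have h2 := Int.cast_injective h2
      (clear * - h2; omega)
  · have h1 : (c : ℂ) + d * Complex.I + ((a : ℂ) + b * Complex.I)
        = 2 * ((p : ℂ) + q * Complex.I) := by linear_combination 2 * h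
    rw [Complex.ext_iff] at h1
    simp only [Complex.add_re, Complex.intCast_re, Complex.mul_re, Complex.I_re, mul_zero, Complex.intCast_im, Complex.I_im, mul_one, sub_self, add_zero, Complex.re_ofNat, Complex.im_ofNat, Complex.add_im, Complex.mul_im, zero_add, zero_mul, sub_zero] at h1
    refine ⟨p - c, q - d, ?_, ?_⟩
    · have := h1.1
      have h2 : ((c + a : ℤ) : ℝ) = ((2 * p : ℤ) : ℝ) := by push_cast; linarith only [h1]
      have h2 := Int.cast_injective h2
      omega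
    · have := h1.2
      have h2 : ((d + b : ℤ) : ℝ) = ((2 * q : ℤ) : ℝ) := by push_cast; linarith only [h1]
      have h2 := Int.cast_injective h2
      (clear * - h2; omega)

theorem rG5_prop {c c' : C2} (hc : c ≠ 0) (hc' : c' ≠ 0) (h : c'.1 * c.2 = c.1 * c'.2) :
    ∃ t : ℂ, t ≠ 0 ∧ c = t • c' := by
  by_cases h1 : c'.1 = 0
  · have h2 : c'.2 ≠ 0 := fun h2 => hc' (Prod.ext h1 h2)
    rw [h1, zero_mul] at h
    have h3 : c.1 = 0 := by
      rcases mul_eq_zero.1 h.symm with h | h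
      · exact h
      · exact absurd h h2
    refine ⟨c.2 / c'.2, ?_, ?_⟩
    · intro h4
      rw [div_eq_zero_iff] at h4
      rcases h4 with h4 | h4
      · exact hc (Prod.ext h3 h4)
      · exact h2 h4
    · refine Prod.ext ?_ ?_
      · simp [h1, h3]
      · simp only [Prod.smul_snd, smul_eq_mul, isUnit_iff_ne_zero, ne_eq, h2, not_false_eq_true, IsUnit.div_mul_cancel]
  · refine ⟨c.1 / c'.1, ?_, ?_⟩
    · intro h4
      rw [div_eq_zero_iff] at h4
      rcases h4 with h4 | h4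
      · rw [h4, zero_mul] at h
        rcases mul_eq_zero.1 h with h | h
        · exact h1 h
        · exact hc (Prod.ext h4 h)
      · exact h1 h4
    · refine Prod.ext ?_ ?_
      · simp only [Prod.smul_fst, smul_eq_mul, isUnit_iff_ne_zero, ne_eq, h1, not_false_eq_true, IsUnit.div_mul_cancel]
      · simp only [Prod.smul_snd, smul_eq_mul]
        field_simp
        linear_combination h

/-- the joint fibres are finite -/
theorem finite_fibres (n : Fin 4 → ℤ) (x : ℂ × C2) (hx : x ∈ PP std) :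
    {z : ZZ | ∃ n', ∃ x' ∈ PP std, z = kq g_linearIndependent_std n' x' ∧ Xf n' x' = Xf n x ∧
      Yf n' x' = Yf n x ∧ ∀ k : Fin 4 → ℤ, Rf (n' + k) x' = Rf (n + k) x}.Finite := by
  by_cases hx0 : x.1 = 0
  · refine Set.Finite.subset (s := {kq g_linearIndependent_std n (0, (x.2.1, x.2.2)),
      kq g_linearIndependent_std n (0, (x.2.1, -x.2.2))}) (by simp only [Prod.mk.eta, finite_insert, finite_singleton]) ?_
    rintro z ⟨n', x', hx', rfl, hX, hY, hR⟩
    have hx0' : x'.1 = 0 := rG5_zero hx' hx0 hX.symm hY.symm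
    have hX' := hX
    have hY' := hY
    rw [rG5_X n x 0 (by rw [hx0]; simp), rG5_X n' x' 0 (by rw [hx0']; simp)] at hX'
    rw [rG5_Y n x 0 (by rw [hx0]; simp), rG5_Y n' x' 0 (by rw [hx0']; simp)] at hY'
    simp only [lat_std, Prod.smul_mk, smul_eq_mul, zero_smul, add_zero] at hX' hY'
    obtain ⟨e, f, he, hf⟩ := rG5_even hX'
    obtain ⟨e', f', he', hf'⟩ := rG5_even hY'
    have hn : n' = n + 2 • ![e, e', f, f'] := by
      funext i
      fin_cases i <;> simp [he, hf, he', hf']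
    have hQ0 : ∀ z ∈ LI.lattice, Qf z = P1.mk 1 0 := fun z hz => by rw [Qf, if_pos hz]
    have hA : ∀ (m : Fin 4 → ℤ) (y : ℂ × C2), y.1 = 0 → Rf (2 • m) y
        = P1.mk (y.2.1 ^ 2) (y.2.2 ^ 2) := by
      intro m y hy
      have h1 : Xf (2 • m) y = P1.mk 1 0 := by
        rw [rG5_X _ _ 0 (by rw [hy]; simp), zero_smul, add_zero, rG5_lat_two]
        apply hQ0
        rw [lat_std]
        exact rG5_mem_LI _ _
      have h2 : Yf (2 • m) y = P1.mk 1 0 := by
        rw [rG5_Y _ _ 0 (by rw [hy]; simp), zero_smul, add_zero, rG5_lat_two]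
        apply hQ0
        rw [lat_std]
        exact rG5_mem_LI _ _
      rw [Rf, if_pos ⟨h1, h2⟩]
    have h1 := hR (-n)
    have h2 : n + -n = 2 • (0 : Fin 4 → ℤ) := by simp
    have h3 : n' + -n = 2 • ![e, e', f, f'] := by rw [hn]; abel
    rw [h2, h3, hA _ _ hx0, hA _ _ hx0'] at h1
    have hne : ∀ c : C2, c ≠ 0 → c.1 ^ 2 ≠ 0 ∨ c.2 ^ 2 ≠ 0 := by
      intro c hc
      by_contra hcon
      push Not at hcon
      exact hc (Prod.ext (by simpa using hcon.1) (by simpa using hcon.2))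
    rw [P1.mk_eq_iff (hne _ hx'.1) (hne _ hx.1)] at h1
    have h4 : (x'.2.1 * x.2.2 - x.2.1 * x'.2.2) * (x'.2.1 * x.2.2 + x.2.1 * x'.2.2) = 0 := by
      linear_combination h1
    have hxe : x = (0, (x.2.1, x.2.2)) := by
      rw [← hx0]
    have hx2 : (0, (x.2.1, -x.2.2)) ∈ PP std := by
      refine ⟨?_, ?_⟩
      · intro h
        apply hx.1
        simp only [Prod.mk_eq_zero, neg_eq_zero] at h
        exact Prod.ext h.1 h.2
      · intro w hw m hm h
        have hw0 : w = 0 := by simpa using hw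
        apply hx.2 0 (by rw [hx0]; simp) m hm
        rw [← h, hw0]
        simp only [zero_smul]
    rcases mul_eq_zero.1 h4 with h5 | h5
    · left
      rw [← hxe]
      refine (kq_eq_iff _ hx' hx).2 ?_
      obtain ⟨t, ht, hct⟩ := rG5_prop hx.1 hx'.1 (by linear_combination h5)
      refine Or.inl ⟨hx0', hx0, ⟨-![e, e', f, f'], ?_⟩, t, ht, hct⟩
      rw [hn, smul_neg]
      abel
    · right
      refine (kq_eq_iff _ hx' hx2).2 ?_
      obtain ⟨t, ht, hct⟩ := rG5_prop hx2.1 hx'.1 (by simp only; linear_combination -h5)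
      refine Or.inl ⟨hx0', rfl, ⟨-![e, e', f, f'], ?_⟩, t, ht, hct⟩
      rw [hn, smul_neg]
      abel
  · obtain ⟨w, hw⟩ := IsAlgClosed.exists_pow_nat_eq x.1 (n := 2) two_pos
    set ζ : C2 := (1 / 2 : ℂ) • lat std n + w • x.2 with hζ
    have hnh : ∀ k, ζ ≠ (1 / 2 : ℂ) • lat std k := rG5_not_half hx hx0 hw
    have hζ0 : ζ ≠ 0 := by
      have := hnh 0
      have h0 : lat std 0 = 0 := by simp [lat_std]
      rwa [h0, smul_zero] at this
    have hP1 : ((1 : ℂ), ζ) ∈ PP std := rG5_PP_one hζ0 hnh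
    have hP2 : ((1 : ℂ), (ζ.1, -ζ.2)) ∈ PP std := by
      refine rG5_PP_one ?_ ?_
      · intro h
        apply hζ0
        simp only [Prod.mk_eq_zero, neg_eq_zero] at h
        exact Prod.ext h.1 h.2
      · intro k h
        rw [lat_std] at h
        apply hnh ![k 0, -k 1, k 2, -k 3]
        rw [lat_std]
        have h1 : ζ.1 = (1 / 2 : ℂ) * ((k 0 : ℂ) + k 2 * Complex.I) := congrArg Prod.fst h
        have h2 : -ζ.2 = (1 / 2 : ℂ) * ((k 1 : ℂ) + k 3 * Complex.I) := congrArg Prod.snd h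
        refine Prod.ext ?_ ?_
        · simpa only [one_div, Fin.isValue, Matrix.cons_val_zero, Matrix.cons_val, Matrix.cons_val_one, Int.cast_neg,     neg_mul, Prod.smul_mk, smul_eq_mul] using h1
        · simp only [one_div, Fin.isValue, Matrix.cons_val_zero, Matrix.cons_val, Matrix.cons_val_one, Int.cast_neg, neg_mul, Prod.smul_mk, smul_eq_mul]
          linear_combination -h2
    refine Set.Finite.subset (s := {kq g_linearIndependent_std 0 (1, ζ),
      kq g_linearIndependent_std 0 (1, (ζ.1, -ζ.2))}) (by simp only [finite_insert, finite_singleton]) ?_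
    rintro z ⟨n', x', hx', rfl, hX, hY, -⟩
    have hx0' : x'.1 ≠ 0 := fun h => hx0 (rG5_zero hx h hX hY)
    obtain ⟨w', hw'⟩ := IsAlgClosed.exists_pow_nat_eq x'.1 (n := 2) two_pos
    rw [rG5_X n x w hw, rG5_X n' x' w' hw', ← hζ] at hX
    rw [rG5_Y n x w hw, rG5_Y n' x' w' hw', ← hζ] at hY
    set ζ' : C2 := (1 / 2 : ℂ) • lat std n' + w' • x'.2 with hζ'
    have key : ∀ (c : C2) (ε : ℂ), ε ^ 2 = 1 → (1, c) ∈ PP std →
        (∃ m : Fin 4 → ℤ, ε • c = ζ' + lat std m) →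
        kq g_linearIndependent_std n' x' = kq g_linearIndependent_std 0 (1, c) := by
      rintro c ε hε hc ⟨m, hm⟩
      refine (kq_eq_iff _ hx' hc).2 (Or.inr ⟨hx0', one_ne_zero, w', ε, hw', hε, m, ?_⟩)
      simp only
      have h0 : lat std 0 = 0 := by simp only [lat_std, Pi.zero_apply, Int.cast_zero, zero_mul, add_zero, Prod.mk_eq_zero, and_self]
      rw [h0, smul_zero, zero_add, hm]
    rcases rG5_Qf hX with ⟨a, b, h1⟩ | ⟨a, b, h1⟩ <;> rcases rG5_Qf hY with ⟨a', b', h2⟩ | ⟨a', b', h2⟩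
    · left
      refine key ζ 1 (by norm_num) hP1 ⟨![a, a', b, b'], ?_⟩
      rw [← rG5_lat_ext (c := ζ - ζ') h1 h2, one_smul]
      abel
    · right
      refine key _ 1 (by norm_num) hP2 ⟨![a, -a', b, -b'], ?_⟩
      rw [lat_std]
      refine Prod.ext ?_ ?_
      · simp only [one_smul, Fin.isValue, Matrix.cons_val_zero, Matrix.cons_val, Matrix.cons_val_one, Int.cast_neg, neg_mul, Prod.fst_add]
        linear_combination h1
      · simp only [one_smul, Fin.isValue, Matrix.cons_val_zero, Matrix.cons_val, Matrix.cons_val_one, Int.cast_neg, neg_mul, Prod.snd_add]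
        linear_combination -h2
    · right
      refine key _ (-1) (by norm_num) hP2 ⟨![-a, a', -b, b'], ?_⟩
      rw [lat_std]
      refine Prod.ext ?_ ?_
      · simp only [neg_smul, one_smul, Prod.neg_mk, neg_neg, Fin.isValue, Matrix.cons_val_zero, Int.cast_neg, Matrix.cons_val, neg_mul, Matrix.cons_val_one, Prod.fst_add]
        linear_combination -h1
      · simp only [neg_smul, one_smul, Prod.neg_mk, neg_neg, Fin.isValue, Matrix.cons_val_zero, Int.cast_neg, Matrix.cons_val, neg_mul, Matrix.cons_val_one, Prod.snd_add]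
        linear_combination h2
    · left
      refine key ζ (-1) (by norm_num) hP1 ⟨![-a, -a', -b, -b'], ?_⟩
      rw [lat_std]
      refine Prod.ext ?_ ?_
      · simp only [neg_smul, one_smul, Prod.fst_neg, Fin.isValue, Matrix.cons_val_zero, Int.cast_neg, Matrix.cons_val, neg_mul, Matrix.cons_val_one, Prod.fst_add]
        linear_combination -h1
      · simp only [neg_smul, one_smul, Prod.snd_neg, Fin.isValue, Matrix.cons_val_zero, Int.cast_neg, Matrix.cons_val, neg_mul, Matrix.cons_val_one, Prod.snd_add]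
        linear_combination -h2

end Vale.Agent.P290.K
end
end

section

section

open Set Filter Metric MeasureTheory
open scoped Manifold ContDiff Topology Pointwise

namespace Vale.Agent.P290.K

/-! ### Measure of tubes around curves -/

theorem volume_tube_le {A B : ℝ → ℂ} {L δ : ℝ} (hL : 1 ≤ L) (hδ : 0 < δ) (hδ1 : δ ≤ 1)
    (hA : ∀ s ∈ Icc (0 : ℝ) 1, ∀ s' ∈ Icc (0 : ℝ) 1, ‖A s - A s'‖ ≤ L * |s - s'|)
    (hB : ∀ s ∈ Icc (0 : ℝ) 1, ∀ s' ∈ Icc (0 : ℝ) 1, ‖B s - B s'‖ ≤ L * |s - s'|) :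
    volume {t : ℂ | ‖t‖ ≤ 1 ∧ ∃ s ∈ Icc (0 : ℝ) 1, 1 ≤ ‖B s‖ ∧ ‖A s + t * B s‖ < δ} ≤
      ENNReal.ofReal (40 * (L * δ)) := by
  set N : ℕ := ⌈2 * L / δ⌉₊ with hN
  have hN1 : 2 * L / δ ≤ N := Nat.le_ceil _
  have hLδ : 1 ≤ L / δ := by
    rw [le_div_iff₀ hδ]
    linarith only [hL, hδ1]
  have hN2 : (N : ℝ) ≤ 3 * (L / δ) := by
    have h1 : (N : ℝ) < 2 * L / δ + 1 := Nat.ceil_lt_add_one (by (clear * - hL hδ; positivity))
    have h2 : 2 * L / δ = 2 * (L / δ) := by ring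
    linarith only [hLδ, h1, h2]
  have hNpos : (0 : ℝ) < N := lt_of_lt_of_le (by positivity) hN1
  have hNL : 2 * L / N ≤ δ := by
    rw [div_le_iff₀ hNpos]
    rw [div_le_iff₀ hδ] at hN1
    linarith only [hN1]
  have hex : ∀ j : ℕ, ∃ z : ℂ, ∀ t : ℂ, ‖t‖ ≤ 1 → ∀ s ∈ Icc (0 : ℝ) 1, (j : ℝ) / N ≤ s →
      s ≤ (j + 1) / N → 1 ≤ ‖B s‖ → ‖A s + t * B s‖ < δ → t ∈ ball z (2 * δ) := by
    intro j
    by_cases h : ∃ s ∈ Icc (0 : ℝ) 1, (j : ℝ) / N ≤ s ∧ s ≤ (j + 1) / N ∧ 1 ≤ ‖B s‖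
    · obtain ⟨s₀, hs₀, h1, h2, h3⟩ := h
      refine ⟨-(A s₀ / B s₀), fun t ht s hs h4 h5 _ h7 => ?_⟩
      have hB0 : B s₀ ≠ 0 := by
        intro h0
        rw [h0, norm_zero] at h3
        linarith only [h3]
      have hss : |s - s₀| ≤ 1 / N := by
        have : ((j : ℝ) + 1) / N = j / N + 1 / N := by ring
        rw [abs_le]
        constructor <;> linarith
      have e1 : A s₀ + t * B s₀ = (A s + t * B s) - (A s - A s₀) - t * (B s - B s₀) := by ring
      have e2 : ‖A s₀ + t * B s₀‖ < 2 * δ := by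
        rw [e1]
        have f1 : ‖A s - A s₀‖ ≤ L * (1 / N) :=
          (hA s hs s₀ hs₀).trans (mul_le_mul_of_nonneg_left hss (by linarith only [hL]))
        have f2 : ‖t * (B s - B s₀)‖ ≤ L * (1 / N) := by
          rw [norm_mul]
          calc ‖t‖ * ‖B s - B s₀‖ ≤ 1 * ‖B s - B s₀‖ :=
                mul_le_mul_of_nonneg_right ht (norm_nonneg _)
            _ = ‖B s - B s₀‖ := one_mul _
            _ ≤ L * (1 / N) :=
              (hB s hs s₀ hs₀).trans (mul_le_mul_of_nonneg_left hss (by linarith only [hL]))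
        have f3 := norm_sub_le ((A s + t * B s) - (A s - A s₀)) (t * (B s - B s₀))
        have f4 := norm_sub_le (A s + t * B s) (A s - A s₀)
        have f5 : L * (1 / N) + L * (1 / N) = 2 * L / N := by ring
        linarith only [f5, f4, f3, f2, f1, h7, hNL]
      rw [mem_ball, dist_eq_norm]
      have e3 : t - -(A s₀ / B s₀) = (A s₀ + t * B s₀) / B s₀ := by
        field_simp
        ring
      rw [e3, norm_div, div_lt_iff₀ (by linarith only [h3])]
      (by_contra nlg; linarith only [mul_nonneg (sub_nonneg.2 hδ1) (le_of_lt (sub_pos.2 e2)), mul_pos (sub_pos.2 hδ) (sub_pos.2 e2), mul_nonneg (le_of_lt (sub_pos.2 hδ)) (sub_nonneg.2 h3), mul_nonneg (sub_nonneg.2 (not_lt.1 nlg)) (sub_nonneg.2 hδ1), mul_nonneg (sub_nonneg.2 (not_lt.1 nlg)) (le_of_lt (sub_pos.2 hδ))])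
    · exact ⟨0, fun t _ s hs h4 h5 h6 _ => (h ⟨s, hs, h4, h5, h6⟩).elim⟩
  choose z hz using hex
  have hsub : {t : ℂ | ‖t‖ ≤ 1 ∧ ∃ s ∈ Icc (0 : ℝ) 1, 1 ≤ ‖B s‖ ∧ ‖A s + t * B s‖ < δ} ⊆
      ⋃ j ∈ Finset.range N, ball (z j) (2 * δ) := by
    rintro t ⟨ht, s, hs, h1, h2⟩
    have hN0 : 0 < N := by exact_mod_cast hNpos
    rcases eq_or_lt_of_le hs.2 with h | h
    · refine mem_iUnion₂.2 ⟨N - 1, Finset.mem_range.2 (by (clear * - hN0; omega)), hz _ t ht s hs ?_ ?_ h1 h2⟩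
      · rw [h, div_le_one hNpos]
        exact_mod_cast Nat.sub_le _ _
      · rw [h, le_div_iff₀ hNpos, one_mul]
        have : N = N - 1 + 1 := by omega
        exact_mod_cast this.le
    · have hj : ⌊s * N⌋₊ < N := by
        rw [Nat.floor_lt (by have := hs.1; (clear * - this hL hδ; positivity))]
        (by_contra nlg; linarith only [mul_pos (sub_pos.2 hNpos) (sub_pos.2 h), mul_nonneg (sub_nonneg.2 (not_lt.1 nlg)) (sub_nonneg.2 hδ1), mul_nonneg (sub_nonneg.2 (not_lt.1 nlg)) (le_of_lt (sub_pos.2 hδ))])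
      refine mem_iUnion₂.2 ⟨⌊s * N⌋₊, Finset.mem_range.2 hj, hz _ t ht s hs ?_ ?_ h1 h2⟩
      · rw [div_le_iff₀ hNpos]
        exact Nat.floor_le (by have := hs.1; (clear * - this hL hδ; positivity))
      · rw [le_div_iff₀ hNpos]
        exact (Nat.lt_floor_add_one _).le
  refine (measure_mono hsub).trans ((measure_biUnion_finset_le _ _).trans ?_)
  have hvol : ∀ j, volume (ball (z j) (2 * δ)) = ENNReal.ofReal ((2 * δ) ^ 2 * Real.pi) := by
    intro j
    rw [Complex.volume_ball, ENNReal.ofReal_mul (p := (2 * δ) ^ 2) (by positivity),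
      ENNReal.ofReal_pow (by positivity)]
    congr 1
    rw [← NNReal.coe_real_pi, ENNReal.ofReal_coe_nnreal]
  simp_rw [hvol]
  rw [Finset.sum_const, Finset.card_range, nsmul_eq_mul, ← ENNReal.ofReal_natCast,
    ← ENNReal.ofReal_mul (by positivity)]
  apply ENNReal.ofReal_le_ofReal
  have hpi := Real.pi_lt_d2
  have hpi0 := Real.pi_pos
  calc (N : ℝ) * ((2 * δ) ^ 2 * Real.pi) ≤ 3 * (L / δ) * ((2 * δ) ^ 2 * Real.pi) :=
        mul_le_mul_of_nonneg_right hN2 (by positivity)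
    _ = 12 * Real.pi * (L * δ) := by
        field_simp
        ring
    _ ≤ 40 * (L * δ) := mul_le_mul_of_nonneg_right (by linarith only [hpi]) (by positivity)

theorem volume_curve_eq_zero {A B : ℝ → ℂ} (hA : Lip01 A) (hB : Lip01 B) :
    volume {t : ℂ | ∃ s ∈ Icc (0 : ℝ) 1, B s ≠ 0 ∧ A s + t * B s = 0} = 0 := by
  obtain ⟨LA, hLA⟩ := hA
  obtain ⟨LB, hLB⟩ := hB
  have key : ∀ n : ℕ, volume {t : ℂ | ‖t‖ ≤ 1 ∧ ∃ s ∈ Icc (0 : ℝ) 1,
      1 ≤ ‖((n : ℂ) + 1) * B s‖ ∧ A s + t * (((n : ℂ) + 1) * B s) = 0} = 0 := by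
    intro n
    set L : ℝ := 1 + |LA| + (n + 1) * |LB| with hLdef
    have hL : 1 ≤ L := by
      have := abs_nonneg LA
      have := mul_nonneg (by (clear * -; positivity) : (0 : ℝ) ≤ n + 1) (abs_nonneg LB)
      (clear A B hLA hLB hLdef; linarith)
    have hA' : ∀ s ∈ Icc (0 : ℝ) 1, ∀ s' ∈ Icc (0 : ℝ) 1, ‖A s - A s'‖ ≤ L * |s - s'| := by
      intro s hs s' hs'
      refine (hLA s hs s' hs').trans (mul_le_mul_of_nonneg_right ?_ (abs_nonneg _))
      have := le_abs_self LA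
      have := mul_nonneg (by (clear * -; positivity) : (0 : ℝ) ≤ n + 1) (abs_nonneg LB)
      (clear A B hLA hLB hLdef hL s hs s' hs'; linarith)
    have hB' : ∀ s ∈ Icc (0 : ℝ) 1, ∀ s' ∈ Icc (0 : ℝ) 1,
        ‖((n : ℂ) + 1) * B s - ((n : ℂ) + 1) * B s'‖ ≤ L * |s - s'| := by
      intro s hs s' hs'
      rw [← mul_sub, norm_mul]
      have h1 : ‖(n : ℂ) + 1‖ = n + 1 := by
        have : ((n : ℂ) + 1) = ((n + 1 : ℕ) : ℂ) := by push_cast; rfl
        rw [this, Complex.norm_natCast]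
        push_cast
        rfl
      rw [h1]
      calc ((n : ℝ) + 1) * ‖B s - B s'‖ ≤ (n + 1) * (|LB| * |s - s'|) := by
            refine mul_le_mul_of_nonneg_left ((hLB s hs s' hs').trans ?_) (by (clear * -; positivity))
            exact mul_le_mul_of_nonneg_right (le_abs_self _) (abs_nonneg _)
        _ = ((n + 1) * |LB|) * |s - s'| := by ring
        _ ≤ L * |s - s'| := by
            refine mul_le_mul_of_nonneg_right ?_ (abs_nonneg _)
            have := abs_nonneg LA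
            linarith only [this]
    refine le_antisymm (ENNReal.le_of_forall_pos_le_add fun ε hε _ => ?_) bot_le
    rw [zero_add]
    have hεpos : (0 : ℝ) < ε := hε
    set δ : ℝ := min 1 (ε / (40 * L)) with hδdef
    have hδ : 0 < δ := lt_min one_pos (by (clear * - hε; (clear * - hε; positivity)))
    refine (measure_mono ?_).trans ((volume_tube_le hL hδ (min_le_left _ _) hA' hB').trans ?_)
    · rintro t ⟨ht, s, hs, h1, h2⟩
      refine ⟨ht, s, hs, h1, ?_⟩
      rw [h2, norm_zero]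
      exact hδ
    · have h1 : 40 * (L * δ) ≤ ε := by
        have : δ ≤ ε / (40 * L) := min_le_right _ _
        rw [le_div_iff₀ (by (clear * -; positivity))] at this
        linarith only [this]
      calc ENNReal.ofReal (40 * (L * δ)) ≤ ENNReal.ofReal ε := ENNReal.ofReal_le_ofReal h1
        _ = ε := ENNReal.ofReal_coe_nnreal
  have hsub : {t : ℂ | ∃ s ∈ Icc (0 : ℝ) 1, B s ≠ 0 ∧ A s + t * B s = 0} ⊆
      ⋃ n : ℕ, ((n : ℝ) + 1) • {t : ℂ | ‖t‖ ≤ 1 ∧ ∃ s ∈ Icc (0 : ℝ) 1,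
        1 ≤ ‖((n : ℂ) + 1) * B s‖ ∧ A s + t * (((n : ℂ) + 1) * B s) = 0} := by
    rintro t ⟨s, hs, h1, h2⟩
    obtain ⟨n, hn⟩ := exists_nat_ge (max ‖t‖ (1 / ‖B s‖))
    have hn1 : ‖t‖ ≤ n := (le_max_left _ _).trans hn
    have hn2 : 1 / ‖B s‖ ≤ n := (le_max_right _ _).trans hn
    have hB0 : 0 < ‖B s‖ := norm_pos_iff.2 h1
    have hc : (n : ℂ) + 1 ≠ 0 := by
      exact_mod_cast Nat.succ_ne_zero n
    have h3 : ‖(n : ℂ) + 1‖ = n + 1 := by
      have : ((n : ℂ) + 1) = ((n + 1 : ℕ) : ℂ) := by push_cast; rfl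
      rw [this, Complex.norm_natCast]
      push_cast
      rfl
    refine mem_iUnion.2 ⟨n, mem_smul_set.2 ⟨t / ((n : ℂ) + 1), ⟨?_, s, hs, ?_, ?_⟩, ?_⟩⟩
    · rw [norm_div, h3, div_le_one (by (clear * -; positivity))]
      (clear * - hn1; linarith)
    · rw [norm_mul, h3]
      rw [div_le_iff₀ hB0] at hn2
      linarith only [hB0, hn2]
    · rw [← mul_assoc, div_mul_cancel₀ _ hc, h2]
    · rw [Complex.real_smul]
      push_cast
      (clear * - hc; field_simp)
  refine measure_mono_null hsub (measure_iUnion_null fun n => ?_)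
  rw [Measure.addHaar_smul, key n, mul_zero]

end Vale.Agent.P290.K
end
end

section

section

open Set Filter Metric
open scoped Manifold ContDiff Topology

namespace Vale.Agent.P290.K

/-! ### The function `uu`, combinations `cx`, `pp` -/

theorem differentiable_uu : Differentiable ℂ uu := by
  unfold uu
  (clear * -; fun_prop)

theorem uu_neg (y : ℂ) : uu (-y) = uu y := by
  unfold uu
  rw [mul_neg, Complex.cosh_neg, neg_sq]

theorem uu_ne_zero (y : ℂ) : uu y ≠ 0 := Complex.exp_ne_zero _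

theorem F3b_cosh (x : ℝ) : 1 + x ^ 2 / 2 ≤ Real.cosh x := by
  have h1 : ∀ y : ℝ, y ^ 2 ≤ Real.sinh y ^ 2 := by
    intro y
    rcases le_total 0 y with h | h
    · exact pow_le_pow_left₀ h (Real.self_le_sinh_iff.2 h) 2
    · have h2 : -y ≤ Real.sinh (-y) := Real.self_le_sinh_iff.2 (by linarith)
      have h3 := pow_le_pow_left₀ (by linarith only [h] : (0 : ℝ) ≤ -y) h2 2
      rw [Real.sinh_neg, neg_sq, neg_sq] at h3
      exact h3
  have h2 := Real.cosh_two_mul (x / 2)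
  have h3 := Real.cosh_sq (x / 2)
  have h4 := h1 (x / 2)
  have e : 2 * (x / 2) = x := by ring
  rw [e] at h2
  linarith only [h4, h3, h2]

/-- growth of `uu` on the lines `Im y ∈ ℤ` -/
theorem le_norm_uu (y : ℂ) (k : ℤ) (hy : y.im = k) : Real.exp (‖y‖ ^ 2 + 1) ≤ ‖uu y‖ := by
  unfold uu
  rw [Complex.norm_exp, Real.exp_le_exp]
  have h1 : (Complex.cosh (2 * Real.pi * y)).re = Real.cosh (2 * Real.pi * y.re) := by
    have e : (2 * Real.pi * y : ℂ) =
        ((2 * Real.pi * y.re : ℝ) : ℂ) + ((2 * Real.pi * y.im : ℝ) : ℂ) * Complex.I := by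
      conv_lhs => rw [← Complex.re_add_im y]
      push_cast
      ring
    rw [e, Complex.cosh_add, Complex.cosh_mul_I, Complex.sinh_mul_I, ← Complex.ofReal_cosh,
      ← Complex.ofReal_sinh, ← Complex.ofReal_cos, ← Complex.ofReal_sin]
    have hc : Real.cos (2 * Real.pi * y.im) = 1 := by
      rw [hy, mul_comm]
      exact Real.cos_int_mul_two_pi k
    simp only [Complex.add_re, Complex.mul_re, Complex.ofReal_re, Complex.ofReal_im,
      Complex.I_re, Complex.I_im, Complex.mul_im]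
    rw [hc]
    ring
  have h2 : (y ^ 2).re = y.re ^ 2 - y.im ^ 2 := by
    rw [sq, Complex.mul_re]
    ring
  have h3 : ‖y‖ ^ 2 = y.re ^ 2 + y.im ^ 2 := by
    rw [← Complex.normSq_eq_norm_sq, Complex.normSq_apply]
    ring
  rw [Complex.sub_re, h1, h2, h3]
  have h4 := F3b_cosh (2 * Real.pi * y.re)
  have h5 : (3 : ℝ) < Real.pi := Real.pi_gt_three
  have h6 : 9 ≤ Real.pi ^ 2 := by (by_contra nlg; linarith only [mul_pos (sub_pos.2 h5) (sub_pos.2 h5), mul_pos (sub_pos.2 (not_le.1 nlg)) (sub_pos.2 h5), mul_pos (sub_pos.2 (not_le.1 nlg)) (sub_pos.2 (not_le.1 nlg)), mul_nonneg (sq_nonneg (Real.pi : ℝ)) (le_of_lt (sub_pos.2 h5)), mul_nonneg (sq_nonneg (Real.pi : ℝ)) (le_of_lt (sub_pos.2 (not_le.1 nlg)))])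
  have h7 : 9 * y.re ^ 2 ≤ Real.pi ^ 2 * y.re ^ 2 :=
    mul_le_mul_of_nonneg_right h6 (sq_nonneg _)
  linarith only [sq_nonneg y.re, h7, h4]

theorem cx_im {X Y : ℝ → Fin 4 → ℂ} (h : Coords X Y) {s : ℝ} (hs : s ∈ Icc (0 : ℝ) 1)
    (n : Fin 4 → ℤ) : (cx (Y s) n).im = n 3 := by
  unfold cx
  rw [Complex.im_sum]
  have h1 : ∀ k, ((n k : ℂ) * Y s k).im = (n k : ℝ) * (if k = 3 then 1 else 0) := by
    intro k
    rw [Complex.mul_im, Complex.intCast_re, Complex.intCast_im, h.im s hs k, zero_mul, add_zero]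
  rw [Finset.sum_congr rfl fun k _ => h1 k]
  simp only [Fin.isValue, mul_ite, mul_one, mul_zero, Finset.sum_ite_eq', Finset.mem_univ, ↓reduceIte]

/-- the three functions `x u(y), y u(y), y³ u(y)` separate points -/
theorem separate {x y x' y' : ℂ} (h0 : x * uu y = x' * uu y') (h1 : y * uu y = y' * uu y')
    (h3 : y ^ 3 * uu y = y' ^ 3 * uu y') : x = x' ∧ y = y' := by
  have hy : y = y' := by
    by_cases hy0 : y = 0
    · rw [hy0, zero_mul] at h1
      rw [hy0]
      exact ((mul_eq_zero.1 h1.symm).resolve_right (uu_ne_zero y')).symm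
    · have hy0' : y' ≠ 0 := by
        intro h
        rw [h, zero_mul] at h1
        exact hy0 ((mul_eq_zero.1 h1).resolve_right (uu_ne_zero y))
      have h4 : y ^ 2 = y' ^ 2 := by
        have h5 : (y' * uu y') * y ^ 2 = (y' * uu y') * y' ^ 2 := by
          calc (y' * uu y') * y ^ 2 = (y * uu y) * y ^ 2 := by rw [h1]
            _ = y ^ 3 * uu y := by ring
            _ = y' ^ 3 * uu y' := h3
            _ = _ := by ring
        exact mul_left_cancel₀ (mul_ne_zero hy0' (uu_ne_zero y')) h5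
      rcases sq_eq_sq_iff_eq_or_eq_neg.1 h4 with h | h
      · exact h
      · exfalso
        rw [h, uu_neg] at h1
        have h5 := mul_right_cancel₀ (uu_ne_zero y') h1
        apply hy0'
        linear_combination -h5 / 2
  refine ⟨?_, hy⟩
  rw [← hy] at h0
  exact mul_right_cancel₀ (uu_ne_zero y) h0

theorem cx_neg (X : Fin 4 → ℂ) (n : Fin 4 → ℤ) : cx X (-n) = - cx X n := by
  unfold cx
  rw [← Finset.sum_neg_distrib]
  refine Finset.sum_congr rfl fun k _ => ?_
  rw [Pi.neg_apply]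
  push_cast
  ring

theorem cx_zero (X : Fin 4 → ℂ) : cx X 0 = 0 := by
  unfold cx
  simp

theorem lat_eq_cx (X Y : Fin 4 → ℂ) (n : Fin 4 → ℤ) :
    lat (fun k => ((X k, Y k) : C2)) n = (cx X n, cx Y n) := by
  unfold lat cx
  refine Prod.ext ?_ ?_
  · rw [Prod.fst_sum]
    rfl
  · rw [Prod.snd_sum]
    rfl

theorem pp_neg (X Y : Fin 4 → ℂ) (t τ : ℂ) (n : Fin 4 → ℤ) : pp X Y t τ (-n) = - pp X Y t τ n := by
  unfold pp
  rw [cx_neg, cx_neg, uu_neg]
  ring

theorem pp_zero (X Y : Fin 4 → ℂ) (t τ : ℂ) : pp X Y t τ 0 = 0 := by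
  unfold pp
  rw [cx_zero, cx_zero]
  simp

end Vale.Agent.P290.K
end
end

section

section

open Set Filter Metric
open scoped Manifold ContDiff Topology

namespace Vale.Agent.P290.K

/-! ### Lipschitz functions on `[0,1]` -/

theorem lip01_const {E : Type} [NormedAddCommGroup E] (c : E) : Lip01 fun _ : ℝ => c :=
  ⟨0, fun s _ s' _ => by simp only [sub_self, norm_zero, zero_mul, Std.le_refl]⟩

theorem Lip01.add {E : Type} [NormedAddCommGroup E] {f g : ℝ → E} (hf : Lip01 f) (hg : Lip01 g) :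
    Lip01 fun s => f s + g s := by
  obtain ⟨L, hL⟩ := hf
  obtain ⟨M, hM⟩ := hg
  refine ⟨L + M, fun s hs s' hs' => ?_⟩
  have h1 : f s + g s - (f s' + g s') = (f s - f s') + (g s - g s') := by abel
  calc ‖f s + g s - (f s' + g s')‖ = ‖(f s - f s') + (g s - g s')‖ := by rw [h1]
    _ ≤ ‖f s - f s'‖ + ‖g s - g s'‖ := norm_add_le _ _
    _ ≤ L * |s - s'| + M * |s - s'| := add_le_add (hL s hs s' hs') (hM s hs s' hs')
    _ = (L + M) * |s - s'| := by ring

theorem Lip01.sub {E : Type} [NormedAddCommGroup E] {f g : ℝ → E} (hf : Lip01 f) (hg : Lip01 g) :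
    Lip01 fun s => f s - g s := by
  obtain ⟨L, hL⟩ := hf
  obtain ⟨M, hM⟩ := hg
  refine ⟨L + M, fun s hs s' hs' => ?_⟩
  have h1 : f s - g s - (f s' - g s') = (f s - f s') - (g s - g s') := by abel
  calc ‖f s - g s - (f s' - g s')‖ = ‖(f s - f s') - (g s - g s')‖ := by rw [h1]
    _ ≤ ‖f s - f s'‖ + ‖g s - g s'‖ := norm_sub_le _ _
    _ ≤ L * |s - s'| + M * |s - s'| := add_le_add (hL s hs s' hs') (hM s hs s' hs')
    _ = (L + M) * |s - s'| := by ring

theorem Lip01.continuousOn {E : Type} [NormedAddCommGroup E] {f : ℝ → E} (hf : Lip01 f) :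
    ContinuousOn f (Icc (0 : ℝ) 1) := by
  obtain ⟨L, hL⟩ := hf
  have h : LipschitzOnWith (Real.toNNReal L) f (Icc (0 : ℝ) 1) := by
    refine LipschitzOnWith.of_dist_le_mul fun x hx y hy => ?_
    rw [dist_eq_norm, Real.dist_eq]
    refine (hL x hx y hy).trans ?_
    exact mul_le_mul_of_nonneg_right (Real.le_coe_toNNReal L) (abs_nonneg _)
  exact h.continuousOn

theorem Lip01.bounded {E : Type} [NormedAddCommGroup E] {f : ℝ → E} (hf : Lip01 f) :
    ∃ M : ℝ, ∀ s ∈ Icc (0 : ℝ) 1, ‖f s‖ ≤ M :=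
  isCompact_Icc.exists_bound_of_continuousOn hf.continuousOn

theorem Lip01.mul {f g : ℝ → ℂ} (hf : Lip01 f) (hg : Lip01 g) : Lip01 fun s => f s * g s := by
  obtain ⟨A, hA⟩ := hf.bounded
  obtain ⟨B, hB⟩ := hg.bounded
  obtain ⟨L, hL⟩ := hf
  obtain ⟨M, hM⟩ := hg
  have hA0 : 0 ≤ A := (norm_nonneg _).trans (hA 0 (left_mem_Icc.2 zero_le_one))
  have hB0 : 0 ≤ B := (norm_nonneg _).trans (hB 0 (left_mem_Icc.2 zero_le_one))
  refine ⟨L * B + A * M, fun s hs s' hs' => ?_⟩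
  have h1 : f s * g s - f s' * g s' = (f s - f s') * g s + f s' * (g s - g s') := by ring
  calc ‖f s * g s - f s' * g s'‖ = ‖(f s - f s') * g s + f s' * (g s - g s')‖ := by rw [h1]
    _ ≤ ‖(f s - f s') * g s‖ + ‖f s' * (g s - g s')‖ := norm_add_le _ _
    _ = ‖f s - f s'‖ * ‖g s‖ + ‖f s'‖ * ‖g s - g s'‖ := by rw [norm_mul, norm_mul]
    _ ≤ (L * |s - s'|) * B + A * (M * |s - s'|) := by
        refine add_le_add ?_ ?_
        · exact mul_le_mul (hL s hs s' hs') (hB s hs) (norm_nonneg _)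
            ((norm_nonneg _).trans (hL s hs s' hs'))
        · exact mul_le_mul (hA s' hs') (hM s hs s' hs') (norm_nonneg _) hA0
    _ = (L * B + A * M) * |s - s'| := by ring

theorem Lip01.sum {E ι : Type} [NormedAddCommGroup E] (T : Finset ι) {f : ι → ℝ → E}
    (hf : ∀ i, Lip01 (f i)) : Lip01 fun s => ∑ i ∈ T, f i s := by
  classical
  induction T using Finset.induction_on with
  | empty => simpa only [Finset.sum_empty] using lip01_const (0 : E)
  | insert a T ha ih =>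
    have h : (fun s => ∑ i ∈ insert a T, f i s) = fun s => f a s + ∑ i ∈ T, f i s := by
      funext s
      rw [Finset.sum_insert ha]
    rw [h]
    exact (hf a).add ih

theorem Lip01.comp_entire {f : ℝ → ℂ} (hf : Lip01 f) {G : ℂ → ℂ} (hG : Differentiable ℂ G) :
    Lip01 fun s => G (f s) := by
  obtain ⟨R, hR⟩ := hf.bounded
  obtain ⟨L, hL⟩ := hf
  have hd : Continuous (deriv G) := by
    have h2 : ContDiff ℂ 1 G := hG.contDiff
    exact h2.continuous_deriv le_rfl
  obtain ⟨M, hM⟩ := (isCompact_closedBall (0 : ℂ) R).exists_bound_of_continuousOn hd.continuousOn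
  have hM0 : 0 ≤ M := by
    have h0 : f 0 ∈ closedBall (0 : ℂ) R := by
      rw [mem_closedBall, dist_zero_right]
      exact hR 0 (left_mem_Icc.2 zero_le_one)
    exact (norm_nonneg _).trans (hM _ h0)
  refine ⟨M * L, fun s hs s' hs' => ?_⟩
  have hmem : ∀ u ∈ Icc (0 : ℝ) 1, f u ∈ closedBall (0 : ℂ) R := by
    intro u hu
    rw [mem_closedBall, dist_zero_right]
    exact hR u hu
  have h := (convex_closedBall (0 : ℂ) R).norm_image_sub_le_of_norm_deriv_le
    (f := G) (fun x _ => hG x) (fun x hx => hM x hx) (hmem s' hs') (hmem s hs)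
  calc ‖G (f s) - G (f s')‖ ≤ M * ‖f s - f s'‖ := h
    _ ≤ M * (L * |s - s'|) := mul_le_mul_of_nonneg_left (hL s hs s' hs') hM0
    _ = M * L * |s - s'| := by ring

theorem Coords.lip_cxX {X Y : ℝ → Fin 4 → ℂ} (h : Coords X Y) (n : Fin 4 → ℤ) :
    Lip01 fun s => cx (X s) n := by
  unfold cx
  exact Lip01.sum Finset.univ fun k => (lip01_const (n k : ℂ)).mul (h.lipX k)

theorem Coords.lip_cxY {X Y : ℝ → Fin 4 → ℂ} (h : Coords X Y) (n : Fin 4 → ℤ) :
    Lip01 fun s => cx (Y s) n := by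
  unfold cx
  exact Lip01.sum Finset.univ fun k => (lip01_const (n k : ℂ)).mul (h.lipY k)

end Vale.Agent.P290.K
end
end

section

section

open Set Filter Metric MeasureTheory
open scoped Manifold ContDiff Topology

namespace Vale.Agent.P290.K

/-! ### Summability over `ℤ⁴`, polynomial Lipschitz bounds -/

/-- summability over `ℤ⁴` -/
theorem summable_Z4 : Summable fun n : Fin 4 → ℤ => (1 + ‖n‖) ^ (-6 : ℤ) := by
  set L : Submodule ℤ (Fin 4 → ℝ) := Submodule.span ℤ (Set.range (Pi.basisFun ℝ (Fin 4))) with hL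
  have hmem : ∀ n : Fin 4 → ℤ, (fun k => (n k : ℝ)) ∈ L := by
    intro n
    have : (fun k => (n k : ℝ)) = ∑ k, n k • (Pi.basisFun ℝ (Fin 4)) k := by
      ext j
      simp only [Pi.basisFun_apply, zsmul_eq_mul, Finset.sum_apply, Pi.mul_apply, Pi.intCast_apply, Pi.single_apply, mul_ite, mul_one, mul_zero, Finset.sum_ite_eq, Finset.mem_univ, ↓reduceIte]
    rw [this]
    exact Submodule.sum_mem _ fun k _ => Submodule.smul_mem _ _
      (Submodule.subset_span ⟨k, rfl⟩)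
  have hfr : Module.finrank ℤ L = 4 := by
    rw [hL, ZLattice.rank ℝ]
    simp only [Module.finrank_fintype_fun_eq_card, Fintype.card_fin]
  have hs : Summable fun z : L => ‖z‖ ^ (-6 : ℤ) :=
    ZLattice.summable_norm_zpow L (-6) (by rw [hfr]; (clear * -; norm_num))
  set e : (Fin 4 → ℤ) → L := fun n => ⟨fun k => (n k : ℝ), hmem n⟩ with he
  have hinj : Function.Injective e := by
    intro n m h
    have h' := congrArg Subtype.val h
    ext k
    have := congrFun h' k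
    simpa [he] using this
  have hnorm : ∀ n, ‖e n‖ = ‖n‖ := by
    intro n
    simp only [he, Submodule.coe_norm, Pi.norm_def]
    congr 1
  have h2 : Summable fun n : Fin 4 → ℤ => ‖n‖ ^ (-6 : ℤ) := by
    have := hs.comp_injective hinj
    simpa only [Function.comp_def, hnorm] using this
  refine Summable.of_norm_bounded_eventually h2 ?_
  have : ∀ᶠ n : Fin 4 → ℤ in cofinite, n ≠ 0 := by
    simp only [ne_eq, eventually_cofinite, Decidable.not_not, ofPred_eq_eq_singleton, finite_singleton]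
  filter_upwards [this] with n hn
  have hn0 : 0 < ‖n‖ := norm_pos_iff.2 hn
  rw [Real.norm_of_nonneg (by (clear * - hn; positivity))]
  rw [zpow_neg, zpow_neg]
  refine inv_anti₀ (by positivity) ?_
  have : (6 : ℤ) = ((6 : ℕ) : ℤ) := rfl
  rw [this, zpow_natCast, zpow_natCast]
  gcongr
  linarith only []

private theorem norm_cx_le {X : Fin 4 → ℂ} {M : ℝ} (hM : ∀ k, ‖X k‖ ≤ M) (n : Fin 4 → ℤ) :
    ‖cx X n‖ ≤ 4 * M * ‖n‖ := by
  have hM0 : 0 ≤ M := (norm_nonneg _).trans (hM 0)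
  unfold cx
  calc ‖∑ k, (n k : ℂ) * X k‖ ≤ ∑ k : Fin 4, ‖(n k : ℂ) * X k‖ := norm_sum_le _ _
    _ ≤ ∑ _k : Fin 4, M * ‖n‖ := by
        refine Finset.sum_le_sum fun k _ => ?_
        rw [norm_mul, mul_comm]
        have h1 : ‖(n k : ℂ)‖ ≤ ‖n‖ := by
          have : ‖(n k : ℂ)‖ = ‖n k‖ := by
            simp [Int.norm_eq_abs]
          rw [this]
          exact norm_le_pi_norm n k
        exact mul_le_mul (hM k) h1 (norm_nonneg _) hM0
    _ = 4 * M * ‖n‖ := by simp only [Finset.sum_const, Finset.card_univ, Fintype.card_fin, nsmul_eq_mul, Nat.cast_ofNat]; ring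

private theorem cx_sub_cx (X X' : Fin 4 → ℂ) (n : Fin 4 → ℤ) :
    cx X n - cx X' n = cx (fun k => X k - X' k) n := by
  unfold cx
  rw [← Finset.sum_sub_distrib]
  exact Finset.sum_congr rfl fun k _ => by ring

/-- uniform Lipschitz and sup bounds for a finite family -/
private theorem lip01_unif {X : ℝ → Fin 4 → ℂ} (h : ∀ k, Lip01 fun s => X s k) :
    ∃ K : ℝ, 1 ≤ K ∧ (∀ k, ∀ s ∈ Icc (0 : ℝ) 1, ‖X s k‖ ≤ K) ∧
      ∀ k, ∀ s ∈ Icc (0 : ℝ) 1, ∀ s' ∈ Icc (0 : ℝ) 1, ‖X s k - X s' k‖ ≤ K * |s - s'| := by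
  choose L hL using h
  set K : ℝ := 1 + ∑ k, (‖X 0 k‖ + |L k|) with hK
  have hle : ∀ k, ‖X 0 k‖ + |L k| ≤ ∑ k, (‖X 0 k‖ + |L k|) := fun k =>
    Finset.single_le_sum (f := fun k => ‖X 0 k‖ + |L k|) (fun i _ => by (clear * -; positivity))
      (Finset.mem_univ k)
  have hnn : 0 ≤ ∑ k, (‖X 0 k‖ + |L k|) := Finset.sum_nonneg fun i _ => by (clear * -; positivity)
  have h0 : (0 : ℝ) ∈ Icc (0 : ℝ) 1 := by simp only [mem_Icc, Std.le_refl, zero_le_one, and_self]
  refine ⟨K, by linarith only [hnn], ?_, ?_⟩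
  · intro k s hs
    have h1 := hL k s hs 0 h0
    have h2 : L k * |s - 0| ≤ |L k| := by
      have : |s - 0| ≤ 1 := by rw [sub_zero, abs_of_nonneg hs.1]; exact hs.2
      calc L k * |s - 0| ≤ |L k| * |s - 0| := by gcongr; exact le_abs_self _
        _ ≤ |L k| * 1 := by gcongr
        _ = |L k| := mul_one _
    have h3 : ‖X s k‖ ≤ ‖X s k - X 0 k‖ + ‖X 0 k‖ := by
      simpa only [sub_add_cancel] using norm_add_le (X s k - X 0 k) (X 0 k)
    have := hle k
    linarith only [h1, h2, h3, this]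
  · intro k s hs s' hs'
    refine (hL k s hs s' hs').trans ?_
    gcongr
    have := hle k
    have h4 := le_abs_self (L k)
    have h5 := norm_nonneg (X 0 k)
    linarith only [this, h4, h5]

theorem Coords.lip_poly {X Y : ℝ → Fin 4 → ℂ} (h : Coords X Y) (t : ℂ) :
    ∃ C : ℝ, 1 ≤ C ∧ ∀ n : Fin 4 → ℤ,
      (∀ s ∈ Icc (0 : ℝ) 1, ∀ s' ∈ Icc (0 : ℝ) 1,
        ‖(cx (X s) n + t * cx (Y s) n) - (cx (X s') n + t * cx (Y s') n)‖
          ≤ C * (1 + ‖n‖) ^ 3 * |s - s'|) ∧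
      ∀ s ∈ Icc (0 : ℝ) 1, ∀ s' ∈ Icc (0 : ℝ) 1,
        ‖cx (Y s) n ^ 3 - cx (Y s') n ^ 3‖ ≤ C * (1 + ‖n‖) ^ 3 * |s - s'| := by
  obtain ⟨K, hK1, hKb, hKl⟩ := lip01_unif h.lipX
  obtain ⟨K', hK1', hKb', hKl'⟩ := lip01_unif h.lipY
  set C : ℝ := 4 * K + ‖t‖ * (4 * K') + 3 * (4 * K') ^ 3 with hC
  refine ⟨C, ?_, ?_⟩
  · have : 0 ≤ ‖t‖ * (4 * K') + 3 * (4 * K') ^ 3 := by (clear * - hK1'; positivity)
    linarith only [hK1, this]
  intro n
  have hn0 : 0 ≤ ‖n‖ := norm_nonneg n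
  have hn1 : ‖n‖ ≤ (1 + ‖n‖) ^ 3 := by linarith only [mul_nonneg hn0 (sq_nonneg ‖n‖), sq_nonneg ‖n‖, hn0]
  have hn3 : ‖n‖ ^ 3 ≤ (1 + ‖n‖) ^ 3 := by gcongr; linarith only []
  have dX : ∀ s ∈ Icc (0 : ℝ) 1, ∀ s' ∈ Icc (0 : ℝ) 1,
      ‖cx (X s) n - cx (X s') n‖ ≤ 4 * (K * |s - s'|) * ‖n‖ := by
    intro s hs s' hs'
    rw [cx_sub_cx]
    exact norm_cx_le (fun k => hKl k s hs s' hs') n
  have dY : ∀ s ∈ Icc (0 : ℝ) 1, ∀ s' ∈ Icc (0 : ℝ) 1,
      ‖cx (Y s) n - cx (Y s') n‖ ≤ 4 * (K' * |s - s'|) * ‖n‖ := by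
    intro s hs s' hs'
    rw [cx_sub_cx]
    exact norm_cx_le (fun k => hKl' k s hs s' hs') n
  have bY : ∀ s ∈ Icc (0 : ℝ) 1, ‖cx (Y s) n‖ ≤ 4 * K' * ‖n‖ := fun s hs =>
    norm_cx_le (fun k => hKb' k s hs) n
  constructor
  · intro s hs s' hs'
    have e : (cx (X s) n + t * cx (Y s) n) - (cx (X s') n + t * cx (Y s') n)
        = (cx (X s) n - cx (X s') n) + t * (cx (Y s) n - cx (Y s') n) := by ring
    rw [e]
    refine (norm_add_le _ _).trans ?_
    rw [norm_mul]
    have h1 := dX s hs s' hs'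
    have h2 := mul_le_mul_of_nonneg_left (dY s hs s' hs') (norm_nonneg t)
    have h3 : 0 ≤ |s - s'| := abs_nonneg _
    have h4 : 4 * (K * |s - s'|) * ‖n‖ + ‖t‖ * (4 * (K' * |s - s'|) * ‖n‖)
        = (4 * K + ‖t‖ * (4 * K')) * ‖n‖ * |s - s'| := by ring
    have h5 : (4 * K + ‖t‖ * (4 * K')) * ‖n‖ * |s - s'| ≤ C * (1 + ‖n‖) ^ 3 * |s - s'| := by
      gcongr
      rw [hC]
      have : 0 ≤ 3 * (4 * K') ^ 3 := by (clear * - hK1'; positivity)
      linarith only [this]
    linarith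
  · intro s hs s' hs'
    set y := cx (Y s) n with hy
    set y' := cx (Y s') n with hy'
    have e : y ^ 3 - y' ^ 3 = (y - y') * (y ^ 2 + y * y' + y' ^ 2) := by ring
    rw [e, norm_mul]
    set B : ℝ := 4 * K' * ‖n‖ with hB
    have hB0 : 0 ≤ B := by (clear * - hK1'; positivity)
    have b1 : ‖y‖ ≤ B := bY s hs
    have b2 : ‖y'‖ ≤ B := bY s' hs'
    have h1 : ‖y ^ 2 + y * y' + y' ^ 2‖ ≤ 3 * B ^ 2 := by
      calc ‖y ^ 2 + y * y' + y' ^ 2‖ ≤ ‖y ^ 2 + y * y'‖ + ‖y' ^ 2‖ := norm_add_le _ _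
        _ ≤ ‖y ^ 2‖ + ‖y * y'‖ + ‖y' ^ 2‖ := by gcongr; exact norm_add_le _ _
        _ = ‖y‖ ^ 2 + ‖y‖ * ‖y'‖ + ‖y'‖ ^ 2 := by rw [norm_pow, norm_mul, norm_pow]
        _ ≤ B ^ 2 + B * B + B ^ 2 := by gcongr
        _ = 3 * B ^ 2 := by ring
    have h2 : ‖y - y'‖ ≤ 4 * (K' * |s - s'|) * ‖n‖ := dY s hs s' hs'
    calc ‖y - y'‖ * ‖y ^ 2 + y * y' + y' ^ 2‖
        ≤ (4 * (K' * |s - s'|) * ‖n‖) * (3 * B ^ 2) := by (clear * - h2 h1 hK1'; gcongr)
      _ = 3 * (4 * K') ^ 3 * ‖n‖ ^ 3 * |s - s'| := by rw [hB]; ring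
      _ ≤ C * (1 + ‖n‖) ^ 3 * |s - s'| := by
        have : 3 * (4 * K') ^ 3 ≤ C := by
          have : 0 ≤ 4 * K + ‖t‖ * (4 * K') := by (clear * - hK1 hK1'; positivity)
          linarith only [this]
        (clear * - this hn3 hK1 hK1'; gcongr)

end Vale.Agent.P290.K
end
end

section

section

set_option linter.all false

open Set Filter Metric MeasureTheory
open scoped Manifold ContDiff Topology

namespace Vale.Agent.P290.K

/-! ### Generic choice of the parameters `t, τ` -/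

/-- Borel–Cantelli -/
theorem Coords.ae_diophantine {X Y : ℝ → Fin 4 → ℂ} (h : Coords X Y) (t : ℂ) :
    ∀ᵐ τ : ℂ, ‖τ‖ ≤ 1 → {n : Fin 4 → ℤ | ∃ s ∈ Icc (0 : ℝ) 1, 1 ≤ ‖cx (Y s) n‖ ∧
      ‖cx (X s) n + t * cx (Y s) n + τ * cx (Y s) n ^ 3‖ < (1 + ‖n‖) ^ (-9 : ℤ)}.Finite := by
  obtain ⟨C, hC1, hC⟩ := h.lip_poly t
  set S : (Fin 4 → ℤ) → Set ℂ := fun n => {τ : ℂ | ‖τ‖ ≤ 1 ∧ ∃ s ∈ Icc (0 : ℝ) 1,
    1 ≤ ‖cx (Y s) n ^ 3‖ ∧
      ‖(cx (X s) n + t * cx (Y s) n) + τ * cx (Y s) n ^ 3‖ < (1 + ‖n‖) ^ (-9 : ℤ)} with hS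
  have hvol : ∀ n, volume (S n) ≤ ENNReal.ofReal (40 * C * (1 + ‖n‖) ^ (-6 : ℤ)) := by
    intro n
    have hn : (1 : ℝ) ≤ 1 + ‖n‖ := by linarith only [norm_nonneg n]
    have hn0 : (0 : ℝ) < 1 + ‖n‖ := by linarith only [hn]
    have hL : 1 ≤ C * (1 + ‖n‖) ^ 3 := by
      have : (1 : ℝ) ≤ (1 + ‖n‖) ^ 3 := one_le_pow₀ hn
      linarith only [mul_nonneg (sub_nonneg.2 hC1) (sub_nonneg.2 this), this, hC1]
    have h1 := volume_tube_le (A := fun s => cx (X s) n + t * cx (Y s) n)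
      (B := fun s => cx (Y s) n ^ 3) (L := C * (1 + ‖n‖) ^ 3) (δ := (1 + ‖n‖) ^ (-9 : ℤ)) hL
      (by (clear * -; positivity)) (zpow_le_one_of_nonpos₀ hn (by (clear * -; norm_num))) (hC n).1 (hC n).2
    refine h1.trans (le_of_eq ?_)
    congr 1
    have e1 : (1 + ‖n‖) ^ 3 * (1 + ‖n‖) ^ (-9 : ℤ) = (1 + ‖n‖) ^ (-6 : ℤ) := by
      rw [← zpow_natCast, ← zpow_add₀ hn0.ne']
      norm_num
    rw [← e1]
    ring
  have hsum : ∑' n, volume (S n) ≠ ⊤ := by
    have h1 : Summable fun n : Fin 4 → ℤ => 40 * C * (1 + ‖n‖) ^ (-6 : ℤ) :=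
      summable_Z4.mul_left _
    have h2 : ∑' n : Fin 4 → ℤ, ENNReal.ofReal (40 * C * (1 + ‖n‖) ^ (-6 : ℤ)) ≠ ⊤ :=
      h1.tsum_ofReal_ne_top
    exact ne_top_of_le_ne_top h2 (ENNReal.tsum_le_tsum hvol)
  filter_upwards [ae_finite_setOf_mem hsum] with τ hτ hτ1
  refine hτ.subset ?_
  rintro n ⟨s, hs, hy, hlt⟩
  refine ⟨hτ1, s, hs, ?_, hlt⟩
  rw [norm_pow]
  exact one_le_pow₀ hy

theorem Coords.exists_generic {X Y : ℝ → Fin 4 → ℂ} (h : Coords X Y) :
    ∃ t τ : ℂ, ‖τ‖ ≤ 1 ∧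
      (∀ s ∈ Icc (0 : ℝ) 1, ∀ n m : Fin 4 → ℤ, n ≠ m → pp (X s) (Y s) t τ n ≠ pp (X s) (Y s) t τ m) ∧
      {n : Fin 4 → ℤ | ∃ s ∈ Icc (0 : ℝ) 1, 1 ≤ ‖cx (Y s) n‖ ∧
        ‖cx (X s) n + t * cx (Y s) n + τ * cx (Y s) n ^ 3‖ < (1 + ‖n‖) ^ (-9 : ℤ)}.Finite := by
  have hu : ∀ n, Lip01 fun s => uu (cx (Y s) n) := fun n =>
    (h.lip_cxY n).comp_entire differentiable_uu
  have hcube : ∀ n, Lip01 fun s => cx (Y s) n ^ 3 := fun n =>
    (h.lip_cxY n).comp_entire (G := fun z => z ^ 3) (differentiable_id.pow 3)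
  set a1 : (Fin 4 → ℤ) → (Fin 4 → ℤ) → ℝ → ℂ := fun n m s =>
    cx (X s) n * uu (cx (Y s) n) - cx (X s) m * uu (cx (Y s) m) with ha1
  set b1 : (Fin 4 → ℤ) → (Fin 4 → ℤ) → ℝ → ℂ := fun n m s =>
    cx (Y s) n * uu (cx (Y s) n) - cx (Y s) m * uu (cx (Y s) m) with hb1
  set b3 : (Fin 4 → ℤ) → (Fin 4 → ℤ) → ℝ → ℂ := fun n m s =>
    cx (Y s) n ^ 3 * uu (cx (Y s) n) - cx (Y s) m ^ 3 * uu (cx (Y s) m) with hb3
  have La1 : ∀ n m, Lip01 (a1 n m) := fun n m =>
    ((h.lip_cxX n).mul (hu n)).sub ((h.lip_cxX m).mul (hu m))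
  have Lb1 : ∀ n m, Lip01 (b1 n m) := fun n m =>
    ((h.lip_cxY n).mul (hu n)).sub ((h.lip_cxY m).mul (hu m))
  have Lb3 : ∀ n m, Lip01 (b3 n m) := fun n m =>
    ((hcube n).mul (hu n)).sub ((hcube m).mul (hu m))
  obtain ⟨t, ht⟩ : ∃ t : ℂ, ∀ n m, ¬ ∃ s ∈ Icc (0 : ℝ) 1, b1 n m s ≠ 0 ∧
      a1 n m s + t * b1 n m s = 0 := by
    have h1 : ∀ᵐ t : ℂ, ∀ n m, ¬ ∃ s ∈ Icc (0 : ℝ) 1, b1 n m s ≠ 0 ∧
        a1 n m s + t * b1 n m s = 0 := by
      rw [ae_all_iff]
      intro n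
      rw [ae_all_iff]
      intro m
      have := volume_curve_eq_zero (La1 n m) (Lb1 n m)
      rw [ae_iff]
      simpa only [not_not] using this
    exact h1.exists
  have Lc : ∀ n m, Lip01 (fun s => a1 n m s + t * b1 n m s) := fun n m =>
    (La1 n m).add ((lip01_const t).mul (Lb1 n m))
  obtain ⟨τ, hτ1, hτ, hτf⟩ : ∃ τ : ℂ, ‖τ‖ ≤ 1 ∧ (∀ n m, ¬ ∃ s ∈ Icc (0 : ℝ) 1, b3 n m s ≠ 0 ∧
      (a1 n m s + t * b1 n m s) + τ * b3 n m s = 0) ∧
      {n : Fin 4 → ℤ | ∃ s ∈ Icc (0 : ℝ) 1, 1 ≤ ‖cx (Y s) n‖ ∧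
        ‖cx (X s) n + t * cx (Y s) n + τ * cx (Y s) n ^ 3‖ < (1 + ‖n‖) ^ (-9 : ℤ)}.Finite := by
    have h1 : ∀ᵐ τ : ℂ, ∀ n m, ¬ ∃ s ∈ Icc (0 : ℝ) 1, b3 n m s ≠ 0 ∧
        (a1 n m s + t * b1 n m s) + τ * b3 n m s = 0 := by
      rw [ae_all_iff]
      intro n
      rw [ae_all_iff]
      intro m
      have := volume_curve_eq_zero (Lc n m) (Lb3 n m)
      rw [ae_iff]
      simpa only [not_not] using this
    have h2 := h1.and (h.ae_diophantine t)
    by_contra hcon
    push Not at hcon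
    have h3 : closedBall (0 : ℂ) 1 ⊆ {τ : ℂ | ¬ ((∀ n m, ¬ ∃ s ∈ Icc (0 : ℝ) 1, b3 n m s ≠ 0 ∧
        (a1 n m s + t * b1 n m s) + τ * b3 n m s = 0) ∧ (‖τ‖ ≤ 1 →
        {n : Fin 4 → ℤ | ∃ s ∈ Icc (0 : ℝ) 1, 1 ≤ ‖cx (Y s) n‖ ∧
        ‖cx (X s) n + t * cx (Y s) n + τ * cx (Y s) n ^ 3‖ < (1 + ‖n‖) ^ (-9 : ℤ)}.Finite))} := by
      intro τ hτ
      have hτ' : ‖τ‖ ≤ 1 := by simpa only [mem_closedBall, dist_zero_right] using hτ
      rintro ⟨g1, g2⟩
      refine hcon τ hτ' ?_ (g2 hτ')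
      intro n m s hs hb he
      exact g1 n m ⟨s, hs, hb, he⟩
    have h4 := measure_mono_null h3 (ae_iff.1 h2)
    exact (measure_closedBall_pos volume (0 : ℂ) one_pos).ne' h4
  refine ⟨t, τ, hτ1, ?_, hτf⟩
  intro s hs n m hnm heq
  have e0 : (a1 n m s + t * b1 n m s) + τ * b3 n m s = 0 := by
    unfold pp at heq
    simp only [ha1, hb1, hb3]
    linear_combination heq
  have e3 : b3 n m s = 0 := by
    by_contra hne
    exact hτ n m ⟨s, hs, hne, e0⟩
  have e1' : a1 n m s + t * b1 n m s = 0 := by rw [e3, mul_zero, add_zero] at e0; exact e0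
  have e1 : b1 n m s = 0 := by
    by_contra hne
    exact ht n m ⟨s, hs, hne, e1'⟩
  have e2 : a1 n m s = 0 := by rw [e1, mul_zero, add_zero] at e1'; exact e1'
  obtain ⟨hx, hy⟩ := separate (sub_eq_zero.1 e2) (sub_eq_zero.1 e1) (sub_eq_zero.1 e3)
  apply hnm
  have hl : lat (fun k => ((X s k, Y s k) : C2)) (n - m) = 0 := by
    rw [lat_sub, lat_eq_cx, lat_eq_cx, hx, hy, sub_self]
  exact sub_eq_zero.1 (lat_eq_zero (h.li s hs) hl)

end Vale.Agent.P290.K
end
end

section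

section

set_option linter.all false

open Set Filter Metric
open scoped Manifold ContDiff Topology

namespace Vale.Agent.P290.K

/-! ### Interpolation with parameters -/

/-- One correction step. -/
theorem f6_step {S : Type} [TopologicalSpace S] [CompactSpace S] (P w : ℕ → S → ℂ)
    (hP : ∀ j, Continuous (P j)) (hw : ∀ j, Continuous (w j)) (hP0 : ∀ j s, P j s ≠ 0)
    (hinj : ∀ s i j, i ≠ j → P i s ≠ P j s) (ρ : ℕ → ℝ) (hρ0 : ∀ j, 0 < ρ j)
    (hρ : ∀ j s, ρ j ≤ ‖P j s‖) (j : ℕ) (G : S → ℂ → ℂ)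
    (hG : Continuous fun x : S × ℂ => G x.1 x.2) :
    ∃ h : S → ℂ → ℂ, (Continuous fun x : S × ℂ => h x.1 x.2) ∧ (∀ s, Differentiable ℂ (h s)) ∧
      (∀ i < j, ∀ s, h s (P i s) = 0) ∧ (∀ s, G s (P j s) + h s (P j s) = w j s) ∧
      ∀ s z, ‖z‖ ≤ ρ j / 2 → ‖h s z‖ ≤ (1 / 2) ^ j := by
  have hden : ∀ s, ∏ i ∈ Finset.range j, (P j s - P i s) ≠ 0 := by
    intro s
    rw [Finset.prod_ne_zero_iff]
    intro i hi
    rw [Finset.mem_range] at hi
    exact sub_ne_zero.2 (hinj s j i (by omega))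
  set c : S → ℂ := fun s => (w j s - G s (P j s)) / ∏ i ∈ Finset.range j, (P j s - P i s) with hc
  have hccont : Continuous c := by
    apply Continuous.div _ _ hden
    · exact (hw j).sub (hG.comp (continuous_id.prodMk (hP j)))
    · exact continuous_finset_prod _ fun i _ => (hP j).sub (hP i)
  set Q : S × ℂ → ℂ := fun x => c x.1 * ∏ i ∈ Finset.range j, (x.2 - P i x.1) with hQ
  have hQcont : Continuous Q := by
    apply (hccont.comp continuous_fst).mul
    exact continuous_finset_prod _ fun i _ => continuous_snd.sub ((hP i).comp continuous_fst)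
  obtain ⟨B, hB⟩ := ((isCompact_univ (X := S)).prod
    (isCompact_closedBall (0 : ℂ) (ρ j / 2))).exists_bound_of_continuousOn hQcont.continuousOn
  obtain ⟨N, hN⟩ : ∃ N : ℕ, |B| * (1 / 2 : ℝ) ^ N ≤ (1 / 2) ^ j := by
    have h1 : Tendsto (fun N : ℕ => |B| * (1 / 2 : ℝ) ^ N) atTop (𝓝 (|B| * 0)) :=
      (tendsto_pow_atTop_nhds_zero_of_lt_one (by (clear * -; norm_num)) (by norm_num)).const_mul _
    rw [mul_zero] at h1
    have h2 : ∀ᶠ N : ℕ in atTop, |B| * (1 / 2 : ℝ) ^ N < (1 / 2) ^ j :=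
      h1.eventually_lt_const (by (clear * -; positivity))
    obtain ⟨N, hN⟩ := h2.exists
    exact ⟨N, hN.le⟩
  refine ⟨fun s z => Q (s, z) * (z / P j s) ^ N, ?_, ?_, ?_, ?_, ?_⟩
  · apply hQcont.mul
    apply Continuous.pow
    exact continuous_snd.div ((hP j).comp continuous_fst) fun x => hP0 j x.1
  · intro s
    apply Differentiable.mul
    · simp only [hQ]
      apply Differentiable.const_mul
      apply Differentiable.fun_finset_prod
      intro i _
      exact differentiable_id.sub_const _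
    · apply Differentiable.pow
      exact differentiable_id.div_const _
  · intro i hi s
    have : ∏ k ∈ Finset.range j, (P i s - P k s) = 0 :=
      Finset.prod_eq_zero (Finset.mem_range.2 hi) (sub_self _)
    simp only [hQ, this, mul_zero, zero_mul]
  · intro s
    simp only [hQ, hc]
    rw [div_self (hP0 j s), one_pow, mul_one, div_mul_cancel₀ _ (hden s)]
    ring
  · intro s z hz
    have h1 : ‖Q (s, z)‖ ≤ B := hB (s, z) ⟨mem_univ _, by
      rw [mem_closedBall_zero_iff]; exact hz⟩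
    have h2 : ‖z / P j s‖ ≤ 1 / 2 := by
      rw [norm_div]
      have h3 := hρ j s
      have h4 := hρ0 j
      rw [div_le_iff₀ (by (clear * - h3 h4; linarith))]
      linarith
    rw [norm_mul, norm_pow]
    calc ‖Q (s, z)‖ * ‖z / P j s‖ ^ N ≤ |B| * (1 / 2) ^ N := by
          apply mul_le_mul (h1.trans (le_abs_self B)) _ (by (clear * -; positivity)) (abs_nonneg _)
          exact pow_le_pow_left₀ (norm_nonneg _) h2 N
      _ ≤ (1 / 2) ^ j := hN

theorem exists_interp {S : Type} [TopologicalSpace S] [CompactSpace S] (P w : ℕ → S → ℂ)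
    (hP : ∀ j, Continuous (P j)) (hw : ∀ j, Continuous (w j)) (hP0 : ∀ j s, P j s ≠ 0)
    (hinj : ∀ s i j, i ≠ j → P i s ≠ P j s) (hinf : ∀ R : ℝ, ∃ J, ∀ j ≥ J, ∀ s, R ≤ ‖P j s‖) :
    ∃ g : S → ℂ → ℂ, (Continuous fun x : S × ℂ => g x.1 x.2) ∧ (∀ s, Differentiable ℂ (g s)) ∧
      ∀ j s, g s (P j s) = w j s := by
  rcases isEmpty_or_nonempty S with hS | hS
  · refine ⟨fun s => isEmptyElim s, ?_, fun s => isEmptyElim s, fun j s => isEmptyElim s⟩
    rw [continuous_iff_continuousAt]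
    intro x
    exact isEmptyElim x.1
  have hmin : ∀ j, ∃ s₀ : S, ∀ s, ‖P j s₀‖ ≤ ‖P j s‖ := by
    intro j
    obtain ⟨s₀, _, h⟩ := (isCompact_univ (X := S)).exists_isMinOn univ_nonempty
      (hP j).norm.continuousOn
    exact ⟨s₀, fun s => h (mem_univ s)⟩
  choose s₀ hs₀ using hmin
  set ρ : ℕ → ℝ := fun j => ‖P j (s₀ j)‖ with hρdef
  have hρ0 : ∀ j, 0 < ρ j := fun j => norm_pos_iff.2 (hP0 j _)
  have hρinf : ∀ R : ℝ, ∃ J, ∀ j ≥ J, R ≤ ρ j := by
    intro R
    obtain ⟨J, hJ⟩ := hinf R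
    exact ⟨J, fun j hj => hJ j hj _⟩
  -- the recursion
  let T : Type := {G : S → ℂ → ℂ // (Continuous fun x : S × ℂ => G x.1 x.2) ∧
    ∀ s, Differentiable ℂ (G s)}
  have hstep : ∀ (j : ℕ) (G : T), ∃ h : T,
      (∀ i < j, ∀ s, h.1 s (P i s) = 0) ∧ (∀ s, G.1 s (P j s) + h.1 s (P j s) = w j s) ∧
      ∀ s z, ‖z‖ ≤ ρ j / 2 → ‖h.1 s z‖ ≤ (1 / 2) ^ j := by
    intro j G
    obtain ⟨h, h1, h2, h3, h4, h5⟩ := f6_step P w hP hw hP0 hinj ρ hρ0 hs₀ j G.1 G.2.1
    exact ⟨⟨h, h1, h2⟩, h3, h4, h5⟩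
  choose st hst1 hst2 hst3 using hstep
  let sq : ℕ → T := fun j => Nat.rec ⟨fun _ _ => 0, continuous_const, fun _ =>
    differentiable_const _⟩ (fun j G => ⟨fun s z => G.1 s z + (st j G).1 s z,
      G.2.1.add (st j G).2.1, fun s => (G.2.2 s).add ((st j G).2.2 s)⟩) j
  have hsq0 : ∀ s z, (sq 0).1 s z = 0 := fun s z => rfl
  have hsqs : ∀ j s z, (sq (j + 1)).1 s z = (sq j).1 s z + (st j (sq j)).1 s z :=
    fun j s z => rfl
  set h : ℕ → S → ℂ → ℂ := fun j => (st j (sq j)).1 with hh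
  have hsum : ∀ j s z, (sq j).1 s z = ∑ i ∈ Finset.range j, h i s z := by
    intro j s z
    induction j with
    | zero => rw [hsq0]; simp only [Finset.range_zero, Finset.sum_empty]
    | succ j ih => rw [hsqs, Finset.sum_range_succ, ih]
  have hbd : ∀ R : ℝ, ∃ J, ∀ j ≥ J, ∀ s z, ‖z‖ ≤ R → ‖h j s z‖ ≤ (1 / 2) ^ j := by
    intro R
    obtain ⟨J, hJ⟩ := hρinf (2 * R)
    refine ⟨J, fun j hj s z hz => hst3 j (sq j) s z ?_⟩
    have := hJ j hj
    linarith only [hz, this]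
  have hgeo : Summable fun j : ℕ => (1 / 2 : ℝ) ^ j :=
    summable_geometric_of_lt_one (by norm_num) (by norm_num)
  have hsm : ∀ s z, Summable fun j => h j s z := by
    intro s z
    obtain ⟨J, hJ⟩ := hbd ‖z‖
    rw [← summable_nat_add_iff J]
    apply Summable.of_norm_bounded ((summable_nat_add_iff J).2 hgeo)
    intro j
    exact hJ (j + J) (by omega) s z le_rfl
  refine ⟨fun s z => ∑' j, h j s z, ?_, ?_, ?_⟩
  · rw [continuous_iff_continuousAt]
    intro x
    obtain ⟨J, hJ⟩ := hbd (‖x.2‖ + 1)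
    have hU : IsOpen {y : S × ℂ | ‖y.2‖ < ‖x.2‖ + 1} :=
      isOpen_lt (continuous_norm.comp continuous_snd) continuous_const
    have hx : x ∈ {y : S × ℂ | ‖y.2‖ < ‖x.2‖ + 1} := by
      show ‖x.2‖ < ‖x.2‖ + 1
      linarith only []
    have hcont : ContinuousOn (fun y : S × ℂ => ∑' j, h (j + J) y.1 y.2)
        {y : S × ℂ | ‖y.2‖ < ‖x.2‖ + 1} := by
      apply continuousOn_tsum (u := fun j : ℕ => (1 / 2 : ℝ) ^ (j + J))
      · intro j
        exact (st (j + J) (sq (j + J))).2.1.continuousOn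
      · exact (summable_nat_add_iff J).2 hgeo
      · intro j y hy
        exact hJ (j + J) (by omega) y.1 y.2 (le_of_lt hy)
    have hfin : Continuous fun y : S × ℂ => ∑ j ∈ Finset.range J, h j y.1 y.2 :=
      continuous_finset_sum _ fun j _ => (st j (sq j)).2.1
    have hall := (hfin.continuousOn.add hcont).continuousAt (hU.mem_nhds hx)
    refine hall.congr (Eventually.of_forall fun y => ?_)
    exact (hsm y.1 y.2).sum_add_tsum_nat_add J
  · intro s z₀
    obtain ⟨J, hJ⟩ := hbd (‖z₀‖ + 1)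
    have hdiff : DifferentiableOn ℂ (fun z => ∑' j, h (j + J) s z) (ball 0 (‖z₀‖ + 1)) := by
      apply Complex.differentiableOn_tsum_of_summable_norm (u := fun j : ℕ => (1 / 2 : ℝ) ^ (j + J))
      · exact (summable_nat_add_iff J).2 hgeo
      · intro j
        exact ((st (j + J) (sq (j + J))).2.2 s).differentiableOn
      · exact isOpen_ball
      · intro j z hz
        rw [mem_ball_zero_iff] at hz
        exact hJ (j + J) (by omega) s z hz.le
    have hz₀ : z₀ ∈ ball (0 : ℂ) (‖z₀‖ + 1) := by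
      rw [mem_ball_zero_iff]
      linarith
    have h1 : DifferentiableAt ℂ (fun z => ∑' j, h (j + J) s z) z₀ :=
      hdiff.differentiableAt (isOpen_ball.mem_nhds hz₀)
    have h2 : DifferentiableAt ℂ (fun z => ∑ j ∈ Finset.range J, h j s z) z₀ := by
      apply DifferentiableAt.fun_sum
      intro j _
      exact (st j (sq j)).2.2 s z₀
    refine (h2.add h1).congr_of_eventuallyEq (Eventually.of_forall fun z => ?_)
    exact ((hsm s z).sum_add_tsum_nat_add J).symm
  · intro j s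
    have h1 : ∑' i, h i s (P j s) = ∑ i ∈ Finset.range (j + 1), h i s (P j s) := by
      apply tsum_eq_sum
      intro i hi
      rw [Finset.mem_range] at hi
      exact hst1 i (sq i) j (by omega) s
    show ∑' i, h i s (P j s) = w j s
    rw [h1, ← hsum, hsqs]
    exact hst2 j (sq j) s

end Vale.Agent.P290.K
end
end

section

section

open Set Filter Metric
open scoped Manifold ContDiff Topology

namespace Vale.Agent.P290.K

/-! ### Enumeration of the nonzero vectors of `ℤ⁴` up to sign -/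

/-- The vectors whose first nonzero coordinate is positive. -/
def f7H (n : Fin 4 → ℤ) : Prop := ∃ i : Fin 4, (∀ j < i, n j = 0) ∧ 0 < n i

theorem f7_not_both {n : Fin 4 → ℤ} (h1 : f7H n) (h2 : f7H (-n)) : False := by
  obtain ⟨i, hi, hi'⟩ := h1
  obtain ⟨j, hj, hj'⟩ := h2
  rw [Pi.neg_apply] at hj'
  rcases lt_trichotomy i j with h | h | h
  · have := hj i h
    rw [Pi.neg_apply] at this
    omega
  · subst h
    omega
  · have := hi j h
    omega

theorem f7_or {n : Fin 4 → ℤ} (hn : n ≠ 0) : f7H n ∨ f7H (-n) := by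
  classical
  have hex : ∃ i, n i ≠ 0 := by
    by_contra h
    push Not at h
    exact hn (funext h)
  have hwf : ∃ i, n i ≠ 0 ∧ ∀ j < i, n j = 0 := by
    obtain ⟨i, hi, hmin⟩ := WellFounded.has_min (α := Fin 4) wellFounded_lt {i | n i ≠ 0} hex
    refine ⟨i, hi, fun j hj => ?_⟩
    by_contra h
    exact hmin j h hj
  obtain ⟨i, hi, hlt⟩ := hwf
  rcases lt_or_gt_of_ne hi with h | h
  · right
    refine ⟨i, fun j hj => ?_, ?_⟩
    · rw [Pi.neg_apply, hlt j hj, neg_zero]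
    · rw [Pi.neg_apply]
      omega
  · left
    exact ⟨i, hlt, h⟩

theorem f7_ne_zero {n : Fin 4 → ℤ} (h : f7H n) : n ≠ 0 := by
  rintro rfl
  obtain ⟨i, -, hi⟩ := h
  simp at hi

theorem exists_half_enum : ∃ ν : ℕ → (Fin 4 → ℤ), Function.Injective ν ∧ (∀ j, ν j ≠ 0) ∧
    (∀ i j, ν i ≠ - ν j) ∧ ∀ n : Fin 4 → ℤ, n ≠ 0 → ∃ j, n = ν j ∨ n = - ν j := by
  classical
  have hinf : Infinite {n : Fin 4 → ℤ // f7H n} := by
    refine Infinite.of_injective (fun k : ℕ => (⟨fun _ => (k : ℤ) + 1, ⟨0, fun j hj => by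
      exact absurd hj (by simp), by (clear * -; positivity)⟩⟩ : {n : Fin 4 → ℤ // f7H n})) ?_
    intro k l hkl
    have h1 := congrArg (fun x : {n : Fin 4 → ℤ // f7H n} => x.1 0) hkl
    simp only at h1
    omega
  obtain ⟨e⟩ := nonempty_equiv_of_countable (α := ℕ) (β := {n : Fin 4 → ℤ // f7H n})
  refine ⟨fun j => (e j).1, fun i j hij => e.injective (Subtype.ext hij),
    fun j => f7_ne_zero (e j).2, fun i j hij => ?_, fun n hn => ?_⟩
  · have h1 := (e i).2
    have h2 : (e i).1 = -(e j).1 := hij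
    rw [h2] at h1
    exact f7_not_both (e j).2 h1
  · rcases f7_or hn with h | h
    · exact ⟨e.symm ⟨n, h⟩, Or.inl (by simp only [Equiv.apply_symm_apply])⟩
    · exact ⟨e.symm ⟨-n, h⟩, Or.inr (by simp only [Equiv.apply_symm_apply, neg_neg])⟩

end Vale.Agent.P290.K
end
end

section

section

open Set Filter Metric
open scoped Manifold ContDiff Topology

namespace Vale.Agent.P290.K

/-! ### Families of odd automorphisms -/

variable {S : Type} [TopologicalSpace S]

theorem IsAutFam.comp {Θ₁ Θ₁' Θ₂ Θ₂' : S → ℂ × C2 → C2} (h₁ : IsAutFam Θ₁ Θ₁')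
    (h₂ : IsAutFam Θ₂ Θ₂') :
    IsAutFam (fun s x => Θ₂ s (x.1, Θ₁ s x)) (fun s x => Θ₁' s (x.1, Θ₂' s x)) where
  cont := by
    have h := h₂.cont
    exact h.comp (continuous_fst.prodMk ((continuous_fst.comp continuous_snd).prodMk h₁.cont))
  cont' := by
    have h := h₁.cont'
    exact h.comp (continuous_fst.prodMk ((continuous_fst.comp continuous_snd).prodMk h₂.cont'))
  diff s := (h₂.diff s).comp (differentiable_fst.prodMk (h₁.diff s))
  diff' s := (h₁.diff' s).comp (differentiable_fst.prodMk (h₂.diff' s))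
  left s x := by
    have e := h₂.left s (x.1, Θ₁ s x)
    simp only at e ⊢
    rw [e]
    exact h₁.left s x
  right s x := by
    have e := h₁.right s (x.1, Θ₂' s x)
    simp only at e ⊢
    rw [e]
    exact h₂.right s x
  homog s w h c := by
    simp only
    rw [h₂.homog s w h, h₁.homog s w h]

theorem isAutFam_shear1 (g : S → ℂ → ℂ) (hg : Continuous fun x : S × ℂ => g x.1 x.2)
    (hd : ∀ s, Differentiable ℂ (g s)) :
    IsAutFam (fun (s : S) (x : ℂ × C2) => (x.2.1, x.2.2 + x.2.1 * g s (x.1 * x.2.1 ^ 2)))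
      (fun (s : S) (x : ℂ × C2) => (x.2.1, x.2.2 - x.2.1 * g s (x.1 * x.2.1 ^ 2))) where
  cont := by
    have h : Continuous fun x : S × (ℂ × C2) => g x.1 (x.2.1 * x.2.2.1 ^ 2) :=
      hg.comp (continuous_fst.prodMk (by (clear * -; fun_prop)))
    (clear * - hg; fun_prop)
  cont' := by
    have h : Continuous fun x : S × (ℂ × C2) => g x.1 (x.2.1 * x.2.2.1 ^ 2) :=
      hg.comp (continuous_fst.prodMk (by fun_prop))
    (clear * - hg; fun_prop)
  diff s := by
    have h : Differentiable ℂ fun x : ℂ × C2 => g s (x.1 * x.2.1 ^ 2) :=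
      (hd s).comp (by (clear * -; fun_prop))
    fun_prop
  diff' s := by
    have h : Differentiable ℂ fun x : ℂ × C2 => g s (x.1 * x.2.1 ^ 2) :=
      (hd s).comp (by fun_prop)
    fun_prop
  left s x := by
    ext <;> simp
  right s x := by
    ext <;> simp
  homog s w h c := by
    have e : w ^ 2 * h * c.1 ^ 2 = h * (w * c.1) ^ 2 := by ring
    ext
    · simp
    · simp only [Prod.smul_snd, Prod.smul_fst, smul_eq_mul]
      rw [e]; ring

theorem isAutFam_shear2 (g : S → ℂ → ℂ) (hg : Continuous fun x : S × ℂ => g x.1 x.2)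
    (hd : ∀ s, Differentiable ℂ (g s)) :
    IsAutFam (fun (s : S) (x : ℂ × C2) => (x.2.1 + x.2.2 * g s (x.1 * x.2.2 ^ 2), x.2.2))
      (fun (s : S) (x : ℂ × C2) => (x.2.1 - x.2.2 * g s (x.1 * x.2.2 ^ 2), x.2.2)) where
  cont := by
    have h : Continuous fun x : S × (ℂ × C2) => g x.1 (x.2.1 * x.2.2.2 ^ 2) :=
      hg.comp (continuous_fst.prodMk (by (clear * -; fun_prop)))
    (clear * - hg; fun_prop)
  cont' := by
    have h : Continuous fun x : S × (ℂ × C2) => g x.1 (x.2.1 * x.2.2.2 ^ 2) :=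
      hg.comp (continuous_fst.prodMk (by fun_prop))
    (clear * - hg; fun_prop)
  diff s := by
    have h : Differentiable ℂ fun x : ℂ × C2 => g s (x.1 * x.2.2 ^ 2) :=
      (hd s).comp (by fun_prop)
    fun_prop
  diff' s := by
    have h : Differentiable ℂ fun x : ℂ × C2 => g s (x.1 * x.2.2 ^ 2) :=
      (hd s).comp (by fun_prop)
    fun_prop
  left s x := by
    ext <;> simp
  right s x := by
    ext <;> simp
  homog s w h c := by
    have e : w ^ 2 * h * c.2 ^ 2 = h * (w * c.2) ^ 2 := by ring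
    ext
    · simp only [Prod.smul_snd, Prod.smul_fst, smul_eq_mul]
      rw [e]; ring
    · simp

theorem isAutFam_overshear (g : S → ℂ → ℂ) (hg : Continuous fun x : S × ℂ => g x.1 x.2)
    (hd : ∀ s, Differentiable ℂ (g s)) :
    IsAutFam (fun (s : S) (x : ℂ × C2) => (x.2.1 * Complex.exp (g s (x.1 * x.2.2 ^ 2)), x.2.2))
      (fun (s : S) (x : ℂ × C2) => (x.2.1 * Complex.exp (-g s (x.1 * x.2.2 ^ 2)), x.2.2)) where
  cont := by
    have h : Continuous fun x : S × (ℂ × C2) => g x.1 (x.2.1 * x.2.2.2 ^ 2) :=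
      hg.comp (continuous_fst.prodMk (by (clear * -; fun_prop)))
    fun_prop
  cont' := by
    have h : Continuous fun x : S × (ℂ × C2) => g x.1 (x.2.1 * x.2.2.2 ^ 2) :=
      hg.comp (continuous_fst.prodMk (by fun_prop))
    (clear * - hg; fun_prop)
  diff s := by
    have h : Differentiable ℂ fun x : ℂ × C2 => g s (x.1 * x.2.2 ^ 2) :=
      (hd s).comp (by (clear * -; fun_prop))
    fun_prop
  diff' s := by
    have h : Differentiable ℂ fun x : ℂ × C2 => g s (x.1 * x.2.2 ^ 2) :=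
      (hd s).comp (by fun_prop)
    fun_prop
  left s x := by
    ext
    · simp only
      rw [mul_assoc, ← Complex.exp_add]
      simp
    · simp
  right s x := by
    ext
    · simp only
      rw [mul_assoc, ← Complex.exp_add]
      simp
    · simp
  homog s w h c := by
    have e : w ^ 2 * h * c.2 ^ 2 = h * (w * c.2) ^ 2 := by ring
    ext
    · simp only [Prod.smul_snd, Prod.smul_fst, smul_eq_mul]
      rw [e]; ring
    · simp

theorem isAutFam_linear (A B : S → C2 →L[ℂ] C2) (hA : Continuous A) (hB : Continuous B)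
    (hAB : ∀ s c, A s (B s c) = c) (hBA : ∀ s c, B s (A s c) = c) :
    IsAutFam (fun s x => A s x.2) (fun s x => B s x.2) where
  cont := by
    have h : Continuous fun x : S × (ℂ × C2) => A x.1 := hA.comp continuous_fst
    exact h.clm_apply (by fun_prop)
  cont' := by
    have h : Continuous fun x : S × (ℂ × C2) => B x.1 := hB.comp continuous_fst
    exact h.clm_apply (by fun_prop)
  diff s := by (clear * -; fun_prop)
  diff' s := by fun_prop
  left s x := hBA s x.2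
  right s x := hAB s x.2
  homog s w h c := by simp

end Vale.Agent.P290.K
end
end

section

section

set_option linter.all false

open Set Filter Metric
open scoped Topology

namespace Vale.Agent.P290.K

/-- contraction estimate from the Schwarz lemma -/
theorem h3_contract {V : Type} [NormedAddCommGroup V] [NormedSpace ℂ V]
    {r : ℝ} (hr : 0 < r) {w : V × (Fin 3 → ℂ) → (Fin 3 → ℂ)} {z : V}
    (hd : ∀ t ∈ closedBall (0 : Fin 3 → ℂ) r, DifferentiableAt ℂ w (z, t))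
    (hb : ∀ t ∈ closedBall (0 : Fin 3 → ℂ) r, ‖w (z, t)‖ < r / 8)
    {s t : Fin 3 → ℂ} (hs : ‖s‖ ≤ r / 8) (ht : ‖t‖ ≤ r / 8) :
    ‖w (z, t) - w (z, s)‖ ≤ 1 / 2 * ‖t - s‖ := by
  rcases eq_or_ne t s with rfl | hne
  · simp only [sub_self, norm_zero, one_div, mul_zero, Std.le_refl]
  have hv : 0 < ‖t - s‖ := norm_pos_iff.2 (sub_ne_zero.2 hne)
  have hv2 : ‖t - s‖ ≤ r / 4 := (norm_sub_le _ _).trans (by linarith only [hs, ht])
  set R : ℝ := 7 * r / 8 / ‖t - s‖ with hR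
  have hRv : R * ‖t - s‖ = 7 * r / 8 := by
    rw [hR]; (clear * - hv hr; field_simp)
  have hR1 : 1 < R := by
    rw [hR, lt_div_iff₀ hv]
    linarith only [hv, hv2]
  have hmem : ∀ ζ ∈ ball (0 : ℂ) R, s + ζ • (t - s) ∈ closedBall (0 : Fin 3 → ℂ) r := by
    intro ζ hζ
    rw [mem_ball_zero_iff] at hζ
    rw [mem_closedBall_zero_iff]
    calc ‖s + ζ • (t - s)‖ ≤ ‖s‖ + ‖ζ‖ * ‖t - s‖ := (norm_add_le _ _).trans (by rw [norm_smul])
      _ ≤ r / 8 + R * ‖t - s‖ := by gcongr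
      _ ≤ r := by rw [hRv]; linarith only []
  have hdiff : DifferentiableOn ℂ (fun ζ : ℂ => w (z, s + ζ • (t - s))) (ball 0 R) := by
    intro ζ hζ
    have h1 := hd _ (hmem ζ hζ)
    have h2 : DifferentiableAt ℂ (fun ζ : ℂ => ((z, s + ζ • (t - s)) : V × (Fin 3 → ℂ))) ζ := by
      (clear * -; fun_prop)
    exact (DifferentiableAt.comp (f := fun ζ : ℂ => ((z, s + ζ • (t - s)) : V × (Fin 3 → ℂ)))
      ζ h1 h2).differentiableWithinAt
  have h0 : (0 : ℂ) ∈ ball (0 : ℂ) R := mem_ball_self (by linarith only [hR1])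
  have hmaps : MapsTo (fun ζ : ℂ => w (z, s + ζ • (t - s))) (ball 0 R)
      (closedBall ((fun ζ : ℂ => w (z, s + ζ • (t - s))) 0) (r / 4)) := by
    intro ζ hζ
    rw [mem_closedBall, dist_eq_norm]
    have h1 := hb _ (hmem ζ hζ)
    have h2 := hb _ (hmem 0 h0)
    have := norm_sub_le (w (z, s + ζ • (t - s))) (w (z, s + (0 : ℂ) • (t - s)))
    simp only
    linarith only [this, h2, h1]
  have h1mem : (1 : ℂ) ∈ ball (0 : ℂ) R := by
    rw [mem_ball_zero_iff]
    simpa only [norm_one] using hR1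
  have key := Complex.dist_le_div_mul_dist_of_mapsTo_ball hdiff hmaps h1mem
  simp only [one_smul, add_sub_cancel, zero_smul, add_zero, dist_eq_norm, sub_zero, norm_one, mul_one] at key
  refine key.trans ?_
  rw [hR]
  have e : r / 4 / (7 * r / 8 / ‖t - s‖) = 2 / 7 * ‖t - s‖ := by
    field_simp
    ring
  rw [e]
  linarith only [hv]

/-- the iteration -/
noncomputable def h3F {V : Type} (w : V × (Fin 3 → ℂ) → (Fin 3 → ℂ)) : ℕ → V → (Fin 3 → ℂ) :=
  fun n => Nat.rec (fun _ => 0) (fun _ f z => - w (z, f z)) n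

theorem h3F_zero {V : Type} (w : V × (Fin 3 → ℂ) → (Fin 3 → ℂ)) (z : V) : h3F w 0 z = 0 := rfl

theorem h3F_succ {V : Type} (w : V × (Fin 3 → ℂ) → (Fin 3 → ℂ)) (n : ℕ) (z : V) :
    h3F w (n + 1) z = - w (z, h3F w n z) := rfl

theorem h3F_norm {V : Type} {r : ℝ} (hr : 0 < r) {w : V × (Fin 3 → ℂ) → (Fin 3 → ℂ)} {z : V}
    (hb : ∀ t ∈ closedBall (0 : Fin 3 → ℂ) r, ‖w (z, t)‖ < r / 8) (n : ℕ) :
    ‖h3F w n z‖ ≤ r / 8 := by
  induction n with
  | zero => rw [h3F_zero, norm_zero]; (clear * - hr; positivity)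
  | succ n ih =>
    rw [h3F_succ, norm_neg]
    refine (hb _ ?_).le
    rw [mem_closedBall_zero_iff]
    linarith only [hr, ih]

theorem h3F_dist {V : Type} [NormedAddCommGroup V] [NormedSpace ℂ V]
    {r : ℝ} (hr : 0 < r) {w : V × (Fin 3 → ℂ) → (Fin 3 → ℂ)} {z : V}
    (hd : ∀ t ∈ closedBall (0 : Fin 3 → ℂ) r, DifferentiableAt ℂ w (z, t))
    (hb : ∀ t ∈ closedBall (0 : Fin 3 → ℂ) r, ‖w (z, t)‖ < r / 8) (n : ℕ) :
    dist (h3F w n z) (h3F w (n + 1) z) ≤ r / 8 * (1 / 2) ^ n := by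
  induction n with
  | zero =>
    rw [h3F_zero, dist_zero_left, pow_zero, mul_one]
    exact h3F_norm hr hb 1
  | succ n ih =>
    have h1 := h3_contract hr hd hb (h3F_norm hr hb (n + 1)) (h3F_norm hr hb n)
    have h2 : h3F w (n + 1 + 1) z - h3F w (n + 1) z
        = w (z, h3F w n z) - w (z, h3F w (n + 1) z) := by
      rw [h3F_succ w (n + 1), h3F_succ w n]
      abel
    rw [dist_eq_norm] at ih
    rw [dist_comm, dist_eq_norm, h2]
    calc _ ≤ 1 / 2 * ‖h3F w n z - h3F w (n + 1) z‖ := h1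
      _ ≤ 1 / 2 * (r / 8 * (1 / 2) ^ n) := by gcongr
      _ = r / 8 * (1 / 2) ^ (n + 1) := by rw [pow_succ]; ring

theorem h3F_diff {V : Type} [NormedAddCommGroup V] [NormedSpace ℂ V]
    {r : ℝ} (hr : 0 < r) {w : V × (Fin 3 → ℂ) → (Fin 3 → ℂ)} {U : Set V} (hU : IsOpen U)
    (hd : ∀ z ∈ U, ∀ t ∈ closedBall (0 : Fin 3 → ℂ) r, DifferentiableAt ℂ w (z, t))
    (hb : ∀ z ∈ U, ∀ t ∈ closedBall (0 : Fin 3 → ℂ) r, ‖w (z, t)‖ < r / 8) (n : ℕ) :
    DifferentiableOn ℂ (h3F w n) U := by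
  induction n with
  | zero => exact differentiableOn_const _
  | succ n ih =>
    intro z hz
    have h1 : DifferentiableAt ℂ (h3F w n) z := ih.differentiableAt (hU.mem_nhds hz)
    have h2 : DifferentiableAt ℂ (fun z => ((z, h3F w n z) : V × (Fin 3 → ℂ))) z :=
      differentiableAt_id.prodMk h1
    have hm : h3F w n z ∈ closedBall (0 : Fin 3 → ℂ) r := by
      have := h3F_norm hr (hb z hz) n
      rw [mem_closedBall_zero_iff]
      linarith only [hr, this]
    have h3 : DifferentiableAt ℂ w ((fun z => ((z, h3F w n z) : V × (Fin 3 → ℂ))) z) :=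
      hd z hz _ hm
    have h4 := (DifferentiableAt.comp z h3 h2).neg
    exact h4.differentiableWithinAt

theorem h3_unif {V : Type} [NormedAddCommGroup V] [NormedSpace ℂ V]
    {r : ℝ} (hr : 0 < r) {w : V × (Fin 3 → ℂ) → (Fin 3 → ℂ)} {U : Set V}
    (hd : ∀ z ∈ U, ∀ t ∈ closedBall (0 : Fin 3 → ℂ) r, DifferentiableAt ℂ w (z, t))
    (hb : ∀ z ∈ U, ∀ t ∈ closedBall (0 : Fin 3 → ℂ) r, ‖w (z, t)‖ < r / 8) :
    ∃ t : V → (Fin 3 → ℂ), TendstoUniformlyOn (h3F w) t atTop U ∧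
      ∀ z ∈ U, Tendsto (fun n => h3F w n z) atTop (𝓝 (t z)) := by
  obtain ⟨t, ht⟩ : ∃ t : V → (Fin 3 → ℂ), t = fun z => limUnder atTop (fun n => h3F w n z) :=
    ⟨_, rfl⟩
  have hstep : ∀ z ∈ U, ∀ n, dist (h3F w n z) (h3F w (n + 1) z) ≤ r / 8 * (1 / 2) ^ n :=
    fun z hz n => h3F_dist hr (hd z hz) (hb z hz) n
  have hlim : ∀ z ∈ U, Tendsto (fun n => h3F w n z) atTop (𝓝 (t z)) := by
    intro z hz
    rw [ht]
    exact CauchySeq.tendsto_limUnder
      (cauchySeq_of_le_geometric (1 / 2) (r / 8) (by (clear * -; norm_num)) (hstep z hz))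
  refine ⟨t, ?_, hlim⟩
  rw [Metric.tendstoUniformlyOn_iff]
  intro ε hε
  have h1 : Tendsto (fun n : ℕ => r / 8 * (1 / 2) ^ n / (1 - 1 / 2)) atTop (𝓝 0) := by
    have h2 : Tendsto (fun n : ℕ => ((1 : ℝ) / 2) ^ n) atTop (𝓝 0) :=
      tendsto_pow_atTop_nhds_zero_of_lt_one (by norm_num) (by norm_num)
    have h3 := (h2.const_mul (r / 8)).div_const (1 - 1 / 2)
    simpa only [one_div, inv_pow, mul_zero, zero_div] using h3
  filter_upwards [h1.eventually (gt_mem_nhds hε)] with n hn z hz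
  rw [dist_comm]
  exact (dist_le_of_le_geometric_of_tendsto (1 / 2) (r / 8) (by (clear * -; norm_num)) (hstep z hz)
    (hlim z hz) n).trans_lt hn

theorem h3_box {V : Type} [NormedAddCommGroup V] [NormedSpace ℂ V]
    {K : Set V} (hK : IsCompact K) {r : ℝ} 
    {w : V × (Fin 3 → ℂ) → (Fin 3 → ℂ)}
    (hw : ∀ᶠ p in 𝓝ˢ (K ×ˢ closedBall (0 : Fin 3 → ℂ) r), DifferentiableAt ℂ w p)
    (hb : ∀ᶠ p in 𝓝ˢ (K ×ˢ closedBall (0 : Fin 3 → ℂ) r), ‖w p‖ < r / 8) :
    ∃ U : Set V, IsOpen U ∧ K ⊆ U ∧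
      (∀ z ∈ U, ∀ t ∈ closedBall (0 : Fin 3 → ℂ) r, DifferentiableAt ℂ w (z, t)) ∧
      ∀ z ∈ U, ∀ t ∈ closedBall (0 : Fin 3 → ℂ) r, ‖w (z, t)‖ < r / 8 := by
  obtain ⟨O, hO, hKO, hOp⟩ := mem_nhdsSet_iff_exists.1 (hw.and hb)
  obtain ⟨U, T, hU, hT, hKU, hT', hUT⟩ :=
    generalized_tube_lemma hK (isCompact_closedBall (0 : Fin 3 → ℂ) r) hO hKO
  have key : ∀ z ∈ U, ∀ t ∈ closedBall (0 : Fin 3 → ℂ) r,
      DifferentiableAt ℂ w (z, t) ∧ ‖w (z, t)‖ < r / 8 := by
    intro z hz t ht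
    have h1 : (z, t) ∈ O := hUT (Set.mk_mem_prod hz (hT' ht))
    have h2 := hOp h1
    simp only [Set.mem_ofPred_eq] at h2
    exact h2
  exact ⟨U, hU, hKU, fun z hz t ht => (key z hz t ht).1, fun z hz t ht => (key z hz t ht).2⟩

theorem h3_solve {V : Type} [NormedAddCommGroup V] [NormedSpace ℂ V]
    {r : ℝ} (hr : 0 < r) {w : V × (Fin 3 → ℂ) → (Fin 3 → ℂ)} {z : V} {s : Fin 3 → ℂ}
    (hd : ∀ t ∈ closedBall (0 : Fin 3 → ℂ) r, DifferentiableAt ℂ w (z, t))
    (hb : ∀ t ∈ closedBall (0 : Fin 3 → ℂ) r, ‖w (z, t)‖ < r / 8)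
    (hlim : Tendsto (fun n => h3F w n z) atTop (𝓝 s)) : ‖s‖ < r ∧ s + w (z, s) = 0 := by
  have h1 : ‖s‖ ≤ r / 8 :=
    le_of_tendsto hlim.norm (Eventually.of_forall fun n => h3F_norm hr hb n)
  refine ⟨by linarith, ?_⟩
  have h2 : Tendsto (fun n => h3F w (n + 1) z) atTop (𝓝 s) := hlim.comp (tendsto_add_atTop_nat 1)
  have hm : s ∈ closedBall (0 : Fin 3 → ℂ) r := by
    rw [mem_closedBall_zero_iff]
    linarith
  have h4 : ContinuousAt w (z, s) := (hd _ hm).continuousAt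
  have h5 : Tendsto (fun n => ((z, h3F w n z) : V × (Fin 3 → ℂ))) atTop (𝓝 (z, s)) :=
    tendsto_const_nhds.prodMk_nhds hlim
  have h3 : Tendsto (fun n => h3F w (n + 1) z) atTop (𝓝 (- w (z, s))) :=
    (h4.tendsto.comp h5).neg
  have h6 : s = - w (z, s) := tendsto_nhds_unique h2 h3
  rw [add_eq_zero_iff_eq_neg]
  exact h6

/-- holomorphic fixed points -/
theorem exists_hol_fixed {V : Type} [NormedAddCommGroup V] [NormedSpace ℂ V]
    [FiniteDimensional ℂ V] {K : Set V} (hK : Good K) {r : ℝ} (hr : 0 < r)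
    {w : V × (Fin 3 → ℂ) → (Fin 3 → ℂ)} (hw : HolNear (K ×ˢ closedBall 0 r) w)
    (hb : ∀ᶠ p in 𝓝ˢ (K ×ˢ closedBall (0 : Fin 3 → ℂ) r), ‖w p‖ < r / 8) :
    ∃ t : V → (Fin 3 → ℂ), HolNear K t ∧ ∀ᶠ z in 𝓝ˢ K, ‖t z‖ < r ∧ t z + w (z, t z) = 0 := by
  obtain ⟨U, hU, hKU, hdd, hbb⟩ := h3_box hK.1 hw hb
  obtain ⟨t, hunif, hlim⟩ := h3_unif hr hdd hbb
  have htd : DifferentiableOn ℂ t U :=
    differentiableOn_of_tendstoLocallyUniformlyOn hU hunif.tendstoLocallyUniformlyOn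
      (Eventually.of_forall (h3F_diff hr hU hdd hbb))
  have hUK : ∀ᶠ z in 𝓝ˢ K, z ∈ U := hU.mem_nhdsSet.2 hKU
  refine ⟨t, ?_, ?_⟩
  · filter_upwards [hUK] with z hz
    exact htd.differentiableAt (hU.mem_nhds hz)
  · filter_upwards [hUK] with z hz
    exact h3_solve hr (hdd z hz) (hbb z hz) (hlim z hz)

end Vale.Agent.P290.K
end
end

section

section

open Set Filter Metric
open scoped Manifold ContDiff Topology

namespace Vale.Agent.P290.K

/-- the half lattice points of the first factor -/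
noncomputable def l1 (n : Fin 4 → ℤ) : ℂ := ((n 0 : ℂ) + n 2 * Complex.I) / 2

/-- the half lattice points of the second factor -/
noncomputable def l2 (n : Fin 4 → ℤ) : ℂ := ((n 1 : ℂ) + n 3 * Complex.I) / 2

theorem mem_LI {z : ℂ} : z ∈ LI.lattice ↔ ∃ a b : ℤ, z = a + b * Complex.I := by
  rw [PeriodPair.mem_lattice]
  simp only [LI, mul_one]
  exact ⟨fun ⟨a, b, h⟩ => ⟨a, b, h.symm⟩, fun ⟨a, b, h⟩ => ⟨a, b, h.symm⟩⟩

theorem two_l1_mem (n : Fin 4 → ℤ) : 2 * l1 n ∈ LI.lattice :=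
  mem_LI.2 ⟨n 0, n 2, by unfold l1; ring⟩

theorem two_l2_mem (n : Fin 4 → ℤ) : 2 * l2 n ∈ LI.lattice :=
  mem_LI.2 ⟨n 1, n 3, by unfold l2; ring⟩

theorem Xf_eq (n : Fin 4 → ℤ) (x : ℂ × C2) : Xf n x = g_Gf (l1 n) (x.1 * x.2.1 ^ 2) := rfl

theorem Yf_eq (n : Fin 4 → ℤ) (x : ℂ × C2) : Yf n x = g_Gf (l2 n) (x.1 * x.2.2 ^ 2) := rfl

/-- if `2 (l1 + w c1)` and `2 (l2 + w c2)` are lattice points then `s = 0` -/
theorem eq_zero_of_half {n : Fin 4 → ℤ} {x : ℂ × C2} (hx : x ∈ PP std) {w : ℂ}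
    (hw : w ^ 2 = x.1) (h1 : 2 * (l1 n + w * x.2.1) ∈ LI.lattice)
    (h2 : 2 * (l2 n + w * x.2.2) ∈ LI.lattice) : x.1 = 0 := by
  have h1' : 2 * (w * x.2.1) ∈ LI.lattice := by
    have := LI.lattice.sub_mem h1 (two_l1_mem n)
    have e : 2 * (l1 n + w * x.2.1) - 2 * l1 n = 2 * (w * x.2.1) := by ring
    rwa [e] at this
  have h2' : 2 * (w * x.2.2) ∈ LI.lattice := by
    have := LI.lattice.sub_mem h2 (two_l2_mem n)
    have e : 2 * (l2 n + w * x.2.2) - 2 * l2 n = 2 * (w * x.2.2) := by ring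
    rwa [e] at this
  obtain ⟨a, b, hab⟩ := mem_LI.1 h1'
  obtain ⟨a', b', hab'⟩ := mem_LI.1 h2'
  by_contra hs
  have hw0 : w ≠ 0 := by rintro rfl; exact hs (by rw [← hw]; ring)
  have hne : (![a, a', b, b'] : Fin 4 → ℤ) ≠ 0 := by
    intro h0
    have e0 : a = 0 := congrFun h0 0
    have e1 : a' = 0 := congrFun h0 1
    have e2 : b = 0 := congrFun h0 2
    have e3 : b' = 0 := congrFun h0 3
    subst e0 e1 e2 e3
    apply hx.1
    have z1 : x.2.1 = 0 := by
      have : 2 * (w * x.2.1) = 0 := by rw [hab]; push_cast; ring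
      simpa only [mul_eq_zero, OfNat.ofNat_ne_zero, hw0, false_or] using this
    have z2 : x.2.2 = 0 := by
      have : 2 * (w * x.2.2) = 0 := by rw [hab']; push_cast; ring
      simpa only [mul_eq_zero, OfNat.ofNat_ne_zero, hw0, false_or] using this
    exact Prod.ext z1 z2
  refine hx.2 w hw _ hne ?_
  rw [lat_std]
  refine Prod.ext ?_ ?_
  · show w * x.2.1 = (1 / 2 : ℂ) * ((a : ℂ) + (b : ℂ) * Complex.I)
    rw [← hab]; ring
  · show w * x.2.2 = (1 / 2 : ℂ) * ((a' : ℂ) + (b' : ℂ) * Complex.I)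
    rw [← hab']; ring

theorem half_notMem : (1 / 2 : ℂ) ∉ LI.lattice := by
  intro h
  obtain ⟨a, b, hab⟩ := mem_LI.1 h
  have h1 := congrArg Complex.re hab
  have h2 := congrArg Complex.im hab
  simp only [one_div, Complex.inv_re, Complex.re_ofNat, Complex.normSq_ofNat, div_self_mul_self', Complex.add_re, Complex.intCast_re, Complex.mul_re, Complex.I_re, mul_zero, Complex.intCast_im, Complex.I_im, mul_one, sub_self, add_zero, Complex.inv_im, Complex.im_ofNat, neg_zero, zero_div, Complex.add_im, Complex.mul_im, zero_add] at h1 h2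
  have : (2 : ℝ) * a = 1 := by rw [← h1]; norm_num
  have h3 : (2 * a : ℤ) = 1 := by exact_mod_cast this
  omega

theorem Qf_zero : Qf 0 = P1.mk 1 0 := by
  unfold Qf
  rw [if_pos LI.lattice.zero_mem]

theorem Qf_half : Qf (1 / 2) = P1.mk 0 1 := by
  unfold Qf
  rw [if_neg half_notMem]
  simp [e1]

theorem exists_sq (s : ℂ) : ∃ w : ℂ, w ^ 2 = s := by
  obtain ⟨w, hw⟩ := IsAlgClosed.exists_pow_nat_eq s (n := 2) (by norm_num)
  exact ⟨w, hw⟩

theorem Xf_sq (n : Fin 4 → ℤ) (x : ℂ × C2) {w : ℂ} (hw : w ^ 2 = x.1) :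
    Xf n x = Qf (l1 n + w * x.2.1) := by
  rw [Xf_eq, ← hw, ← mul_pow, Gf_sq (two_l1_mem n)]

theorem Yf_sq (n : Fin 4 → ℤ) (x : ℂ × C2) {w : ℂ} (hw : w ^ 2 = x.1) :
    Yf n x = Qf (l2 n + w * x.2.2) := by
  rw [Yf_eq, ← hw, ← mul_pow, Gf_sq (two_l2_mem n)]

/-- `Qf z = ∞` iff `z` is in the lattice -/
theorem Qf_eq_inf {z : ℂ} : Qf z = P1.mk 1 0 ↔ z ∈ LI.lattice := by
  rw [← Qf_zero, eq_comm, Qf_eq_iff]
  simp

theorem Qf_eq_zero {z : ℂ} : Qf z = P1.mk 0 1 ↔ z - 1 / 2 ∈ LI.lattice := by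
  rw [← Qf_half, eq_comm, Qf_eq_iff]
  constructor
  · rintro (h | h)
    · exact h
    · have h1 : (1 : ℂ) ∈ LI.lattice := mem_LI.2 ⟨1, 0, by simp⟩
      have := LI.lattice.sub_mem h h1
      have e : z + 1 / 2 - 1 = z - 1 / 2 := by ring
      rwa [e] at this
  · exact Or.inl

theorem two_mul_mem {z : ℂ} (h : z ∈ LI.lattice) : 2 * z ∈ LI.lattice := by
  rw [two_mul]; exact LI.lattice.add_mem h h

theorem two_mul_mem' {z : ℂ} (h : z - 1 / 2 ∈ LI.lattice) : 2 * z ∈ LI.lattice := by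
  have h1 : (1 : ℂ) ∈ LI.lattice := mem_LI.2 ⟨1, 0, by simp⟩
  have := LI.lattice.add_mem (two_mul_mem h) h1
  have e : 2 * (z - 1 / 2) + 1 = 2 * z := by ring
  rwa [e] at this

/-- the two special cases of `Rf` only occur on exceptional curves -/
theorem eq_zero_of_inf {n : Fin 4 → ℤ} {x : ℂ × C2} (hx : x ∈ PP std)
    (h : Xf n x = P1.mk 1 0 ∧ Yf n x = P1.mk 1 0) : x.1 = 0 := by
  obtain ⟨w, hw⟩ := exists_sq x.1
  rw [Xf_sq n x hw, Yf_sq n x hw, Qf_eq_inf, Qf_eq_inf] at h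
  exact eq_zero_of_half hx hw (two_mul_mem h.1) (two_mul_mem h.2)

theorem eq_zero_of_zero {n : Fin 4 → ℤ} {x : ℂ × C2} (hx : x ∈ PP std)
    (h : Xf n x = P1.mk 0 1 ∧ Yf n x = P1.mk 0 1) : x.1 = 0 := by
  obtain ⟨w, hw⟩ := exists_sq x.1
  rw [Xf_sq n x hw, Yf_sq n x hw, Qf_eq_zero, Qf_eq_zero] at h
  exact eq_zero_of_half hx hw (two_mul_mem' h.1) (two_mul_mem' h.2)

theorem Rf_rel {n n' : Fin 4 → ℤ} {x x' : ℂ × C2} (hx : x ∈ PP std) (hx' : x' ∈ PP std)
    (h : KRel std n x n' x') : Rf n x = Rf n' x' := by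
  have hX := Xf_rel hx hx' h
  have hY := Yf_rel hx hx' h
  have key : (x.1 = 0 → ∃ t : ℂ, t ≠ 0 ∧ x'.2 = t • x.2) := by
    intro h0
    rcases h with ⟨_, _, _, t, ht, h1⟩ | ⟨h1, _⟩
    · exact ⟨t, ht, h1⟩
    · exact absurd h0 h1
  have ne : ∀ c : C2, c ≠ 0 → c.1 ^ 2 ≠ 0 ∨ c.2 ^ 2 ≠ 0 := by
    intro c hc
    by_contra hcon
    push Not at hcon
    exact hc (Prod.ext (by simpa only [Prod.fst_zero, ne_eq, OfNat.ofNat_ne_zero, not_false_eq_true, pow_eq_zero_iff] using hcon.1) (by simpa only [Prod.snd_zero, ne_eq, OfNat.ofNat_ne_zero, not_false_eq_true, pow_eq_zero_iff] using hcon.2))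
  unfold Rf
  by_cases h1 : Xf n x = P1.mk 1 0 ∧ Yf n x = P1.mk 1 0
  · have h1' : Xf n' x' = P1.mk 1 0 ∧ Yf n' x' = P1.mk 1 0 := by rw [← hX, ← hY]; exact h1
    rw [if_pos h1, if_pos h1']
    obtain ⟨t, ht, e⟩ := key (eq_zero_of_inf hx h1)
    rw [P1.mk_eq_iff (ne _ hx.1) (ne _ hx'.1), e]
    simp only [Prod.smul_fst, Prod.smul_snd, smul_eq_mul]
    ring
  · have h1' : ¬ (Xf n' x' = P1.mk 1 0 ∧ Yf n' x' = P1.mk 1 0) := by rw [← hX, ← hY]; exact h1
    rw [if_neg h1, if_neg h1']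
    by_cases h2 : Xf n x = P1.mk 0 1 ∧ Yf n x = P1.mk 0 1
    · have h2' : Xf n' x' = P1.mk 0 1 ∧ Yf n' x' = P1.mk 0 1 := by rw [← hX, ← hY]; exact h2
      rw [if_pos h2, if_pos h2']
      obtain ⟨t, ht, e⟩ := key (eq_zero_of_zero hx h2)
      rw [P1.mk_eq_iff (ne _ hx.1).symm (ne _ hx'.1).symm, e]
      simp only [Prod.smul_fst, Prod.smul_snd, smul_eq_mul]
      ring
    · have h2' : ¬ (Xf n' x' = P1.mk 0 1 ∧ Yf n' x' = P1.mk 0 1) := by rw [← hX, ← hY]; exact h2
      rw [if_neg h2, if_neg h2', hX, hY]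

/-- the quotient in terms of any representatives -/
theorem P1.div_mk {a b a' b' : ℂ} (h : a ≠ 0 ∨ b ≠ 0) (h' : a' ≠ 0 ∨ b' ≠ 0)
    (h2 : a * b' ≠ 0 ∨ b * a' ≠ 0) :
    P1.div (P1.mk a b) (P1.mk a' b') = P1.mk (a * b') (b * a') := by
  unfold P1.div
  have hp0 := (P1.mk a b).exists_rep.choose_spec.choose_spec
  have hq0 := (P1.mk a' b').exists_rep.choose_spec.choose_spec
  revert hp0 hq0
  generalize (P1.mk a b).exists_rep.choose_spec.choose = B
  generalize (P1.mk a b).exists_rep.choose = A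
  generalize (P1.mk a' b').exists_rep.choose_spec.choose = B'
  generalize (P1.mk a' b').exists_rep.choose = A'
  rintro ⟨hp, hp'⟩ ⟨hq, hq'⟩
  have e1 : A * b = a * B := (P1.mk_eq_iff hp h).1 hp'
  have e2 : A' * b' = a' * B' := (P1.mk_eq_iff hq h').1 hq'
  have e3 : A * B' * (b * a') = a * b' * (B * A') := by
    linear_combination (B' * a') * e1 - a * B * e2
  rw [P1.mk_eq_iff ?_ h2, e3]
  by_contra hcon
  push Not at hcon
  obtain ⟨c1, c2⟩ := hcon
  -- A B' = 0 and B A' = 0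
  rcases mul_eq_zero.1 c1 with hA | hB'
  · have hB : B ≠ 0 := hp.resolve_left (not_not.2 hA)
    have hA' : A' = 0 := (mul_eq_zero.1 c2).resolve_left hB
    have hB' : B' ≠ 0 := hq.resolve_left (not_not.2 hA')
    have ha : a = 0 := by
      rw [hA, zero_mul] at e1
      exact (mul_eq_zero.1 e1.symm).resolve_right hB
    have ha' : a' = 0 := by
      rw [hA', zero_mul] at e2
      exact (mul_eq_zero.1 e2.symm).resolve_right hB'
    rcases h2 with h2 | h2
    · exact h2 (by rw [ha, zero_mul])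
    · exact h2 (by rw [ha', mul_zero])
  · have hA' : A' ≠ 0 := hq.resolve_right (not_not.2 hB')
    have hB : B = 0 := (mul_eq_zero.1 c2).resolve_right hA'
    have hA : A ≠ 0 := hp.resolve_right (not_not.2 hB)
    have hb : b = 0 := by
      rw [hB, mul_zero] at e1
      exact (mul_eq_zero.1 e1).resolve_left hA
    have hb' : b' = 0 := by
      rw [hB', mul_zero] at e2
      exact (mul_eq_zero.1 e2).resolve_left hA'
    rcases h2 with h2 | h2
    · exact h2 (by rw [hb', mul_zero])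
    · exact h2 (by rw [hb, zero_mul])

section

variable {V : Type} [NormedAddCommGroup V] [NormedSpace ℂ V]

/-- local representations of `g_Gf l ∘ φ` -/
theorem Gf_comp_local {l : ℂ} (hl : 2 * l ∈ LI.lattice) {φ : V → ℂ} {z : V}
    (hφ : DifferentiableAt ℂ φ z) : ∃ a b : V → ℂ, DifferentiableAt ℂ a z ∧
      DifferentiableAt ℂ b z ∧ (a z ≠ 0 ∨ b z ≠ 0) ∧
      ∀ᶠ y in 𝓝 z, g_Gf l (φ y) = P1.mk (a y) (b y) := by
  obtain ⟨a, b, ha, hb, hab, h⟩ := Gf_local hl (φ z)
  exact ⟨fun y => a (φ y), fun y => b (φ y), ha.differentiableAt.comp z hφ,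
    hb.differentiableAt.comp z hφ, hab, hφ.continuousAt.eventually h⟩

theorem Gf_comp_mdifferentiableAt {l : ℂ} (hl : 2 * l ∈ LI.lattice) {φ : V → ℂ} {z : V}
    (hφ : DifferentiableAt ℂ φ z) :
    MDifferentiableAt 𝓘(ℂ, V) 𝓘(ℂ) (fun y => g_Gf l (φ y)) z := by
  obtain ⟨a, b, ha, hb, hab, h⟩ := Gf_comp_local hl hφ
  exact (P1.mdifferentiableAt_mk ha hb hab).congr_of_eventuallyEq h

theorem Gf_comp_mfderiv_ne_zero {l : ℂ} (hl : 2 * l ∈ LI.lattice) {φ : V → ℂ} {z : V}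
    (hφ : DifferentiableAt ℂ φ z) {w : ℂ} (hw : w ^ 2 = φ z)
    (hw' : w = 0 ∨ 2 * (l + w) ∉ LI.lattice) (v : V) (hv : fderiv ℂ φ z v ≠ 0) :
    mfderiv 𝓘(ℂ, V) 𝓘(ℂ) (fun y => g_Gf l (φ y)) z ≠ 0 := by
  obtain ⟨a, b, ha, hb, hab, h⟩ := Gf_local hl (φ z)
  have h' : (fun y => g_Gf l (φ y)) =ᶠ[𝓝 z] fun y => P1.mk (a (φ y)) (b (φ y)) :=
    hφ.continuousAt.eventually h
  rw [h'.mfderiv_eq]
  have hd : deriv a (φ z) * b (φ z) - a (φ z) * deriv b (φ z) ≠ 0 := by
    rw [← hw] at ha hb hab h ⊢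
    exact Gf_deriv hl w hw' a b ha hb hab h
  refine P1.mfderiv_mk_ne_zero (a := fun y => a (φ y)) (b := fun y => b (φ y))
    (ha.differentiableAt.comp z hφ) (hb.differentiableAt.comp z hφ) hab v ?_
  have ea : fderiv ℂ (fun y => a (φ y)) z v = deriv a (φ z) * fderiv ℂ φ z v := by
    have := (ha.differentiableAt.hasDerivAt.hasFDerivAt.comp z hφ.hasFDerivAt).fderiv
    rw [show (fun y => a (φ y)) = a ∘ φ from rfl, this]
    simp [mul_comm]
  have eb : fderiv ℂ (fun y => b (φ y)) z v = deriv b (φ z) * fderiv ℂ φ z v := by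
    have := (hb.differentiableAt.hasDerivAt.hasFDerivAt.comp z hφ.hasFDerivAt).fderiv
    rw [show (fun y => b (φ y)) = b ∘ φ from rfl, this]
    simp only [ContinuousLinearMap.comp_apply, ContinuousLinearMap.toSpanSingleton_apply, smul_eq_mul, mul_comm]
  rw [ea, eb]
  have e : deriv a (φ z) * fderiv ℂ φ z v * b (φ z) - a (φ z) * (deriv b (φ z) * fderiv ℂ φ z v)
      = (deriv a (φ z) * b (φ z) - a (φ z) * deriv b (φ z)) * fderiv ℂ φ z v := by ring
  rw [e]
  exact mul_ne_zero hd hv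

end

/-- the derivative of `(s, u) ↦ s * (ε * u) ^ 2` -/
theorem fderiv_aux1 (ε : ℂ) (v : C2) (t : C2) :
    fderiv ℂ (fun v : C2 => v.1 * (ε * v.2) ^ 2) v t =
      t.1 * (ε * v.2) ^ 2 + v.1 * (2 * ε ^ 2 * v.2 * t.2) := by
  have h1 : HasFDerivAt (fun v : C2 => v.1) (ContinuousLinearMap.fst ℂ ℂ ℂ) v :=
    (ContinuousLinearMap.fst ℂ ℂ ℂ).hasFDerivAt
  have h2 : HasFDerivAt (fun v : C2 => v.2) (ContinuousLinearMap.snd ℂ ℂ ℂ) v :=
    (ContinuousLinearMap.snd ℂ ℂ ℂ).hasFDerivAt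
  have h3 : HasFDerivAt (fun v : C2 => v.1 * (ε * v.2) ^ 2) _ v :=
    h1.mul ((h2.const_mul ε).pow 2)
  rw [h3.fderiv]
  simp only [Nat.add_one_sub_one, pow_one, nsmul_eq_mul, Nat.cast_ofNat, add_apply, smul_apply, ContinuousLinearMap.coe_snd', smul_eq_mul, ContinuousLinearMap.coe_fst']
  ring

theorem differentiable_aux1 (ε : ℂ) (v : C2) :
    DifferentiableAt ℂ (fun v : C2 => v.1 * (ε * v.2) ^ 2) v := by (clear * -; fun_prop)

/-- at every point of the Kummer surface one of the two fibrations is not critical -/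
theorem Xf_Yf_crit (n : Fin 4 → ℤ) (b : Bool) (v : C2) (hv : sl b v ∈ PP std) :
    mfderiv 𝓘(ℂ, C2) 𝓘(ℂ) (fun v => Xf n (sl b v)) v ≠ 0 ∨
      mfderiv 𝓘(ℂ, C2) 𝓘(ℂ) (fun v => Yf n (sl b v)) v ≠ 0 := by
  obtain ⟨w, hw⟩ := exists_sq v.1
  -- the general statement for the two factors
  have key : ∀ (l l' ε : ℂ), 2 * l ∈ LI.lattice → 2 * l' ∈ LI.lattice → ε ^ 2 = 1 →
      (v.1 ≠ 0 → ¬ (2 * (l + w) ∈ LI.lattice ∧ 2 * (l' + w * (ε * v.2)) ∈ LI.lattice)) →
      mfderiv 𝓘(ℂ, C2) 𝓘(ℂ) (fun v : C2 => g_Gf l (v.1)) v ≠ 0 ∨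
      mfderiv 𝓘(ℂ, C2) 𝓘(ℂ) (fun v : C2 => g_Gf l' (v.1 * (ε * v.2) ^ 2)) v ≠ 0 := by
    intro l l' ε hl hl' hε hne
    have hd1 : DifferentiableAt ℂ (fun v : C2 => v.1) v := differentiableAt_fst
    have e1 : fderiv ℂ (fun v : C2 => v.1) v (1, 0) = 1 := by
      have h1 : HasFDerivAt (fun v : C2 => v.1) (ContinuousLinearMap.fst ℂ ℂ ℂ) v :=
        (ContinuousLinearMap.fst ℂ ℂ ℂ).hasFDerivAt
      rw [h1.fderiv]; simp
    by_cases h1 : w = 0 ∨ 2 * (l + w) ∉ LI.lattice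
    · exact Or.inl (Gf_comp_mfderiv_ne_zero hl hd1 hw h1 (1, 0) (by rw [e1]; exact one_ne_zero))
    · push Not at h1
      right
      have hs : v.1 ≠ 0 := by rw [← hw]; exact pow_ne_zero 2 h1.1
      have h2 : 2 * (l' + w * (ε * v.2)) ∉ LI.lattice := fun h => hne hs ⟨h1.2, h⟩
      have hu : v.2 ≠ 0 := by
        intro h0
        apply h2
        rw [h0, mul_zero, mul_zero, add_zero]
        exact hl'
      refine Gf_comp_mfderiv_ne_zero hl' (differentiable_aux1 ε v) (w := w * (ε * v.2))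
        (by rw [mul_pow, hw]) (Or.inr h2) (0, 1) ?_
      rw [fderiv_aux1]
      simp only [zero_mul, zero_add, mul_one]
      rw [hε]
      refine mul_ne_zero hs (mul_ne_zero (mul_ne_zero two_ne_zero one_ne_zero) hu)
  cases b with
  | false =>
    have hX : (fun v => Xf n (sl false v)) = fun v : C2 => g_Gf (l1 n) v.1 := by
      funext v
      rw [Xf_eq]
      simp only [sl, Bool.false_eq_true, ↓reduceIte, one_pow, mul_one]
    have hY : (fun v => Yf n (sl false v)) = fun v : C2 => g_Gf (l2 n) (v.1 * (1 * v.2) ^ 2) := by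
      funext v
      rw [Yf_eq]
      simp [sl]
    rw [hX, hY]
    refine key _ _ 1 (two_l1_mem n) (two_l2_mem n) (by norm_num) ?_
    rintro hs ⟨h1, h2⟩
    refine hs (eq_zero_of_half (n := n) hv (w := w) (by simpa [sl] using hw) ?_ ?_)
    · simpa only [sl, Bool.false_eq_true, ↓reduceIte, mul_one] using h1
    · simpa only [sl, Bool.false_eq_true, ↓reduceIte, one_mul] using h2
  | true =>
    have hX : (fun v => Xf n (sl true v)) = fun v : C2 => g_Gf (l1 n) (v.1 * (-1 * v.2) ^ 2) := by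
      funext v
      rw [Xf_eq]
      simp only [sl, ↓reduceIte, even_two, Even.neg_pow, neg_mul, one_mul]
    have hY : (fun v => Yf n (sl true v)) = fun v : C2 => g_Gf (l2 n) v.1 := by
      funext v
      rw [Yf_eq]
      simp only [sl, ↓reduceIte, one_pow, mul_one]
    rw [hX, hY]
    refine (key _ _ (-1) (two_l2_mem n) (two_l1_mem n) (by norm_num) ?_).symm
    rintro hs ⟨h1, h2⟩
    refine hs (eq_zero_of_half (n := n) hv (w := w) (by simpa [sl] using hw) ?_ ?_)
    · simpa only [sl, ↓reduceIte, mul_neg, neg_mul, one_mul] using h2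
    · simpa only [sl, ↓reduceIte, mul_one] using h1

theorem P1.mk_eq_inf {a b : ℂ} (h : a ≠ 0 ∨ b ≠ 0) : P1.mk a b = P1.mk 1 0 ↔ b = 0 := by
  rw [P1.mk_eq_iff h (Or.inl one_ne_zero), mul_zero, one_mul, eq_comm]

theorem P1.mk_eq_zero {a b : ℂ} (h : a ≠ 0 ∨ b ≠ 0) : P1.mk a b = P1.mk 0 1 ↔ a = 0 := by
  rw [P1.mk_eq_iff h (Or.inr one_ne_zero), mul_one, zero_mul]

theorem Rf_of_mk {n : Fin 4 → ℤ} {x : ℂ × C2} {a b a' b' : ℂ} (h : a ≠ 0 ∨ b ≠ 0)
    (h' : a' ≠ 0 ∨ b' ≠ 0) (hX : Xf n x = P1.mk a b) (hY : Yf n x = P1.mk a' b')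
    (h1 : ¬ (b = 0 ∧ b' = 0)) (h2 : ¬ (a = 0 ∧ a' = 0)) :
    Rf n x = P1.mk (a' * b) (b' * a) := by
  unfold Rf
  rw [hX, hY, P1.mk_eq_inf h, P1.mk_eq_inf h', if_neg h1, P1.mk_eq_zero h, P1.mk_eq_zero h',
    if_neg h2, P1.div_mk h' h]
  by_contra hcon
  push Not at hcon
  obtain ⟨c1, c2⟩ := hcon
  rcases mul_eq_zero.1 c1 with ha' | hb
  · have ha : a ≠ 0 := fun ha => h2 ⟨ha, ha'⟩
    exact (h'.resolve_left (not_not.2 ha')) ((mul_eq_zero.1 c2).resolve_right ha)
  · have hb' : b' ≠ 0 := fun hb' => h1 ⟨hb, hb'⟩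
    exact (h.resolve_right (not_not.2 hb)) ((mul_eq_zero.1 c2).resolve_left hb')

theorem Gf_congr {l l' : ℂ} (h : l' - l ∈ LI.lattice) (z : ℂ) : g_Gf l z = g_Gf l' z := by
  unfold g_Gf
  rw [Qf_eq_iff]
  left
  have e : l' + z ^ (1 / 2 : ℂ) - (l + z ^ (1 / 2 : ℂ)) = l' - l := by ring
  rwa [e]

theorem sq_ne {c : C2} (hc : c ≠ 0) : c.1 ^ 2 ≠ 0 ∨ c.2 ^ 2 ≠ 0 := by
  by_contra hcon
  push Not at hcon
  exact hc (Prod.ext (by simpa using hcon.1) (by simpa using hcon.2))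

theorem Rf_mdifferentiableAt (n : Fin 4 → ℤ) (x : ℂ × C2) (hx : x ∈ PP std) :
    MDifferentiableAt 𝓘(ℂ, ℂ × C2) 𝓘(ℂ) (Rf n) x := by
  have d1 : Differentiable ℂ (fun y : ℂ × C2 => y.1 * y.2.1 ^ 2) := by (clear * -; fun_prop)
  have d2 : Differentiable ℂ (fun y : ℂ × C2 => y.1 * y.2.2 ^ 2) := by fun_prop
  have hc : ∀ᶠ y : ℂ × C2 in 𝓝 x, y.2 ≠ 0 :=
    (continuous_snd.continuousAt (x := x)).eventually_ne hx.1
  by_cases h1 : Xf n x = P1.mk 1 0 ∧ Yf n x = P1.mk 1 0
  · have hs : x.1 = 0 := eq_zero_of_inf hx h1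
    have hw : (0 : ℂ) ^ 2 = x.1 := by rw [hs]; ring
    rw [Xf_sq n x hw, Yf_sq n x hw, Qf_eq_inf, Qf_eq_inf] at h1
    simp only [zero_mul, add_zero] at h1
    obtain ⟨α, hα, hα0, hG⟩ := Gf_pole h1.1
    have hne : ∀ᶠ z in 𝓝 (0 : ℂ), α z ≠ 0 := hα.continuousAt.eventually_ne hα0
    have t1 : Tendsto (fun y : ℂ × C2 => y.1 * y.2.1 ^ 2) (𝓝 x) (𝓝 0) := by
      have := (d1 x).continuousAt.tendsto
      simpa only [hs, zero_mul] using this
    have t2 : Tendsto (fun y : ℂ × C2 => y.1 * y.2.2 ^ 2) (𝓝 x) (𝓝 0) := by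
      have := (d2 x).continuousAt.tendsto
      simpa only [hs, zero_mul] using this
    have ev : Rf n =ᶠ[𝓝 x] fun y => P1.mk (y.2.1 ^ 2 * α (y.1 * y.2.1 ^ 2))
        (y.2.2 ^ 2 * α (y.1 * y.2.2 ^ 2)) := by
      filter_upwards [hc, t1.eventually hG, t2.eventually hG, t1.eventually hne,
        t2.eventually hne] with y hy g1 g2 n1 n2
      have hX : Xf n y = P1.mk 1 (y.1 * y.2.1 ^ 2 * α (y.1 * y.2.1 ^ 2)) := by rw [Xf_eq, g1]
      have hY : Yf n y = P1.mk 1 (y.1 * y.2.2 ^ 2 * α (y.1 * y.2.2 ^ 2)) := by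
        rw [Yf_eq, Gf_congr (l' := l1 n) (LI.lattice.sub_mem h1.1 h1.2), g2]
      have hval : y.2.1 ^ 2 * α (y.1 * y.2.1 ^ 2) ≠ 0 ∨ y.2.2 ^ 2 * α (y.1 * y.2.2 ^ 2) ≠ 0 :=
        (sq_ne hy).imp (fun h => mul_ne_zero h n1) (fun h => mul_ne_zero h n2)
      by_cases hs' : y.1 = 0
      · have e1 : Xf n y = P1.mk 1 0 ∧ Yf n y = P1.mk 1 0 := by
          rw [hX, hY, hs']; simp
        unfold Rf
        rw [if_pos e1, P1.mk_eq_iff (sq_ne hy) hval, hs']
        simp only [zero_mul]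
        ring
      · rw [Rf_of_mk (Or.inl one_ne_zero) (Or.inl one_ne_zero) hX hY ?_ ?_]
        · rw [P1.mk_eq_iff ?_ hval]
          · ring
          · rw [one_mul, mul_one]
            refine (sq_ne hy).imp (fun h => mul_ne_zero (mul_ne_zero hs' h) n1)
              (fun h => mul_ne_zero (mul_ne_zero hs' h) n2)
        · rintro ⟨c1, c2⟩
          rcases sq_ne hy with h | h
          · exact mul_ne_zero (mul_ne_zero hs' h) n1 c1
          · exact mul_ne_zero (mul_ne_zero hs' h) n2 c2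
        · rintro ⟨c1, _⟩
          exact one_ne_zero c1
    refine MDifferentiableAt.congr_of_eventuallyEq (P1.mdifferentiableAt_mk ?_ ?_ ?_) ev
    · have : DifferentiableAt ℂ (fun y : ℂ × C2 => α (y.1 * y.2.1 ^ 2)) x := by
        refine DifferentiableAt.comp x (g := α) ?_ (d1 x)
        simpa only [hs, zero_mul] using hα.differentiableAt
      exact DifferentiableAt.mul (by (clear * -; fun_prop)) this
    · have : DifferentiableAt ℂ (fun y : ℂ × C2 => α (y.1 * y.2.2 ^ 2)) x := by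
        refine DifferentiableAt.comp x (g := α) ?_ (d2 x)
        simpa [hs] using hα.differentiableAt
      exact DifferentiableAt.mul (by fun_prop) this
    · simp only [hs, zero_mul]
      exact (sq_ne hx.1).imp (fun h => mul_ne_zero h hα0) (fun h => mul_ne_zero h hα0)
  by_cases h2 : Xf n x = P1.mk 0 1 ∧ Yf n x = P1.mk 0 1
  · clear h1
    have hs : x.1 = 0 := eq_zero_of_zero hx h2
    have hw : (0 : ℂ) ^ 2 = x.1 := by rw [hs]; ring
    rw [Xf_sq n x hw, Yf_sq n x hw, Qf_eq_zero, Qf_eq_zero] at h2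
    simp only [zero_mul, add_zero] at h2
    obtain ⟨α, hα, hα0, hG⟩ := Gf_zero h2.1
    have hne : ∀ᶠ z in 𝓝 (0 : ℂ), α z ≠ 0 := hα.continuousAt.eventually_ne hα0
    have t1 : Tendsto (fun y : ℂ × C2 => y.1 * y.2.1 ^ 2) (𝓝 x) (𝓝 0) := by
      have := (d1 x).continuousAt.tendsto
      simpa only [hs, zero_mul] using this
    have t2 : Tendsto (fun y : ℂ × C2 => y.1 * y.2.2 ^ 2) (𝓝 x) (𝓝 0) := by
      have := (d2 x).continuousAt.tendsto
      simpa only [hs, zero_mul] using this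
    have hl : l1 n - l2 n ∈ LI.lattice := by
      have := LI.lattice.sub_mem h2.1 h2.2
      have e : l1 n - 1 / 2 - (l2 n - 1 / 2) = l1 n - l2 n := by ring
      rwa [e] at this
    have ev : Rf n =ᶠ[𝓝 x] fun y => P1.mk (y.2.2 ^ 2 * α (y.1 * y.2.2 ^ 2))
        (y.2.1 ^ 2 * α (y.1 * y.2.1 ^ 2)) := by
      filter_upwards [hc, t1.eventually hG, t2.eventually hG, t1.eventually hne,
        t2.eventually hne] with y hy g1 g2 n1 n2
      have hX : Xf n y = P1.mk (y.1 * y.2.1 ^ 2 * α (y.1 * y.2.1 ^ 2)) 1 := by rw [Xf_eq, g1]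
      have hY : Yf n y = P1.mk (y.1 * y.2.2 ^ 2 * α (y.1 * y.2.2 ^ 2)) 1 := by
        rw [Yf_eq, Gf_congr (l' := l1 n) hl, g2]
      have hval : y.2.2 ^ 2 * α (y.1 * y.2.2 ^ 2) ≠ 0 ∨ y.2.1 ^ 2 * α (y.1 * y.2.1 ^ 2) ≠ 0 :=
        (sq_ne hy).symm.imp (fun h => mul_ne_zero h n2) (fun h => mul_ne_zero h n1)
      by_cases hs' : y.1 = 0
      · have e1 : Xf n y = P1.mk 0 1 ∧ Yf n y = P1.mk 0 1 := by
          rw [hX, hY, hs']; simp
        have e2 : ¬ (Xf n y = P1.mk 1 0 ∧ Yf n y = P1.mk 1 0) := by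
          rw [e1.1, P1.mk_eq_inf (Or.inr one_ne_zero)]
          exact fun h => one_ne_zero h.1
        unfold Rf
        rw [if_neg e2, if_pos e1, P1.mk_eq_iff (sq_ne hy).symm hval, hs']
        simp only [zero_mul]
        ring
      · rw [Rf_of_mk (Or.inr one_ne_zero) (Or.inr one_ne_zero) hX hY ?_ ?_]
        · rw [P1.mk_eq_iff ?_ hval]
          · ring
          · rw [one_mul, mul_one]
            refine (sq_ne hy).symm.imp (fun h => mul_ne_zero (mul_ne_zero hs' h) n2)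
              (fun h => mul_ne_zero (mul_ne_zero hs' h) n1)
        · rintro ⟨c1, _⟩
          exact one_ne_zero c1
        · rintro ⟨c1, c2⟩
          rcases sq_ne hy with h | h
          · exact mul_ne_zero (mul_ne_zero hs' h) n1 c1
          · exact mul_ne_zero (mul_ne_zero hs' h) n2 c2
    refine MDifferentiableAt.congr_of_eventuallyEq (P1.mdifferentiableAt_mk ?_ ?_ ?_) ev
    · have : DifferentiableAt ℂ (fun y : ℂ × C2 => α (y.1 * y.2.2 ^ 2)) x := by
        refine DifferentiableAt.comp x (g := α) ?_ (d2 x)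
        simpa [hs] using hα.differentiableAt
      exact DifferentiableAt.mul (by (clear * -; fun_prop)) this
    · have : DifferentiableAt ℂ (fun y : ℂ × C2 => α (y.1 * y.2.1 ^ 2)) x := by
        refine DifferentiableAt.comp x (g := α) ?_ (d1 x)
        simpa [hs] using hα.differentiableAt
      exact DifferentiableAt.mul (by fun_prop) this
    · simp only [hs, zero_mul]
      exact (sq_ne hx.1).symm.imp (fun h => mul_ne_zero h hα0) (fun h => mul_ne_zero h hα0)
  · obtain ⟨a, b, ha, hb, hab, hX⟩ := Gf_comp_local (two_l1_mem n) (d1 x)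
    obtain ⟨a', b', ha', hb', hab', hY⟩ := Gf_comp_local (two_l2_mem n) (d2 x)
    have hX0 : Xf n x = P1.mk (a x) (b x) := hX.self_of_nhds
    have hY0 : Yf n x = P1.mk (a' x) (b' x) := hY.self_of_nhds
    rw [hX0, hY0, P1.mk_eq_inf hab, P1.mk_eq_inf hab'] at h1
    rw [hX0, hY0, P1.mk_eq_zero hab, P1.mk_eq_zero hab'] at h2
    have or_ev : ∀ {f g : ℂ × C2 → ℂ}, DifferentiableAt ℂ f x → DifferentiableAt ℂ g x →
        (f x ≠ 0 ∨ g x ≠ 0) → ∀ᶠ y in 𝓝 x, f y ≠ 0 ∨ g y ≠ 0 := by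
      intro f g hf hg h
      rcases h with h | h
      · exact (hf.continuousAt.eventually_ne h).mono fun _ => Or.inl
      · exact (hg.continuousAt.eventually_ne h).mono fun _ => Or.inr
    have ev : Rf n =ᶠ[𝓝 x] fun y => P1.mk (a' y * b y) (b' y * a y) := by
      filter_upwards [hX, hY, or_ev ha hb hab, or_ev ha' hb' hab',
        or_ev hb hb' (not_and_or.1 h1), or_ev ha ha' (not_and_or.1 h2)] with y gX gY o1 o2 o3 o4
      exact Rf_of_mk o1 o2 gX gY (not_and_or.2 o3) (not_and_or.2 o4)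
    refine MDifferentiableAt.congr_of_eventuallyEq (P1.mdifferentiableAt_mk (ha'.mul hb)
      (hb'.mul ha) ?_) ev
    by_contra hcon
    push Not at hcon
    obtain ⟨c1, c2⟩ := hcon
    rcases mul_eq_zero.1 c1 with ha0 | hb0
    · have : a x ≠ 0 := fun h => h2 ⟨h, ha0⟩
      exact (hab'.resolve_left (not_not.2 ha0)) ((mul_eq_zero.1 c2).resolve_right this)
    · have : b' x ≠ 0 := fun h => h1 ⟨hb0, h⟩
      exact (hab.resolve_right (not_not.2 hb0)) ((mul_eq_zero.1 c2).resolve_left this)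

end Vale.Agent.P290.K
end
end
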