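import Vale.Agent.P290.MathlibUsed
import Vale.Agent.P290.Bdl.B2
import Vale.Agent.P290.Bdl.B1
import Vale.Agent.P290.K.KumDefs
import Vale.Agent.P290.K.AllDefs

set_option linter.all false

namespace AFast82a3eax8a
theorem a0 : ContinuousSMul ℂ ℂ := inferInstance
theorem a1 : IsTopologicalSemiring ℂ := inferInstance
theorem a2 : IsModuleTopology ℂ ℂ := inferInstance
theorem a3 : IsTopologicalRing ℂ := inferInstance
theorem a4 : ContinuousSMul ℂ (ℂ × ℂ) := inferInstance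
theorem a5 : ContinuousSMul ℂ (ℂ × (Fin 4 → ℂ) × (Fin 4 → ℂ)) := inferInstance
theorem a6 : ContinuousAdd ℂ := inferInstance
theorem a7 : ContinuousSMul ℂ (Vale.Agent.P290.K.SG × Vale.Agent.P290.C2) := inferInstance
theorem a8 : IsSemitopologicalSemiring ℂ := inferInstance
theorem a9 : IsSemitopologicalRing ℂ := inferInstance
theorem a10 : ContinuousAdd (ℂ × ℂ) := inferInstance
@[reducible] noncomputable def a11 : Module ℝ (ℂ × ℂ) := inferInstance
theorem a12 : ContinuousSMul ℂ ((Fin 4 → ℂ) × (Fin 4 → ℂ)) := inferInstance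
theorem a13 : ContinuousSMul ℂ (Fin 4 → ℂ) := inferInstance
theorem a14 : CharZero ℝ := inferInstance
theorem a15 : ContinuousAdd (ℂ × (Fin 4 → ℂ) × (Fin 4 → ℂ)) := inferInstance
theorem a16 : ContinuousAdd (Vale.Agent.P290.K.SG × Vale.Agent.P290.C2) := inferInstance
@[reducible] def a17 : DistribMulAction ℂ ℂ := inferInstance
@[reducible] def a18 : SMulZeroClass ℂ Vale.Agent.P290.C2 := inferInstance
@[reducible] def a19 : Module ℂ Vale.Agent.P290.K.ND := inferInstance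
theorem a20 : ContinuousAdd ((Fin 4 → ℂ) × (Fin 4 → ℂ)) := inferInstance
theorem a21 : IsTopologicalAddGroup ℂ := inferInstance
theorem a22 : ContinuousAdd (Fin 4 → ℂ) := inferInstance
@[reducible] noncomputable def a23 : Module ℝ ℂ := inferInstance
theorem a24 : IsTopologicalDivisionRing ℂ := inferInstance
theorem a25 : ContinuousSMul ℂ (Fin 3 → ℂ) := inferInstance
@[reducible] noncomputable def a26 {x1 : Type} [x2 : NormedAddCommGroup x1] [x3 : NormedSpace ℂ x1] : NormedSpace ℂ (x1 × Vale.Agent.P290.C2) := inferInstance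
theorem a27 : LocallyCompactSpace ℂ := inferInstance
theorem a28 : PosMulReflectLT ℝ := inferInstance
@[reducible] def a29 : DistribMulAction ℂ Vale.Agent.P290.C2 := inferInstance
theorem a30 : ContinuousMul ℂ := inferInstance
@[reducible] def a31 : Module ℂ Vale.Agent.P290.C2 := inferInstance
theorem a32 : Module.Flat ℂ ℂ := inferInstance
theorem a33 : PosMulReflectLE ℝ := inferInstance
@[reducible] def a34 : SMulZeroClass ℂ ℂ := inferInstance
@[reducible] def a35 : DistribMulAction ℂ Vale.Agent.P290.K.SG := inferInstance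
theorem a36 {x1 : ℕ} : ContinuousSMul ℂ (Fin x1 → ℂ) := inferInstance
@[reducible] noncomputable def a37 {x1 : Type} [x2 : NormedAddCommGroup x1] [x3 : NormedSpace ℂ x1] : TopologicalSpace (x1 →L[ℂ] ℂ) := inferInstance
theorem a38 : PosMulStrictMono ℝ := inferInstance
theorem a39 : IsCancelMulZero ℂ := inferInstance
theorem a40 : SeparatelyContinuousMul ℂ := inferInstance
@[reducible] noncomputable def a41 {x1 : Type} [x2 : NormedAddCommGroup x1] [x3 : NormedSpace ℂ x1] : SMulZeroClass ℝ (x1 × Vale.Agent.P290.C2) := inferInstance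
@[reducible] noncomputable def a42 {x1 : Type} [x2 : NormedAddCommGroup x1] [x3 : NormedSpace ℂ x1] : DistribSMul ℝ (x1 × Vale.Agent.P290.C2) := inferInstance
theorem a43 : AddMonoidHomClass (Vale.Agent.P290.C2 →L[ℂ] Vale.Agent.P290.C2) Vale.Agent.P290.C2 Vale.Agent.P290.C2 := inferInstance
theorem a44 : DistribMulActionSemiHomClass (Vale.Agent.P290.C2 →L[ℂ] Vale.Agent.P290.C2) (⇑(RingHom.id ℂ)) Vale.Agent.P290.C2 Vale.Agent.P290.C2 := inferInstance
@[reducible] def a45 {x1 : Type} [x2 : NormedAddCommGroup x1] [x3 : NormedSpace ℂ x1] : Module ℂ (x1 × Vale.Agent.P290.C2) := inferInstance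
theorem a46 : ContinuousSMul ℂ Vale.Agent.P290.C2 := inferInstance
@[reducible] def a47 : DistribSMul ℂ Vale.Agent.P290.C2 := inferInstance
theorem a48 : ContinuousSMul ℂ (ℂ × (Fin 4 → ℂ)) := inferInstance
theorem a49 : SecondCountableTopology ℂ := inferInstance
theorem a50 : IsTopologicalAddGroup (ℂ × ℂ) := inferInstance
theorem a51 : ContinuousAdd (Fin 3 → ℂ) := inferInstance
@[reducible] def a52 : DistribMulAction ℂ (Fin 4 → ℂ) := inferInstance
@[reducible] noncomputable def a53 : SMulZeroClass ℝ Vale.Agent.P290.C2 := inferInstance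
@[reducible] noncomputable def a54 {x1 : Type} [x2 : NormedAddCommGroup x1] [x3 : NormedSpace ℂ x1] : SMul ℝ (x1 × Vale.Agent.P290.C2) := inferInstance
@[reducible] def a55 {x1 : Type} [x2 : NormedAddCommGroup x1] : AddCommMonoid (x1 × Vale.Agent.P290.C2) := inferInstance
theorem a56 {x1 : Type} [x2 : NormedAddCommGroup x1] [x3 : NormedSpace ℂ x1] : OpensMeasurableSpace (x1 × Vale.Agent.P290.C2 →L[ℂ] ℂ) := inferInstance
theorem a57 : Module.IsTorsionFree ℂ ℂ := inferInstance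
@[reducible] noncomputable def a58 {x1 : ℕ} : NormedSpace ℝ (Fin x1 → ℂ) := inferInstance
theorem a59 : Algebra.Etale ℂ ℂ := inferInstance
theorem a60 : ContinuousConstSMul ℂ ℂ := inferInstance
@[reducible] noncomputable def a61 {x1 : Type} [x2 : NormedAddCommGroup x1] [x3 : NormedSpace ℂ x1] : NormedSpace ℂ (x1 × (Fin 3 → ℂ)) := inferInstance
@[reducible] def a62 : Module ℂ (Vale.Agent.P290.K.SG × Vale.Agent.P290.C2) := inferInstance
@[reducible] def a63 {x1 : Fin 4} : DistribMulAction ℂ ((fun a => ℂ) x1) := inferInstance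
@[reducible] noncomputable def a64 : AddCommMonoid (@TangentSpace Complex (@DenselyNormedField.toNontriviallyNormedField Complex Complex.instDenselyNormedField) (Fin (@OfNat.ofNat Nat (nat_lit 3) (instOfNatNat (nat_lit 3))) → Complex) (@Pi.normedAddCommGroup (Fin (@OfNat.ofNat Nat (nat_lit 3) (instOfNatNat (nat_lit 3)))) (fun a => Complex) (Fin.fintype (@OfNat.ofNat Nat (nat_lit 3) (instOfNatNat (nat_lit 3)))) fun i => Complex.instNormedAddCommGroup) (@NonUnitalCStarAlgebra.toNormedSpace (Fin (@OfNat.ofNat Nat (nat_lit 3) (instOfNatNat (nat_lit 3))) → Complex) (@instNonUnitalCStarAlgebraForall (Fin (@OfNat.ofNat Nat (nat_lit 3) (instOfNatNat (nat_lit 3)))) (fun a => Complex) (Fin.fintype (@OfNat.ofNat Nat (nat_lit 3) (instOfNatNat (nat_lit 3)))) fun i => @NonUnitalCommCStarAlgebra.toNonUnitalCStarAlgebra Complex (@CommCStarAlgebra.toNonUnitalCommCStarAlgebra Complex instCommCStarAlgebraComplex))) (Fin (@OfNat.ofNat Nat (nat_lit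 3) (instOfNatNat (nat_lit 3))) → Complex) (@UniformSpace.toTopologicalSpace (Fin (@OfNat.ofNat Nat (nat_lit 3) (instOfNatNat (nat_lit 3))) → Complex) (@PseudoMetricSpace.toUniformSpace (Fin (@OfNat.ofNat Nat (nat_lit 3) (instOfNatNat (nat_lit 3))) → Complex) (@SeminormedAddCommGroup.toPseudoMetricSpace (Fin (@OfNat.ofNat Nat (nat_lit 3) (instOfNatNat (nat_lit 3))) → Complex) (@NormedAddCommGroup.toSeminormedAddCommGroup (Fin (@OfNat.ofNat Nat (nat_lit 3) (instOfNatNat (nat_lit 3))) → Complex) (@Pi.normedAddCommGroup (Fin (@OfNat.ofNat Nat (nat_lit 3) (instOfNatNat (nat_lit 3)))) (fun a => Complex) (Fin.fintype (@OfNat.ofNat Nat (nat_lit 3) (instOfNatNat (nat_lit 3)))) fun i => Complex.instNormedAddCommGroup))))) (@modelWithCornersSelf Complex (@DenselyNormedField.toNontriviallyNormedField Complex Complex.instDenselyNormedField) (Fin (@OfNat.ofNat Nat (nat_lit 3) (instOfNatNat (nat_lit 3))) → Complex) (@Pi.normedAddCommGroup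 (Fin (@OfNat.ofNat Nat (nat_lit 3) (instOfNatNat (nat_lit 3)))) (fun a => Complex) (Fin.fintype (@OfNat.ofNat Nat (nat_lit 3) (instOfNatNat (nat_lit 3)))) fun i => Complex.instNormedAddCommGroup) (@NonUnitalCStarAlgebra.toNormedSpace (Fin (@OfNat.ofNat Nat (nat_lit 3) (instOfNatNat (nat_lit 3))) → Complex) (@instNonUnitalCStarAlgebraForall (Fin (@OfNat.ofNat Nat (nat_lit 3) (instOfNatNat (nat_lit 3)))) (fun a => Complex) (Fin.fintype (@OfNat.ofNat Nat (nat_lit 3) (instOfNatNat (nat_lit 3)))) fun i => @NonUnitalCommCStarAlgebra.toNonUnitalCStarAlgebra Complex (@CommCStarAlgebra.toNonUnitalCommCStarAlgebra Complex instCommCStarAlgebraComplex)))) (Fin (@OfNat.ofNat Nat (nat_lit 3) (instOfNatNat (nat_lit 3))) → Complex) (@Pi.topologicalSpace (Fin (@OfNat.ofNat Nat (nat_lit 3) (instOfNatNat (nat_lit 3)))) (fun a => Complex) fun i => @UniformSpace.toTopologicalSpace Complex (@PseudoMetricSpace.toUniformSpace Complex (@SeminormedRing.toPseudoMetricSpace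 Complex (@SeminormedCommRing.toSeminormedRing Complex (@NormedCommRing.toSeminormedCommRing Complex (@CommCStarAlgebra.toNormedCommRing Complex instCommCStarAlgebraComplex)))))) (@chartedSpaceSelf (Fin (@OfNat.ofNat Nat (nat_lit 3) (instOfNatNat (nat_lit 3))) → Complex) (@UniformSpace.toTopologicalSpace (Fin (@OfNat.ofNat Nat (nat_lit 3) (instOfNatNat (nat_lit 3))) → Complex) (@PseudoMetricSpace.toUniformSpace (Fin (@OfNat.ofNat Nat (nat_lit 3) (instOfNatNat (nat_lit 3))) → Complex) (@SeminormedAddCommGroup.toPseudoMetricSpace (Fin (@OfNat.ofNat Nat (nat_lit 3) (instOfNatNat (nat_lit 3))) → Complex) (@NormedAddCommGroup.toSeminormedAddCommGroup (Fin (@OfNat.ofNat Nat (nat_lit 3) (instOfNatNat (nat_lit 3))) → Complex) (@Pi.normedAddCommGroup (Fin (@OfNat.ofNat Nat (nat_lit 3) (instOfNatNat (nat_lit 3)))) (fun a => Complex) (Fin.fintype (@OfNat.ofNat Nat (nat_lit 3) (instOfNatNat (nat_lit 3)))) fun i => Complex.instNormedAddCommGroup))))))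 (@OfNat.ofNat (Fin (@OfNat.ofNat Nat (nat_lit 3) (instOfNatNat (nat_lit 3))) → Complex) (nat_lit 0) (@Zero.toOfNat0 (Fin (@OfNat.ofNat Nat (nat_lit 3) (instOfNatNat (nat_lit 3))) → Complex) (@Pi.instZero (Fin (@OfNat.ofNat Nat (nat_lit 3) (instOfNatNat (nat_lit 3)))) (fun a => Complex) fun i => Complex.instZero)))) := inferInstance
theorem a65 {x1 : ℕ} : FiniteDimensional ℂ (Fin x1 → ℂ) := inferInstance
theorem a66 {x1 : ℕ} : ContinuousAdd (Fin x1 → ℂ) := inferInstance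
@[reducible] noncomputable def a67 {x1 : Type} [x2 : NormedAddCommGroup x1] [x3 : NormedSpace ℂ x1] : TopologicalSpace (x1 × Vale.Agent.P290.C2 →L[ℂ] ℂ) := inferInstance
@[reducible] noncomputable def a68 : DistribSMul ℝ Vale.Agent.P290.C2 := inferInstance
@[reducible] def a69 : DistribMulAction ℂ ((Fin 4 → ℂ) × (Fin 4 → ℂ)) := inferInstance
theorem a70 : ContinuousSub Vale.Agent.P290.C2 := inferInstance
@[reducible] def a71 {x1 : Type} [x2 : NormedAddCommGroup x1] : TopologicalSpace (ℝ × x1) := inferInstance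
theorem a72 : ContinuousSMul ℂ (ℂ × Vale.Agent.P290.C2) := inferInstance
@[reducible] noncomputable def a73 {x1 : Type} [x2 : NormedAddCommGroup x1] [x3 : NormedSpace ℂ x1] : MeasurableSpace (x1 × Vale.Agent.P290.C2 →L[ℂ] ℂ) := inferInstance
@[reducible] def a74 : Module ℂ Vale.Agent.P290.K.SG := inferInstance
@[reducible] noncomputable def a75 : SMulZeroClass ℝ ℂ := inferInstance
theorem a76 : ContinuousSMul ℂ ((ℂ × (Fin 4 → ℂ)) × Vale.Agent.P290.K.ND) := inferInstance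
theorem a77 : IsLeftCancelMulZero ℂ := inferInstance
@[reducible] noncomputable def a78 {x1 : Type} [x2 : NormedAddCommGroup x1] : TopologicalSpace (x1 × Vale.Agent.P290.C2) := inferInstance
@[reducible] noncomputable def a79 : DistribMulAction ℝ Vale.Agent.P290.C2 := inferInstance
theorem a80 : AddRightReflectLE ℝ := inferInstance
@[reducible] noncomputable def a81 {x1 : Type} [x2 : NormedAddCommGroup x1] [x3 : NormedSpace ℂ x1] {x4 : Type} [x5 : MeasurableSpace x4] : MeasurableSpace ((x1 × Vale.Agent.P290.C2 →L[ℂ] ℂ) × x4) := inferInstance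
theorem a82 : AddLeftReflectLE ℝ := inferInstance
@[reducible] noncomputable def a83 : DistribMulAction ℝ ℂ := inferInstance
@[reducible] noncomputable def a84 {x1 : ℕ} : Module ℝ (Fin x1 → ℂ) := inferInstance
theorem a85 : IsRightCancelAdd ℝ := inferInstance
@[reducible] noncomputable def a86 {x1 : ℕ} : SMulZeroClass ℝ (Fin x1 → ℂ) := inferInstance
@[reducible] noncomputable def a87 {x1 : ℕ} : DistribMulAction ℝ (Fin x1 → ℂ) := inferInstance
@[reducible] noncomputable def a88 {x1 : Type} [x2 : NormedAddCommGroup x1] [x3 : NormedSpace ℂ x1] : DistribMulAction ℝ (x1 × Vale.Agent.P290.C2) := inferInstance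
theorem a89 : Module.IsTorsionFree ℂ (ℂ × ℂ) := inferInstance
theorem a90 : TopologicalSpace.SeparableSpace ℂ := inferInstance
theorem a91 : IsLeftCancelAdd ℝ := inferInstance
@[reducible] def a92 {x1 : Type} {x2 : Type} [x3 : NormedAddCommGroup x1] [x4 : NormedAddCommGroup x2] : TopologicalSpace (x1 × x2) := inferInstance
theorem a93 : ContinuousSub ℂ := inferInstance
end AFast82a3eax8a
attribute [local instance] AFast82a3eax8a.a0 AFast82a3eax8a.a1 AFast82a3eax8a.a2 AFast82a3eax8a.a3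
  AFast82a3eax8a.a4 AFast82a3eax8a.a5 AFast82a3eax8a.a6 AFast82a3eax8a.a7 AFast82a3eax8a.a8
  AFast82a3eax8a.a9 AFast82a3eax8a.a10 AFast82a3eax8a.a11 AFast82a3eax8a.a12 AFast82a3eax8a.a13
  AFast82a3eax8a.a14 AFast82a3eax8a.a15 AFast82a3eax8a.a16 AFast82a3eax8a.a17 AFast82a3eax8a.a18
  AFast82a3eax8a.a19 AFast82a3eax8a.a20 AFast82a3eax8a.a21 AFast82a3eax8a.a22 AFast82a3eax8a.a23
  AFast82a3eax8a.a24 AFast82a3eax8a.a25 AFast82a3eax8a.a26 AFast82a3eax8a.a27 AFast82a3eax8a.a28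
  AFast82a3eax8a.a29 AFast82a3eax8a.a30 AFast82a3eax8a.a31 AFast82a3eax8a.a32 AFast82a3eax8a.a33
  AFast82a3eax8a.a34 AFast82a3eax8a.a35 AFast82a3eax8a.a36 AFast82a3eax8a.a37 AFast82a3eax8a.a38
  AFast82a3eax8a.a39 AFast82a3eax8a.a40 AFast82a3eax8a.a41 AFast82a3eax8a.a42 AFast82a3eax8a.a43
  AFast82a3eax8a.a44 AFast82a3eax8a.a45 AFast82a3eax8a.a46 AFast82a3eax8a.a47 AFast82a3eax8a.a48
  AFast82a3eax8a.a49 AFast82a3eax8a.a50 AFast82a3eax8a.a51 AFast82a3eax8a.a52 AFast82a3eax8a.a53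
  AFast82a3eax8a.a54 AFast82a3eax8a.a55 AFast82a3eax8a.a56 AFast82a3eax8a.a57 AFast82a3eax8a.a58
  AFast82a3eax8a.a59 AFast82a3eax8a.a60 AFast82a3eax8a.a61 AFast82a3eax8a.a62 AFast82a3eax8a.a63
  AFast82a3eax8a.a64 AFast82a3eax8a.a65 AFast82a3eax8a.a66 AFast82a3eax8a.a67 AFast82a3eax8a.a68
  AFast82a3eax8a.a69 AFast82a3eax8a.a70 AFast82a3eax8a.a71 AFast82a3eax8a.a72 AFast82a3eax8a.a73
  AFast82a3eax8a.a74 AFast82a3eax8a.a75 AFast82a3eax8a.a76 AFast82a3eax8a.a77 AFast82a3eax8a.a78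
  AFast82a3eax8a.a79 AFast82a3eax8a.a80 AFast82a3eax8a.a81 AFast82a3eax8a.a82 AFast82a3eax8a.a83
  AFast82a3eax8a.a84 AFast82a3eax8a.a85 AFast82a3eax8a.a86 AFast82a3eax8a.a87 AFast82a3eax8a.a88
  AFast82a3eax8a.a89 AFast82a3eax8a.a90 AFast82a3eax8a.a91 AFast82a3eax8a.a92 AFast82a3eax8a.a93
namespace AFast82a3eax8b
theorem a0 {x1 : ℕ} : IsManifold (modelWithCornersSelf ℝ (Fin x1 → ℂ)) (↑⊤) (Fin x1 → ℂ) := inferInstance
theorem a1 : IsManifold (modelWithCornersSelf ℂ Vale.Agent.P290.C2) (minSmoothness ℂ 2) Vale.Agent.P290.C2 := inferInstance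
theorem a2 : IsManifold (modelWithCornersSelf ℂ Vale.Agent.P290.C2) 1 Vale.Agent.P290.C2 := inferInstance
theorem a3 : IsManifold (modelWithCornersSelf ℂ Vale.Agent.P290.C2) (minSmoothness ℂ 1) Vale.Agent.P290.C2 := inferInstance
theorem a4 : IsManifold (modelWithCornersSelf ℂ Vale.Agent.P290.C2) (minSmoothness ℂ 3) Vale.Agent.P290.C2 := inferInstance
theorem a5 {x1 : Type} [x2 : NormedAddCommGroup x1] [x3 : NormedSpace ℂ x1] : ContinuousSMul ℂ (x1 × (Fin 3 → ℂ)) := inferInstance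
end AFast82a3eax8b
attribute [local instance] AFast82a3eax8b.a0 AFast82a3eax8b.a1 AFast82a3eax8b.a2 AFast82a3eax8b.a3
  AFast82a3eax8b.a4 AFast82a3eax8b.a5
section

section

open Set Filter Metric
open scoped Topology

namespace Vale.Agent.P290

variable {V : Type} [NormedAddCommGroup V] [NormedSpace ℂ V]

omit [NormedSpace ℂ V] in
theorem ev_ev_nhdsSet {K : Set V} {p : V → Prop} (h : ∀ᶠ z in 𝓝ˢ K, p z) :
    ∀ᶠ z in 𝓝ˢ K, ∀ᶠ y in 𝓝 z, p y := by
  obtain ⟨O, hO, hK, hp⟩ := eventually_nhdsSet_iff_exists.1 h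
  exact eventually_nhdsSet_iff_exists.2
    ⟨O, hO, hK, fun z hz => Filter.mem_of_superset (hO.mem_nhds hz) hp⟩

/-- `θ` solves the multiplicative Cousin problem at the point `z` -/
def CSol {A : Type} (O : A → Set V) (γ : A → A → V → ℂ) (θ : A → V → ℂ) (z : V) : Prop :=
  ∀ a, z ∈ O a →
      DifferentiableAt ℂ (θ a) z ∧ θ a z ≠ 0 ∧ ∀ b, z ∈ O b → θ b z = γ a b z * θ a z

section

variable {A : Type} {O : A → Set V} (hO : ∀ a, IsOpen (O a)) {γ : A → A → V → ℂ}

include hO in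
theorem CSol.twist {θ θ' : A → V → ℂ} {h : V → ℂ} {z : V} (h1 : CSol O γ θ' z)
    (h2 : DifferentiableAt ℂ h z)
    (h3 : ∀ᶠ y in 𝓝 z, ∀ a, y ∈ O a → θ a y = θ' a y * Complex.exp (h y)) :
    CSol O γ θ z := by
  intro a ha
  obtain ⟨d1, d2, d3⟩ := h1 a ha
  have h4 := h3.self_of_nhds
  have h5 : θ a =ᶠ[𝓝 z] fun y => θ' a y * Complex.exp (h y) := by
    filter_upwards [h3, (hO a).mem_nhds ha] with y hy hya
    exact hy a hya
  refine ⟨(d1.mul h2.cexp).congr_of_eventuallyEq h5, ?_, ?_⟩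
  · rw [h4 a ha]
    exact mul_ne_zero d2 (Complex.exp_ne_zero _)
  · intro b hb
    rw [h4 a ha, h4 b hb, d3 b hb]
    ring

theorem CSol.ratio {θ θ' : A → V → ℂ} {z : V} (h1 : CSol O γ θ z) (h1' : CSol O γ θ' z)
    {a b : A} (ha : z ∈ O a) (hb : z ∈ O b) : θ b z / θ' b z = θ a z / θ' a z := by
  obtain ⟨-, d2, d3⟩ := h1 a ha
  obtain ⟨-, d2', d3'⟩ := h1' a ha
  have hb2 := (h1 b hb).2.1
  have hg : γ a b z ≠ 0 := by
    intro h
    rw [d3 b hb, h, zero_mul] at hb2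
    exact hb2 rfl
  rw [d3 b hb, d3' b hb, mul_div_mul_left _ _ hg]

include hO in
/-- the quotient of two solutions is an exponential near a compact convex set -/
theorem CSol.exists_exp {K : Set V} (hK : IsCompact K) (hKc : Convex ℝ K)
    (hcov : K ⊆ ⋃ a, O a) {θ θ' : A → V → ℂ} (h1 : ∀ᶠ z in 𝓝ˢ K, CSol O γ θ z)
    (h1' : ∀ᶠ z in 𝓝ˢ K, CSol O γ θ' z) :
    ∃ h : V → ℂ, HolNear K h ∧ ∀ᶠ z in 𝓝ˢ K, ∀ a, z ∈ O a →
      θ' a z = θ a z * Complex.exp (h z) := by
  classical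
  have hev : ∀ᶠ z in 𝓝ˢ K, CSol O γ θ z ∧ CSol O γ θ' z ∧ ∃ a, z ∈ O a := by
    refine h1.and (h1'.and ?_)
    have : (⋃ a, O a) ∈ 𝓝ˢ K := (isOpen_iUnion hO).mem_nhdsSet.2 hcov
    filter_upwards [this] with z hz
    exact mem_iUnion.1 hz
  let ρ : V → ℂ := fun z => if h : ∃ a, z ∈ O a then θ' h.choose z / θ h.choose z else 1
  have hρ : ∀ z a, CSol O γ θ z → CSol O γ θ' z → z ∈ O a → ρ z = θ' a z / θ a z := by
    intro z a hz hz' ha
    have h : ∃ a, z ∈ O a := ⟨a, ha⟩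
    simp only [ρ, dif_pos h]
    exact CSol.ratio hz' hz ha h.choose_spec
  have hρd : HolNear K ρ := by
    filter_upwards [ev_ev_nhdsSet hev] with z hz
    obtain ⟨hz1, hz2, a, ha⟩ := hz.self_of_nhds
    have h5 : ρ =ᶠ[𝓝 z] fun y => θ' a y / θ a y := by
      filter_upwards [hz, (hO a).mem_nhds ha] with y hy hya
      exact hρ y a hy.1 hy.2.1 hya
    refine DifferentiableAt.congr_of_eventuallyEq ?_ h5
    simp only [div_eq_mul_inv]
    have h6 : DifferentiableAt ℂ (fun y => (θ a y)⁻¹) z :=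
      (differentiableAt_inv (hz1 a ha).2.1).comp z (hz1 a ha).1
    exact ((hz2 a ha).1).mul h6
  obtain ⟨h, hh, hexp⟩ := exists_log hK hKc hρd (by
    intro z hz
    obtain ⟨hz1, hz2, a, ha⟩ := (eventually_nhdsSet_iff_forall.1 hev z hz).self_of_nhds
    rw [hρ z a hz1 hz2 ha]
    exact div_ne_zero (hz2 a ha).2.1 (hz1 a ha).2.1)
  refine ⟨h, hh, ?_⟩
  filter_upwards [hev, hexp] with z hz hz'
  intro a ha
  rw [← hz', hρ z a hz.1 hz.2.1 ha, mul_div_cancel₀]
  exact (hz.1 a ha).2.1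

end

/-- multiplicative Cousin problem near a good set -/
theorem Good.cousin2' [FiniteDimensional ℂ V] {S : Set V} (hS : Good S) {A : Type} (O : A → Set V)
    (hO : ∀ a, IsOpen (O a)) (hcov : S ⊆ ⋃ a, O a) (γ : A → A → V → ℂ)
    (hγ : ∀ a b, ∀ z ∈ O a ∩ O b, DifferentiableAt ℂ (γ a b) z ∧ γ a b z ≠ 0)
    (hcoc : ∀ a b c, ∀ z ∈ O a ∩ O b ∩ O c, γ a c z = γ b c z * γ a b z) :
    ∃ θ : A → V → ℂ, ∀ᶠ z in 𝓝ˢ S, CSol O γ θ z := by
  classical
  refine hS.bisect (fun T => ∃ θ : A → V → ℂ, ∀ᶠ z in 𝓝ˢ T, CSol O γ θ z) ?_ ?_ ?_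
  · exact ⟨fun _ _ => 0, by simp only [nhdsSet_empty, eventually_bot]⟩
  · intro z hz
    obtain ⟨a₀, ha₀⟩ := mem_iUnion.1 (hcov hz)
    refine ⟨O a₀, (hO a₀).mem_nhds ha₀, fun T _ _ hTU => ⟨fun b => γ a₀ b, ?_⟩⟩
    have : O a₀ ∈ 𝓝ˢ T := (hO a₀).mem_nhdsSet.2 hTU
    filter_upwards [this] with y hy
    intro a ha
    refine ⟨(hγ a₀ a y ⟨hy, ha⟩).1, (hγ a₀ a y ⟨hy, ha⟩).2, fun b hb => ?_⟩
    exact hcoc a₀ a b y ⟨⟨hy, ha⟩, hb⟩
  · intro T hT hTS l c hP' hP''
    obtain ⟨θ', hθ'⟩ := hP'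
    obtain ⟨θ'', hθ''⟩ := hP''
    set T' := T ∩ {x | l x ≤ c} with hT'
    set T'' := T ∩ {x | c ≤ l x} with hT''
    have gT' : Good T' := hT.inter_le l c
    have gT'' : Good T'' := hT.inter_ge l c
    have hun : T' ∪ T'' = T := by
      rw [hT', hT'', ← inter_union_distrib_left]
      refine inter_eq_left.2 fun x _ => ?_
      exact le_total (l x) c
    have gi : Good (T' ∩ T'') := ⟨gT'.1.inter gT''.1, gT'.2.inter gT''.2⟩
    have m1 : 𝓝ˢ (T' ∩ T'') ≤ 𝓝ˢ T' := nhdsSet_mono inter_subset_left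
    have m2 : 𝓝ˢ (T' ∩ T'') ≤ 𝓝ˢ T'' := nhdsSet_mono inter_subset_right
    obtain ⟨h, hh, hexp⟩ := CSol.exists_exp hO gi.1 gi.2
      (inter_subset_left.trans (inter_subset_left.trans (hTS.trans hcov)))
      (hθ''.filter_mono m2) (hθ'.filter_mono m1)
    obtain ⟨h', h'', hh', hh'', hhh⟩ := split_convex gT' gT'' (by rw [hun]; exact hT.2) h hh
    let u' : V → A → ℂ := fun z a => if z ∈ O a then θ' a z * Complex.exp (- h' z) else 0
    let u'' : V → A → ℂ := fun z a => if z ∈ O a then θ'' a z * Complex.exp (- h'' z) else 0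
    obtain ⟨u, hu', hu''⟩ := exists_glue gT'.1 gT''.1 u' u'' (by
      filter_upwards [hexp, hhh] with z hz hz'
      funext a
      simp only [u', u'']
      split_ifs with ha
      · rw [hz a ha, hz', mul_assoc, ← Complex.exp_add]
        congr 2
        ring
      · rfl)
    refine ⟨fun a z => u z a, ?_⟩
    rw [← hun, nhdsSet_union, eventually_sup]
    constructor
    · filter_upwards [hθ', hh', ev_ev_nhdsSet hu'] with z h1 h2 h3
      refine h1.twist hO h2.neg ?_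
      filter_upwards [h3] with y hy a ha
      simp only [hy, ha, ↓reduceIte, Pi.neg_apply, u']
    · filter_upwards [hθ'', hh'', ev_ev_nhdsSet hu''] with z h1 h2 h3
      refine h1.twist hO h2.neg ?_
      filter_upwards [h3] with y hy a ha
      simp only [hy, ha, ↓reduceIte, Pi.neg_apply, u'']

/-- multiplicative Cousin problem on the whole space -/
theorem cousin2_global' [FiniteDimensional ℂ V] {A : Type} (O : A → Set V)
    (hO : ∀ a, IsOpen (O a)) (hcov : ∀ z, ∃ a, z ∈ O a) (γ : A → A → V → ℂ)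
    (hγ : ∀ a b, ∀ z ∈ O a ∩ O b, DifferentiableAt ℂ (γ a b) z ∧ γ a b z ≠ 0)
    (hcoc : ∀ a b c, ∀ z ∈ O a ∩ O b ∩ O c, γ a c z = γ b c z * γ a b z) :
    ∃ θ : A → V → ℂ, ∀ z, CSol O γ θ z := by
  classical
  set K : ℕ → Set V := fun n => closedBall 0 n with hK
  have gK : ∀ n, Good (K n) := by
    have : ProperSpace V := FiniteDimensional.proper ℂ V
    exact fun n => ⟨isCompact_closedBall _ _, convex_closedBall _ _⟩
  have hcov' : ∀ T : Set V, T ⊆ ⋃ a, O a := fun T z _ => mem_iUnion.2 (hcov z)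
  have hmono : ∀ {m n : ℕ}, m ≤ n → K m ⊆ K n := fun h =>
    closedBall_subset_closedBall (by exact_mod_cast h)
  choose θ hθ using fun n => (gK n).cousin2' O hO (hcov' _) γ hγ hcoc
  choose h hh hexp using fun n => CSol.exists_exp hO (gK n).1 (gK n).2 (hcov' _) (hθ n)
    ((hθ (n+1)).filter_mono (nhdsSet_mono (hmono n.le_succ)))
  have hpos : ∀ n : ℕ, (0:ℝ) < (1/2)^n := fun n => by (clear * -; positivity)
  choose p hp hpa using fun n => okaWeil (gK n).1 (gK n).2 (hh n) _ (hpos n)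
  -- the tails
  set f : ℕ → V → ℂ := fun k z => h k z - p k z with hf
  have hfb : ∀ k n, n ≤ k → ∀ z ∈ K n, ‖f k z‖ ≤ (1/2)^k := by
    intro k n hnk z hz
    rw [hf, norm_sub_rev]
    exact (hpa k z (hmono hnk hz)).le
  have hfd : ∀ k n, n ≤ k → ∀ z ∈ K n, DifferentiableAt ℂ (f k) z := by
    intro k n hnk z hz
    have h1 := (eventually_nhdsSet_iff_forall.1 (hh k) z (hmono hnk hz)).self_of_nhds
    exact h1.sub (hp k z)
  have hsumm : ∀ n : ℕ, Summable fun k : ℕ => (1/2 : ℝ)^(k + n) := fun n =>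
    (summable_nat_add_iff n).2 (summable_geometric_of_lt_one (by norm_num) (by norm_num))
  set H : ℕ → V → ℂ := fun n z => ∑' k, f (k + n) z with hH
  have hHd : ∀ n : ℕ, DifferentiableOn ℂ (H n) (ball 0 n) := by
    intro n
    have hunif := tendstoUniformlyOn_tsum (f := fun k z => f (k + n) z) (s := ball 0 n)
      (hsumm n) (fun k z hz => hfb (k + n) n (Nat.le_add_left n k) z (ball_subset_closedBall hz))
    refine differentiableOn_of_tendstoLocallyUniformlyOn isOpen_ball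
      hunif.tendstoLocallyUniformlyOn ?_
    refine Eventually.of_forall fun s => ?_
    intro z hz
    refine (DifferentiableAt.fun_sum fun k _ => ?_).differentiableWithinAt
    exact hfd (k + n) n (Nat.le_add_left n k) z (ball_subset_closedBall hz)
  have hHs : ∀ n, ∀ z ∈ K n, H n z = f n z + H (n + 1) z := by
    intro n z hz
    have hs : Summable fun k => f (k + n) z :=
      Summable.of_norm_bounded (hsumm n) (fun k => hfb (k + n) n (Nat.le_add_left n k) z hz)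
    simp only [hH]
    rw [hs.tsum_eq_zero_add]
    congr 1
    · simp
    · refine tsum_congr fun k => ?_
      congr 1
      ring_nf
  set q : ℕ → V → ℂ := fun n z => ∑ k ∈ Finset.range n, p k z with hq
  have hqd : ∀ n, Differentiable ℂ (q n) := fun n z =>
    DifferentiableAt.fun_sum fun k _ => hp k z
  set E : ℕ → V → ℂ := fun n z => H n z - q n z with hE
  have key : ∀ n, ∀ z ∈ K n, ∀ a, z ∈ O a →
      θ (n+1) a z * Complex.exp (E (n+1) z) = θ n a z * Complex.exp (E n z) := by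
    intro n z hz a ha
    have h1 := (eventually_nhdsSet_iff_forall.1 (hexp n) z hz).self_of_nhds a ha
    rw [h1, mul_assoc, ← Complex.exp_add]
    congr 2
    simp only [hE, hq, Finset.sum_range_succ, hHs n z hz, hf]
    ring
  have key2 : ∀ m n, m ≤ n → ∀ z ∈ K m, ∀ a, z ∈ O a →
      θ n a z * Complex.exp (E n z) = θ m a z * Complex.exp (E m z) := by
    intro m n hmn z hz a ha
    induction n, hmn using Nat.le_induction with
    | base => rfl
    | succ n hmn ih =>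
      rw [key n z (hmono hmn hz) a ha, ih]
  refine ⟨fun a z => θ ⌈‖z‖⌉₊ a z * Complex.exp (E ⌈‖z‖⌉₊ z), fun z => ?_⟩
  set n := ⌈‖z‖⌉₊ + 1 with hn
  have hzn : z ∈ ball (0 : V) n := by
    rw [mem_ball_zero_iff, hn]
    push_cast
    have := Nat.le_ceil ‖z‖
    linarith only [this]
  have hs : CSol O γ (θ n) z :=
    (eventually_nhdsSet_iff_forall.1 (hθ n) z (ball_subset_closedBall hzn)).self_of_nhds
  refine hs.twist hO (h := E n) ?_ ?_
  · exact ((hHd n).differentiableAt (isOpen_ball.mem_nhds hzn)).sub (hqd n z)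
  · filter_upwards [isOpen_ball.mem_nhds hzn] with y hy a ha
    symm
    refine key2 _ _ ?_ y ?_ a ha
    · rw [Nat.ceil_le]
      exact (mem_ball_zero_iff.1 hy).le
    · simp only [hK, mem_closedBall_zero_iff]
      exact Nat.le_ceil _

end Vale.Agent.P290
end
end

section

section

open Set Filter Metric
open scoped Topology

namespace Vale.Agent.P290

variable {V : Type} [NormedAddCommGroup V] [NormedSpace ℂ V]

/-- multiplicative Cousin problem near a good set -/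
theorem Good.cousin2 [FiniteDimensional ℂ V] {S : Set V} (hS : Good S) {A : Type} (O : A → Set V)
    (hO : ∀ a, IsOpen (O a)) (hcov : S ⊆ ⋃ a, O a) (γ : A → A → V → ℂ)
    (hγ : ∀ a b, ∀ z ∈ O a ∩ O b, DifferentiableAt ℂ (γ a b) z ∧ γ a b z ≠ 0)
    (hcoc : ∀ a b c, ∀ z ∈ O a ∩ O b ∩ O c, γ a c z = γ b c z * γ a b z) :
    ∃ θ : A → V → ℂ, ∀ᶠ z in 𝓝ˢ S, ∀ a, z ∈ O a →
      DifferentiableAt ℂ (θ a) z ∧ θ a z ≠ 0 ∧ ∀ b, z ∈ O b → θ b z = γ a b z * θ a z :=
  hS.cousin2' O hO hcov γ hγ hcoc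

/-- multiplicative Cousin problem on the whole space -/
theorem cousin2_global [FiniteDimensional ℂ V] {A : Type} (O : A → Set V)
    (hO : ∀ a, IsOpen (O a)) (hcov : ∀ z, ∃ a, z ∈ O a) (γ : A → A → V → ℂ)
    (hγ : ∀ a b, ∀ z ∈ O a ∩ O b, DifferentiableAt ℂ (γ a b) z ∧ γ a b z ≠ 0)
    (hcoc : ∀ a b c, ∀ z ∈ O a ∩ O b ∩ O c, γ a c z = γ b c z * γ a b z) :
    ∃ θ : A → V → ℂ, ∀ z a, z ∈ O a →
      DifferentiableAt ℂ (θ a) z ∧ θ a z ≠ 0 ∧ ∀ b, z ∈ O b → θ b z = γ a b z * θ a z :=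
  cousin2_global' O hO hcov γ hγ hcoc

end Vale.Agent.P290
end
end

section

section

open Set Filter Metric
open scoped Manifold Topology

namespace Vale.Agent.P290

section lemmas

variable {E X V : Type} [NormedAddCommGroup E] [NormedSpace ℂ E] [TopologicalSpace X]
  [ChartedSpace E X] [NormedAddCommGroup V] [NormedSpace ℂ V]
  {L : LineFlow E X} {Q : Set V} {F F' : V → X} {J : Type} {𝓛 : J → LineFlow E X}

/-- trivialisation over good sets -/
theorem exists_triv [FiniteDimensional ℂ V] (L : LineFlow E X) (hQ : Good Q) (hF : MHolNear E Q F) :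
    ∃ θ : L.A → V → ℂ, Sec L Q F θ ∧ ∀ᶠ z in 𝓝ˢ Q, ∀ a, F z ∈ L.U a → θ a z ≠ 0 := by
  obtain ⟨T, hTo, hQT, hT⟩ := mem_nhdsSet_iff_exists.1 hF
  have hFc : ContinuousOn F T := fun z hz => (hT hz).continuousAt.continuousWithinAt
  obtain ⟨θ, hθ⟩ := hQ.cousin2 (fun a => T ∩ F ⁻¹' (L.U a))
    (fun a => hFc.isOpen_inter_preimage hTo (L.isOpen_U a))
    (fun z hz => by
      obtain ⟨a, ha⟩ := L.cover (F z)
      exact mem_iUnion.2 ⟨a, hQT hz, ha⟩)
    (fun a b z => L.γ a b (F z))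
    (fun a b z hz => ⟨L.γ_hol a b V F z (hT hz.1.1) hz.1.2 hz.2.2, L.γ_ne a b _ hz.1.2 hz.2.2⟩)
    (fun a b c z hz => L.γ_coc a b c _ hz.1.1.2 hz.1.2.2 hz.2.2)
  have hTn : ∀ᶠ z in 𝓝ˢ Q, z ∈ T := mem_nhdsSet_iff_exists.2 ⟨T, hTo, hQT, fun x hx => hx⟩
  refine ⟨θ, ?_, ?_⟩
  · filter_upwards [hθ, hTn] with z h1 h2 a ha
    exact ⟨(h1 a ⟨h2, ha⟩).1, fun b hb => (h1 a ⟨h2, ha⟩).2.2 b ⟨h2, hb⟩⟩
  · filter_upwards [hθ, hTn] with z h1 h2 a ha
    exact (h1 a ⟨h2, ha⟩).2.1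

/-- trivialisation over the whole space -/
theorem exists_triv_global [FiniteDimensional ℂ V] (L : LineFlow E X)
    (hF : MDifferentiable 𝓘(ℂ, V) 𝓘(ℂ, E) F) :
    ∃ θ : L.A → V → ℂ, ∀ z a, F z ∈ L.U a → DifferentiableAt ℂ (θ a) z ∧ θ a z ≠ 0 ∧
      ∀ b, F z ∈ L.U b → θ b z = L.γ a b (F z) * θ a z := by
  have hFc : Continuous F := hF.continuous
  exact cousin2_global (fun a => F ⁻¹' (L.U a))
    (fun a => (L.isOpen_U a).preimage hFc)
    (fun z => L.cover (F z))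
    (fun a b z => L.γ a b (F z))
    (fun a b z hz => ⟨L.γ_hol a b V F z (hF z) hz.1 hz.2, L.γ_ne a b _ hz.1 hz.2⟩)
    (fun a b c z hz => L.γ_coc a b c _ hz.1.1 hz.1.2 hz.2)

end lemmas

end Vale.Agent.P290
end
end

section

section

open Set Filter Metric
open scoped Manifold Topology

namespace Vale.Agent.P290

section lemmas

variable {E X V : Type} [NormedAddCommGroup E] [NormedSpace ℂ E] [TopologicalSpace X]
  [ChartedSpace E X] [NormedAddCommGroup V] [NormedSpace ℂ V]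
  {L : LineFlow E X} {Q : Set V} {F F' : V → X} {J : Type} {𝓛 : J → LineFlow E X}

theorem factor_const (x : X) : Factor E Q (fun _ : V => x) :=
  ⟨ℂ, inferInstance, inferInstance, inferInstance, fun _ => x, fun _ => 0,
    mdifferentiable_const, Eventually.of_forall fun _ => differentiableAt_const _,
    EventuallyEq.refl _ _⟩

theorem Factor.congr (hF : Factor E Q F) (h : F =ᶠ[𝓝ˢ Q] F') : Factor E Q F' := by
  obtain ⟨W, i1, i2, i3, Ψ, c, hΨ, hc, hFc⟩ := hF
  exact ⟨W, i1, i2, i3, Ψ, c, hΨ, hc, h.symm.trans hFc⟩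

theorem Factor.mono {Q' : Set V} (hF : Factor E Q F) (h : Q' ⊆ Q) : Factor E Q' F := by
  obtain ⟨W, i1, i2, i3, Ψ, c, hΨ, hc, hFc⟩ := hF
  exact ⟨W, i1, i2, i3, Ψ, c, hΨ, Filter.Eventually.filter_mono (nhdsSet_mono h) hc,
    Filter.Eventually.filter_mono (nhdsSet_mono h) hFc⟩

theorem Factor.move (hF : Factor E Q F) (h : Move L Q F F') : Factor E Q F' := by
  obtain ⟨W, _, _, _, Ψ, c, hΨ, hc, hFc⟩ := hF
  obtain ⟨e, he, hF'⟩ := h
  obtain ⟨θ, hθ⟩ := exists_triv_global L hΨ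
  have hΨn : MHolNear E (univ : Set W) Ψ := Eventually.of_forall hΨ
  have hFhol : MHolNear E Q F := (hΨn.comp hc (mapsTo_univ _ _)).congr hFc.symm
  have hθ0 : Sec L (univ : Set W) Ψ θ :=
    Eventually.of_forall fun y a ha => ⟨(hθ y a ha).1, (hθ y a ha).2.2⟩
  have hθs : Sec L Q F (fun a => θ a ∘ c) :=
    (hθ0.comp hc (mapsTo_univ _ _)).congr hFc.symm
  have hθn : ∀ᶠ z in 𝓝ˢ Q, ∀ a, F z ∈ L.U a → (θ a ∘ c) z ≠ 0 := by
    filter_upwards [hFc] with z hz a ha
    rw [hz] at ha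
    exact (hθ _ a ha).2.1
  obtain ⟨h, hh, hhe⟩ := hθs.div hFhol hθn he
  refine ⟨W × ℂ, inferInstance, inferInstance, inferInstance, sprayMap L Ψ θ,
    fun z => (c z, h z), ?_, ?_, ?_⟩
  · rintro ⟨y, w⟩
    exact sprayMap_mdifferentiableAt
      (Eventually.of_forall fun y a ha => (hθ y a ha).2.2)
      (fun a ha => (hθ y a ha).1) (hΨ y) w
  · filter_upwards [hc, hh] with z h1 h2
    exact h1.prodMk h2
  · filter_upwards [hFc, hF', hhe] with z h1 h2 h3
    have hi := L.idx_mem (F z)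
    rw [h2 _ hi, h3 _ hi]
    have hi' : Ψ (c z) ∈ L.U (L.idx (F z)) := h1 ▸ hi
    rw [sprayMap_eq (fun a ha => (hθ (c z) a ha).2.2) hi' (h z), ← h1]
    rfl

theorem Factor.reach (hF : Factor E Q F) (h : Reach 𝓛 Q F F') : Factor E Q F' := by
  induction h with
  | refl h => exact hF.congr h
  | step j k₁ k₂ ih => exact ih.move k₂

/-- vector valued Oka-Weil theorem -/
theorem okaWeil_vec [FiniteDimensional ℂ V] {W : Type} [NormedAddCommGroup W] [NormedSpace ℂ W]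
    [FiniteDimensional ℂ W] {K : Set V} (hK : IsCompact K) (hKc : Convex ℝ K) {c : V → W}
    (hc : HolNear K c) (ε : ℝ) (hε : 0 < ε) :
    ∃ p : V → W, Differentiable ℂ p ∧ ∀ z ∈ K, ‖p z - c z‖ < ε := by
  let φ : W ≃L[ℂ] (Fin (Module.finrank ℂ W) → ℂ) := ContinuousLinearEquiv.ofFinrankEq (by simp only [Module.finrank_fintype_fun_eq_card, Fintype.card_fin])
  set M : ℝ := ‖(φ.symm : (Fin (Module.finrank ℂ W) → ℂ) →L[ℂ] W)‖ + 1 with hM
  have hMpos : 0 < M := by positivity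
  have hcomp : ∀ k, ∃ p : V → ℂ, Differentiable ℂ p ∧ ∀ z ∈ K, ‖p z - φ (c z) k‖ < ε / M := by
    intro k
    refine okaWeil hK hKc ?_ _ (by positivity)
    filter_upwards [hc] with z hz
    have h1 : DifferentiableAt ℂ (fun z => φ (c z)) z := φ.differentiableAt.comp z hz
    exact (differentiableAt_pi.1 h1) k
  choose p hp hpk using hcomp
  refine ⟨fun z => φ.symm (fun k => p k z), ?_, ?_⟩
  · exact φ.symm.differentiable.comp (differentiable_pi.2 hp)
  · intro z hz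
    have h1 : φ.symm (fun k => p k z) - c z = φ.symm (fun k => p k z - φ (c z) k) := by
      have : (fun k => p k z - φ (c z) k) = (fun k => p k z) - φ (c z) := rfl
      rw [this, map_sub, φ.symm_apply_apply]
    rw [h1]
    have h2 : ‖(fun k => p k z - φ (c z) k)‖ < ε / M := by
      rw [pi_norm_lt_iff (by positivity)]
      exact fun k => hpk k z hz
    calc ‖φ.symm (fun k => p k z - φ (c z) k)‖
        ≤ ‖(φ.symm : (Fin (Module.finrank ℂ W) → ℂ) →L[ℂ] W)‖ * ‖(fun k => p k z - φ (c z) k)‖ :=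
          (φ.symm : (Fin (Module.finrank ℂ W) → ℂ) →L[ℂ] W).le_opNorm _
      _ ≤ M * ‖(fun k => p k z - φ (c z) k)‖ := by
          gcongr; rw [hM]; linarith only []
      _ < M * (ε / M) := by (clear * - h2; gcongr)
      _ = ε := by (clear * - hMpos hε; field_simp)

/-- a factorised map can be approximated by entire maps -/
theorem Factor.approx [FiniteDimensional ℂ V] {K : Set V} (hK : IsCompact K)
    (hKc : Convex ℝ K) (hF : Factor E K F) (d : X → X → ℝ)
    (hd : Continuous (fun p : X × X => d p.1 p.2)) (hd0 : ∀ x, d x x = 0) (ε : ℝ) (hε : 0 < ε) :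
    ∃ G : V → X, MDifferentiable 𝓘(ℂ, V) 𝓘(ℂ, E) G ∧ ∀ z ∈ K, d (G z) (F z) < ε := by
  obtain ⟨W, _, _, _, Ψ, c, hΨ, hc, hFc⟩ := hF
  have hΨc : Continuous Ψ := hΨ.continuous
  have hcK : ContinuousOn c K := fun z hz =>
    (hc.self_of_nhdsSet z hz).continuousAt.continuousWithinAt
  have hcomp : IsCompact ((fun y : W => (y, y)) '' (c '' K)) :=
    (hK.image_of_continuousOn hcK).image (by fun_prop)
  set U : Set (W × W) := {p | d (Ψ p.1) (Ψ p.2) < ε} with hU
  have hUo : IsOpen U := by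
    have : Continuous (fun p : W × W => d (Ψ p.1) (Ψ p.2)) :=
      hd.comp ((hΨc.comp continuous_fst).prodMk (hΨc.comp continuous_snd))
    exact isOpen_lt this continuous_const
  have hsub : (fun y : W => (y, y)) '' (c '' K) ⊆ U := by
    rintro _ ⟨y, -, rfl⟩
    change d (Ψ y) (Ψ y) < ε
    rw [hd0]
    exact hε
  obtain ⟨δ, hδ, hδU⟩ := hcomp.exists_thickening_subset_open hUo hsub
  obtain ⟨p, hp, hpc⟩ := okaWeil_vec hK hKc hc δ hδ
  refine ⟨Ψ ∘ p, ?_, ?_⟩
  · intro z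
    exact (hΨ (p z)).comp z (hp z).mdifferentiableAt
  · intro z hz
    have h1 : (p z, c z) ∈ thickening δ ((fun y : W => (y, y)) '' (c '' K)) := by
      rw [mem_thickening_iff]
      refine ⟨(c z, c z), ⟨c z, ⟨z, hz, rfl⟩, rfl⟩, ?_⟩
      rw [Prod.dist_eq, dist_self, dist_eq_norm]
      exact max_lt (hpc z hz) hδ
    have h2 := hδU h1
    rw [hFc.self_of_nhdsSet hz]
    exact h2

end lemmas

end Vale.Agent.P290
end
end

section

section

open Set Filter Metric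
open scoped Topology

namespace Vale.Agent.P290

variable {V : Type} [NormedAddCommGroup V] [NormedSpace ℂ V]

/-- `u` solves the additive Cousin problem at the point `z` -/
def ASol {A : Type} (O : A → Set V) (c : A → A → V → ℂ) (u : A → V → ℂ) (z : V) : Prop :=
  ∀ a, z ∈ O a → DifferentiableAt ℂ (u a) z ∧ ∀ b, z ∈ O b → u b z = u a z + c a b z

section

variable {A : Type} {O : A → Set V} (hO : ∀ a, IsOpen (O a)) {c : A → A → V → ℂ}

include hO in
theorem ASol.shift {u u' : A → V → ℂ} {h : V → ℂ} {z : V} (h1 : ASol O c u' z)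
    (h2 : DifferentiableAt ℂ h z)
    (h3 : ∀ᶠ y in 𝓝 z, ∀ a, y ∈ O a → u a y = u' a y + h y) :
    ASol O c u z := by
  intro a ha
  obtain ⟨d1, d3⟩ := h1 a ha
  have h4 := h3.self_of_nhds
  have h5 : u a =ᶠ[𝓝 z] fun y => u' a y + h y := by
    filter_upwards [h3, (hO a).mem_nhds ha] with y hy hya
    exact hy a hya
  refine ⟨(d1.add h2).congr_of_eventuallyEq h5, ?_⟩
  intro b hb
  rw [h4 a ha, h4 b hb, d3 b hb]
  ring

include hO in
/-- the difference of two solutions is a holomorphic function -/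
theorem ASol.exists_diff {K : Set V} (hcov : K ⊆ ⋃ a, O a) {u u' : A → V → ℂ}
    (h1 : ∀ᶠ z in 𝓝ˢ K, ASol O c u z) (h1' : ∀ᶠ z in 𝓝ˢ K, ASol O c u' z) :
    ∃ h : V → ℂ, HolNear K h ∧ ∀ᶠ z in 𝓝ˢ K, ∀ a, z ∈ O a → u' a z = u a z + h z := by
  classical
  have hev : ∀ᶠ z in 𝓝ˢ K, ASol O c u z ∧ ASol O c u' z ∧ ∃ a, z ∈ O a := by
    refine h1.and (h1'.and ?_)
    have : (⋃ a, O a) ∈ 𝓝ˢ K := (isOpen_iUnion hO).mem_nhdsSet.2 hcov
    filter_upwards [this] with z hz
    exact mem_iUnion.1 hz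
  let ρ : V → ℂ := fun z => if h : ∃ a, z ∈ O a then u' h.choose z - u h.choose z else 1
  have hρ : ∀ z a, ASol O c u z → ASol O c u' z → z ∈ O a → ρ z = u' a z - u a z := by
    intro z a hz hz' ha
    have h : ∃ a, z ∈ O a := ⟨a, ha⟩
    simp only [ρ, dif_pos h]
    rw [(hz' a ha).2 _ h.choose_spec, (hz a ha).2 _ h.choose_spec]
    ring
  refine ⟨ρ, ?_, ?_⟩
  · filter_upwards [ev_ev_nhdsSet hev] with z hz
    obtain ⟨hz1, hz2, a, ha⟩ := hz.self_of_nhds
    have h5 : ρ =ᶠ[𝓝 z] fun y => u' a y - u a y := by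
      filter_upwards [hz, (hO a).mem_nhds ha] with y hy hya
      exact hρ y a hy.1 hy.2.1 hya
    exact ((hz2 a ha).1.sub (hz1 a ha).1).congr_of_eventuallyEq h5
  · filter_upwards [hev] with z hz
    intro a ha
    rw [hρ z a hz.1 hz.2.1 ha]
    ring

end

/-- additive Cousin problem near a good set -/
theorem Good.cousin1' [FiniteDimensional ℂ V] {S : Set V} (hS : Good S) {A : Type} (O : A → Set V)
    (hO : ∀ a, IsOpen (O a)) (hcov : S ⊆ ⋃ a, O a) (c : A → A → V → ℂ)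
    (hc : ∀ a b, ∀ z ∈ O a ∩ O b, DifferentiableAt ℂ (c a b) z)
    (hcoc : ∀ a b d, ∀ z ∈ O a ∩ O b ∩ O d, c a d z = c a b z + c b d z) :
    ∃ u : A → V → ℂ, ∀ᶠ z in 𝓝ˢ S, ASol O c u z := by
  classical
  refine hS.bisect (fun T => ∃ u : A → V → ℂ, ∀ᶠ z in 𝓝ˢ T, ASol O c u z) ?_ ?_ ?_
  · exact ⟨fun _ _ => 0, by simp only [nhdsSet_empty, eventually_bot]⟩
  · intro z hz
    obtain ⟨a₀, ha₀⟩ := mem_iUnion.1 (hcov hz)
    refine ⟨O a₀, (hO a₀).mem_nhds ha₀, fun T _ _ hTU => ⟨fun b => c a₀ b, ?_⟩⟩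
    have : O a₀ ∈ 𝓝ˢ T := (hO a₀).mem_nhdsSet.2 hTU
    filter_upwards [this] with y hy
    intro a ha
    exact ⟨hc a₀ a y ⟨hy, ha⟩, fun b hb => hcoc a₀ a b y ⟨⟨hy, ha⟩, hb⟩⟩
  · intro T hT hTS l r hP' hP''
    obtain ⟨u', hu'⟩ := hP'
    obtain ⟨u'', hu''⟩ := hP''
    set T' := T ∩ {x | l x ≤ r} with hT'
    set T'' := T ∩ {x | r ≤ l x} with hT''
    have gT' : Good T' := hT.inter_le l r
    have gT'' : Good T'' := hT.inter_ge l r
    have hun : T' ∪ T'' = T := by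
      rw [hT', hT'', ← inter_union_distrib_left]
      refine inter_eq_left.2 fun x _ => ?_
      exact le_total (l x) r
    have m1 : 𝓝ˢ (T' ∩ T'') ≤ 𝓝ˢ T' := nhdsSet_mono inter_subset_left
    have m2 : 𝓝ˢ (T' ∩ T'') ≤ 𝓝ˢ T'' := nhdsSet_mono inter_subset_right
    obtain ⟨h, hh, hexp⟩ := ASol.exists_diff hO (K := T' ∩ T'')
      (inter_subset_left.trans (inter_subset_left.trans (hTS.trans hcov)))
      (hu''.filter_mono m2) (hu'.filter_mono m1)
    obtain ⟨h', h'', hh', hh'', hhh⟩ := split_convex gT' gT'' (by rw [hun]; exact hT.2) h hh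
    let v' : V → A → ℂ := fun z a => if z ∈ O a then u' a z + - h' z else 0
    let v'' : V → A → ℂ := fun z a => if z ∈ O a then u'' a z + - h'' z else 0
    obtain ⟨v, hv', hv''⟩ := exists_glue gT'.1 gT''.1 v' v'' (by
      filter_upwards [hexp, hhh] with z hz hz'
      funext a
      simp only [v', v'']
      split_ifs with ha
      · rw [hz a ha, hz']
        ring
      · rfl)
    refine ⟨fun a z => v z a, ?_⟩
    rw [← hun, nhdsSet_union, eventually_sup]
    constructor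
    · filter_upwards [hu', hh', ev_ev_nhdsSet hv'] with z h1 h2 h3
      refine h1.shift hO h2.neg ?_
      filter_upwards [h3] with y hy a ha
      simp only [hy, ha, ↓reduceIte, Pi.neg_apply, v']
    · filter_upwards [hu'', hh'', ev_ev_nhdsSet hv''] with z h1 h2 h3
      refine h1.shift hO h2.neg ?_
      filter_upwards [h3] with y hy a ha
      simp only [hy, ha, ↓reduceIte, Pi.neg_apply, v'']

/-- additive Cousin problem on the whole space -/
theorem cousin1_global' [FiniteDimensional ℂ V] {A : Type} (O : A → Set V)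
    (hO : ∀ a, IsOpen (O a)) (hcov : ∀ z, ∃ a, z ∈ O a) (c : A → A → V → ℂ)
    (hc : ∀ a b, ∀ z ∈ O a ∩ O b, DifferentiableAt ℂ (c a b) z)
    (hcoc : ∀ a b d, ∀ z ∈ O a ∩ O b ∩ O d, c a d z = c a b z + c b d z) :
    ∃ u : A → V → ℂ, ∀ z, ASol O c u z := by
  classical
  set K : ℕ → Set V := fun n => closedBall 0 n with hK
  have gK : ∀ n, Good (K n) := by
    have : ProperSpace V := FiniteDimensional.proper ℂ V
    exact fun n => ⟨isCompact_closedBall _ _, convex_closedBall _ _⟩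
  have hcov' : ∀ T : Set V, T ⊆ ⋃ a, O a := fun T z _ => mem_iUnion.2 (hcov z)
  have hmono : ∀ {m n : ℕ}, m ≤ n → K m ⊆ K n := fun h =>
    closedBall_subset_closedBall (by exact_mod_cast h)
  choose u hu using fun n => (gK n).cousin1' O hO (hcov' _) c hc hcoc
  choose h hh hexp using fun n => ASol.exists_diff hO (K := K n) (hcov' _) (hu n)
    ((hu (n+1)).filter_mono (nhdsSet_mono (hmono n.le_succ)))
  have hpos : ∀ n : ℕ, (0:ℝ) < (1/2)^n := fun n => by positivity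
  choose p hp hpa using fun n => okaWeil (gK n).1 (gK n).2 (hh n) _ (hpos n)
  -- the tails
  set f : ℕ → V → ℂ := fun k z => h k z - p k z with hf
  have hfb : ∀ k n, n ≤ k → ∀ z ∈ K n, ‖f k z‖ ≤ (1/2)^k := by
    intro k n hnk z hz
    rw [hf, norm_sub_rev]
    exact (hpa k z (hmono hnk hz)).le
  have hfd : ∀ k n, n ≤ k → ∀ z ∈ K n, DifferentiableAt ℂ (f k) z := by
    intro k n hnk z hz
    have h1 := (eventually_nhdsSet_iff_forall.1 (hh k) z (hmono hnk hz)).self_of_nhds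
    exact h1.sub (hp k z)
  have hsumm : ∀ n : ℕ, Summable fun k : ℕ => (1/2 : ℝ)^(k + n) := fun n =>
    (summable_nat_add_iff n).2 (summable_geometric_of_lt_one (by norm_num) (by norm_num))
  set H : ℕ → V → ℂ := fun n z => ∑' k, f (k + n) z with hH
  have hHd : ∀ n : ℕ, DifferentiableOn ℂ (H n) (ball 0 n) := by
    intro n
    have hunif := tendstoUniformlyOn_tsum (f := fun k z => f (k + n) z) (s := ball 0 n)
      (hsumm n) (fun k z hz => hfb (k + n) n (Nat.le_add_left n k) z (ball_subset_closedBall hz))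
    refine differentiableOn_of_tendstoLocallyUniformlyOn isOpen_ball
      hunif.tendstoLocallyUniformlyOn ?_
    refine Eventually.of_forall fun s => ?_
    intro z hz
    refine (DifferentiableAt.fun_sum fun k _ => ?_).differentiableWithinAt
    exact hfd (k + n) n (Nat.le_add_left n k) z (ball_subset_closedBall hz)
  have hHs : ∀ n, ∀ z ∈ K n, H n z = f n z + H (n + 1) z := by
    intro n z hz
    have hs : Summable fun k => f (k + n) z :=
      Summable.of_norm_bounded (hsumm n) (fun k => hfb (k + n) n (Nat.le_add_left n k) z hz)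
    simp only [hH]
    rw [hs.tsum_eq_zero_add]
    congr 1
    · simp
    · refine tsum_congr fun k => ?_
      congr 1
      ring_nf
  set q : ℕ → V → ℂ := fun n z => ∑ k ∈ Finset.range n, p k z with hq
  have hqd : ∀ n, Differentiable ℂ (q n) := fun n z =>
    DifferentiableAt.fun_sum fun k _ => hp k z
  set E : ℕ → V → ℂ := fun n z => H n z - q n z with hE
  have key : ∀ n, ∀ z ∈ K n, ∀ a, z ∈ O a →
      u (n+1) a z + E (n+1) z = u n a z + E n z := by
    intro n z hz a ha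
    have h1 := (eventually_nhdsSet_iff_forall.1 (hexp n) z hz).self_of_nhds a ha
    rw [h1]
    simp only [hE, hHs n z hz, hq, hf, Finset.sum_range_succ]
    ring
  have key2 : ∀ m n, m ≤ n → ∀ z ∈ K m, ∀ a, z ∈ O a →
      u n a z + E n z = u m a z + E m z := by
    intro m n hmn z hz a ha
    induction n, hmn using Nat.le_induction with
    | base => rfl
    | succ n hmn ih =>
      rw [key n z (hmono hmn hz) a ha, ih]
  refine ⟨fun a z => u ⌈‖z‖⌉₊ a z + E ⌈‖z‖⌉₊ z, fun z => ?_⟩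
  set n := ⌈‖z‖⌉₊ + 1 with hn
  have hzn : z ∈ ball (0 : V) n := by
    rw [mem_ball_zero_iff, hn]
    push_cast
    have := Nat.le_ceil ‖z‖
    linarith only [this]
  have hs : ASol O c (u n) z :=
    (eventually_nhdsSet_iff_forall.1 (hu n) z (ball_subset_closedBall hzn)).self_of_nhds
  refine hs.shift hO (h := E n) ?_ ?_
  · exact ((hHd n).differentiableAt (isOpen_ball.mem_nhds hzn)).sub (hqd n z)
  · filter_upwards [isOpen_ball.mem_nhds hzn] with y hy a ha
    symm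
    refine key2 _ _ ?_ y ?_ a ha
    · rw [Nat.ceil_le]
      exact (mem_ball_zero_iff.1 hy).le
    · simp only [hK, mem_closedBall_zero_iff]
      exact Nat.le_ceil _

/-- solution of an affine Cousin problem near a good set -/
theorem Good.cousin_affine [FiniteDimensional ℂ V] {S : Set V} (hS : Good S) {A : Type}
    (O : A → Set V) (hO : ∀ a, IsOpen (O a)) (hcov : S ⊆ ⋃ a, O a) (γ σ : A → A → V → ℂ)
    (hγ : ∀ a b, ∀ z ∈ O a ∩ O b, DifferentiableAt ℂ (γ a b) z ∧ γ a b z ≠ 0)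
    (hσ : ∀ a b, ∀ z ∈ O a ∩ O b, DifferentiableAt ℂ (σ a b) z)
    (hcoc : ∀ a b c, ∀ z ∈ O a ∩ O b ∩ O c, γ a c z = γ b c z * γ a b z)
    (hcoc' : ∀ a b c, ∀ z ∈ O a ∩ O b ∩ O c, σ a c z = γ b c z * σ a b z + σ b c z) :
    ∃ e : A → V → ℂ, ∀ᶠ z in 𝓝ˢ S, ∀ a, z ∈ O a →
      DifferentiableAt ℂ (e a) z ∧ ∀ b, z ∈ O b → e b z = γ a b z * e a z + σ a b z := by
  obtain ⟨θ, hθ⟩ := hS.cousin2' O hO hcov γ hγ hcoc
  -- shrink the cover to an open set on which `θ` is a solution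
  obtain ⟨T, hT, hST, hθT⟩ := eventually_nhdsSet_iff_exists.1 hθ
  set O' : A → Set V := fun a => T ∩ O a with hO'
  have hO'o : ∀ a, IsOpen (O' a) := fun a => hT.inter (hO a)
  obtain ⟨u, hu⟩ := hS.cousin1' O' hO'o (fun z hz => by
      obtain ⟨a, ha⟩ := mem_iUnion.1 (hcov hz)
      exact mem_iUnion.2 ⟨a, hST hz, ha⟩)
    (fun a b z => σ a b z * (θ b z)⁻¹)
    (fun a b z hz => by
      obtain ⟨d1, d2, -⟩ := hθT z hz.2.1 b hz.2.2
      exact (hσ a b z ⟨hz.1.2, hz.2.2⟩).mul (d1.inv d2))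
    (fun a b d z hz => by
      obtain ⟨-, d2, d3⟩ := hθT z hz.1.1.1 b hz.1.2.2
      have e2 := (hθT z hz.1.1.1 d hz.2.2).2.1
      have e1 := d3 d hz.2.2
      have hg : γ b d z ≠ 0 := (hγ b d z ⟨hz.1.2.2, hz.2.2⟩).2
      rw [hcoc' a b d z ⟨⟨hz.1.1.2, hz.1.2.2⟩, hz.2.2⟩, e1]
      field_simp)
  refine ⟨fun a z => θ a z * u a z, ?_⟩
  have hTn : ∀ᶠ z in 𝓝ˢ S, z ∈ T := hT.mem_nhdsSet.2 hST
  filter_upwards [hθ, hu, hTn] with z h1 h2 h3 a ha
  obtain ⟨d1, d2, d3⟩ := h1 a ha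
  obtain ⟨u1, u2⟩ := h2 a ⟨h3, ha⟩
  refine ⟨d1.mul u1, fun b hb => ?_⟩
  have e2 := (h1 b hb).2.1
  have e3 := u2 b ⟨h3, hb⟩
  have e4 := d3 b hb
  change θ b z * u b z = γ a b z * (θ a z * u a z) + σ a b z
  rw [e3, ← mul_assoc, ← e4]
  field_simp

/-- solution of an affine Cousin problem on the whole space -/
theorem cousin_affine_global [FiniteDimensional ℂ V] {A : Type}
    (O : A → Set V) (hO : ∀ a, IsOpen (O a)) (hcov : ∀ z, ∃ a, z ∈ O a) (γ σ : A → A → V → ℂ)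
    (hγ : ∀ a b, ∀ z ∈ O a ∩ O b, DifferentiableAt ℂ (γ a b) z ∧ γ a b z ≠ 0)
    (hσ : ∀ a b, ∀ z ∈ O a ∩ O b, DifferentiableAt ℂ (σ a b) z)
    (hcoc : ∀ a b c, ∀ z ∈ O a ∩ O b ∩ O c, γ a c z = γ b c z * γ a b z)
    (hcoc' : ∀ a b c, ∀ z ∈ O a ∩ O b ∩ O c, σ a c z = γ b c z * σ a b z + σ b c z) :
    ∃ e : A → V → ℂ, ∀ z, ∀ a, z ∈ O a →
      DifferentiableAt ℂ (e a) z ∧ ∀ b, z ∈ O b → e b z = γ a b z * e a z + σ a b z := by
  obtain ⟨θ, hθ⟩ := cousin2_global' O hO hcov γ hγ hcoc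
  obtain ⟨u, hu⟩ := cousin1_global' O hO hcov
    (fun a b z => σ a b z * (θ b z)⁻¹)
    (fun a b z hz => by
      obtain ⟨d1, d2, -⟩ := hθ z b hz.2
      exact (hσ a b z ⟨hz.1, hz.2⟩).mul (d1.inv d2))
    (fun a b d z hz => by
      obtain ⟨-, d2, d3⟩ := hθ z b hz.1.2
      have e2 := (hθ z d hz.2).2.1
      have e1 := d3 d hz.2
      have hg : γ b d z ≠ 0 := (hγ b d z ⟨hz.1.2, hz.2⟩).2
      rw [hcoc' a b d z hz, e1]
      field_simp)
  refine ⟨fun a z => θ a z * u a z, ?_⟩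
  intro z a ha
  obtain ⟨d1, d2, d3⟩ := hθ z a ha
  obtain ⟨u1, u2⟩ := hu z a ha
  refine ⟨d1.mul u1, fun b hb => ?_⟩
  have e2 := (hθ z b hb).2.1
  have e3 := u2 b hb
  have e4 := d3 b hb
  change θ b z * u b z = γ a b z * (θ a z * u a z) + σ a b z
  rw [e3, ← mul_assoc, ← e4]
  field_simp

end Vale.Agent.P290
end
end

section

section

open Set Filter Metric
open scoped Manifold Topology

namespace Vale.Agent.P290

section lemmas

variable {E X V : Type} [NormedAddCommGroup E] [NormedSpace ℂ E] [TopologicalSpace X]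
  [ChartedSpace E X] [NormedAddCommGroup V] [NormedSpace ℂ V]
  {L : LineFlow E X} {Q : Set V} {F F' : V → X} {J : Type} {𝓛 : J → LineFlow E X}

theorem holNear_clm' {W : Type} [NormedAddCommGroup W] [NormedSpace ℂ W] (r : V →L[ℂ] W) :
    HolNear Q (fun z => r z) := Eventually.of_forall fun _ => r.differentiableAt

/-- perform a move -/
theorem Sec.exists_move {e : L.A → V → ℂ} (he : Sec L Q F e) :
    ∃ F' : V → X, Move L Q F F' ∧
      ∀ᶠ z in 𝓝ˢ Q, ∀ a, F z ∈ L.U a → F' z = L.φ a (F z) (e a z) := by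
  have key : ∀ᶠ z in 𝓝ˢ Q, ∀ a, F z ∈ L.U a →
      L.φ (L.idx (F z)) (F z) (e (L.idx (F z)) z) = L.φ a (F z) (e a z) := by
    filter_upwards [he] with z hz a ha
    have hi := L.idx_mem (F z)
    rw [L.φ_trans _ a _ _ hi ha, (hz _ hi).2 a ha]
  exact ⟨fun z => L.φ (L.idx (F z)) (F z) (e (L.idx (F z)) z), ⟨e, he, key⟩, key⟩

/-- membership in the sets of the cover is preserved by the flow -/
theorem LineFlow.mem_iff (L : LineFlow E X) {a b : L.A} {x : X} {w : ℂ} (ha : x ∈ L.U a) :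
    L.φ a x w ∈ L.U b ↔ x ∈ L.U b := by
  constructor
  · intro h
    have h1 : x = L.φ a (L.φ a x w) (-w) := by
      rw [L.φ_add _ _ _ _ ha, add_neg_cancel, L.φ_zero _ _ ha]
    rw [h1, L.φ_trans a b _ _ (L.φ_mem _ _ _ ha) h]
    exact L.φ_mem _ _ _ h
  · intro h
    rw [L.φ_trans a b _ _ ha h]
    exact L.φ_mem _ _ _ h

/-- sections along `F` are sections along the moved map -/
theorem Sec.of_move {e t : L.A → V → ℂ} (he : Sec L Q F e)
    (hF' : ∀ᶠ z in 𝓝ˢ Q, ∀ a, F z ∈ L.U a → F' z = L.φ a (F z) (t a z)) : Sec L Q F' e := by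
  filter_upwards [he, hF'] with z h1 h2 a ha
  have hi := L.idx_mem (F z)
  have h3 := h2 _ hi
  have hFa : F z ∈ L.U a := by
    rw [h3] at ha; exact (L.mem_iff hi).1 ha
  refine ⟨(h1 a hFa).1, fun b hb => ?_⟩
  have hFb : F z ∈ L.U b := by
    rw [h3] at hb; exact (L.mem_iff hi).1 hb
  rw [(h1 a hFa).2 b hFb, h2 a hFa, L.γ_inv a b _ _ hFa hFb]

/-- extension of sections -/
theorem exists_sec_ext [FiniteDimensional ℂ V] (hQ : Good Q) (hF : MHolNear E Q F)
    (r : V →L[ℂ] V) (hr : ∀ z, r (r z) = r z) (hrQ : MapsTo r Q Q) {e : L.A → V → ℂ}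
    (he : Sec L Q (F ∘ r) e)
    (her : ∀ᶠ z in 𝓝ˢ Q, ∀ a, F (r z) ∈ L.U a → e a (r z) = e a z) :
    ∃ e' : L.A → V → ℂ, Sec L Q F e' ∧
      ∀ᶠ z in 𝓝ˢ Q, ∀ a, F (r z) ∈ L.U a → e' a (r z) = e a z := by
  obtain ⟨θ, hθ, hθn⟩ := exists_triv L hQ hF
  have hrh : HolNear Q (fun z => r z) := holNear_clm' r
  have hrt : Tendsto (fun z => r z) (𝓝ˢ Q) (𝓝ˢ Q) := hrh.tendsto hrQ
  have hθr : Sec L Q (F ∘ r) (fun a => θ a ∘ r) := hθ.comp hrh hrQ
  have hθrn : ∀ᶠ z in 𝓝ˢ Q, ∀ a, (F ∘ r) z ∈ L.U a → (θ a ∘ r) z ≠ 0 := by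
    filter_upwards [hrt.eventually hθn] with z hz a ha
    exact hz a ha
  obtain ⟨h, hh, hhe⟩ := hθr.div (hF.comp hrh hrQ) hθrn he
  have hhr : HolNear Q (fun z => h (r z)) := by
    filter_upwards [hrt.eventually hh, hrh] with z h1 h2
    exact h1.comp z h2
  refine ⟨fun a z => θ a z * h (r z), hθ.mul hhr, ?_⟩
  filter_upwards [hrt.eventually hhe, her] with z h1 h2 a ha
  have h3 := h1 a (by simpa [hr] using ha)
  simp only [Function.comp, hr] at h3
  rw [hr, ← h3]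
  exact h2 a ha

/-- one step of the composite spray: go with the first flow, move a little with the second one, and
return with the first one -/
theorem conj_step [FiniteDimensional ℂ V] (hQ : Good Q) (i j : J) {G : V → X}
    (hG : MHolNear E Q G) (r : V →L[ℂ] V) (hr : ∀ z, r (r z) = r z) (hrQ : MapsTo r Q Q)
    (ℓ : V →L[ℂ] ℂ) (hℓ : ∀ z, ℓ (r z) = 0) (hGr : ∀ᶠ z in 𝓝ˢ Q, G (r z) = G z)
    {θ : (𝓛 i).A → V → ℂ} (hθ : Sec (𝓛 i) Q G θ)
    (hθr : ∀ᶠ z in 𝓝ˢ Q, ∀ a, G z ∈ (𝓛 i).U a → θ a (r z) = θ a z) (c : ℂ) :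
    ∃ (H : V → X) (e : (𝓛 j).A → V → ℂ) (τ : (𝓛 i).A → V → ℂ), Reach 𝓛 Q G H ∧
      (∀ᶠ z in 𝓝ˢ Q, H (r z) = G z) ∧
      ∀ᶠ z in 𝓝ˢ Q, ∀ a b, G z ∈ (𝓛 i).U a →
        (𝓛 i).φ a (G z) (c * θ a z) ∈ (𝓛 j).U b →
        DifferentiableAt ℂ (e b) z ∧ e b z ≠ 0 ∧
        ((𝓛 j).φ b ((𝓛 i).φ a (G z) (c * θ a z)) (e b z * ℓ z) ∈ (𝓛 i).U a →
          DifferentiableAt ℂ (τ a) z ∧ 
          H z = (𝓛 i).φ a ((𝓛 j).φ b ((𝓛 i).φ a (G z) (c * θ a z)) (e b z * ℓ z)) (-(c * τ a z))) ∧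
        τ a (r z) = θ a z := by
  have hrh : HolNear Q (fun z => r z) := holNear_clm' r
  have hrt : Tendsto (fun z => r z) (𝓝ˢ Q) (𝓝ˢ Q) := hrh.tendsto hrQ
  -- first move
  have hcθ : Sec (𝓛 i) Q G (fun a z => c * θ a z) := by
    filter_upwards [hθ] with z hz a ha
    refine ⟨(hz a ha).1.const_mul c, fun b hb => ?_⟩
    rw [(hz a ha).2 b hb]; ring
  obtain ⟨G₁, hm₁, hG₁⟩ := hcθ.exists_move
  have hG₁h := hm₁.mHolNear hG
  have hG₁r : ∀ᶠ z in 𝓝ˢ Q, G₁ (r z) = G₁ z := by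
    filter_upwards [hG₁, hrt.eventually hG₁, hGr, hθr] with z h1 h2 h3 h4
    have hi := (𝓛 i).idx_mem (G z)
    rw [h1 _ hi, h2 _ (h3 ▸ hi), h3, h4 _ hi]
  -- second move
  obtain ⟨e, he, hen⟩ := exists_triv (𝓛 j) hQ hG₁h
  have heℓ : Sec (𝓛 j) Q G₁ (fun a z => e a z * ℓ z) := he.mul (holNear_clm' ℓ)
  obtain ⟨G₂, hm₂, hG₂⟩ := heℓ.exists_move
  have hG₂h := hm₂.mHolNear hG₁h
  have hG₂r : ∀ᶠ z in 𝓝ˢ Q, G₂ (r z) = G₁ z := by
    filter_upwards [hrt.eventually hG₂, hG₁r] with z h2 h3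
    have hi := (𝓛 j).idx_mem (G₁ (r z))
    rw [h2 _ hi, hℓ, mul_zero, (𝓛 j).φ_zero _ _ hi, h3]
  -- the section for the return
  have hθ₁ : Sec (𝓛 i) Q G₁ θ := hθ.of_move hG₁
  have hθ₂ : Sec (𝓛 i) Q (G₂ ∘ r) θ := by
    refine hθ₁.congr ?_
    filter_upwards [hG₂r] with z hz
    exact hz.symm
  obtain ⟨τ, hτ, hτr⟩ := exists_sec_ext hQ hG₂h r hr hrQ hθ₂ (by
    filter_upwards [hG₂r, hθr, hG₁] with z h1 h2 h3 a ha
    rw [h1] at ha
    refine h2 a ?_
    have hi := (𝓛 i).idx_mem (G z)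
    rw [h3 _ hi] at ha
    exact ((𝓛 i).mem_iff hi).1 ha)
  have hcτ : Sec (𝓛 i) Q G₂ (fun a z => -(c * τ a z)) := by
    filter_upwards [hτ] with z hz a ha
    refine ⟨((hz a ha).1.const_mul c).neg, fun b hb => ?_⟩
    rw [(hz a ha).2 b hb]; ring
  obtain ⟨H, hm₃, hH⟩ := hcτ.exists_move
  refine ⟨H, e, τ, ?_, ?_, ?_⟩
  · exact ((Reach.of_move hm₁).step j hm₂).step i hm₃
  · filter_upwards [hrt.eventually hH, hG₂r, hτr, hG₁] with z h1 h2 h3 h4
    have hi := (𝓛 i).idx_mem (G z)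
    set a := (𝓛 i).idx (G z) with ha
    have h5 : G₁ z ∈ (𝓛 i).U a := by
      rw [h4 _ hi]; exact (𝓛 i).φ_mem _ _ _ hi
    have h6 : G₂ (r z) ∈ (𝓛 i).U a := by rw [h2]; exact h5
    rw [h1 a h6, h2, h3 a h6, h4 a hi, (𝓛 i).φ_add _ _ _ _ hi, add_neg_cancel,
      (𝓛 i).φ_zero _ _ hi]
  · filter_upwards [hH, hG₂, he, hen, hτ, hG₁, hτr, hG₂r] with z k1 k2 k3 k4 k5 k6 k7 k8 a b ha hb
    have h1 := k6 a ha
    rw [← h1] at hb
    refine ⟨(k3 b hb).1, k4 b hb, ?_, ?_⟩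
    · intro hmem
      rw [← h1, ← k2 b hb] at hmem
      refine ⟨(k5 a hmem).1, ?_⟩
      rw [k1 a hmem, ← h1, ← k2 b hb]
    · apply k7 a
      rw [k8, h1]
      exact (𝓛 i).φ_mem _ _ _ ha

end lemmas

end Vale.Agent.P290
end
end

section

section

open Set Filter Metric
open scoped Manifold Topology

namespace Vale.Agent.P290

section lemmas

variable {E X V : Type} [NormedAddCommGroup E] [NormedSpace ℂ E] [TopologicalSpace X]
  [ChartedSpace E X] [NormedAddCommGroup V] [NormedSpace ℂ V]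
  {L : LineFlow E X} {Q : Set V} {F F' : V → X} {J : Type} {𝓛 : J → LineFlow E X}

/-- the curve `s` is obtained from the point `x` as follows: flow with `L` to time `t`, move a little
with `L'` and return with `L` -/
def ConjCurve (L L' : LineFlow E X) (x : X) (c : ℂ) (θ : L.A → ℂ) (s : ℂ → X) : Prop :=
  ∀ a b, x ∈ L.U a → L.φ a x (c * θ a) ∈ L'.U b →
    ∃ e τ : ℂ → ℂ, DifferentiableAt ℂ e 0 ∧ DifferentiableAt ℂ τ 0 ∧ e 0 ≠ 0 ∧ τ 0 = θ a ∧
      ∀ᶠ w in 𝓝 (0 : ℂ), s w = L.φ a (L'.φ b (L.φ a x (c * θ a)) (e w * w)) (-(c * τ w))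

/-- setting one coordinate to zero -/
noncomputable def zeroCoord (V : Type) [NormedAddCommGroup V] [NormedSpace ℂ V] {P : Type}
    [Fintype P] [DecidableEq P] (p : P) : (V × (P → ℂ)) →L[ℂ] (V × (P → ℂ)) :=
  (ContinuousLinearMap.fst ℂ V (P → ℂ)).prod
    ((ContinuousLinearMap.pi fun q => if q = p then 0 else ContinuousLinearMap.proj q).comp
      (ContinuousLinearMap.snd ℂ V (P → ℂ)))

theorem zeroCoord_apply {P : Type} [Fintype P] [DecidableEq P] (p : P) (z : V) (w : P → ℂ) :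
    zeroCoord V p (z, w) = (z, fun q => if q = p then 0 else w q) := by
  refine Prod.ext rfl ?_
  funext q
  change (if q = p then (0 : (P → ℂ) →L[ℂ] ℂ) else ContinuousLinearMap.proj q) w =
    if q = p then 0 else w q
  by_cases h : q = p
  · rw [if_pos h, if_pos h]; rfl
  · rw [if_neg h, if_neg h]; rfl

theorem mem_of_zeroCoord {P : Type} [Fintype P] [DecidableEq P] (p : P) (Q : Set V) :
    MapsTo (zeroCoord V p) (Q ×ˢ closedBall (0 : P → ℂ) 1) (Q ×ˢ closedBall (0 : P → ℂ) 1) := by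
  rintro ⟨z, w⟩ ⟨hz, hw⟩
  rw [zeroCoord_apply]
  refine ⟨hz, ?_⟩
  rw [mem_closedBall_zero_iff] at hw ⊢
  rw [pi_norm_le_iff_of_nonneg zero_le_one]
  intro q
  by_cases hq : q = p
  · simp only [hq, ↓reduceIte, norm_zero, zero_le_one]
  · simp only [hq, if_false]
    exact (norm_le_pi_norm w q).trans hw

/-- composite spray over a good set: one parameter for every piece `p : P` -/
theorem exists_composite [FiniteDimensional ℂ V] {P : Type} [Fintype P] [DecidableEq P]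
    (𝓛 : J → LineFlow E X) (hQ : Good Q) (hF : MHolNear E Q F)
    (θ : ∀ j, (𝓛 j).A → V → ℂ) (hθ : ∀ j, Sec (𝓛 j) Q F (θ j))
    (pi pj : P → J) (pc : P → ℂ) :
    ∃ S : V × (P → ℂ) → X,
      Reach 𝓛 (Q ×ˢ closedBall (0 : P → ℂ) 1) (fun p => F p.1) S ∧
      (∀ᶠ z in 𝓝ˢ Q, S (z, 0) = F z) ∧
      ∀ p, ∀ᶠ z in 𝓝ˢ Q, ConjCurve (𝓛 (pi p)) (𝓛 (pj p)) (F z) (pc p) (fun a => θ (pi p) a z)
        (fun w => S (z, Pi.single p w)) := by
  set B : Set (P → ℂ) := closedBall (0 : P → ℂ) 1 with hB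
  have h0B : (0 : P → ℂ) ∈ B := mem_closedBall_self zero_le_one
  have hQB : Good (Q ×ˢ B) := hQ.prod (good_closedBall_pi 1)
  set Q' := Q ×ˢ B with hQ'
  -- auxiliary maps
  have hfst : HolNear Q' (fun y : V × (P → ℂ) => y.1) :=
    holNear_clm' (ContinuousLinearMap.fst ℂ V (P → ℂ))
  have hfstm : MapsTo (fun y : V × (P → ℂ) => y.1) Q' Q := fun y hy => hy.1
  have hfstt : Tendsto (fun y : V × (P → ℂ) => y.1) (𝓝ˢ Q') (𝓝ˢ Q) := hfst.tendsto hfstm
  have hι : HolNear Q (fun z : V => ((z, 0) : V × (P → ℂ))) := Eventually.of_forall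
    fun z => by fun_prop
  have hιm : MapsTo (fun z : V => ((z, 0) : V × (P → ℂ))) Q Q' := fun z hz => ⟨hz, h0B⟩
  have hιt : Tendsto (fun z : V => ((z, 0) : V × (P → ℂ))) (𝓝ˢ Q) (𝓝ˢ Q') := hι.tendsto hιm
  -- near `(z, 0)` things hold on small `single`s
  have hsingle : ∀ {R : V × (P → ℂ) → Prop} (p : P), (∀ᶠ y in 𝓝ˢ Q', R y) →
      ∀ᶠ z in 𝓝ˢ Q, ∀ᶠ w in 𝓝 (0 : ℂ), R (z, Pi.single p w) := by
    intro R p hR
    have h1 := hιt.eventually (eventually_eventually_nhds' hR)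
    filter_upwards [h1] with z hz
    have h2 : ContinuousAt (fun w : ℂ => ((z, Pi.single p w) : V × (P → ℂ))) 0 := by
      refine continuousAt_const.prodMk ?_
      exact (continuous_single p).continuousAt
    have h3 : Tendsto (fun w : ℂ => ((z, Pi.single p w) : V × (P → ℂ))) (𝓝 0) (𝓝 (z, 0)) := by
      have := h2.tendsto
      simpa only [Pi.single_zero] using this
    exact h3.eventually hz
  set r₀ : (V × (P → ℂ)) →L[ℂ] (V × (P → ℂ)) :=
    (ContinuousLinearMap.inl ℂ V (P → ℂ)).comp (ContinuousLinearMap.fst ℂ V (P → ℂ)) with hr₀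
  have hr₀a : ∀ y : V × (P → ℂ), r₀ y = (y.1, 0) := fun y => by simp [hr₀]
  have hr₀Q : MapsTo r₀ Q' Q' := fun y hy => by rw [hr₀a]; exact ⟨hy.1, h0B⟩
  have hF₀ : MHolNear E Q' (fun y => F y.1) := hF.comp hfst hfstm
  have key : ∀ s : Finset P, ∃ S : V × (P → ℂ) → X,
      Reach 𝓛 Q' (fun p => F p.1) S ∧ (∀ᶠ z in 𝓝ˢ Q, S (z, 0) = F z) ∧
      ∀ p ∈ s, ∀ᶠ z in 𝓝ˢ Q, ConjCurve (𝓛 (pi p)) (𝓛 (pj p)) (F z) (pc p)
        (fun a => θ (pi p) a z) (fun w => S (z, Pi.single p w)) := by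
    intro s
    induction s using Finset.induction_on with
    | empty =>
      exact ⟨fun p => F p.1, Reach.refl (EventuallyEq.refl _ _), Eventually.of_forall fun z => rfl,
        fun p hp => absurd hp (Finset.notMem_empty p)⟩
    | insert p s hps ih =>
      obtain ⟨S, hS, hS0, hSp⟩ := ih
      have hSh : MHolNear E Q' S := hS.mHolNear hF₀
      set r := zeroCoord V p with hr
      have hrr : ∀ y, r (r y) = r y := by
        rintro ⟨z, w⟩
        rw [hr, zeroCoord_apply, zeroCoord_apply]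
        congr 1
        funext q
        by_cases hq : q = p <;> simp [hq]
      have hrQ : MapsTo r Q' Q' := mem_of_zeroCoord p Q
      have hrh : HolNear Q' (fun y => r y) := holNear_clm' r
      have hrt : Tendsto (fun y => r y) (𝓝ˢ Q') (𝓝ˢ Q') := hrh.tendsto hrQ
      have hr1 : ∀ y, (r y).1 = y.1 := by
        rintro ⟨z, w⟩
        rw [hr, zeroCoord_apply]
      set ℓ : (V × (P → ℂ)) →L[ℂ] ℂ :=
        (ContinuousLinearMap.proj p).comp (ContinuousLinearMap.snd ℂ V (P → ℂ)) with hℓ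
      have hℓa : ∀ z w, ℓ (z, w) = w p := fun z w => by simp [hℓ]
      have hℓr : ∀ y, ℓ (r y) = 0 := by
        rintro ⟨z, w⟩
        rw [hr, zeroCoord_apply, hℓa]
        simp
      -- extension of the section
      have hS0' : ∀ᶠ y in 𝓝ˢ Q', S (y.1, 0) = F y.1 := hfstt.eventually hS0
      have hθ1 : Sec (𝓛 (pi p)) Q' (S ∘ r₀) (fun a y => θ (pi p) a y.1) := by
        have h1 : Sec (𝓛 (pi p)) Q' (fun y => F y.1) (fun a y => θ (pi p) a y.1) :=
          (hθ (pi p)).comp hfst hfstm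
        refine h1.congr ?_
        filter_upwards [hS0'] with y hy
        simp only [Function.comp, hr₀a]
        exact hy.symm
      obtain ⟨θ', hθ', hθ'r⟩ := exists_sec_ext hQB hSh r₀ (fun y => by simp [hr₀a]) hr₀Q hθ1
        (Eventually.of_forall fun y a _ => by simp [hr₀a])
      set G : V × (P → ℂ) → X := S ∘ r with hG
      have hGh : MHolNear E Q' G := hSh.comp hrh hrQ
      have hθG : Sec (𝓛 (pi p)) Q' G (fun a => θ' a ∘ r) := hθ'.comp hrh hrQ
      obtain ⟨H, e, τ, hH1, hH2, hH3⟩ := conj_step (𝓛 := 𝓛) hQB (pi p) (pj p) hGh r hrr hrQ ℓ hℓr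
        (Eventually.of_forall fun y => by simp [hG, hrr]) hθG
        (Eventually.of_forall fun y a _ => by simp only [Function.comp_apply, hrr]) (pc p)
      have hrz : ∀ z : V, r (z, 0) = (z, 0) := fun z => by
        rw [hr, zeroCoord_apply]
        congr 1
        funext q
        by_cases hq : q = p <;> simp [hq]
      refine ⟨H, ?_, ?_, ?_⟩
      · have h1 : Reach 𝓛 Q' ((fun p => F p.1) ∘ r) (S ∘ r) := hS.comp hrh hrQ
        have h2 : ((fun p : V × (P → ℂ) => F p.1) ∘ r) = fun p => F p.1 := by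
          funext y; simp [hr1]
        rw [h2] at h1
        exact h1.trans hH1
      · filter_upwards [hιt.eventually hH2, hS0] with z h1 h2
        simp only [hrz, hG, Function.comp] at h1
        rw [h1, h2]
      · intro q hq
        rcases Finset.mem_insert.1 hq with rfl | hqs
        · -- the new piece
          have hrs : ∀ (z : V) (w : ℂ), r (z, Pi.single q w) = (z, 0) := fun z w => by
            rw [hr, zeroCoord_apply]
            congr 1
            funext k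
            by_cases hk : k = q
            · simp [hk]
            · simp [hk]
          have hSt : ∀ᶠ z in 𝓝ˢ Q, MDifferentiableAt 𝓘(ℂ, V × (P → ℂ)) 𝓘(ℂ, E) S (z, 0) :=
            hιt.eventually hSh
          filter_upwards [hsingle q hH3, hιt.eventually hH3, hS0, hιt.eventually hθ'r,
            hιt.eventually hGh, hιt.eventually (hH1.mHolNear hGh)]
            with z k1 k2 k3 k4 k6 k7
          intro a b ha hb
          have hGz : G (z, 0) = F z := by
            simp only [hG, Function.comp, hrz]; exact k3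
          have hGs : ∀ w : ℂ, G (z, Pi.single q w) = F z := fun w => by
            simp only [hG, Function.comp, hrs]; exact k3
          have hθz : (θ' a ∘ r) (z, 0) = θ (pi q) a z := by
            have := k4 a (by simpa [hr₀a, k3] using ha)
            simpa only [Function.comp_apply, hrz, hr₀a] using this
          have hθs : ∀ w : ℂ, (θ' a ∘ r) (z, Pi.single q w) = θ (pi q) a z := fun w => by
            have h1 : (θ' a ∘ r) (z, Pi.single q w) = (θ' a ∘ r) (z, 0) := by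
              simp only [Function.comp, hrs, hrz]
            rw [h1, hθz]
          have hsd : DifferentiableAt ℂ (fun w : ℂ => ((z, Pi.single q w) : V × (P → ℂ))) 0 := by
            refine (differentiableAt_const _).prodMk ?_
            exact (ContinuousLinearMap.single ℂ (fun _ : P => ℂ) q).differentiableAt
          have hz2 := k2 a b (by rw [hGz]; exact ha) (by rw [hGz, hθz]; exact hb)
          rw [hGz, hθz, hℓa] at hz2
          simp only [Pi.zero_apply, mul_zero] at hz2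
          obtain ⟨m1, m2, m3, m4⟩ := hz2
          rw [(𝓛 (pj q)).φ_zero _ _ hb] at m3
          obtain ⟨m5, -⟩ := m3 ((𝓛 (pi q)).φ_mem _ _ _ ha)
          refine ⟨fun w => e b (z, Pi.single q w), fun w => τ a (z, Pi.single q w), ?_, ?_, ?_, ?_,
            ?_⟩
          · exact DifferentiableAt.comp (g := e b) (0 : ℂ) (by simpa only [Pi.single_zero] using m1) hsd
          · exact DifferentiableAt.comp (g := τ a) (0 : ℂ) (by simpa only [Pi.single_zero] using m5) hsd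
          · simpa only [Pi.single_zero, ne_eq] using m2
          · rw [hrz] at m4
            simpa using m4
          · -- eventually the intermediate point is in `U a`
            have hmid : ∀ᶠ w in 𝓝 (0 : ℂ), (𝓛 (pj q)).φ b ((𝓛 (pi q)).φ a (F z)
                (pc q * θ (pi q) a z)) (e b (z, Pi.single q w) * w) ∈ (𝓛 (pi q)).U a := by
              have h1 : MDifferentiableAt 𝓘(ℂ, ℂ) 𝓘(ℂ, E) (fun w : ℂ => (𝓛 (pj q)).φ b
                  ((𝓛 (pi q)).φ a (F z) (pc q * θ (pi q) a z))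
                  (e b (z, Pi.single q w) * w)) 0 := by
                apply (𝓛 (pj q)).φ_hol b ℂ (fun _ => (𝓛 (pi q)).φ a (F z) (pc q * θ (pi q) a z))
                  (fun w => e b (z, Pi.single q w) * w) 0 mdifferentiableAt_const _ hb
                exact (DifferentiableAt.comp (g := e b) (0 : ℂ) (by simpa using m1)
                  hsd).mul differentiableAt_id
              have h2 : (𝓛 (pj q)).φ b ((𝓛 (pi q)).φ a (F z) (pc q * θ (pi q) a z))
                  (e b (z, Pi.single q (0 : ℂ)) * 0) ∈ (𝓛 (pi q)).U a := by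
                rw [mul_zero, (𝓛 (pj q)).φ_zero _ _ hb]
                exact (𝓛 (pi q)).φ_mem _ _ _ ha
              exact h1.continuousAt.eventually (((𝓛 (pi q)).isOpen_U a).mem_nhds h2)
            filter_upwards [k1, hmid] with w hw1 hw2
            have h1 := hw1 a b (by rw [hGs]; exact ha) (by rw [hGs, hθs]; exact hb)
            rw [hGs, hθs, hℓa] at h1
            simp only [Pi.single_eq_same] at h1
            exact (h1.2.2.1 hw2).2
        · -- the old pieces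
          have hqp : q ≠ p := fun h => hps (h ▸ hqs)
          have hrs : ∀ (z : V) (w : ℂ), r (z, Pi.single q w) = (z, Pi.single q w) := fun z w => by
            rw [hr, zeroCoord_apply]
            congr 1
            funext k
            by_cases hk : k = p
            · subst hk; simp [hqp.symm]
            · simp [hk]
          filter_upwards [hSp q hqs, hsingle q hH2] with z k1 k2
          intro a b ha hb
          obtain ⟨e', τ', h1, h2, h3, h4, h5⟩ := k1 a b ha hb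
          refine ⟨e', τ', h1, h2, h3, h4, ?_⟩
          filter_upwards [h5, k2] with w hw1 hw2
          rw [← hw1]
          simp only [hrs, hG, Function.comp] at hw2
          exact hw2
  obtain ⟨S, h1, h2, h3⟩ := key Finset.univ
  exact ⟨S, h1, h2, fun p => h3 p (Finset.mem_univ p)⟩

end lemmas

end Vale.Agent.P290
end
end

section

section

open Set Filter Metric
open scoped Manifold ContDiff Topology

namespace Vale.Agent.P290.K

/-! ### Part C (basics): local logarithms and openness -/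

/-- membership of `PP` does not depend on the choice of the logarithm -/
theorem PP_log_indep {lam : Fin 4 → C2} {σ : SG} {n n' : Fin 4 → ℤ} {a a' : Fin 4 → ℂ}
    (h : Log σ n a) (h' : Log σ n' a') {b : C2} (hp : (σ.1, b + Lm lam a) ∈ PP lam) :
    (σ.1, b + Lm lam a') ∈ PP lam := by
  by_cases h0 : σ.1 = 0
  · obtain ⟨h1, -⟩ := log_unique_zero h h' h0
    rw [h1]
    exact hp
  · have key : ∀ w : ℂ, w ^ 2 = σ.1 → ∀ j : Fin 4 → ℤ,
        w • (b + Lm lam a') ≠ (1 / 2 : ℂ) • lat lam j := by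
      intro w hw j hj
      obtain ⟨m, hm⟩ := log_unique_ne h h' hw
      have hw0 : w ≠ 0 := by
        rintro rfl
        exact h0 (by rw [← hw]; simp)
      have h1 := Lm_pi lam (n - n') m
      have h2 : (fun k => Real.pi * Complex.I * (((n - n') k : ℤ) + 2 * m k : ℂ)) =
          w • (a' + (-1 : ℂ) • a) := by
        funext k
        have h7 := hm k
        simp only [Pi.sub_apply, Int.cast_sub, Pi.smul_apply, Pi.add_apply, smul_eq_mul]
        rw [← h7]
        ring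
      rw [h2, Lm_smul, Lm_add, Lm_smul, lat_sub] at h1
      have h3 : w • (b + Lm lam a) = (1 / 2 : ℂ) • lat lam (j - (n - n') - 2 • m) := by
        rw [lat_sub, lat_sub, lat_sub, two_smul, lat_add]
        linear_combination (norm := module) (1 : ℂ) • hj + (-1 : ℂ) • h1
      by_cases h4 : j - (n - n') - 2 • m = 0
      · rw [h4, lat_zero, smul_zero] at h3
        rcases smul_eq_zero.1 h3 with h5 | h5
        · exact hw0 h5
        · exact hp.1 h5
      · exact hp.2 w hw _ h4 h3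
    refine ⟨fun h1 => ?_, fun w hw j _ => key w hw j⟩
    obtain ⟨w, hw⟩ : ∃ w : ℂ, w ^ 2 = σ.1 := IsAlgClosed.exists_pow_nat_eq _ two_pos
    refine key w hw 0 ?_
    rw [lat_zero, smul_zero]
    have h2 : b + Lm lam a' = 0 := h1
    rw [h2, smul_zero]

/-- with any logarithm, avoidance is membership of `PP` -/
theorem avoid_iff_of_log {lam : Fin 4 → C2} {x : ND} {n : Fin 4 → ℤ} {a : Fin 4 → ℂ}
    (h : Log x.1 n a) : Avoid lam x ↔ (x.1.1, x.2 + Lm lam a) ∈ PP lam := by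
  constructor
  · rintro ⟨n', a', h1, h2⟩
    exact PP_log_indep h1 h h2
  · intro h1
    exact ⟨n, a, h, h1⟩

theorem continuous_seg (lam₀ lam₁ : Fin 4 → C2) : Continuous (seg lam₀ lam₁) := by
  refine continuous_pi fun k => ?_
  have h1 : Continuous fun s : ℝ => ((1 - s : ℝ) : ℂ) :=
    Complex.continuous_ofReal.comp (continuous_const.sub continuous_id)
  exact (h1.smul continuous_const).add (Complex.continuous_ofReal.smul continuous_const)

/-- joint openness of the good set along a segment of lattices -/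
theorem avoid_seg_open (lam₀ lam₁ : Fin 4 → C2) {s : ℝ}
    (hLI : LinearIndependent ℝ (seg lam₀ lam₁ s)) {x : ND} (h : Avoid (seg lam₀ lam₁ s) x) :
    ∀ᶠ p : ℝ × ND in 𝓝 (s, x), Pell p.2.1 → Avoid (seg lam₀ lam₁ p.1) p.2 := by
  have h1 := avoid_open hLI h
  have h2 : ContinuousAt (fun p : ℝ × ND => (seg lam₀ lam₁ p.1, p.2)) (s, x) :=
    (((continuous_seg lam₀ lam₁).comp continuous_fst).prodMk continuous_snd).continuousAt
  exact h2.eventually h1

section
variable {V : Type} [NormedAddCommGroup V] [NormedSpace ℂ V]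

theorem exists_log_near (σ : V → SG) (z₀ : V) (hσ : ∀ᶠ z in 𝓝 z₀, DifferentiableAt ℂ σ z)
    (hP : ∀ᶠ z in 𝓝 z₀, Pell (σ z)) :
    ∃ n : Fin 4 → ℤ, ∃ a : V → Fin 4 → ℂ, (∀ᶠ z in 𝓝 z₀, DifferentiableAt ℂ a z) ∧
      ∀ᶠ z in 𝓝 z₀, Log (σ z) n (a z) := by
  obtain ⟨n, a₀, hl⟩ := exists_log_of_pell hP.self_of_nhds
  obtain ⟨A, -, hAd, hAl⟩ := exists_log_fun hl
  have hσc : ContinuousAt σ z₀ := hσ.self_of_nhds.continuousAt
  refine ⟨n, fun z => A (σ z), ?_, ?_⟩
  · filter_upwards [hσ, hσc.eventually hAd] with z h1 h2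
    exact DifferentiableAt.comp (f := σ) (g := A) z h2 h1
  · filter_upwards [hP, hσc.eventually hAl] with z h1 h2
    exact h2 h1

theorem openOver_OO (lam₀ lam₁ : Fin 4 → C2)
    (hLI : ∀ s ∈ Icc (0 : ℝ) 1, LinearIndependent ℝ (seg lam₀ lam₁ s))
    {U : Set V} (hU : IsOpen U) (σ : V → SG) (hσ : DifferentiableOn ℂ σ U)
    (hP : ∀ z ∈ U, Pell (σ z)) : OpenOver (OO (seg lam₀ lam₁) σ) U := by
  rintro ⟨s, z, b⟩ hx hs hz
  have h1 := avoid_seg_open lam₀ lam₁ (hLI s hs) hx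
  have hσz : ContinuousAt σ z := (hσ.differentiableAt (hU.mem_nhds hz)).continuousAt
  have h2 : ContinuousAt (fun p : ℝ × V × C2 => ((p.1, (σ p.2.1, p.2.2)) : ℝ × ND)) (s, z, b) := by
    refine continuousAt_fst.prodMk (ContinuousAt.prodMk ?_ ?_)
    · exact ContinuousAt.comp (f := fun p : ℝ × V × C2 => p.2.1) (g := σ) hσz
        (continuousAt_snd.fst)
    · exact continuousAt_snd.snd
  have h3 : ∀ᶠ p : ℝ × V × C2 in 𝓝 (s, z, b), p.2.1 ∈ U :=
    continuousAt_snd.fst.eventually (hU.mem_nhds hz)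
  refine mem_nhdsWithin_of_mem_nhds ?_
  filter_upwards [h2.eventually h1, h3] with p h4 h5
  exact h4 (hP _ h5)

end

end Vale.Agent.P290.K
end
end

section

section

open Set Filter Metric
open scoped Manifold ContDiff Topology

namespace Vale.Agent.P290.K

/-! ### Transfer of the approximation property between equivalent lattices -/

theorem appr_transfer {lam lam' : Fin 4 → C2} (T : ND ≃L[ℂ] ND)
    (hP : ∀ x : ND, Pell (T x).1 ↔ Pell x.1)
    (hA : ∀ x : ND, Avoid lam' (T x) ↔ Avoid lam x) (h : Appr lam) : Appr lam' := by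
  intro m K K' hK hK' hne hKK' R hR hPR hAR ε hε
  set M : ℝ := ‖(T : ND →L[ℂ] ND)‖ + 1 with hM
  have hMpos : 0 < M := by positivity
  have hR1 : HolNear K (fun z => T.symm (R z)) := by
    filter_upwards [hR] with z hz
    exact T.symm.differentiableAt.comp z hz
  obtain ⟨R', h1, h2, h3, h4⟩ := h m K K' hK hK' hne hKK' (fun z => T.symm (R z)) hR1
    (by
      filter_upwards [hPR] with z hz
      rw [← hP, T.apply_symm_apply]
      exact hz)
    (fun z hz => by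
      rw [← hA, T.apply_symm_apply]
      exact hAR z hz) (ε / M) (by (clear * - hε; positivity))
  refine ⟨fun z => T (R' z), ?_, ?_, fun z hz => (hA _).2 (h3 z hz), fun z hz => ?_⟩
  · filter_upwards [h1] with z hz
    exact T.differentiableAt.comp z hz
  · filter_upwards [h2] with z hz
    exact (hP _).2 hz
  · have e1 : T (R' z) - R z = T (R' z - T.symm (R z)) := by
      rw [map_sub, T.apply_symm_apply]
    rw [e1]
    calc ‖T (R' z - T.symm (R z))‖ ≤ ‖(T : ND →L[ℂ] ND)‖ * ‖R' z - T.symm (R z)‖ :=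
          (T : ND →L[ℂ] ND).le_opNorm _
      _ ≤ M * ‖R' z - T.symm (R z)‖ := by
          gcongr
          rw [hM]
          linarith only []
      _ < M * (ε / M) := by
          gcongr
          exact h4 z hz
      _ = ε := by (clear * - hMpos hε; field_simp)

theorem lat_map (M : C2 →L[ℂ] C2) (lam : Fin 4 → C2) (n : Fin 4 → ℤ) :
    lat (fun k => M (lam k)) n = M (lat lam n) := by
  simp [lat, map_sum]

theorem Lm_map (M : C2 →L[ℂ] C2) (lam : Fin 4 → C2) (a : Fin 4 → ℂ) :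
    Lm (fun k => M (lam k)) a = M (Lm lam a) := by
  simp only [Lm, map_sum, map_smul]

theorem PP_map (M : C2 ≃L[ℂ] C2) (lam : Fin 4 → C2) (s : ℂ) (c : C2) :
    (s, M c) ∈ PP (fun k => M (lam k)) ↔ (s, c) ∈ PP lam := by
  have h1 : ∀ n, lat (fun k => M (lam k)) n = M (lat lam n) := fun n =>
    lat_map (M : C2 →L[ℂ] C2) lam n
  change (M c ≠ 0 ∧ ∀ w : ℂ, w ^ 2 = s → ∀ n : Fin 4 → ℤ, n ≠ 0 →
    w • M c ≠ (1 / 2 : ℂ) • lat (fun k => M (lam k)) n) ↔
    (c ≠ 0 ∧ ∀ w : ℂ, w ^ 2 = s → ∀ n : Fin 4 → ℤ, n ≠ 0 → w • c ≠ (1 / 2 : ℂ) • lat lam n)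
  have h2 : ∀ (w : ℂ) (n : Fin 4 → ℤ), (w • M c ≠ (1 / 2 : ℂ) • lat (fun k => M (lam k)) n) ↔
      (w • c ≠ (1 / 2 : ℂ) • lat lam n) := by
    intro w n
    rw [h1, ← map_smul, ← map_smul]
    exact M.injective.ne_iff
  have h3 : M c ≠ 0 ↔ c ≠ 0 := by simp only [ne_eq, EmbeddingLike.map_eq_zero_iff]
  simp only [h2, h3]

theorem appr_linear (M : C2 ≃L[ℂ] C2) (lam : Fin 4 → C2) (h : Appr lam) :
    Appr (fun k => M (lam k)) := by
  refine appr_transfer ((ContinuousLinearEquiv.refl ℂ SG).prodCongr M) (fun x => Iff.rfl) ?_ h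
  intro x
  have h1 : ∀ a, Lm (fun k => M (lam k)) a = M (Lm lam a) := fun a =>
    Lm_map (M : C2 →L[ℂ] C2) lam a
  have h2 : ∀ a, (x.1.1, M x.2 + Lm (fun k => M (lam k)) a) ∈ PP (fun k => M (lam k)) ↔
      (x.1.1, x.2 + Lm lam a) ∈ PP lam := by
    intro a
    rw [h1, ← map_add]
    exact PP_map M lam _ _
  constructor
  · rintro ⟨n, a, h3, h4⟩
    exact ⟨n, a, h3, (h2 a).1 h4⟩
  · rintro ⟨n, a, h3, h4⟩
    exact ⟨n, a, h3, (h2 a).2 h4⟩

/-- permutation of the Pell data -/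
noncomputable def permL (π : Equiv.Perm (Fin 4)) : ND ≃ₗ[ℂ] ND where
  toFun x := ((x.1.1, fun k => x.1.2.1 (π k), fun k => x.1.2.2 (π k)), x.2)
  invFun x := ((x.1.1, fun k => x.1.2.1 (π.symm k), fun k => x.1.2.2 (π.symm k)), x.2)
  map_add' x y := rfl
  map_smul' c x := rfl
  left_inv x := by simp
  right_inv x := by simp

theorem lat_perm (π : Equiv.Perm (Fin 4)) (lam : Fin 4 → C2) (n : Fin 4 → ℤ) :
    lat (fun k => lam (π k)) (fun k => n (π k)) = lat lam n := by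
  simp only [lat]
  exact Equiv.sum_comp π (fun k => (n k : ℂ) • lam k)

theorem Lm_perm (π : Equiv.Perm (Fin 4)) (lam : Fin 4 → C2) (a : Fin 4 → ℂ) :
    Lm (fun k => lam (π k)) (fun k => a (π k)) = Lm lam a := by
  simp only [Lm]
  exact Equiv.sum_comp π (fun k => (a k / (2 * Real.pi * Complex.I)) • lam k)

theorem PP_perm (π : Equiv.Perm (Fin 4)) (lam : Fin 4 → C2) :
    PP (fun k => lam (π k)) = PP lam := by
  ext x
  change (x.2 ≠ 0 ∧ ∀ w : ℂ, w ^ 2 = x.1 → ∀ n : Fin 4 → ℤ, n ≠ 0 →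
    w • x.2 ≠ (1 / 2 : ℂ) • lat (fun k => lam (π k)) n) ↔
    (x.2 ≠ 0 ∧ ∀ w : ℂ, w ^ 2 = x.1 → ∀ n : Fin 4 → ℤ, n ≠ 0 → w • x.2 ≠ (1 / 2 : ℂ) • lat lam n)
  refine and_congr_right fun _ => ?_
  constructor
  · intro h w hw n hn
    rw [← lat_perm π]
    refine h w hw _ fun h0 => hn ?_
    funext k
    have := congrFun h0 (π.symm k)
    simpa using this
  · intro h w hw n hn
    have h1 : lat (fun k => lam (π k)) n = lat lam (fun k => n (π.symm k)) := by
      have := lat_perm π lam (fun k => n (π.symm k))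
      simpa only [Equiv.symm_apply_apply] using this
    rw [h1]
    refine h w hw _ fun h0 => hn ?_
    funext k
    have := congrFun h0 (π k)
    simpa using this

theorem appr_perm (π : Equiv.Perm (Fin 4)) (lam : Fin 4 → C2) (h : Appr lam) :
    Appr (fun k => lam (π k)) := by
  have hT : ∀ x : ND, (permL π).toContinuousLinearEquiv x =
      ((x.1.1, fun k => x.1.2.1 (π k), fun k => x.1.2.2 (π k)), x.2) := fun _ => rfl
  refine appr_transfer (permL π).toContinuousLinearEquiv ?_ ?_ h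
  · intro x
    rw [hT]
    simp only [Pell]
    constructor
    · intro h k
      have := h (π.symm k)
      simpa only [Equiv.apply_symm_apply] using this
    · intro h k
      exact h (π k)
  · intro x
    rw [hT]
    simp only [Avoid, PP_perm]
    constructor
    · rintro ⟨n, a, h3, h4⟩
      refine ⟨fun k => n (π.symm k), fun k => a (π.symm k), ?_, ?_⟩
      · intro k
        have := h3 (π.symm k)
        simpa only [Equiv.apply_symm_apply] using this
      · rw [← Lm_perm π]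
        simpa using h4
    · rintro ⟨n, a, h3, h4⟩
      refine ⟨fun k => n (π k), fun k => a (π k), fun k => h3 (π k), ?_⟩
      rw [Lm_perm π]
      exact h4

theorem unit_cases (e : ℤˣ) : ((e : ℤ) : ℂ) = 1 ∨ ((e : ℤ) : ℂ) = -1 := by
  rcases Int.units_eq_one_or e with h | h <;> simp [h]

/-- sign changes of the Pell data -/
noncomputable def negL (ε : Fin 4 → ℤˣ) : ND ≃ₗ[ℂ] ND where
  toFun x := ((x.1.1, x.1.2.1, fun k => ((ε k : ℤ) : ℂ) * x.1.2.2 k), x.2)
  invFun x := ((x.1.1, x.1.2.1, fun k => ((ε k : ℤ) : ℂ) * x.1.2.2 k), x.2)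
  map_add' x y := by
    ext <;> simp [mul_add]
  map_smul' c x := by
    ext <;> simp [mul_left_comm]
  left_inv x := by
    ext k <;> simp
    rcases unit_cases (ε k) with h | h <;> rw [h] <;> ring
  right_inv x := by
    ext k <;> simp
    rcases unit_cases (ε k) with h | h <;> rw [h] <;> ring

theorem lat_neg_coord (ε : Fin 4 → ℤˣ) (lam : Fin 4 → C2) (n : Fin 4 → ℤ) :
    lat (fun k => ((ε k : ℤ) : ℂ) • lam k) n = lat lam (fun k => (ε k : ℤ) * n k) := by
  simp only [lat, smul_smul]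
  refine Finset.sum_congr rfl fun k _ => ?_
  push_cast
  rw [mul_comm]

theorem Lm_neg_coord (ε : Fin 4 → ℤˣ) (lam : Fin 4 → C2) (a : Fin 4 → ℂ) :
    Lm (fun k => ((ε k : ℤ) : ℂ) • lam k) (fun k => ((ε k : ℤ) : ℂ) * a k) = Lm lam a := by
  simp only [Lm, smul_smul]
  refine Finset.sum_congr rfl fun k _ => ?_
  congr 1
  rcases unit_cases (ε k) with h | h <;> rw [h] <;> ring

theorem PP_neg_coord (ε : Fin 4 → ℤˣ) (lam : Fin 4 → C2) :
    PP (fun k => ((ε k : ℤ) : ℂ) • lam k) = PP lam := by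
  have hsq : ∀ k, ((ε k : ℤ)) * (ε k : ℤ) = 1 := fun k => by
    rcases Int.units_eq_one_or (ε k) with h | h <;> simp only [h, Units.val_neg, Units.val_one, Int.reduceNeg, mul_neg, mul_one, neg_neg]
  ext x
  change (x.2 ≠ 0 ∧ ∀ w : ℂ, w ^ 2 = x.1 → ∀ n : Fin 4 → ℤ, n ≠ 0 →
    w • x.2 ≠ (1 / 2 : ℂ) • lat (fun k => ((ε k : ℤ) : ℂ) • lam k) n) ↔
    (x.2 ≠ 0 ∧ ∀ w : ℂ, w ^ 2 = x.1 → ∀ n : Fin 4 → ℤ, n ≠ 0 → w • x.2 ≠ (1 / 2 : ℂ) • lat lam n)
  refine and_congr_right fun _ => ?_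
  constructor
  · intro h w hw n hn
    have h1 : lat (fun k => ((ε k : ℤ) : ℂ) • lam k) (fun k => (ε k : ℤ) * n k) = lat lam n := by
      rw [lat_neg_coord]
      congr 1
      funext k
      rw [← mul_assoc, hsq, one_mul]
    rw [← h1]
    refine h w hw _ fun h0 => hn ?_
    funext k
    have := congrFun h0 k
    simpa only [Pi.zero_apply, mul_eq_zero, Units.ne_zero, false_or] using this
  · intro h w hw n hn
    rw [lat_neg_coord]
    refine h w hw _ fun h0 => hn ?_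
    funext k
    have := congrFun h0 k
    simpa only [Pi.zero_apply, mul_eq_zero, Units.ne_zero, false_or] using this

theorem log_neg_coord (ε : Fin 4 → ℤˣ) {σ : SG} {n : Fin 4 → ℤ} {a : Fin 4 → ℂ}
    (h : Log σ n a) : Log (σ.1, σ.2.1, fun k => ((ε k : ℤ) : ℂ) * σ.2.2 k) n
      (fun k => ((ε k : ℤ) : ℂ) * a k) := by
  intro k
  obtain ⟨h1, h2⟩ := h k
  simp only
  rcases unit_cases (ε k) with h | h
  · rw [h, one_mul, one_mul]
    exact ⟨h1, h2⟩
  · rw [h, neg_one_mul, neg_one_mul, Cf_neg, Sf_neg]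
    refine ⟨h1, ?_⟩
    rw [h2]
    ring

theorem appr_neg (ε : Fin 4 → ℤˣ) (lam : Fin 4 → C2) (h : Appr lam) :
    Appr (fun k => ((ε k : ℤ) : ℂ) • lam k) := by
  have hT : ∀ x : ND, (negL ε).toContinuousLinearEquiv x =
      ((x.1.1, x.1.2.1, fun k => ((ε k : ℤ) : ℂ) * x.1.2.2 k), x.2) := fun _ => rfl
  have hsq : ∀ k, ((ε k : ℤ) : ℂ) * ((ε k : ℤ) : ℂ) = 1 := fun k => by
    rcases unit_cases (ε k) with h | h <;> rw [h] <;> ring
  refine appr_transfer (negL ε).toContinuousLinearEquiv ?_ ?_ h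
  · intro x
    rw [hT]
    simp only [Pell]
    refine forall_congr' fun k => ?_
    rw [mul_pow, sq ((ε k : ℤ) : ℂ), hsq, one_mul]
  · intro x
    rw [hT]
    simp only [Avoid, PP_neg_coord]
    constructor
    · rintro ⟨n, a, h3, h4⟩
      refine ⟨n, fun k => ((ε k : ℤ) : ℂ) * a k, ?_, ?_⟩
      · have h5 := log_neg_coord ε h3
        simp only [← mul_assoc, hsq, one_mul] at h5
        exact h5
      · rw [← Lm_neg_coord ε lam]
        simp only [← mul_assoc, hsq, one_mul]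
        exact h4
    · rintro ⟨n, a, h3, h4⟩
      refine ⟨n, fun k => ((ε k : ℤ) : ℂ) * a k, log_neg_coord ε h3, ?_⟩
      rw [Lm_neg_coord ε lam]
      exact h4

end Vale.Agent.P290.K
end
end

section

section

open Set Filter Metric
open scoped Manifold ContDiff Topology

namespace Vale.Agent.P290.K

/-! ### All lattices from one lattice -/

/-- lattices in normal form -/
def nf (u v : C2) : Fin 4 → C2 := ![(1, 0), (0, 1), u, v]

theorem std_eq_nf : std = nf (Complex.I, 0) (0, Complex.I) := rfl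

theorem linearIndependent_nf {u v : C2} (h : u.1.im * v.2.im - u.2.im * v.1.im ≠ 0) :
    LinearIndependent ℝ (nf u v) := by
  rw [Fintype.linearIndependent_iff]
  intro g hg
  simp only [Fin.sum_univ_four, nf, Matrix.cons_val_zero, Matrix.cons_val_one, Matrix.cons_val]
    at hg
  have h1 := congrArg (fun x : C2 => x.1.im) hg
  have h2 := congrArg (fun x : C2 => x.2.im) hg
  have h3 := congrArg (fun x : C2 => x.1.re) hg
  have h4 := congrArg (fun x : C2 => x.2.re) hg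
  simp only [Fin.isValue, Prod.smul_mk, Complex.real_smul, mul_one, smul_zero, Prod.mk_add_mk, add_zero, zero_add, Prod.fst_add, Prod.smul_fst, Complex.add_im, Complex.ofReal_im, Complex.mul_im, Complex.ofReal_re, zero_mul, Prod.fst_zero, Complex.zero_im, Prod.snd_add, Prod.smul_snd, Prod.snd_zero, Complex.add_re, Complex.mul_re, sub_zero, Complex.zero_re] at h1 h2 h3 h4
  have e2 : g 2 = 0 := by
    have : g 2 * (u.1.im * v.2.im - u.2.im * v.1.im) = 0 := by
      linear_combination v.2.im * h1 - v.1.im * h2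
    exact (mul_eq_zero.1 this).resolve_right h
  have e3 : g 3 = 0 := by
    have : g 3 * (u.1.im * v.2.im - u.2.im * v.1.im) = 0 := by
      linear_combination u.1.im * h2 - u.2.im * h1
    exact (mul_eq_zero.1 this).resolve_right h
  rw [e2, e3] at h3 h4
  simp only [Fin.isValue, zero_mul, add_zero] at h3 h4
  intro i
  fin_cases i
  · exact h3
  · exact h4
  · exact e2
  · exact e3

theorem im_det_ne_zero {u v : C2} (h : LinearIndependent ℝ (nf u v)) :
    u.1.im * v.2.im - u.2.im * v.1.im ≠ 0 := by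
  intro h0
  rw [Fintype.linearIndependent_iff] at h
  have key : ∀ a b : ℝ, a * u.1.im + b * v.1.im = 0 → a * u.2.im + b * v.2.im = 0 →
      a = 0 ∧ b = 0 := by
    intro a b h1 h2
    have := h ![-(a * u.1.re + b * v.1.re), -(a * u.2.re + b * v.2.re), a, b] (by
      simp only [nf, Fin.sum_univ_four, Matrix.cons_val_zero, Matrix.cons_val_one, Matrix.cons_val]
      refine Prod.ext (Complex.ext ?_ ?_) (Complex.ext ?_ ?_)
      · simp only [neg_add_rev, Prod.smul_mk, Complex.real_smul, Complex.ofReal_add, Complex.ofReal_neg, Complex.ofReal_mul, mul_one, smul_zero, Prod.mk_add_mk, add_zero, zero_add, Prod.fst_add, Prod.smul_fst, Complex.add_re, Complex.neg_re, Complex.mul_re, Complex.ofReal_re, Complex.ofReal_im, mul_zero, sub_zero, zero_mul, neg_add_cancel_right, neg_add_cancel, Prod.fst_zero, Complex.zero_re]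
      · simpa only [neg_add_rev, Prod.smul_mk, Complex.real_smul, Complex.ofReal_add, Complex.ofReal_neg,     Complex.ofReal_mul, mul_one, smul_zero, Prod.mk_add_mk, add_zero, zero_add, Prod.fst_add, Prod.smul_fst,     Complex.add_im, Complex.neg_im, Complex.mul_im, Complex.ofReal_re, Complex.ofReal_im, mul_zero, zero_mul, neg_zero,     Prod.fst_zero, Complex.zero_im] using h1
      · simp only [neg_add_rev, Prod.smul_mk, Complex.real_smul, Complex.ofReal_add, Complex.ofReal_neg, Complex.ofReal_mul, mul_one, smul_zero, Prod.mk_add_mk, add_zero, zero_add, Prod.snd_add, Prod.smul_snd, Complex.add_re, Complex.neg_re, Complex.mul_re, Complex.ofReal_re, Complex.ofReal_im, mul_zero, sub_zero, zero_mul, neg_add_cancel_right, neg_add_cancel, Prod.snd_zero, Complex.zero_re]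
      · simpa only [neg_add_rev, Prod.smul_mk, Complex.real_smul, Complex.ofReal_add, Complex.ofReal_neg,     Complex.ofReal_mul, mul_one, smul_zero, Prod.mk_add_mk, add_zero, zero_add, Prod.snd_add, Prod.smul_snd,     Complex.add_im, Complex.neg_im, Complex.mul_im, Complex.ofReal_re, Complex.ofReal_im, mul_zero, zero_mul, neg_zero,     Prod.snd_zero, Complex.zero_im] using h2)
    exact ⟨by simpa only [neg_add_rev, Fin.isValue, Matrix.cons_val] using this 2, by simpa only [neg_add_rev, Fin.isValue, Matrix.cons_val] using this 3⟩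
  have k1 := key v.2.im (-u.2.im) (by linear_combination h0) (by ring)
  have k2 := key v.1.im (-u.1.im) (by ring) (by linear_combination -h0)
  have k3 := key 1 0 (by linear_combination -k2.2) (by linear_combination -k1.2)
  exact one_ne_zero k3.1

theorem linearIndependent_std : LinearIndependent ℝ std := by
  rw [std_eq_nf]
  apply linearIndependent_nf
  simp only [Complex.I_im, mul_one, Complex.zero_im, mul_zero, sub_zero, ne_eq, one_ne_zero, not_false_eq_true]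

theorem seg_nf (u v u' v' : C2) (s : ℝ) :
    seg (nf u v) (nf u' v') s =
      nf (((1 - s : ℝ) : ℂ) • u + (s : ℂ) • u') (((1 - s : ℝ) : ℂ) • v + (s : ℂ) • v') := by
  funext k
  fin_cases k
  · refine Prod.ext ?_ ?_ <;> simp only [seg, Complex.ofReal_sub, Complex.ofReal_one, nf, Fin.zero_eta, Fin.isValue, Matrix.cons_val_zero, Prod.smul_mk, smul_eq_mul, mul_one, mul_zero, Prod.mk_add_mk, sub_add_cancel, add_zero, Complex.coe_smul]
  · refine Prod.ext ?_ ?_ <;> simp only [seg, Complex.ofReal_sub, Complex.ofReal_one, nf, Fin.mk_one, Fin.isValue, Matrix.cons_val_one, Matrix.cons_val_zero, Prod.smul_mk, smul_eq_mul, mul_zero, mul_one, Prod.mk_add_mk, add_zero, sub_add_cancel, Complex.coe_smul]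
  · simp only [seg, Complex.ofReal_sub, Complex.ofReal_one, nf, Fin.reduceFinMk, Matrix.cons_val, Complex.coe_smul]
  · simp only [seg, Complex.ofReal_sub, Complex.ofReal_one, nf, Fin.reduceFinMk, Matrix.cons_val, Complex.coe_smul]

/-- the statement proved by path lifting -/
def ApprSeg : Prop :=
  ∀ lam₀ lam₁ : Fin 4 → C2, (∀ s ∈ Icc (0 : ℝ) 1, LinearIndependent ℝ (seg lam₀ lam₁ s)) →
    Appr lam₀ → Appr lam₁

theorem appr_nf_seg (hseg : ApprSeg) {u v u' v' : C2}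
    (h : ∀ s ∈ Icc (0 : ℝ) 1,
      ((1 - s) * u.1.im + s * u'.1.im) * ((1 - s) * v.2.im + s * v'.2.im) -
      ((1 - s) * u.2.im + s * u'.2.im) * ((1 - s) * v.1.im + s * v'.1.im) ≠ 0)
    (h0 : Appr (nf u v)) : Appr (nf u' v') := by
  refine hseg _ _ (fun s hs => ?_) h0
  rw [seg_nf]
  apply linearIndependent_nf
  have := h s hs
  simpa only [Complex.ofReal_sub, Complex.ofReal_one, Complex.coe_smul, Prod.fst_add, Prod.smul_fst,     smul_eq_mul, Complex.real_smul, Complex.add_im, Complex.mul_im, Complex.sub_re, Complex.one_re, Complex.ofReal_re,     Complex.sub_im, Complex.one_im, Complex.ofReal_im, sub_self, zero_mul, add_zero, Prod.snd_add, Prod.smul_snd,     ne_eq] using this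

theorem appr_diag (hseg : ApprSeg) (h : Appr std) {a d : ℝ} (ha : a ≠ 0) (hd : d ≠ 0) :
    Appr (nf ((a : ℂ) * Complex.I, 0) (0, (d : ℂ) * Complex.I)) := by
  have hpos : ∀ {t a : ℝ}, t ∈ Icc (0 : ℝ) 1 → 0 < a → 0 < (1 - t) * 1 + t * a := by
    intro t a ht ha
    rcases ht.1.eq_or_lt with h0 | h0
    · rw [← h0]; simp only [sub_zero, mul_one, zero_mul, add_zero, zero_lt_one]
    · have := mul_pos h0 ha
      linarith only [ht.2, this]
  -- signs
  obtain ⟨ea, hea, ea'⟩ : ∃ e : ℤˣ, 0 < ((e : ℤ) : ℝ) * a ∧ ((e : ℤ) : ℝ) * ((e : ℤ) : ℝ) = 1 := by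
    rcases lt_or_gt_of_ne ha with h | h
    · exact ⟨-1, by simpa only [Units.val_neg, Units.val_one, Int.reduceNeg, Int.cast_neg, Int.cast_one, neg_mul, one_mul,     Left.neg_pos_iff] using h, by simp only [Units.val_neg, Units.val_one, Int.reduceNeg, Int.cast_neg, Int.cast_one, mul_neg, mul_one, neg_neg]⟩
    · exact ⟨1, by simpa only [Units.val_one, Int.cast_one, one_mul] using h, by simp⟩
  obtain ⟨ed, hed, ed'⟩ : ∃ e : ℤˣ, 0 < ((e : ℤ) : ℝ) * d ∧ ((e : ℤ) : ℝ) * ((e : ℤ) : ℝ) = 1 := by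
    rcases lt_or_gt_of_ne hd with h | h
    · exact ⟨-1, by simpa only [Units.val_neg, Units.val_one, Int.reduceNeg, Int.cast_neg, Int.cast_one, neg_mul, one_mul,     Left.neg_pos_iff] using h, by simp only [Units.val_neg, Units.val_one, Int.reduceNeg, Int.cast_neg, Int.cast_one, mul_neg, mul_one, neg_neg]⟩
    · exact ⟨1, by simpa only [Units.val_one, Int.cast_one, one_mul] using h, by simp⟩
  have h1 : Appr (nf ((((ea : ℤ) : ℝ) : ℂ) * Complex.I, 0)
      (0, (((ed : ℤ) : ℝ) : ℂ) * Complex.I)) := by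
    have := appr_neg ![1, 1, ea, ed] std h
    convert this using 1
    funext k
    fin_cases k <;> simp [nf, std]
  refine appr_nf_seg hseg (fun s hs => ?_) h1
  simp only [Complex.im_ofReal_mul, Complex.I_im, mul_one, Complex.zero_im, mul_zero, add_zero, sub_zero]
  have p1 := hpos hs hea
  have p2 := hpos hs hed
  have q1 : ((1 - s) * ((ea : ℤ) : ℝ) + s * a) * ((1 - s) * ((ed : ℤ) : ℝ) + s * d) =
      (((ea : ℤ) : ℝ) * ((ed : ℤ) : ℝ)) * (((1 - s) * 1 + s * (((ea : ℤ) : ℝ) * a)) *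
        ((1 - s) * 1 + s * (((ed : ℤ) : ℝ) * d))) := by
    have r1 : (1 - s) * ((ea : ℤ) : ℝ) + s * a =
        ((ea : ℤ) : ℝ) * ((1 - s) * 1 + s * (((ea : ℤ) : ℝ) * a)) := by
      linear_combination (-s * a) * ea'
    have r2 : (1 - s) * ((ed : ℤ) : ℝ) + s * d =
        ((ed : ℤ) : ℝ) * ((1 - s) * 1 + s * (((ed : ℤ) : ℝ) * d)) := by
      linear_combination (-s * d) * ed'
    rw [r1, r2]
    ring
  rw [q1]
  have n1 : ((ea : ℤ) : ℝ) ≠ 0 := by
    intro h0
    rw [h0] at ea'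
    norm_num at ea'
  have n2 : ((ed : ℤ) : ℝ) ≠ 0 := by
    intro h0
    rw [h0] at ed'
    norm_num at ed'
  exact mul_ne_zero (mul_ne_zero n1 n2) (mul_pos p1 p2).ne'

theorem appr_imag (hseg : ApprSeg) (h : Appr std) {a b c d : ℝ} (hdet : a * d - c * b ≠ 0) :
    Appr (nf ((a : ℂ) * Complex.I, (c : ℂ) * Complex.I) ((b : ℂ) * Complex.I, (d : ℂ) * Complex.I)) := by
  have conv : ∀ {x y t : ℝ}, t ∈ Icc (0 : ℝ) 1 → 0 < x * y → (1 - t ^ 2) * x + t ^ 2 * y ≠ 0 := by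
    intro x y t ht hxy h0
    have ht2 : t ^ 2 ≤ 1 := by linarith only [mul_nonneg (sub_nonneg.2 ht.2) (sub_nonneg.2 ht.2), mul_nonneg (sub_nonneg.2 ht.1) (sub_nonneg.2 ht.2)]
    have hx : x ≠ 0 := by rintro rfl; simp at hxy
    have h1 : (1 - t ^ 2) * (x * x) + t ^ 2 * (x * y) = 0 := by
      linear_combination x * h0
    have h2 : 0 < x * x := mul_self_pos.2 hx
    rcases ht.1.eq_or_lt with h3 | h3
    · rw [← h3] at h1
      norm_num at h1
      exact hx h1
    · have h4 : 0 < t ^ 2 * (x * y) := by (clear * - h3 hxy; positivity)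
      have h5 : 0 ≤ (1 - t ^ 2) * (x * x) := mul_nonneg (by linarith only [ht2]) h2.le
      linarith
  have hsq : 0 < (a * d) * (a * d - c * b) + (-(c * b)) * (a * d - c * b) := by
    have : (a * d) * (a * d - c * b) + (-(c * b)) * (a * d - c * b) = (a * d - c * b) ^ 2 := by ring
    rw [this]
    (clear * - hdet; positivity)
  rcases lt_or_ge 0 ((a * d) * (a * d - c * b)) with hc | hc
  · have had : a * d ≠ 0 := by
      intro h0
      rw [h0] at hc
      simp at hc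
    have ha : a ≠ 0 := left_ne_zero_of_mul had
    have hd : d ≠ 0 := right_ne_zero_of_mul had
    refine appr_nf_seg hseg (fun s hs => ?_) (appr_diag hseg h ha hd)
    simp only [Complex.im_ofReal_mul, Complex.I_im, mul_one, Complex.zero_im,
      mul_zero, zero_add]
    have := conv hs hc
    intro h0
    apply this
    linear_combination h0
  · have hc' : 0 < (-(c * b)) * (a * d - c * b) := by linarith only [hsq, hc]
    have hcb : c * b ≠ 0 := by
      intro h0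
      rw [h0] at hc'
      simp at hc'
    have hc0 : c ≠ 0 := left_ne_zero_of_mul hcb
    have hb0 : b ≠ 0 := right_ne_zero_of_mul hcb
    have h1 : Appr (nf (0, (c : ℂ) * Complex.I) ((b : ℂ) * Complex.I, 0)) := by
      have := appr_perm (Equiv.swap 2 3) _ (appr_diag hseg h hb0 hc0)
      convert this using 1
      funext k
      fin_cases k <;> simp [nf, Equiv.swap_apply_def]
    refine appr_nf_seg hseg (fun s hs => ?_) h1
    simp only [Complex.im_ofReal_mul, Complex.I_im, mul_one, Complex.zero_im,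
      mul_zero, zero_add]
    have := conv hs hc'
    intro h0
    apply this
    linear_combination h0

theorem appr_nf (hseg : ApprSeg) (h : Appr std) {u v : C2}
    (hdet : u.1.im * v.2.im - u.2.im * v.1.im ≠ 0) : Appr (nf u v) := by
  refine appr_nf_seg hseg (fun s hs => ?_) (appr_imag hseg h hdet)
  simp only [Complex.im_ofReal_mul, Complex.I_im, mul_one]
  intro h0
  apply hdet
  linear_combination h0

/-- two members of a basis of a lattice form a complex basis -/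
theorem exists_complex_basis {lam : Fin 4 → C2} (hlam : LinearIndependent ℝ lam) :
    ∃ i j : Fin 4, i ≠ j ∧ (lam i).1 * (lam j).2 - (lam i).2 * (lam j).1 ≠ 0 := by
  by_contra hcon
  push Not at hcon
  have hne : lam 0 ≠ 0 := hlam.ne_zero 0
  have h1 : ∀ j, ∃ c : ℂ, lam j = c • lam 0 := by
    intro j
    by_cases hj : j = 0
    · exact ⟨1, by rw [hj, one_smul]⟩
    · have h2 := hcon 0 j (Ne.symm hj)
      by_cases h3 : (lam 0).1 = 0
      · have h4 : (lam 0).2 ≠ 0 := fun h4 => hne (Prod.ext h3 h4)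
        refine ⟨(lam j).2 / (lam 0).2, Prod.ext ?_ ?_⟩
        · rw [h3, zero_mul, zero_sub, neg_eq_zero] at h2
          simp only [Prod.smul_fst, h3, smul_zero]
          exact (mul_eq_zero.1 h2).resolve_left h4
        · simp only [Prod.smul_snd, smul_eq_mul]
          field_simp
      · refine ⟨(lam j).1 / (lam 0).1, Prod.ext ?_ ?_⟩
        · simp only [Prod.smul_fst, smul_eq_mul]
          (clear * - h3; field_simp)
        · simp only [Prod.smul_snd, smul_eq_mul]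
          field_simp
          linear_combination h2
  choose c hc using h1
  have h2 : LinearIndependent ℝ c := by
    rw [Fintype.linearIndependent_iff] at hlam ⊢
    intro g hg
    apply hlam g
    have h3 : ∑ i, g i • lam i = (∑ i, g i • c i) • lam 0 := by
      rw [Finset.sum_smul]
      refine Finset.sum_congr rfl fun i _ => ?_
      rw [hc i, smul_assoc]
    rw [h3, hg, zero_smul]
  have h3 := h2.fintype_card_le_finrank
  simp only [Fintype.card_fin, Complex.finrank_real_complex, Nat.reduceLeDiff] at h3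

theorem exists_perm {i j : Fin 4} (hij : i ≠ j) :
    ∃ π : Equiv.Perm (Fin 4), π 0 = i ∧ π 1 = j := by
  refine ⟨(Equiv.swap 1 ((Equiv.swap 0 i) j)).trans (Equiv.swap 0 i), ?_, ?_⟩
  · have h1 : (Equiv.swap 0 i) j ≠ 0 := by
      intro h
      rw [Equiv.swap_apply_eq_iff, Equiv.swap_apply_left] at h
      exact hij h.symm
    rw [Equiv.trans_apply, Equiv.swap_apply_of_ne_of_ne (by decide) h1.symm, Equiv.swap_apply_left]
  · rw [Equiv.trans_apply, Equiv.swap_apply_left, Equiv.swap_apply_self]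

/-- the linear automorphism of `ℂ²` with given images of the basis vectors -/
noncomputable def basisEquiv (u v : C2) (h : u.1 * v.2 - u.2 * v.1 ≠ 0) : C2 ≃ₗ[ℂ] C2 where
  toFun z := z.1 • u + z.2 • v
  invFun y := ((y.1 * v.2 - y.2 * v.1) / (u.1 * v.2 - u.2 * v.1),
    (u.1 * y.2 - u.2 * y.1) / (u.1 * v.2 - u.2 * v.1))
  map_add' x y := by
    simp only [Prod.fst_add, Prod.snd_add, add_smul]
    abel
  map_smul' c x := by
    simp only [Prod.smul_fst, Prod.smul_snd, smul_eq_mul, mul_smul, smul_add, RingHom.id_apply]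
  left_inv z := by
    refine Prod.ext ?_ ?_
    · simp only [Prod.fst_add, Prod.snd_add, Prod.smul_fst, Prod.smul_snd, smul_eq_mul]
      rw [div_eq_iff h]
      ring
    · simp only [Prod.fst_add, Prod.snd_add, Prod.smul_fst, Prod.smul_snd, smul_eq_mul]
      rw [div_eq_iff h]
      ring
  right_inv y := by
    refine Prod.ext ?_ ?_
    · simp only [Prod.fst_add, Prod.smul_fst, smul_eq_mul]
      rw [div_mul_eq_mul_div, div_mul_eq_mul_div, ← add_div, div_eq_iff h]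
      ring
    · simp only [Prod.snd_add, Prod.smul_snd, smul_eq_mul]
      rw [div_mul_eq_mul_div, div_mul_eq_mul_div, ← add_div, div_eq_iff h]
      ring

theorem appr_all_of_seg (hseg : ApprSeg) (h : Appr std) (lam : Fin 4 → C2)
    (hlam : LinearIndependent ℝ lam) : Appr lam := by
  obtain ⟨i, j, hij, hdet⟩ := exists_complex_basis hlam
  obtain ⟨π, h0, h1⟩ := exists_perm hij
  set M : C2 ≃L[ℂ] C2 := (basisEquiv (lam i) (lam j) hdet).toContinuousLinearEquiv with hM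
  have hMa : ∀ z : C2, M z = z.1 • lam i + z.2 • lam j := fun z => rfl
  have e : (fun k => lam (π k)) =
      fun k => M (nf (M.symm (lam (π 2))) (M.symm (lam (π 3))) k) := by
    funext k
    fin_cases k
    · change lam (π 0) = M (1, 0)
      rw [hMa, h0]
      simp
    · change lam (π 1) = M (0, 1)
      rw [hMa, h1]
      simp
    · change lam (π 2) = M (M.symm (lam (π 2)))
      rw [M.apply_symm_apply]
    · change lam (π 3) = M (M.symm (lam (π 3)))
      rw [M.apply_symm_apply]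
  have hLI : LinearIndependent ℝ (nf (M.symm (lam (π 2))) (M.symm (lam (π 3)))) := by
    have k1 : LinearIndependent ℝ (fun k => lam (π k)) := hlam.comp π π.injective
    rw [e] at k1
    exact LinearIndependent.of_comp ((M : C2 →ₗ[ℂ] C2).restrictScalars ℝ) k1
  have k2 : Appr (fun k => lam (π k)) := by
    rw [e]
    exact appr_linear M _ (appr_nf hseg h (im_det_ne_zero hLI))
  have k3 := appr_perm π.symm _ k2
  simpa using k3

end Vale.Agent.P290.K
end
end

section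

section

open Set Filter Metric
open scoped Manifold ContDiff Topology

namespace Vale.Agent.P290.K

/-! ### Path lifting implies the transfer of the approximation property -/

/-- path lifting for segments of lattices, `V = ℂᵐ` -/
def LiftSeg : Prop :=
  ∀ (lam₀ lam₁ : Fin 4 → C2), (∀ s ∈ Icc (0 : ℝ) 1, LinearIndependent ℝ (seg lam₀ lam₁ s)) →
    ∀ (m : ℕ) (K K' : Set (Fin m → ℂ)), Good K → Good K' → K ⊆ K' → ∀ σ : (Fin m → ℂ) → SG,
      HolNear K' σ → (∀ᶠ z in 𝓝ˢ K', Pell (σ z)) → Lift (OO (seg lam₀ lam₁) σ) K K'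

theorem seg_rev (lam₀ lam₁ : Fin 4 → C2) (s : ℝ) : seg lam₁ lam₀ (1 - s) = seg lam₀ lam₁ s := by
  funext k
  simp only [seg, sub_sub_cancel]
  rw [add_comm]

theorem seg_zero (lam₀ lam₁ : Fin 4 → C2) : seg lam₀ lam₁ 0 = lam₀ := by
  funext k
  simp [seg]

theorem seg_one (lam₀ lam₁ : Fin 4 → C2) : seg lam₀ lam₁ 1 = lam₁ := by
  funext k
  simp [seg]

theorem apprSeg_of_liftSeg (hL : LiftSeg) : ApprSeg := by
  intro lam₀ lam₁ hLI h m K K' hK hK' hne hKK' R hR hPR hAR ε hε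
  have hLI' : ∀ s ∈ Icc (0 : ℝ) 1, LinearIndependent ℝ (seg lam₁ lam₀ s) := by
    intro s hs
    have := hLI (1 - s) ⟨by linarith only [hs.2], by linarith only [hs.1]⟩
    rwa [seg_rev] at this
  have hσ : HolNear K (fun z => (R z).1) := by
    filter_upwards [hR] with z hz using hz.fst
  have hb : HolNear K (fun z => (R z).2) := by
    filter_upwards [hR] with z hz using hz.snd
  -- transport of `R` to the lattice `lam₀` over `K`
  obtain ⟨β, ⟨⟨U, hU, hKU, hβd, hβc⟩, hβO⟩, hβ0, -⟩ := hL lam₁ lam₀ hLI' m ∅ K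
    ⟨isCompact_empty, convex_empty⟩ hK (empty_subset _) (fun z => (R z).1) hσ hPR
    (fun _ z => (R z).2) ⟨⟨∅, isOpen_empty, subset_rfl, fun s _ z hz => hz.elim,
      by simp only [prod_empty, continuousOn_empty]⟩, fun s _ z hz => hz.elim⟩ (fun z => (R z).2) hb
    (fun z hz => by
      change Avoid (seg lam₁ lam₀ 0) ((R z).1, (R z).2)
      rw [seg_zero]
      exact hAR z hz) (by simp only [EventuallyEq, nhdsSet_empty, eventually_bot]) 1 one_pos
  have h1I : (1 : ℝ) ∈ Icc (0 : ℝ) 1 := ⟨zero_le_one, le_rfl⟩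
  have h0I : (0 : ℝ) ∈ Icc (0 : ℝ) 1 := ⟨le_rfl, zero_le_one⟩
  -- uniform avoidance
  have hRc : ContinuousOn R K := fun z hz =>
    (hR.self_of_nhdsSet z hz).continuousAt.continuousWithinAt
  obtain ⟨δ, hδ, hδA⟩ : ∃ δ > 0, ∀ s ∈ Icc (0 : ℝ) 1, ∀ z ∈ K, ∀ x : ND, Pell x.1 →
      ‖x - ((R z).1, β (1 - s) z)‖ < δ → Avoid (seg lam₀ lam₁ s) x := by
    set T : Set (ℝ × (Fin m → ℂ)) := Icc (0 : ℝ) 1 ×ˢ K with hT
    have hTc : IsCompact T := isCompact_Icc.prod hK.1
    set φ : ℝ × (Fin m → ℂ) → ℝ × ND := fun p => (p.1, ((R p.2).1, β (1 - p.1) p.2)) with hφ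
    have hφc : ContinuousOn φ T := by
      refine continuousOn_fst.prodMk (ContinuousOn.prodMk ?_ ?_)
      · exact (hRc.fst).comp continuousOn_snd fun p hp => hp.2
      · refine hβc.comp (f := fun p : ℝ × (Fin m → ℂ) => (1 - p.1, p.2)) (by fun_prop) ?_
        intro p hp
        exact ⟨⟨by linarith only [hp.1.2], by linarith only [hp.1.1]⟩, hKU hp.2⟩
    have hcomp : IsCompact (φ '' T) := hTc.image_of_continuousOn hφc
    -- the open set of good points
    set W : Set (ℝ × ND) := {p | ∀ᶠ q : ℝ × ND in 𝓝 p, Pell q.2.1 → Avoid (seg lam₀ lam₁ q.1) q.2}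
      with hW
    have hWo : IsOpen W := by
      rw [isOpen_iff_mem_nhds]
      intro p hp
      exact eventually_eventually_nhds.2 hp
    have hsub : φ '' T ⊆ W := by
      rintro _ ⟨⟨s, z⟩, ⟨hs, hz⟩, rfl⟩
      refine avoid_seg_open lam₀ lam₁ (hLI s hs) ?_
      have := hβO (1 - s) ⟨by linarith only [hs.2], by linarith only [hs.1]⟩ z hz
      change Avoid (seg lam₁ lam₀ (1 - s)) ((R z).1, β (1 - s) z) at this
      rwa [seg_rev] at this
    obtain ⟨δ, hδ, hδW⟩ := hcomp.exists_thickening_subset_open hWo hsub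
    refine ⟨δ, hδ, fun s hs z hz x hx hxd => ?_⟩
    have h1 : (s, x) ∈ thickening δ (φ '' T) := by
      rw [mem_thickening_iff]
      refine ⟨φ (s, z), ⟨(s, z), ⟨hs, hz⟩, rfl⟩, ?_⟩
      rw [Prod.dist_eq, dist_self, dist_eq_norm]
      exact max_lt hδ hxd
    exact (hδW h1).self_of_nhds hx
  -- approximation for the lattice `lam₀`
  set ε' : ℝ := min (δ / 2) (ε / 4) with hε'
  have hε'pos : 0 < ε' := lt_min (by (clear * - hδ; positivity)) (by positivity)
  have hR1 : HolNear K (fun z => ((R z).1, β 1 z)) := by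
    filter_upwards [hσ, hU.mem_nhdsSet.2 hKU] with z h1 h2
    exact h1.prodMk ((hβd 1 h1I).differentiableAt (hU.mem_nhds h2))
  obtain ⟨R1, g1, g2, g3, g4⟩ := h m K K' hK hK' hne hKK' (fun z => ((R z).1, β 1 z)) hR1 hPR
    (fun z hz => by
      have := hβO 1 h1I z hz
      change Avoid (seg lam₁ lam₀ 1) ((R z).1, β 1 z) at this
      rwa [seg_one] at this) ε' hε'pos
  -- the path over `K` for the new Pell data
  have hle : 𝓝ˢ K ≤ 𝓝ˢ K' := nhdsSet_mono hKK'
  obtain ⟨U₁, hU₁, hKU₁, hU₁d⟩ := eventually_nhdsSet_iff_exists.1 (g1.filter_mono hle)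
  set γ : ℝ → (Fin m → ℂ) → C2 := fun s z => β (1 - s) z + ((R1 z).2 - β 1 z) with hγ
  have hγpath : IsPath (OO (seg lam₀ lam₁) (fun z => (R1 z).1)) K γ := by
    refine ⟨⟨U ∩ U₁, hU.inter hU₁, subset_inter hKU hKU₁, ?_, ?_⟩, ?_⟩
    · intro s hs z hz
      have h1 : DifferentiableAt ℂ (β (1 - s)) z :=
        (hβd _ ⟨by linarith only [hs.2], by linarith only [hs.1]⟩).differentiableAt (hU.mem_nhds hz.1)
      have h2 : DifferentiableAt ℂ (β 1) z := (hβd 1 h1I).differentiableAt (hU.mem_nhds hz.1)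
      exact (h1.add ((hU₁d z hz.2).snd.sub h2)).differentiableWithinAt
    · refine ContinuousOn.add ?_ (ContinuousOn.sub ?_ ?_)
      · refine hβc.comp (f := fun p : ℝ × (Fin m → ℂ) => (1 - p.1, p.2)) (by fun_prop) ?_
        intro p hp
        exact ⟨⟨by linarith only [hp.1.2], by linarith only [hp.1.1]⟩, hp.2.1⟩
      · intro p hp
        have : ContinuousAt (fun p : ℝ × (Fin m → ℂ) => (R1 p.2).2) p :=
          ContinuousAt.comp (f := fun p : ℝ × (Fin m → ℂ) => p.2) (g := fun z => (R1 z).2)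
            (hU₁d p.2 hp.2.2).continuousAt.snd continuousAt_snd
        exact this.continuousWithinAt
      · refine hβc.comp (f := fun p : ℝ × (Fin m → ℂ) => ((1 : ℝ), p.2)) (by fun_prop) ?_
        intro p hp
        exact ⟨h1I, hp.2.1⟩
    · intro s hs z hz
      refine hδA s hs z hz _ (g2.self_of_nhdsSet z (hKK' hz)) ?_
      have h1 : ((R1 z).1, γ s z) - ((R z).1, β (1 - s) z) = R1 z - ((R z).1, β 1 z) := by
        refine Prod.ext rfl ?_
        simp only [hγ, Prod.snd_sub]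
        abel
      change ‖((R1 z).1, γ s z) - ((R z).1, β (1 - s) z)‖ < δ
      rw [h1]
      calc ‖R1 z - ((R z).1, β 1 z)‖ < ε' := g4 z hz
        _ ≤ δ / 2 := min_le_left _ _
        _ < δ := by linarith only [hδ]
  have hσ1 : HolNear K' (fun z => (R1 z).1) := by
    filter_upwards [g1] with z hz using hz.fst
  have hb1 : HolNear K' (fun z => (R1 z).2) := by
    filter_upwards [g1] with z hz using hz.snd
  obtain ⟨β', ⟨⟨U', hU', hKU', hβ'd, -⟩, hβ'O⟩, -, hβ'c⟩ := hL lam₀ lam₁ hLI m K K' hK hK' hKK'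
    (fun z => (R1 z).1) hσ1 g2 γ hγpath (fun z => (R1 z).2) hb1
    (fun z hz => by
      change Avoid (seg lam₀ lam₁ 0) ((R1 z).1, (R1 z).2)
      rw [seg_zero]
      exact g3 z hz)
    (by
      refine Eventually.of_forall fun z => ?_
      simp only [hγ, sub_zero]
      abel) (ε / 4) (by (clear * - hε; positivity))
  refine ⟨fun z => ((R1 z).1, β' 1 z), ?_, g2, ?_, ?_⟩
  · filter_upwards [hσ1, hU'.mem_nhdsSet.2 hKU'] with z h1 h2
    exact h1.prodMk ((hβ'd 1 h1I).differentiableAt (hU'.mem_nhds h2))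
  · intro z hz
    have := hβ'O 1 h1I z hz
    change Avoid (seg lam₀ lam₁ 1) ((R1 z).1, β' 1 z) at this
    rwa [seg_one] at this
  · intro z hz
    have e0 : β 0 z = (R z).2 := hβ0.self_of_nhdsSet hz
    have e1 := g4 z hz
    have e2 := hβ'c 1 h1I z hz
    simp only [hγ, sub_self, e0] at e2
    have e3 : ε' ≤ ε / 4 := min_le_right _ _
    have e4 : ‖(R1 z).1 - (R z).1‖ ≤ ‖R1 z - ((R z).1, β 1 z)‖ :=
      norm_fst_le (R1 z - ((R z).1, β 1 z))
    have e5 : ‖(R1 z).2 - β 1 z‖ ≤ ‖R1 z - ((R z).1, β 1 z)‖ :=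
      norm_snd_le (R1 z - ((R z).1, β 1 z))
    rw [Prod.norm_def]
    refine max_lt ?_ ?_
    · change ‖(R1 z).1 - (R z).1‖ < ε
      linarith only [e4, e3, e1, hε'pos]
    · change ‖β' 1 z - (R z).2‖ < ε
      have e6 : β' 1 z - (R z).2 = (β' 1 z - ((R z).2 + ((R1 z).2 - β 1 z))) +
          ((R1 z).2 - β 1 z) := by abel
      rw [e6]
      calc _ ≤ ‖β' 1 z - ((R z).2 + ((R1 z).2 - β 1 z))‖ + ‖(R1 z).2 - β 1 z‖ := norm_add_le _ _
        _ < ε / 4 + ε / 4 := by linarith only [e5, e3, e2, e1]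
        _ < ε := by linarith only [e3, hε'pos]

end Vale.Agent.P290.K
end
end

section

section

set_option linter.all false

open Set Filter Metric MeasureTheory
open scoped Topology ENNReal NNReal

namespace Vale.Agent.P290.K

section
variable {V R : Type} [NormedAddCommGroup V] [NormedSpace ℂ V] [FiniteDimensional ℂ V]
  [NormedCommRing R] [NormedAlgebra ℂ R] [CompleteSpace R] [SecondCountableTopology R]
  [MeasurableSpace R] [BorelSpace R]

/-- Cauchy estimate for exponentials. -/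
private theorem wt_cauchy {V : Type} [NormedAddCommGroup V] [NormedSpace ℂ V]
    {z₀ z : V} {r : ℝ} (hr : 0 < r) (hz : z ∈ ball z₀ r) (ξ : V →L[ℂ] ℂ)
    (hfin : wt (closedBall z₀ (2 * r)) ξ ≠ ⊤) :
    Real.exp (ξ z).re * ‖ξ‖ ≤ (wt (closedBall z₀ (2 * r)) ξ).toReal / r := by
  set W := (wt (closedBall z₀ (2 * r)) ξ).toReal with hW
  have hE : 0 < Real.exp (ξ z).re := Real.exp_pos _
  have hW0 : 0 ≤ W := ENNReal.toReal_nonneg
  have key : ∀ u : V, ‖u‖ ≤ r → Real.exp (ξ z).re * ‖ξ u‖ ≤ W := by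
    intro u hu
    obtain ⟨c, hc1, hc2⟩ : ∃ c : ℂ, ‖c‖ = 1 ∧ (ξ (c • u)).re = ‖ξ u‖ := by
      by_cases h0 : ξ u = 0
      · exact ⟨1, norm_one, by simp [h0]⟩
      · have hn : (‖ξ u‖ : ℂ) ≠ 0 := by
          exact_mod_cast (norm_ne_zero_iff.2 h0)
        refine ⟨(starRingEnd ℂ) (ξ u) / ‖ξ u‖, ?_, ?_⟩
        · rw [norm_div, RCLike.norm_conj, Complex.norm_real, norm_norm, div_self]
          exact norm_ne_zero_iff.2 h0
        · rw [map_smul, smul_eq_mul]
          have : (starRingEnd ℂ) (ξ u) / ‖ξ u‖ * ξ u = (‖ξ u‖ : ℂ) := by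
            rw [div_mul_eq_mul_div, mul_comm, Complex.mul_conj, Complex.normSq_eq_norm_sq,
              div_eq_iff hn]
            push_cast
            ring
          rw [this, Complex.ofReal_re]
    have hmem : z + c • u ∈ closedBall z₀ (2 * r) := by
      rw [mem_closedBall, dist_eq_norm]
      rw [mem_ball, dist_eq_norm] at hz
      calc ‖z + c • u - z₀‖ = ‖(z - z₀) + c • u‖ := by congr 1; abel
        _ ≤ ‖z - z₀‖ + ‖c • u‖ := norm_add_le _ _
        _ ≤ r + r := by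
            rw [norm_smul, hc1, one_mul]
            exact add_le_add hz.le hu
        _ = 2 * r := by ring
    have h1 := le_wt hmem ξ
    have h2 : Real.exp (ξ (z + c • u)).re ≤ W := by
      rw [hW]
      exact (ENNReal.ofReal_le_iff_le_toReal hfin).1 h1
    rw [map_add, Complex.add_re, hc2, Real.exp_add] at h2
    have h3 : ‖ξ u‖ ≤ Real.exp ‖ξ u‖ := by
      have := Real.add_one_le_exp ‖ξ u‖
      linarith only [this]
    calc Real.exp (ξ z).re * ‖ξ u‖ ≤ Real.exp (ξ z).re * Real.exp ‖ξ u‖ := by (clear * - h3; gcongr)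
      _ ≤ W := h2
  have h4 : ‖ξ‖ ≤ W / (r * Real.exp (ξ z).re) := by
    refine ContinuousLinearMap.opNorm_le_bound _ (by (clear * - hr; positivity)) fun v => ?_
    by_cases hv : v = 0
    · simp [hv]
    · have hvn : 0 < ‖v‖ := norm_pos_iff.2 hv
      have h5 := key (((r / ‖v‖ : ℝ) : ℂ) • v) (by
        rw [norm_smul, Complex.norm_real, Real.norm_eq_abs, abs_of_pos (by positivity)]
        field_simp
        exact le_refl _)
      rw [map_smul, norm_smul, Complex.norm_real, Real.norm_eq_abs,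
        abs_of_pos (by positivity)] at h5
      rw [div_mul_eq_mul_div, le_div_iff₀ (by positivity)]
      have h6 : Real.exp (ξ z).re * (r / ‖v‖ * ‖ξ v‖) * ‖v‖ ≤ W * ‖v‖ := by gcongr
      have h7 : Real.exp (ξ z).re * (r / ‖v‖ * ‖ξ v‖) * ‖v‖ =
          ‖ξ v‖ * (r * Real.exp (ξ z).re) := by
        field_simp
      linarith only [h7, h6]
  calc Real.exp (ξ z).re * ‖ξ‖ ≤ Real.exp (ξ z).re * (W / (r * Real.exp (ξ z).re)) := by (clear * - h4; gcongr)
    _ = W / r := by field_simp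

theorem EN.differentiableOn {K : Set V} {g : V → R} {M : ℝ≥0} (h : EN K g M) :
    DifferentiableOn ℂ g (interior K) := by
  intro z₀ hz₀
  haveI : ProperSpace V := FiniteDimensional.proper ℂ V
  haveI : ProperSpace (V →L[ℂ] ℂ) := FiniteDimensional.proper ℂ (V →L[ℂ] ℂ)
  obtain ⟨ε, hε, hεK⟩ := Metric.isOpen_iff.1 isOpen_interior z₀ hz₀
  set r : ℝ := ε / 4 with hr
  have hr0 : 0 < r := by positivity
  set B : Set V := closedBall z₀ (2 * r) with hB
  have hBK : B ⊆ K := by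
    refine Subset.trans ?_ (Subset.trans hεK interior_subset)
    exact closedBall_subset_ball (by rw [hr]; linarith only [hr0, hr])
  have hzB : z₀ ∈ B := mem_closedBall_self (by positivity)
  obtain ⟨μ, hμ, hint, hg⟩ := h.mono_set hBK
  have hBc : IsCompact B := isCompact_closedBall _ _
  have hfin : ∀ ξ : V →L[ℂ] ℂ, wt B ξ ≠ ⊤ := fun ξ => (wt_lt_top hBc ξ).ne
  have hball : ball z₀ r ⊆ B := ball_subset_closedBall.trans
    (closedBall_subset_closedBall (by linarith only [hr0]))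
  have hmeas : AEMeasurable (fun p : (V →L[ℂ] ℂ) × R => ‖p.2‖ₑ * wt B p.1) μ :=
    (measurable_snd.enorm.mul ((measurable_wt B).comp measurable_fst)).aemeasurable
  have hbI : Integrable (fun p : (V →L[ℂ] ℂ) × R => (‖p.2‖ₑ * wt B p.1).toReal) μ :=
    integrable_toReal_of_lintegral_ne_top hmeas (ne_top_of_le_ne_top ENNReal.coe_ne_top hint)
  have hder := hasFDerivAt_integral_of_dominated_of_fderiv_le (𝕜 := ℂ) (μ := μ)
    (F := fun (z : V) (p : (V →L[ℂ] ℂ) × R) => Complex.exp (p.1 z) • p.2)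
    (F' := fun (z : V) (p : (V →L[ℂ] ℂ) × R) => Complex.exp (p.1 z) • (p.1.smulRight p.2))
    (x₀ := z₀) (bound := fun p => (1 / r) * (‖p.2‖ₑ * wt B p.1).toReal)
    (ball_mem_nhds z₀ hr0) ?_ (EN.integrable hint hzB) ?_ ?_ (hbI.const_mul _) ?_
  · have hcongr : g =ᶠ[𝓝 z₀] fun z => ∫ p, Complex.exp (p.1 z) • p.2 ∂μ := by
      filter_upwards [ball_mem_nhds z₀ hr0] with z hz
      exact hg z (hball hz)
    exact (hder.congr_of_eventuallyEq hcongr).differentiableAt.differentiableWithinAt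
  · filter_upwards [ball_mem_nhds z₀ hr0] with z hz
    exact (EN.integrable hint (hball hz)).aestronglyMeasurable
  · have hc1 : Continuous fun p : (V →L[ℂ] ℂ) × R => Complex.exp (p.1 z₀) :=
      Complex.continuous_exp.comp
        ((ContinuousLinearMap.apply ℂ ℂ z₀).continuous.comp continuous_fst)
    have hc2 : Continuous fun p : (V →L[ℂ] ℂ) × R => (p.1.smulRight p.2 : V →L[ℂ] R) :=
      (ContinuousLinearMap.smulRightL ℂ V R).continuous₂
    exact (hc1.smul hc2).aestronglyMeasurable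
  · refine Eventually.of_forall fun p z hz => ?_
    have h1 := wt_cauchy hr0 hz p.1 (hfin p.1)
    rw [ENNReal.toReal_mul, toReal_enorm]
    calc ‖Complex.exp (p.1 z) • (p.1.smulRight p.2)‖
        ≤ ‖Complex.exp (p.1 z)‖ * (‖p.1‖ * ‖p.2‖) := by
          rw [norm_smul, ContinuousLinearMap.norm_smulRight_apply]
      _ = (Real.exp (p.1 z).re * ‖p.1‖) * ‖p.2‖ := by rw [Complex.norm_exp]; ring
      _ ≤ ((wt B p.1).toReal / r) * ‖p.2‖ := by (clear * - h1; gcongr)
      _ = 1 / r * (‖p.2‖ * (wt B p.1).toReal) := by ring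
  · refine Eventually.of_forall fun p z _ => ?_
    have h1 : HasFDerivAt (fun z : V => Complex.exp (p.1 z)) (Complex.exp (p.1 z) • p.1) z :=
      p.1.hasFDerivAt.cexp
    have h2 := h1.smul_const p.2
    convert h2 using 1
    ext v
    simp [mul_smul]

end

end Vale.Agent.P290.K
end
end

section

section

set_option linter.all false

open Set Filter Metric MeasureTheory
open scoped Topology ENNReal NNReal

namespace Vale.Agent.P290.K

section kernel

open Vale.Agent.P290.CF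
open scoped Manifold ContDiff

/-- Cauchy-Fantappie kernel of exponential type for a compact convex set, independent of the
holomorphic function. -/
theorem exists_kernel {m : ℕ} (hm : 0 < m) {K W : Set (Fin m → ℂ)} (hK : IsCompact K)
    (hKc : Convex ℝ K) (hW : IsOpen W) (hKW : K ⊆ W) :
    ∃ (Q : (Fin m → ℂ) → (Fin m → ℂ)) (b : (Fin m → ℂ) → ℂ) (c : ℝ), Continuous Q ∧
      Continuous b ∧ HasCompactSupport b ∧ tsupport b ⊆ W ∧ 0 < c ∧
      (∀ w ∈ tsupport b, ∀ z ∈ K, c ≤ (Pf Q z w).re) ∧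
      ∀ g : (Fin m → ℂ) → ℂ, DifferentiableOn ℂ g W → ∀ z ∈ K,
        c0 m * g z = - ∫ p, ker (m - 1) (fun w => b w * g w) (Pf Q z) p ∂(μK m) := by
  classical
  obtain ⟨δ', hδ', hδV⟩ := hK.exists_cthickening_subset_open hW hKW
  set δ := δ' / 3 with hδdef
  have hδ : 0 < δ := by positivity
  set A := cthickening δ K with hA
  set B' := cthickening (2 * δ) K with hB'
  set C' := cthickening (3 * δ) K with hC'
  have hC'V : C' ⊆ W := by
    have : 3 * δ = δ' := by rw [hδdef]; ring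
    rw [hC', this]; exact hδV
  have hAB : A ⊆ interior B' := by
    have h1 : A ⊆ thickening (2 * δ) K := cthickening_subset_thickening' (by positivity)
      (by linarith only [hδ]) K
    exact h1.trans (thickening_subset_interior_cthickening _ _)
  have hBC : B' ⊆ interior C' := by
    have h1 : B' ⊆ thickening (3 * δ) K := cthickening_subset_thickening' (by positivity)
      (by linarith only [hδ]) K
    exact h1.trans (thickening_subset_interior_cthickening _ _)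
  have hC'comp : IsCompact C' := hK.cthickening
  have hKA : thickening δ K ⊆ A := thickening_subset_cthickening _ _
  have hKth : K ⊆ thickening δ K := self_subset_thickening hδ K
  obtain ⟨θ, hθ1, hθ0, hθI⟩ := exists_contMDiffMap_one_nhds_of_subset_interior
    (n := (⊤ : ℕ∞)) 𝓘(ℝ, Fin m → ℂ) (isClosed_cthickening : IsClosed A) hAB
  obtain ⟨χ, hχ1, hχ0, hχI⟩ := exists_contMDiffMap_one_nhds_of_subset_interior
    (n := (⊤ : ℕ∞)) 𝓘(ℝ, Fin m → ℂ) (isClosed_cthickening : IsClosed B') hBC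
  have hθd : ContDiff ℝ ∞ (fun w => θ w) := θ.contMDiff.contDiff
  have hχd : ContDiff ℝ ∞ (fun w => χ w) := χ.contMDiff.contDiff
  set χc : (Fin m → ℂ) → ℂ := fun w => ((χ w : ℝ) : ℂ) with hχc
  have hχcd : ContDiff ℝ ∞ χc := Complex.ofRealCLM.contDiff.comp hχd
  have hχsupp : tsupport χc ⊆ C' := by
    refine closure_minimal ?_ isClosed_cthickening
    intro w hw
    by_contra h0
    apply hw
    simp [hχc, hχ0 w h0]
  have hχcomp : HasCompactSupport χc := hC'comp.of_isClosed_subset (isClosed_tsupport _) hχsupp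
  set S := tsupport (fderiv ℝ χc) with hS
  have hSC : S ⊆ C' := (tsupport_fderiv_subset ℝ).trans hχsupp
  have hScomp : IsCompact S := hC'comp.of_isClosed_subset (isClosed_tsupport _) hSC
  have hSB : Disjoint S B' := by
    rw [Set.disjoint_right]
    intro w hw hwS
    have h1 : ∀ᶠ y in 𝓝 w, χ y = 1 := (eventually_nhdsSet_iff_forall.1 hχ1) w hw
    have h2 : ∀ᶠ y in 𝓝 w, fderiv ℝ χc y = 0 := by
      have h3 : ∀ᶠ y in 𝓝 w, χc =ᶠ[𝓝 y] fun _ => (1:ℂ) := by
        have h4 : ∀ᶠ y in 𝓝 w, ∀ᶠ x in 𝓝 y, χ x = 1 := eventually_eventually_nhds.2 h1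
        filter_upwards [h4] with y hy
        filter_upwards [hy] with x hx
        simp [hχc, hx]
      filter_upwards [h3] with y hy
      rw [hy.fderiv_eq]; simp only [fderiv_fun_const, Pi.zero_apply]
    rw [hS] at hwS
    exact (notMem_tsupport_iff_eventuallyEq.2 h2) hwS
  -- the selection
  set F₃ : Set (Fin m → ℂ) := (thickening δ K)ᶜ with hF₃
  have hF₃c : IsClosed F₃ := isOpen_thickening.isClosed_compl
  obtain ⟨Q₀, hQ₀⟩ := exists_contMDiffMap_forall_mem_convex_of_local_const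
    (n := (⊤ : ℕ∞)) (I := 𝓘(ℝ, Fin m → ℂ)) (M := Fin m → ℂ) (F := Fin m → ℂ)
    (t := fun w => {ξ : Fin m → ℂ | w ∈ F₃ → ∀ z ∈ K, 0 < (ξ ⬝ᵥ (w - z)).re}) (by
    intro w ξ hξ η hη a b ha hb hab hp z hz
    have e1 : ((a • ξ + b • η) ⬝ᵥ (w - z)).re = a * (ξ ⬝ᵥ (w - z)).re +
        b * (η ⬝ᵥ (w - z)).re := by
      rw [add_dotProduct, smul_dotProduct, smul_dotProduct]
      simp only [dotProduct_sub, Complex.real_smul, Complex.add_re, Complex.mul_re, Complex.ofReal_re, Complex.sub_re, Complex.ofReal_im, Complex.sub_im, zero_mul, sub_zero]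
    rw [e1]
    have h3 := hξ hp z hz
    have h4 := hη hp z hz
    rcases ha.eq_or_lt with rfl | ha'
    · have : b = 1 := by linarith only [hab]
      subst this; simpa only [dotProduct_sub, Complex.sub_re, zero_mul, one_mul, zero_add, sub_pos, gt_iff_lt] using h4
    · have : 0 ≤ b * (η ⬝ᵥ (w - z)).re := mul_nonneg hb h4.le
      have : 0 < a * (ξ ⬝ᵥ (w - z)).re := mul_pos ha' h3
      (clear hm W hK hKc hW hKW hδ' hδV hδdef hδ A hA B' hB' C' hC' hC'V hAB hBC hC'comp hKA hKth θ hθ1 hθ0 hθI χ hχ1 hχ0 hχI hθd hχd χc hχc hχcd hχsupp hχcomp S hS hSC hScomp hSB hF₃ ha hab e1; linarith)) (by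
    intro w₀
    have n3 : w₀ ∉ F₃ → ∀ᶠ y in 𝓝 w₀, y ∉ F₃ := fun h =>
      hF₃c.isOpen_compl.mem_nhds h
    by_cases a3 : w₀ ∈ F₃
    · obtain ⟨ξ, hξ⟩ := exists_sep hK hKc (w₀ := w₀) (fun h => a3 (hKth h))
      refine ⟨ξ, ?_⟩
      filter_upwards [hξ] with y hy
      exact fun _ z hz => hy z hz
    · refine ⟨0, ?_⟩
      filter_upwards [n3 a3] with y hy3
      exact fun h => absurd h hy3)
  set Q : (Fin m → ℂ) → (Fin m → ℂ) := fun w => Q₀ w with hQdef
  have hQd : ContDiff ℝ ∞ Q := Q₀.contMDiff.contDiff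
  have hQc : Continuous Q := hQd.continuous
  have hQ3 : ∀ w ∈ C' ∩ F₃, ∀ z ∈ K, 0 < (Pf Q z w).re := fun w hw z hz => (hQ₀ w) hw.2 z hz
  obtain ⟨c₃, hc₃0, hp₃'⟩ := pos_near hQc (hC'comp.inter_right hF₃c) hK hQ3
  have hp₃ : ∀ z ∈ K, ∀ w ∈ C' ∩ F₃, c₃ ≤ (Pf Q z w).re := fun z hz =>
    (eventually_nhdsSet_iff_forall.1 hp₃' z hz).self_of_nhds
  have hQ2d : ContDiff ℝ 2 Q := by exact_mod_cast contDiff_infty.1 hQd 2
  have hχ1d : ContDiff ℝ 1 χc := hχcd.of_le (by exact_mod_cast le_top)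
  have hχ' : Continuous (fderiv ℝ χc) := hχ1d.continuous_fderiv one_ne_zero
  -- the kernel
  set b : (Fin m → ℂ) → ℂ := fun w => ∑ k, db k (fderiv ℝ χc w) * Vf Q k w with hbdef
  have hsuppb : tsupport b ⊆ S := by
    refine closure_mono ?_
    intro w hw h0
    apply hw
    have h0' : fderiv ℝ χc w = 0 := h0
    simp only [hbdef, db, smul_eq_mul, h0', zero_apply, mul_zero, add_zero, zero_mul, Finset.sum_const_zero]
  have hbcont : Continuous b := by
    rw [← continuousOn_univ]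
    refine continuousOn_finsetSum _ fun k _ => ?_
    exact (continuousOn_db hχ'.continuousOn k).mul
      (contDiff_Vf hQ2d k).continuous.continuousOn
  have hbcomp : HasCompactSupport b := hScomp.of_isClosed_subset (isClosed_tsupport _) hsuppb
  have hSF : ∀ w ∈ S, w ∈ C' ∩ F₃ := by
    intro w hw
    refine ⟨hSC hw, fun h9 => ?_⟩
    exact (Set.disjoint_left.1 hSB hw) ((hKA.trans (hAB.trans interior_subset)) h9)
  refine ⟨Q, b, c₃, hQc, hbcont, hbcomp, (hsuppb.trans hSC).trans hC'V, hc₃0,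
    fun w hw z hz => hp₃ z hz w (hSF w (hsuppb hw)), ?_⟩
  intro g hg z hzK
  have hg1 : ContDiffOn ℝ 1 g W := by
    have := contDiffOn_of_differentiableOn hW hg 1
    have h3 := this.restrict_scalars ℝ
    exact_mod_cast h3
  have hzA' : z ∈ A := hKA (hKth hzK)
  have hz₃ := hp₃ z hzK
  -- modified section
  set Qz : (Fin m → ℂ) → (Fin m → ℂ) := fun w =>
    θ w • (fun j => star (w j - z j)) + (1 - θ w) • Q w with hQz
  have hstar : ContDiff ℝ ∞ (fun w : Fin m → ℂ => fun j => star (w j - z j)) := by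
    rw [contDiff_pi]
    intro j
    exact (Complex.conjCLE : ℂ ≃L[ℝ] ℂ).contDiff.comp
      ((contDiff_apply ℝ ℂ j).sub contDiff_const)
  have hQzd : ContDiff ℝ ∞ Qz :=
    (hθd.smul hstar).add ((contDiff_const.sub hθd).smul hQd)
  have hQz2 : ContDiff ℝ 2 Qz := by exact_mod_cast contDiff_infty.1 hQzd 2
  have hPfz : ∀ w, (Pf Qz z w).re = θ w * nsq (w - z) + (1 - θ w) * (Pf Q z w).re := by
    intro w
    have e0 : (fun j => star (w j - z j)) ⬝ᵥ (w - z) = ((nsq (w - z) : ℝ) : ℂ) := by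
      simp only [dotProduct, nsq, Pi.sub_apply]
      push_cast
      refine Finset.sum_congr rfl fun j _ => ?_
      rw [← Complex.conj_mul']
      rfl
    have e1 : Pf Qz z w = (θ w : ℂ) * ((nsq (w - z) : ℝ) : ℂ) + ((1 - θ w : ℝ) : ℂ) *
        Pf Q z w := by
      simp only [Pf, hQz, add_dotProduct, smul_dotProduct]
      rw [e0]
      simp only [Complex.real_smul]
    rw [e1, Complex.add_re, Complex.re_ofReal_mul, Complex.re_ofReal_mul, Complex.ofReal_re]
  have hθA : ∀ w ∈ A, θ w = 1 := fun w hw =>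
    ((eventually_nhdsSet_iff_forall.1 hθ1) w hw).self_of_nhds
  -- bound on the squared distance
  obtain ⟨D, hD0, hD⟩ : ∃ D > 0, ∀ w ∈ C', nsq (w - z) ≤ D := by
    have h5 : Continuous (fun w => nsq (w - z)) :=
      continuous_nsq.comp (continuous_id.sub continuous_const)
    obtain ⟨D, hD⟩ := (hC'comp.image h5).bddAbove
    refine ⟨max D 1, lt_of_lt_of_le one_pos (le_max_right _ _), fun w hw => ?_⟩
    exact (hD ⟨w, hw, rfl⟩).trans (le_max_left _ _)
  have hpos : ∀ w ∈ C', min 1 (c₃ / D) * nsq (w - z) ≤ (Pf Qz z w).re := by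
    intro w hw
    rw [hPfz]
    have hn := nsq_nonneg (w - z)
    have hθ01 := hθI w
    by_cases hwA : w ∈ A
    · rw [hθA w hwA]
      have : min 1 (c₃ / D) ≤ 1 := min_le_left _ _
      linarith only [mul_nonneg (sub_nonneg.2 hn) (sub_nonneg.2 this)]
    · have hwF : w ∈ F₃ := fun h => hwA (hKA h)
      have h6 := hz₃ w ⟨hw, hwF⟩
      have h7 : min 1 (c₃ / D) * nsq (w - z) ≤ nsq (w - z) := by
        have : min 1 (c₃ / D) ≤ 1 := min_le_left _ _
        linarith only [mul_nonneg (sub_nonneg.2 hn) (sub_nonneg.2 this)]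
      have h8 : min 1 (c₃ / D) * nsq (w - z) ≤ c₃ := by
        calc min 1 (c₃ / D) * nsq (w - z) ≤ (c₃ / D) * D := by
              apply mul_le_mul (min_le_right _ _) (hD w hw) hn (by (clear * - hc₃0 hD0; (clear * - hc₃0 hD0; positivity)))
          _ = c₃ := by (clear * - hD0 hc₃0; field_simp)
      linarith only [mul_nonneg (sub_nonneg.2 h8) (sub_nonneg.2 hθ01.2), mul_nonneg (sub_nonneg.2 h7) (sub_nonneg.2 hθ01.1), mul_nonneg (sub_nonneg.2 h6) (sub_nonneg.2 hθ01.2)]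
  have hθS : ∀ w ∈ S, ∀ᶠ y in 𝓝 w, θ y = 0 := by
    intro w hw
    have h9 : w ∈ B'ᶜ := Set.disjoint_left.1 hSB hw
    filter_upwards [isClosed_cthickening.isOpen_compl.mem_nhds h9] with y hy
    exact hθ0 y hy
  have hQzS : ∀ w ∈ S, Qz =ᶠ[𝓝 w] Q := by
    intro w hw
    filter_upwards [hθS w hw] with y hy
    simp only [hQz, star_sub, RCLike.star_def, hy, zero_smul, sub_zero, one_smul, zero_add]
  have hrep := rep_formula hm hQz2 hχ1d hχcomp hW (hχsupp.trans hC'V) hg hg1 (z := z)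
    (by
      have : χ z = 1 := ((eventually_nhdsSet_iff_forall.1 hχ1) z
        (interior_subset (hAB hzA'))).self_of_nhds
      simp [hχc, this])
    (by
      filter_upwards [(eventually_nhdsSet_iff_forall.1 hθ1) z hzA'] with w hw
      intro j
      simp only [hQz, star_sub, RCLike.star_def, Pi.add_apply, hw, Pi.smul_apply, one_smul, sub_self, zero_smul, add_zero])
    (c := min 1 (c₃ / D)) (by (clear * - hc₃0 hD0; (clear * - hc₃0 hD0; positivity))) (fun w hw => hpos w (hχsupp hw))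
    (c' := c₃) hc₃0 (by
      intro w hw
      rw [hPfz, (hθS w hw).self_of_nhds]
      have := hz₃ w (hSF w hw)
      simpa only [zero_mul, sub_zero, one_mul, zero_add, ge_iff_le] using this)
  rw [hrep]
  congr 1
  refine integral_congr_ae (ae_of_all _ fun p => ?_)
  by_cases hp : p.2 ∈ S
  · have e1 : dbQ Qz p.2 = dbQ Q p.2 := by
      funext l
      simp only [dbQ]
      rw [(hQzS _ hp).fderiv_eq]
    have e2 : Qz p.2 = Q p.2 := (hQzS _ hp).self_of_nhds
    have e3 : ∀ k, Vf Qz k p.2 = Vf Q k p.2 := by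
      intro k; simp only [Vf, e1, e2]
    have e4 : Pf Qz z p.2 = Pf Q z p.2 := by simp only [Pf, e2]
    have e5 : (∑ k, db k (fderiv ℝ χc p.2) * (g p.2 * Vf Qz k p.2)) = b p.2 * g p.2 := by
      simp only [e3, hbdef, Finset.sum_mul]
      exact Finset.sum_congr rfl fun k _ => by ring
    simp only [CF.ker, e4]
    rw [e5]
  · have e1 : fderiv ℝ χc p.2 = 0 := image_eq_zero_of_notMem_tsupport hp
    simp only [CF.ker, db, e1, zero_apply, smul_eq_mul, mul_zero, add_zero, zero_mul, Finset.sum_const_zero, neg_mul, hbdef]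

variable {R : Type} [NormedCommRing R] [NormedAlgebra ℂ R] [CompleteSpace R]
  [SecondCountableTopology R] [MeasurableSpace R] [BorelSpace R]

theorem exists_EN_coord {m : ℕ} (hm : 0 < m) {K W : Set (Fin m → ℂ)} (hK : IsCompact K)
    (hKc : Convex ℝ K) (hW : IsOpen W) (hKW : K ⊆ W) :
    ∃ L : ℝ≥0, ∀ g : (Fin m → ℂ) → R, DifferentiableOn ℂ g W → ∀ δ : ℝ≥0,
      (∀ z ∈ W, ‖g z‖ ≤ δ) → EN K g (L * δ) := by
  obtain ⟨Q, b, c, hQ, hb, hbc, hbW, hc, hpos, hrep⟩ := exists_kernel hm hK hKc hW hKW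
  set dom : ℝ × (Fin m → ℂ) → ℝ := fun p =>
    ‖c0 m‖⁻¹ * ((p.1 ^ (m - 1) * Real.exp (-c * p.1)) * ‖b p.2‖) with hdom
  have hdomi : Integrable dom (μK m) := (integrable_dom (m - 1) hc hb.norm hbc.norm).const_mul _
  have hdom0 : 0 ≤ᵐ[μK m] dom := by
    filter_upwards [ae_pos m] with p hp
    simp only [hdom]; (clear * - hp; (clear * - hp; positivity))
  refine ⟨(∫ p, dom p ∂(μK m)).toNNReal, fun g hg δ hgδ => ?_⟩
  set G : (Fin m → ℂ) → R := fun w => b w • g w with hG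
  have hGc : Continuous G := by
    refine ContinuousOn.continuous_of_tsupport_subset (s := W) ?_ hW ?_
    · exact hb.continuousOn.smul hg.continuousOn
    · refine (closure_mono ?_).trans hbW
      intro w hw h0
      exact hw (by simp only [hG, h0, zero_smul])
  set ξ : ℝ × (Fin m → ℂ) → ((Fin m → ℂ) →L[ℂ] ℂ) := fun p => (p.1 : ℂ) • dotL (Q p.2) with hξ
  set cf : ℝ × (Fin m → ℂ) → R := fun p =>
    (-(c0 m)⁻¹ * (p.1 : ℂ) ^ (m - 1) * Complex.exp (-(p.1 : ℂ) * (Q p.2 ⬝ᵥ p.2))) • G p.2 with hcf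
  have hξc : Continuous ξ := by
    have h1 : Continuous fun p : ℝ × (Fin m → ℂ) => (p.1 : ℂ) := by fun_prop
    exact h1.smul (continuous_dotL.comp (hQ.comp continuous_snd))
  have hQd : Continuous fun p : ℝ × (Fin m → ℂ) => Q p.2 ⬝ᵥ p.2 := by
    unfold dotProduct; (clear * - hQ; fun_prop)
  have hcfc : Continuous cf := by
    refine Continuous.smul ?_ (hGc.comp continuous_snd)
    (clear * - hQ; fun_prop)
  have hξz : ∀ p z, ξ p z = (p.1 : ℂ) * (Q p.2 ⬝ᵥ z) := by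
    intro p z
    simp only [hξ, smul_apply, dotL_apply, smul_eq_mul]
  have hptw : ∀ p : ℝ × (Fin m → ℂ), 0 < p.1 →
      ‖cf p‖ₑ * wt K (ξ p) ≤ ENNReal.ofReal (dom p) * δ := by
    intro p hp
    by_cases hbp : b p.2 = 0
    · simp only [hcf, neg_mul, hG, neg_smul, hbp, zero_smul, smul_zero, neg_zero, enorm_zero, zero_mul, zero_le]
    have hps : p.2 ∈ tsupport b := subset_tsupport _ hbp
    have hw : wt K (ξ p) ≤ ENNReal.ofReal (Real.exp (p.1 * (Q p.2 ⬝ᵥ p.2).re - c * p.1)) := by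
      refine iSup₂_le fun z hz => ENNReal.ofReal_le_ofReal (Real.exp_le_exp.2 ?_)
      have h1 := hpos _ hps z hz
      rw [hξz, Complex.re_ofReal_mul]
      simp only [Pf, dotProduct_sub, Complex.sub_re] at h1
      linarith only [mul_nonneg (le_of_lt (sub_pos.2 hp)) (sub_nonneg.2 h1)]
    have hcn : ‖cf p‖ = ‖c0 m‖⁻¹ * p.1 ^ (m - 1) * Real.exp (-(p.1 * (Q p.2 ⬝ᵥ p.2).re)) *
        (‖b p.2‖ * ‖g p.2‖) := by
      simp only [hcf, hG, norm_smul, norm_mul, norm_neg, norm_inv, norm_pow, Complex.norm_real, Real.norm_of_nonneg hp.le, Complex.norm_exp]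
      congr 2
      rw [neg_mul, Complex.neg_re, Complex.re_ofReal_mul]
    calc ‖cf p‖ₑ * wt K (ξ p)
        ≤ ENNReal.ofReal ‖cf p‖ *
          ENNReal.ofReal (Real.exp (p.1 * (Q p.2 ⬝ᵥ p.2).re - c * p.1)) := by
          rw [ofReal_norm_eq_enorm]
          (clear * - hw; gcongr)
      _ = ENNReal.ofReal (‖cf p‖ * Real.exp (p.1 * (Q p.2 ⬝ᵥ p.2).re - c * p.1)) :=
          (ENNReal.ofReal_mul (norm_nonneg _)).symm
      _ ≤ ENNReal.ofReal (dom p * δ) := by
          refine ENNReal.ofReal_le_ofReal ?_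
          rw [hcn]
          have h3 : ‖g p.2‖ ≤ δ := hgδ _ (hbW hps)
          have h4 : Real.exp (-(p.1 * (Q p.2 ⬝ᵥ p.2).re)) *
              Real.exp (p.1 * (Q p.2 ⬝ᵥ p.2).re - c * p.1) = Real.exp (-c * p.1) := by
            rw [← Real.exp_add]; congr 1; ring
          calc ‖c0 m‖⁻¹ * p.1 ^ (m - 1) * Real.exp (-(p.1 * (Q p.2 ⬝ᵥ p.2).re)) *
                (‖b p.2‖ * ‖g p.2‖) * Real.exp (p.1 * (Q p.2 ⬝ᵥ p.2).re - c * p.1)
              = ‖c0 m‖⁻¹ * p.1 ^ (m - 1) * (Real.exp (-(p.1 * (Q p.2 ⬝ᵥ p.2).re)) *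
                Real.exp (p.1 * (Q p.2 ⬝ᵥ p.2).re - c * p.1)) * (‖b p.2‖ * ‖g p.2‖) := by ring
            _ = ‖c0 m‖⁻¹ * p.1 ^ (m - 1) * Real.exp (-c * p.1) * (‖b p.2‖ * ‖g p.2‖) := by
                rw [h4]
            _ ≤ ‖c0 m‖⁻¹ * p.1 ^ (m - 1) * Real.exp (-c * p.1) * (‖b p.2‖ * δ) := by
                (clear * - h3 hbp hp; gcongr)
            _ = dom p * δ := by simp only [hdom]; ring
      _ = ENNReal.ofReal (dom p) * δ := by
          rw [ENNReal.ofReal_mul' (NNReal.coe_nonneg δ), ENNReal.ofReal_coe_nnreal]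
  have hlin : ∫⁻ p, ‖cf p‖ₑ * wt K (ξ p) ∂(μK m) ≤
      (((∫ p, dom p ∂(μK m)).toNNReal * δ : ℝ≥0) : ℝ≥0∞) := by
    calc ∫⁻ p, ‖cf p‖ₑ * wt K (ξ p) ∂(μK m)
        ≤ ∫⁻ p, ENNReal.ofReal (dom p) * δ ∂(μK m) := by
          refine lintegral_mono_ae ?_
          filter_upwards [ae_pos m] with p hp using hptw p hp
      _ = (∫⁻ p, ENNReal.ofReal (dom p) ∂(μK m)) * δ := by
          rw [lintegral_mul_const' _ _ ENNReal.coe_ne_top]
      _ = ENNReal.ofReal (∫ p, dom p ∂(μK m)) * δ := by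
          rw [ofReal_integral_eq_lintegral_ofReal hdomi hdom0]
      _ = _ := by
          rw [ENNReal.coe_mul]; rfl
  have hmeas : Measurable fun p => (ξ p, cf p) := hξc.measurable.prodMk hcfc.measurable
  haveI hsf : SFinite (μK m) := by unfold μK; infer_instance
  refine ⟨(μK m).map fun p => (ξ p, cf p), ?_, ?_, ?_⟩
  · infer_instance
  · exact (lintegral_map_le _ _).trans hlin
  intro z hz
  have hint : Integrable (fun p => Complex.exp (ξ p z) • cf p) (μK m) := by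
    refine ⟨?_, ?_⟩
    · refine Continuous.aestronglyMeasurable ?_
      have : Continuous fun p => ξ p z := by
        simp only [hξz]
        unfold dotProduct
        (clear * - hQ; fun_prop)
      exact (Complex.continuous_exp.comp this).smul hcfc
    · refine lt_of_le_of_lt ?_ (lt_of_le_of_lt hlin ENNReal.coe_lt_top)
      refine lintegral_mono fun p => ?_
      rw [enorm_smul, mul_comm]
      gcongr
      refine le_trans (le_of_eq ?_) (le_wt hz (ξ p))
      rw [← ofReal_norm_eq_enorm, Complex.norm_exp]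
  rw [integral_map hmeas.aemeasurable]
  · refine (NormedSpace.eq_iff_forall_dual_eq ℂ).2 fun φ => ?_
    have h1 := hrep (fun w => φ (g w)) (φ.differentiable.comp_differentiableOn hg) z hz
    have h2 := φ.integral_comp_comm hint
    simp only
    rw [← h2]
    have h3 : φ (g z) = - (c0 m)⁻¹ *
        ∫ p, CF.ker (m - 1) (fun w => b w * φ (g w)) (Pf Q z) p ∂(μK m) := by
      have hc0 := c0_ne_zero m
      field_simp
      linear_combination h1
    rw [h3, ← integral_const_mul]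
    refine integral_congr_ae (ae_of_all _ fun p => ?_)
    simp only [CF.ker, hcf, hG, map_smul, smul_eq_mul, hξz, Pf, dotProduct_sub]
    have h4 : Complex.exp (-(p.1 : ℂ) * (Q p.2 ⬝ᵥ p.2 - Q p.2 ⬝ᵥ z)) =
        Complex.exp ((p.1 : ℂ) * (Q p.2 ⬝ᵥ z)) * Complex.exp (-(p.1 : ℂ) * (Q p.2 ⬝ᵥ p.2)) := by
      rw [← Complex.exp_add]; congr 1; ring
    rw [h4]; ring
  · refine Continuous.aestronglyMeasurable ?_
    have : Continuous fun q : ((Fin m → ℂ) →L[ℂ] ℂ) × R => q.1 z :=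
      continuous_fst.clm_apply continuous_const
    exact (Complex.continuous_exp.comp this).smul continuous_snd

end kernel

section
variable {V R : Type} [NormedAddCommGroup V] [NormedSpace ℂ V] [FiniteDimensional ℂ V]
  [NormedCommRing R] [NormedAlgebra ℂ R] [CompleteSpace R] [SecondCountableTopology R]
  [MeasurableSpace R] [BorelSpace R]

variable (R) in
/-- holomorphic functions near a compact convex set are superpositions of exponentials -/
theorem exists_EN {K W : Set V} (hK : Good K) (hW : IsOpen W) (hKW : K ⊆ W) :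
    ∃ L : ℝ≥0, ∀ g : V → R, DifferentiableOn ℂ g W → ∀ δ : ℝ≥0, (∀ z ∈ W, ‖g z‖ ≤ δ) →
      EN K g (L * δ) := by
  rcases Nat.eq_zero_or_pos (Module.finrank ℂ V) with h0 | hm
  · have hsub : Subsingleton V := Module.finrank_zero_iff.1 h0
    refine ⟨1, fun g _ δ hgδ => ?_⟩
    rcases K.eq_empty_or_nonempty with rfl | ⟨x, hx⟩
    · refine ⟨0, inferInstance, by simp only [lintegral_zero_measure, one_mul, zero_le], fun z hz => absurd hz (by simp)⟩
    · refine ⟨Measure.dirac ((0 : V →L[ℂ] ℂ), g x), inferInstance, ?_, fun z _ => ?_⟩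
      · rw [lintegral_dirac]
        have h1 : wt K (0 : V →L[ℂ] ℂ) ≤ 1 := by
          refine iSup₂_le fun z hz => ?_
          simp
        have h2 : ‖g x‖ₑ ≤ δ := by
          rw [← ofReal_norm_eq_enorm, ← ENNReal.ofReal_coe_nnreal]
          exact ENNReal.ofReal_le_ofReal (hgδ x (hKW hx))
        calc ‖g x‖ₑ * wt K (0 : V →L[ℂ] ℂ) ≤ δ * 1 := by (clear * - h2 h1; gcongr)
          _ = _ := by simp
      · rw [integral_dirac]
        simp only [Subsingleton.elim z x, zero_apply, Complex.exp_zero, one_smul]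
  set m := Module.finrank ℂ V with hmdef
  let e : V ≃L[ℂ] (Fin m → ℂ) := ContinuousLinearEquiv.ofFinrankEq (by simp only [Module.finrank_fintype_fun_eq_card, hmdef, Fintype.card_fin])
  have econv : Convex ℝ (e '' K) := by
    have := hK.2.linear_image (((e : V →L[ℂ] (Fin m → ℂ)).restrictScalars ℝ :
      V →L[ℝ] (Fin m → ℂ)) : V →ₗ[ℝ] (Fin m → ℂ))
    exact this
  have hWo : IsOpen (e '' W) := e.toHomeomorph.isOpenMap _ hW
  obtain ⟨L, hL⟩ := exists_EN_coord (R := R) hm (hK.1.image e.continuous) econv hWo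
    (image_mono hKW)
  refine ⟨L, fun g hg δ hgδ => ?_⟩
  obtain ⟨μ, hμ, hμ1, hμ2⟩ := hL (g ∘ e.symm) (by
    refine hg.comp e.symm.differentiable.differentiableOn ?_
    rintro _ ⟨z, hz, rfl⟩
    simpa using hz) δ (by
    rintro _ ⟨z, hz, rfl⟩
    simpa only [Function.comp_apply, ContinuousLinearEquiv.symm_apply_apply] using hgδ z hz)
  have hc1 : Continuous fun p : ((Fin m → ℂ) →L[ℂ] ℂ) × R =>
      ((p.1.comp (e : V →L[ℂ] (Fin m → ℂ)), p.2) : (V →L[ℂ] ℂ) × R) := by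
    (clear * -; fun_prop)
  have hwt : ∀ ξ : (Fin m → ℂ) →L[ℂ] ℂ,
      wt K (ξ.comp (e : V →L[ℂ] (Fin m → ℂ))) = wt (e '' K) ξ := by
    intro ξ
    unfold wt
    rw [iSup_image]
    rfl
  have hmeas : Measurable fun p : ((Fin m → ℂ) →L[ℂ] ℂ) × R =>
      ((p.1.comp (e : V →L[ℂ] (Fin m → ℂ)), p.2) : (V →L[ℂ] ℂ) × R) := by
    refine Measurable.prodMk ?_ measurable_snd
    have : Continuous fun ξ : (Fin m → ℂ) →L[ℂ] ℂ => ξ.comp (e : V →L[ℂ] (Fin m → ℂ)) := by
      fun_prop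
    exact this.measurable.comp measurable_fst
  refine ⟨μ.map fun p => (p.1.comp (e : V →L[ℂ] (Fin m → ℂ)), p.2), inferInstance, ?_, ?_⟩
  · refine (lintegral_map_le _ _).trans ?_
    simpa only [hwt] using hμ1
  · intro z hz
    rw [integral_map hmeas.aemeasurable]
    · have := hμ2 (e z) (mem_image_of_mem _ hz)
      simpa only [ContinuousLinearMap.comp_apply, ContinuousLinearEquiv.coe_coe, Function.comp_apply,     ContinuousLinearEquiv.symm_apply_apply] using this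
    · refine Continuous.aestronglyMeasurable ?_
      have : Continuous fun q : (V →L[ℂ] ℂ) × R => q.1 z :=
        continuous_fst.clm_apply continuous_const
      exact (Complex.continuous_exp.comp this).smul continuous_snd

end

end Vale.Agent.P290.K
end
end

section

section

set_option linter.all false

open Set Filter Metric MeasureTheory
open scoped Topology ENNReal NNReal

namespace Vale.Agent.P290.K

section
variable {V R : Type} [NormedAddCommGroup V] [NormedSpace ℂ V] [FiniteDimensional ℂ V]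
  [NormedCommRing R] [NormedAlgebra ℂ R] [CompleteSpace R] [SecondCountableTopology R]
  [MeasurableSpace R] [BorelSpace R]

/-- The coefficient of the Taylor series of `exp (ξ (0, t))`. -/
noncomputable def e4c (β : ℕ × ℕ) (ξ : (V × C2) →L[ℂ] ℂ) : ℂ :=
  (ξ (0, (1, 0))) ^ β.1 * (ξ (0, (0, 1))) ^ β.2 / ((β.1.factorial : ℂ) * (β.2.factorial : ℂ))

/-- The transformation of measures. -/
noncomputable def e4T (β : ℕ × ℕ) (p : ((V × C2) →L[ℂ] ℂ) × R) : (V →L[ℂ] ℂ) × R :=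
  (p.1.comp (ContinuousLinearMap.inl ℂ V C2), e4c β p.1 • p.2)

theorem e4_meas_c (β : ℕ × ℕ) : Measurable (e4c (V := V) β) := by
  have h1 : Continuous (fun ξ : (V × C2) →L[ℂ] ℂ => ξ (0, (1, 0))) :=
    continuous_id.clm_apply continuous_const
  have h2 : Continuous (fun ξ : (V × C2) →L[ℂ] ℂ => ξ (0, (0, 1))) :=
    continuous_id.clm_apply continuous_const
  exact (((h1.pow β.1).mul (h2.pow β.2)).div_const _).measurable

theorem e4_meas (β : ℕ × ℕ) : Measurable (e4T (V := V) (R := R) β) := by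
  apply Measurable.prodMk
  · have h1 : Continuous (fun ξ : (V × C2) →L[ℂ] ℂ => ξ.comp (ContinuousLinearMap.inl ℂ V C2)) :=
      continuous_id.clm_comp_const _
    exact h1.measurable.comp measurable_fst
  · exact ((e4_meas_c β).comp measurable_fst).smul measurable_snd

theorem e4_exp (x : ℝ) (hx : 0 ≤ x) :
    ∑' i : ℕ, ENNReal.ofReal (x ^ i / i.factorial) = ENNReal.ofReal (Real.exp x) := by
  rw [← ENNReal.ofReal_tsum_of_nonneg (fun i => by (clear * - hx; positivity)) (Real.summable_pow_div_factorial x),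
    Real.exp_eq_exp_ℝ, NormedSpace.exp_eq_tsum_div]

theorem e4_exp2 (x y : ℝ) (hx : 0 ≤ x) (hy : 0 ≤ y) :
    ∑' β : ℕ × ℕ, ENNReal.ofReal (x ^ β.1 / β.1.factorial) * ENNReal.ofReal (y ^ β.2 / β.2.factorial)
      = ENNReal.ofReal (Real.exp (x + y)) := by
  rw [ENNReal.tsum_prod (f := fun (i j : ℕ) => ENNReal.ofReal (x ^ i / (i.factorial : ℝ)) *
    ENNReal.ofReal (y ^ j / (j.factorial : ℝ)))]
  simp only [ENNReal.tsum_mul_left, e4_exp y hy, ENNReal.tsum_mul_right, e4_exp x hx]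
  rw [← ENNReal.ofReal_mul (Real.exp_pos _).le, Real.exp_add]

theorem e4_enorm_c (β : ℕ × ℕ) (ξ : (V × C2) →L[ℂ] ℂ) (ρ : ℝ≥0) :
    ‖e4c β ξ‖ₑ * (ρ : ℝ≥0∞) ^ (β.1 + β.2) =
      ENNReal.ofReal ((ρ * ‖ξ (0, (1, 0))‖) ^ β.1 / β.1.factorial) *
        ENNReal.ofReal ((ρ * ‖ξ (0, (0, 1))‖) ^ β.2 / β.2.factorial) := by
  rw [← ENNReal.ofReal_mul (by (clear * -; positivity)), ← ofReal_norm, ← ENNReal.ofReal_coe_nnreal,
    ← ENNReal.ofReal_pow ρ.coe_nonneg, ← ENNReal.ofReal_mul (norm_nonneg _)]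
  congr 1
  rw [e4c, norm_div, norm_mul, norm_mul, norm_pow, norm_pow, Complex.norm_natCast,
    Complex.norm_natCast, pow_add, mul_pow, mul_pow]
  ring

theorem e4_h1 (w : ℂ) : HasSum (fun i : ℕ => w ^ i / (i.factorial : ℂ)) (Complex.exp w) := by
  rw [Complex.exp_eq_exp_ℂ]
  exact NormedSpace.expSeries_div_hasSum_exp w

theorem e4_h2 (w : ℂ) : Summable (fun i : ℕ => ‖w ^ i / (i.factorial : ℂ)‖) := by
  have := Real.summable_pow_div_factorial ‖w‖
  refine this.congr fun i => ?_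
  rw [norm_div, norm_pow, Complex.norm_natCast]

theorem e4_h3a (f g : ℕ → ℂ) (a b : ℂ) (hf : HasSum f a) (hg : HasSum g b)
    (hf' : Summable fun i => ‖f i‖) (hg' : Summable fun i => ‖g i‖) :
    HasSum (fun β : ℕ × ℕ => f β.1 * g β.2) (a * b) := by
  have h := summable_mul_of_summable_norm hf' hg'
  exact hf.mul hg h

theorem e4_h3 (u v : ℂ) : HasSum (fun β : ℕ × ℕ => (u ^ β.1 / (β.1.factorial : ℂ)) *
    (v ^ β.2 / (β.2.factorial : ℂ))) (Complex.exp u * Complex.exp v) :=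
  e4_h3a (fun i : ℕ => u ^ i / (i.factorial : ℂ)) (fun i : ℕ => v ^ i / (i.factorial : ℂ)) _ _
    (e4_h1 u) (e4_h1 v) (e4_h2 u) (e4_h2 v)

theorem e4_abs (x : R) (t₁ t₂ k₁ k₂ c : ℂ) :
    HasSum (fun β : ℕ × ℕ => (t₁ ^ β.1 * t₂ ^ β.2) •
      (c • ((k₁ ^ β.1 * k₂ ^ β.2 / ((β.1.factorial : ℂ) * (β.2.factorial : ℂ))) • x)))
      ((Complex.exp (t₁ * k₁) * Complex.exp (t₂ * k₂) * c) • x) := by
  have h6 := ((e4_h3 (t₁ * k₁) (t₂ * k₂)).mul_right c).smul_const x
  have h7 : (fun β : ℕ × ℕ => (t₁ ^ β.1 * t₂ ^ β.2) •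
      (c • ((k₁ ^ β.1 * k₂ ^ β.2 / ((β.1.factorial : ℂ) * (β.2.factorial : ℂ))) • x))) =
      fun β : ℕ × ℕ => ((t₁ * k₁) ^ β.1 / (β.1.factorial : ℂ) *
        ((t₂ * k₂) ^ β.2 / (β.2.factorial : ℂ)) * c) • x := by
    funext β
    rw [smul_smul, smul_smul]
    congr 1
    rw [mul_pow, mul_pow]
    ring
  rw [h7]
  exact h6

theorem e4_pt (p : ((V × C2) →L[ℂ] ℂ) × R) (z : V) (t : C2) :
    HasSum (fun β : ℕ × ℕ => (t.1 ^ β.1 * t.2 ^ β.2) •
      (Complex.exp ((e4T (V := V) (R := R) β p).1 z) • (e4T (V := V) (R := R) β p).2))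
      (Complex.exp (p.1 (z, t)) • p.2) := by
  have h5 : p.1 (z, t) = t.1 * p.1 (0, (1, 0)) + t.2 * p.1 (0, (0, 1)) + p.1 (z, 0) := by
    have h7 : ((z, t) : V × C2) = t.1 • ((0 : V), ((1, 0) : C2))
        + t.2 • ((0 : V), ((0, 1) : C2)) + (z, 0) := by
      ext <;> simp only [Prod.smul_mk, smul_zero, smul_eq_mul, mul_one, mul_zero, Prod.mk_add_mk, add_zero, zero_add, Prod.mk.eta]
    rw [h7, map_add, map_add, map_smul, map_smul, smul_eq_mul, smul_eq_mul]
  rw [h5, Complex.exp_add, Complex.exp_add]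
  exact e4_abs p.2 t.1 t.2 (p.1 (0, (1, 0))) (p.1 (0, (0, 1))) (Complex.exp (p.1 (z, 0)))

/-- Taylor coefficients with respect to the parameter -/
theorem EN.taylor {K : Set V} {ρ : ℝ≥0} (hρ : 0 < ρ) {e : V × C2 → R} {M : ℝ≥0}
    (h : EN (K ×ˢ closedBall (0 : C2) ρ) e M) :
    ∃ (a : ℕ × ℕ → V → R) (m : ℕ × ℕ → ℝ≥0), (∀ β, EN K (a β) (m β)) ∧
      Summable (fun β => m β * ρ ^ (β.1 + β.2)) ∧ ∑' β, m β * ρ ^ (β.1 + β.2) ≤ M ∧
      ∀ z ∈ K, ∀ t ∈ closedBall (0 : C2) ρ,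
        HasSum (fun β => (t.1 ^ β.1 * t.2 ^ β.2) • a β z) (e (z, t)) := by
  obtain ⟨μ, hsf, hM, he⟩ := h
  have hρ0 : (ρ : ℝ≥0∞) ≠ 0 := by exact_mod_cast hρ.ne'
  set I : ℕ × ℕ → ℝ≥0∞ := fun β => ∫⁻ p, ‖p.2‖ₑ * wt K p.1 ∂(μ.map (e4T β)) with hI
  have hmw : Measurable (fun p : (V →L[ℂ] ℂ) × R => ‖p.2‖ₑ * wt K p.1) :=
    measurable_snd.enorm.mul ((measurable_wt K).comp measurable_fst)
  have hIeq : ∀ β, I β = ∫⁻ p, ‖e4c β p.1‖ₑ * (‖p.2‖ₑ *
      wt K (p.1.comp (ContinuousLinearMap.inl ℂ V C2))) ∂μ := by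
    intro β
    rw [hI]
    simp only
    rw [lintegral_map hmw (e4_meas β)]
    apply lintegral_congr
    intro p
    simp only [e4T]
    rw [enorm_smul, mul_assoc]
  have hmw2 : Measurable (fun p : ((V × C2) →L[ℂ] ℂ) × R =>
      ‖p.2‖ₑ * wt K (p.1.comp (ContinuousLinearMap.inl ℂ V C2))) := by
    have h1 : Continuous (fun ξ : (V × C2) →L[ℂ] ℂ => ξ.comp (ContinuousLinearMap.inl ℂ V C2)) :=
      continuous_id.clm_comp_const _
    exact measurable_snd.enorm.mul ((measurable_wt K).comp (h1.measurable.comp measurable_fst))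
  have hsum : ∑' β, I β * (ρ : ℝ≥0∞) ^ (β.1 + β.2) ≤ M := by
    refine le_trans (le_of_eq ?_) hM
    calc ∑' β, I β * (ρ : ℝ≥0∞) ^ (β.1 + β.2)
        = ∑' β, ∫⁻ p, (‖e4c β p.1‖ₑ * (ρ : ℝ≥0∞) ^ (β.1 + β.2)) * (‖p.2‖ₑ *
          wt K (p.1.comp (ContinuousLinearMap.inl ℂ V C2))) ∂μ := by
          congr 1
          funext β
          rw [hIeq, ← lintegral_mul_const' _ _ (by simp)]
          apply lintegral_congr
          intro p
          ring
      _ = ∫⁻ p, ∑' β, (‖e4c β p.1‖ₑ * (ρ : ℝ≥0∞) ^ (β.1 + β.2)) * (‖p.2‖ₑ *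
          wt K (p.1.comp (ContinuousLinearMap.inl ℂ V C2))) ∂μ := by
          rw [lintegral_tsum]
          intro β
          have hx : Measurable (fun p : ((V × C2) →L[ℂ] ℂ) × R =>
              ‖e4c β p.1‖ₑ * (ρ : ℝ≥0∞) ^ (β.1 + β.2)) :=
            ((e4_meas_c (V := V) β).comp (measurable_fst : Measurable
              (Prod.fst : ((V × C2) →L[ℂ] ℂ) × R → ((V × C2) →L[ℂ] ℂ)))).enorm.mul_const _
          exact (hx.mul hmw2).aemeasurable
      _ = _ := by
          apply lintegral_congr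
          intro p
          rw [ENNReal.tsum_mul_right, wt_prod (K := K) (ρ := (ρ : ℝ)) ρ.coe_nonneg p.1]
          simp only [e4_enorm_c]
          rw [e4_exp2 _ _ (by (clear * - hρ; positivity)) (by (clear * - hρ; positivity))]
          ring
  have hItop : ∀ β, I β ≠ ⊤ := by
    intro β hβ
    have h1 : I β * (ρ : ℝ≥0∞) ^ (β.1 + β.2) ≤ M := (ENNReal.le_tsum β).trans hsum
    rw [hβ, ENNReal.top_mul (pow_ne_zero _ hρ0)] at h1
    exact ENNReal.coe_ne_top (top_le_iff.1 h1)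
  set m : ℕ × ℕ → ℝ≥0 := fun β => (I β).toNNReal with hm
  have hmI : ∀ β, (m β : ℝ≥0∞) = I β := fun β => ENNReal.coe_toNNReal (hItop β)
  have hcoe : ∀ β, ((m β * ρ ^ (β.1 + β.2) : ℝ≥0) : ℝ≥0∞) = I β * (ρ : ℝ≥0∞) ^ (β.1 + β.2) := by
    intro β
    rw [ENNReal.coe_mul, hmI, ENNReal.coe_pow]
  have hsm : Summable (fun β => m β * ρ ^ (β.1 + β.2)) := by
    rw [← ENNReal.tsum_coe_ne_top_iff_summable]
    simp only [hcoe]
    exact ne_top_of_le_ne_top ENNReal.coe_ne_top hsum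
  refine ⟨fun β z => ∫ p, Complex.exp (p.1 z) • p.2 ∂(μ.map (e4T β)), m, ?_, hsm, ?_, ?_⟩
  · intro β
    exact ⟨μ.map (e4T β), inferInstance, (hmI β).ge, fun z _ => rfl⟩
  · rw [← ENNReal.coe_le_coe, ENNReal.coe_tsum hsm]
    simp only [hcoe]
    exact hsum
  · intro z hz t ht
    have hmeasF : ∀ _ : ℕ × ℕ, Measurable (fun p : (V →L[ℂ] ℂ) × R =>
        Complex.exp (p.1 z) • p.2) := by
      intro β
      have h1 : Continuous (fun ξ : V →L[ℂ] ℂ => Complex.exp (ξ z)) :=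
        (continuous_id.clm_apply continuous_const).cexp
      exact (h1.measurable.comp measurable_fst).smul measurable_snd
    have hint1 : ∀ β, Integrable (fun p : (V →L[ℂ] ℂ) × R => Complex.exp (p.1 z) • p.2)
        (μ.map (e4T β)) := fun β => EN.integrable (M := m β) (hmI β).ge hz
    have hint2 : ∀ β, Integrable (fun p => Complex.exp ((e4T (V := V) (R := R) β p).1 z) •
        (e4T β p).2) μ := fun β => (integrable_map_measure
          (hmeasF β).aestronglyMeasurable (e4_meas β).aemeasurable).1 (hint1 β)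
    set F : ℕ × ℕ → ((V × C2) →L[ℂ] ℂ) × R → R := fun β p => (t.1 ^ β.1 * t.2 ^ β.2) •
      (Complex.exp ((e4T (V := V) (R := R) β p).1 z) • (e4T β p).2) with hF
    have hFint : ∀ β, Integrable (F β) μ := fun β => (hint2 β).smul (t.1 ^ β.1 * t.2 ^ β.2)
    have ht' : ‖t.1‖ ≤ ρ ∧ ‖t.2‖ ≤ ρ := by
      rw [mem_closedBall_zero_iff] at ht
      exact ⟨(norm_fst_le t).trans ht, (norm_snd_le t).trans ht⟩
    have hnorm : ∀ β, ∫ p, ‖F β p‖ ∂μ ≤ ((m β * ρ ^ (β.1 + β.2) : ℝ≥0) : ℝ) := by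
      intro β
      have h1 : ∫ p, ‖F β p‖ ∂μ = ‖t.1 ^ β.1 * t.2 ^ β.2‖ *
          ∫ p, ‖Complex.exp (p.1 z) • p.2‖ ∂(μ.map (e4T β)) := by
        rw [integral_map (e4_meas β).aemeasurable (hmeasF β).norm.aestronglyMeasurable,
          ← integral_const_mul]
        apply integral_congr_ae
        filter_upwards with p
        rw [hF]
        simp only
        rw [norm_smul]
      have h2 : ∫ p, ‖Complex.exp (p.1 z) • p.2‖ ∂(μ.map (e4T β)) ≤ m β := by
        rw [integral_norm_eq_lintegral_enorm (hmeasF β).aestronglyMeasurable]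
        have h3 : ∫⁻ p, ‖Complex.exp (p.1 z) • p.2‖ₑ ∂(μ.map (e4T β)) ≤ I β := by
          rw [hI]
          apply lintegral_mono
          intro p
          simp only
          rw [enorm_smul, mul_comm]
          gcongr
          rw [← ofReal_norm, Complex.norm_exp]
          exact le_wt hz _
        exact ENNReal.toReal_mono (hItop β) h3
      have h3 : ‖t.1 ^ β.1 * t.2 ^ β.2‖ ≤ (ρ : ℝ) ^ (β.1 + β.2) := by
        rw [norm_mul, norm_pow, norm_pow, pow_add]
        gcongr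
        · exact ht'.1
        · exact ht'.2
      rw [h1, NNReal.coe_mul, NNReal.coe_pow, mul_comm]
      exact mul_le_mul h2 h3 (norm_nonneg _) (NNReal.coe_nonneg _)
    have hsummable : Summable (fun β => ∫ p, ‖F β p‖ ∂μ) := by
      apply Summable.of_nonneg_of_le (fun β => integral_nonneg fun p => norm_nonneg _) hnorm
      exact NNReal.summable_coe.2 hsm
    have hH := hasSum_integral_of_summable_integral_norm hFint hsummable
    have hpt : ∀ p : ((V × C2) →L[ℂ] ℂ) × R, ∑' β, F β p = Complex.exp (p.1 (z, t)) • p.2 := by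
      intro p
      exact (e4_pt p z t).tsum_eq
    have hfin : ∫ p, ∑' β, F β p ∂μ = e (z, t) := by
      rw [he (z, t) ⟨hz, ht⟩]
      apply integral_congr_ae
      filter_upwards with p using hpt p
    rw [← hfin]
    have hterm : (fun β : ℕ × ℕ => (t.1 ^ β.1 * t.2 ^ β.2) •
        ∫ p, Complex.exp (p.1 z) • p.2 ∂(μ.map (e4T (V := V) (R := R) β))) =
        fun β => ∫ p, F β p ∂μ := by
      funext β
      rw [integral_map (e4_meas β).aemeasurable (hmeasF β).aestronglyMeasurable, ← integral_smul]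
    rw [hterm]
    exact hH

end

end Vale.Agent.P290.K
end
end

section

section

set_option linter.all false

open Set Filter Metric
open scoped Topology NNReal

namespace Vale.Agent.P290.K

section
variable {V : Type} [NormedAddCommGroup V] [NormedSpace ℂ V]

theorem e7_prod {K : Set V} {f g : ℝ → V → ℂ} (hf : HolPath K f) (hg : HolPath K g) :
    HolPath K (fun s z => ((f s z, g s z) : C2)) := by
  obtain ⟨U, hU, hKU, h1, h2⟩ := hf
  obtain ⟨U', hU', hKU', h1', h2'⟩ := hg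
  refine ⟨U ∩ U', hU.inter hU', subset_inter hKU hKU', ?_, ?_⟩
  · intro s hs
    exact ((h1 s hs).mono inter_subset_left).prodMk ((h1' s hs).mono inter_subset_right)
  · exact (h2.mono (prod_mono_right inter_subset_left)).prodMk
      (h2'.mono (prod_mono_right inter_subset_right))

theorem e7_thick [FiniteDimensional ℂ V] {A B W : Set V} (hA : Good A) (hB : Good B)
    (hW : IsOpen W) (hABW : A ∩ B ⊆ W) :
    ∃ η : ℝ, 0 < η ∧ cthickening η A ∩ cthickening η B ⊆ W := by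
  haveI : ProperSpace V := FiniteDimensional.proper ℂ V
  have hpos : ∀ n : ℕ, (0 : ℝ) < 1 / ((n : ℝ) + 1) := fun n => Nat.one_div_pos_of_nat
  have h1 : Directed (· ⊇ ·) fun n : ℕ =>
      cthickening (1 / ((n : ℝ) + 1)) A ∩ cthickening (1 / ((n : ℝ) + 1)) B := by
    refine Antitone.directed_ge ?_
    intro m n hmn
    have : 1 / ((n : ℝ) + 1) ≤ 1 / ((m : ℝ) + 1) := Nat.one_div_le_one_div hmn
    exact inter_subset_inter (cthickening_mono this _) (cthickening_mono this _)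
  have h2 : ∀ n : ℕ, IsCompact
      (cthickening (1 / ((n : ℝ) + 1)) A ∩ cthickening (1 / ((n : ℝ) + 1)) B) := fun n =>
    hA.1.cthickening.inter_right isClosed_cthickening
  have h3 : ∀ x ∈ ⋂ n : ℕ, cthickening (1 / ((n : ℝ) + 1)) A ∩ cthickening (1 / ((n : ℝ) + 1)) B,
      W ∈ 𝓝 x := by
    intro x hx
    refine hW.mem_nhds (hABW ?_)
    rw [mem_iInter] at hx
    have key : ∀ S : Set V, IsCompact S → (∀ n : ℕ, x ∈ cthickening (1 / ((n : ℝ) + 1)) S) →
        x ∈ S := by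
      intro S hS h
      have h0 : infEDist x S = 0 := by
        have hle : ∀ n : ℕ, infEDist x S ≤ ENNReal.ofReal (1 / ((n : ℝ) + 1)) := fun n => h n
        have hlim : Tendsto (fun n : ℕ => ENNReal.ofReal (1 / ((n : ℝ) + 1))) atTop (𝓝 0) := by
          have := ENNReal.tendsto_ofReal (tendsto_one_div_add_atTop_nhds_zero_nat (𝕜 := ℝ))
          simpa only [one_div, ENNReal.ofReal_zero] using this
        exact le_antisymm (ge_of_tendsto' hlim hle) zero_le
      have := mem_closure_iff_infEDist_zero.2 h0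
      rwa [hS.isClosed.closure_eq] at this
    exact ⟨key A hA.1 fun n => (hx n).1, key B hB.1 fun n => (hx n).2⟩
  obtain ⟨n, hn⟩ := exists_subset_nhds_of_isCompact' h1 h2 (fun n => (h2 n).isClosed) h3
  exact ⟨_, hpos n, hn⟩

end

section
variable {V : Type} [NormedAddCommGroup V] [NormedSpace ℂ V] [FiniteDimensional ℂ V]

/-- Nonlinear splitting for paths -/
theorem ns_path {A B W : Set V} (hA : Good A) (hB : Good B) (hAB : Convex ℝ (A ∪ B))
    (hW : IsOpen W) (hABW : A ∩ B ⊆ W) {r : ℝ} (hr : 0 < r) (ε : ℝ) (hε : 0 < ε) :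
    ∃ δ > 0, ∀ e : ℝ → V × C2 → C2,
      (∀ s ∈ Icc (0 : ℝ) 1, DifferentiableOn ℂ (e s) (W ×ˢ ball 0 r)) →
      ContinuousOn (fun x : ℝ × (V × C2) => e x.1 x.2) (Icc (0 : ℝ) 1 ×ˢ (W ×ˢ ball 0 r)) →
      (∀ s ∈ Icc (0 : ℝ) 1, ∀ x ∈ W ×ˢ ball (0 : C2) r, ‖e s x‖ ≤ δ) →
      ∃ α τ : ℝ → V → C2, HolPath A α ∧ HolPath B τ ∧
        (∀ s ∈ Icc (0 : ℝ) 1, ∀ z ∈ A, ‖α s z‖ < ε) ∧
        (∀ s ∈ Icc (0 : ℝ) 1, ∀ z ∈ B, ‖τ s z‖ < ε) ∧
        ∀ᶠ z in 𝓝ˢ (A ∩ B), ∀ s ∈ Icc (0 : ℝ) 1, α s z - τ s z = e s (z, τ s z) := by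
  haveI : ProperSpace V := FiniteDimensional.proper ℂ V
  obtain ⟨η, hη, hηW⟩ := e7_thick hA hB hW hABW
  set A' := cthickening η A with hA'def
  set B' := cthickening η B with hB'def
  have hA' : Good A' := ⟨hA.1.cthickening, hA.2.cthickening η⟩
  have hB' : Good B' := ⟨hB.1.cthickening, hB.2.cthickening η⟩
  have hAB' : Convex ℝ (A' ∪ B') := by
    rw [hA'def, hB'def, ← cthickening_union]
    exact hAB.cthickening η
  have hAint : A ⊆ interior A' := (self_subset_thickening hη A).trans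
      (interior_maximal (thickening_subset_cthickening η A) isOpen_thickening)
  have hBint : B ⊆ interior B' := (self_subset_thickening hη B).trans
      (interior_maximal (thickening_subset_cthickening η B) isOpen_thickening)
  have hC : Good (A' ∩ B') := ⟨hA'.1.inter_right hB'.1.isClosed, hA'.2.inter hB'.2⟩
  let ρ : ℝ≥0 := ⟨r / 2, by (clear * - hr; positivity)⟩
  have hρr : (ρ : ℝ) = r / 2 := rfl
  have hρ : 0 < ρ := by
    rw [← NNReal.coe_pos, hρr]; (clear * - hr; positivity)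
  have hK0 : Good ((A' ∩ B') ×ˢ closedBall (0 : C2) ρ) :=
    ⟨hC.1.prod (isCompact_closedBall _ _), hC.2.prod (convex_closedBall _ _)⟩
  have hU : IsOpen (W ×ˢ ball (0 : C2) r) := hW.prod isOpen_ball
  have hKU : (A' ∩ B') ×ˢ closedBall (0 : C2) ρ ⊆ W ×ˢ ball (0 : C2) r :=
    prod_mono hηW (closedBall_subset_ball (by rw [hρr]; linarith only [hr]))
  obtain ⟨L, hL⟩ := exists_EN RR hK0 hU hKU
  let ε' : ℝ≥0 := ⟨ε, hε.le⟩
  have hε' : 0 < ε' := hε
  let δ : ℝ≥0 := min (ρ / 8) (ε' / 4) / (L + 1)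
  have hδ : 0 < δ := by
    have : 0 < min (ρ / 8) (ε' / 4) := lt_min (by (clear * - hρ; positivity)) (by (clear * - hε'; positivity))
    (clear * - hρ hε'; (clear * - hρ hε'; positivity))
  have hLδ : L * δ ≤ min (ρ / 8) (ε' / 4) := by
    calc L * δ ≤ (L + 1) * δ := mul_le_mul_left (le_self_add) _
      _ = min (ρ / 8) (ε' / 4) := by
        simp only [δ]
        rw [mul_div_cancel₀]
        (clear * -; positivity)
  set M : ℝ≥0 := L * δ with hM
  have hM8 : 8 * M ≤ ρ := by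
    have : M ≤ ρ / 8 := hLδ.trans (min_le_left _ _)
    calc 8 * M ≤ 8 * (ρ / 8) := mul_le_mul_right this _
      _ = ρ := by (clear * - hρ; field_simp)
  have hM4 : (2 * M : ℝ≥0) < ε' := by
    have : M ≤ ε' / 4 := hLδ.trans (min_le_right _ _)
    calc 2 * M ≤ 2 * (ε' / 4) := mul_le_mul_right this _
      _ = ε' / 2 := by field_simp; norm_num
      _ < ε' := NNReal.half_lt_self hε'.ne'
  have hM4' : ((2 * M : ℝ≥0) : ℝ) < ε := hM4
  have hM8' : ((2 * M : ℝ≥0) : ℝ) ≤ ρ := by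
    have : 2 * M ≤ 8 * M := mul_le_mul_left (by norm_num) _
    exact_mod_cast this.trans hM8
  refine ⟨δ, hδ, ?_⟩
  intro e he1 he2 he3
  -- the components
  have comp : ∀ p : C2 → ℂ, (∀ x, ‖p x‖ ≤ ‖x‖) → Differentiable ℂ p →
      ∃ E : V × C2 → RR, (∀ x ∈ W ×ˢ ball (0 : C2) r, ∀ s : unitInterval, E x s = p (e s x)) ∧
        EN ((A' ∩ B') ×ˢ closedBall (0 : C2) ρ) E M := by
    intro p hp hd
    obtain ⟨E, hE1, hE2⟩ := exists_toRR hU (β := fun s x => p (e s x))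
      (fun s hs => hd.comp_differentiableOn (he1 s hs))
      (hd.continuous.comp_continuousOn he2)
    refine ⟨E, hE2, hL E hE1 δ ?_⟩
    intro x hx
    refine (ContinuousMap.norm_le _ δ.2).2 fun s => ?_
    rw [hE2 x hx s]
    exact (hp _).trans (he3 s s.2 x hx)
  obtain ⟨E0, hE0, hEN0⟩ := comp Prod.fst (fun x => norm_fst_le x) differentiable_fst
  obtain ⟨E1, hE1, hEN1⟩ := comp Prod.snd (fun x => norm_snd_le x) differentiable_snd
  obtain ⟨a0, m0, ha0, hs0, hm0, hh0⟩ := EN.taylor hρ hEN0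
  obtain ⟨a1, m1, ha1, hs1, hm1, hh1⟩ := EN.taylor hρ hEN1
  obtain ⟨α, τ, hα, hτ, hατ⟩ := EN.nonlinear_split hA' hB' hAB' hρ hM8
    (a := ![a0, a1]) (m := ![m0, m1])
    (by intro i; fin_cases i; exacts [ha0, ha1]) (by intro i; fin_cases i; exacts [hs0, hs1])
    (by intro i; fin_cases i; exacts [hm0, hm1])
  have hP : ∀ (S S' : Set V), S ⊆ interior S' → ∀ f : Fin 2 → V → RR, (∀ i, EN S' (f i) (2 * M)) →
      HolPath S (fun s z => ((f 0 z (Set.projIcc 0 1 zero_le_one s),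
        f 1 z (Set.projIcc 0 1 zero_le_one s)) : C2)) ∧
      ∀ s ∈ Icc (0 : ℝ) 1, ∀ z ∈ S, ‖((f 0 z (Set.projIcc 0 1 zero_le_one s),
        f 1 z (Set.projIcc 0 1 zero_le_one s)) : C2)‖ < ε := by
    intro S S' hS f hf
    refine ⟨e7_prod (holPath_of_RR isOpen_interior hS (hf 0).differentiableOn)
      (holPath_of_RR isOpen_interior hS (hf 1).differentiableOn), ?_⟩
    intro s hs z hz
    have hz' : z ∈ S' := interior_subset (hS hz)
    rw [Prod.norm_def, max_lt_iff]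
    exact ⟨((ContinuousMap.norm_coe_le_norm _ _).trans ((hf 0).bound hz')).trans_lt hM4',
      ((ContinuousMap.norm_coe_le_norm _ _).trans ((hf 1).bound hz')).trans_lt hM4'⟩
  refine ⟨_, _, (hP A A' hAint α hα).1, (hP B B' hBint τ hτ).1, (hP A A' hAint α hα).2,
    (hP B B' hBint τ hτ).2, ?_⟩
  have hnb : thickening η A ∩ thickening η B ∈ 𝓝ˢ (A ∩ B) :=
    (isOpen_thickening.inter isOpen_thickening).mem_nhdsSet.2
      (inter_subset_inter (self_subset_thickening hη A) (self_subset_thickening hη B))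
  filter_upwards [hnb] with z hz s hs
  have hzA : z ∈ A' := thickening_subset_cthickening η A hz.1
  have hzB : z ∈ B' := thickening_subset_cthickening η B hz.2
  set s' : unitInterval := Set.projIcc 0 1 zero_le_one s with hs'
  have hss : (s' : ℝ) = s := by rw [hs', Set.projIcc_of_mem _ hs]
  set t : C2 := (τ 0 z s', τ 1 z s') with ht
  have hτn : ∀ i, ‖τ i z‖ ≤ ρ := fun i => ((hτ i).bound hzB).trans hM8'
  have htρ : t ∈ closedBall (0 : C2) ρ := by
    rw [mem_closedBall_zero_iff, ht, Prod.norm_def, max_le_iff]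
    exact ⟨(ContinuousMap.norm_coe_le_norm _ _).trans (hτn 0),
      (ContinuousMap.norm_coe_le_norm _ _).trans (hτn 1)⟩
  have hzt : (z, t) ∈ W ×ˢ ball (0 : C2) r := hKU ⟨⟨hzA, hzB⟩, htρ⟩
  have key : ∀ (E : V × C2 → RR) (a : ℕ × ℕ → V → RR) (m : ℕ × ℕ → ℝ≥0) (p : C2 → ℂ),
      (∀ x ∈ W ×ˢ ball (0 : C2) r, ∀ s : unitInterval, E x s = p (e s x)) →
      (∀ β, EN (A' ∩ B') (a β) (m β)) → Summable (fun β => m β * ρ ^ (β.1 + β.2)) →
      (∀ z ∈ A' ∩ B', ∀ t ∈ closedBall (0 : C2) ρ,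
        HasSum (fun β => (t.1 ^ β.1 * t.2 ^ β.2) • a β z) (E (z, t))) →
      (psr a τ z) s' = p (e s (z, t)) := by
    intro E a m p hE ha hs hh
    have h1 : Summable fun β : ℕ × ℕ => a β z * (τ 0 z ^ β.1 * τ 1 z ^ β.2) := by
      refine Summable.of_norm_bounded (g := fun β => ((m β * ρ ^ (β.1 + β.2) : ℝ≥0) : ℝ))
        (NNReal.summable_coe.2 hs) ?_
      intro β
      rw [pow_add]
      push_cast
      calc ‖a β z * (τ 0 z ^ β.1 * τ 1 z ^ β.2)‖ ≤ ‖a β z‖ * (‖τ 0 z‖ ^ β.1 * ‖τ 1 z‖ ^ β.2) := by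
            refine (norm_mul_le _ _).trans ?_
            refine mul_le_mul_of_nonneg_left ?_ (norm_nonneg _)
            refine (norm_mul_le _ _).trans ?_
            exact mul_le_mul (norm_pow_le _ _) (norm_pow_le _ _) (norm_nonneg _) (by (clear * -; (clear * -; positivity)))
        _ ≤ (m β : ℝ) * ((ρ : ℝ) ^ β.1 * (ρ : ℝ) ^ β.2) := by
            have := (ha β).bound (z := z) ⟨hzA, hzB⟩
            have h0 := hτn 0
            have h1 := hτn 1
            (clear * - this h0 h1 hρ; gcongr)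
    have h2 := (ContinuousMap.evalCLM ℂ s').hasSum h1.hasSum
    have h3 := (ContinuousMap.evalCLM ℂ s').hasSum (hh z ⟨hzA, hzB⟩ t htρ)
    have h4 : (fun β : ℕ × ℕ => (ContinuousMap.evalCLM ℂ s')
        ((t.1 ^ β.1 * t.2 ^ β.2) • a β z)) =
        fun β : ℕ × ℕ => (ContinuousMap.evalCLM ℂ s') (a β z * (τ 0 z ^ β.1 * τ 1 z ^ β.2)) := by
      funext β
      simp only [ContinuousMap.evalCLM_apply, ContinuousMap.smul_apply, ContinuousMap.mul_apply,
        ContinuousMap.pow_apply, smul_eq_mul, ht]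
      ring
    rw [h4] at h3
    have h5 := h2.unique h3
    have h6 : E (z, t) s' = p (e s (z, t)) := by rw [hE _ hzt s', hss]
    rw [← h6]
    exact h5
  have k0 := key E0 a0 m0 Prod.fst hE0 ha0 hs0 hh0
  have k1 := key E1 a1 m1 Prod.snd hE1 ha1 hs1 hh1
  have q0 := hατ 0 z ⟨hzA, hzB⟩
  have q1 := hατ 1 z ⟨hzA, hzB⟩
  have q0' := congrArg (fun f : RR => f s') q0
  have q1' := congrArg (fun f : RR => f s') q1
  simp only [ContinuousMap.sub_apply, Matrix.cons_val_zero, Matrix.cons_val_one] at q0' q1'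
  rw [k0] at q0'
  rw [k1] at q1'
  exact Prod.ext q0' q1'

end

end Vale.Agent.P290.K
end
end

section

section

set_option linter.all false

open Set Filter Metric
open scoped Topology

namespace Vale.Agent.P290.K

section
variable {V F : Type} [NormedAddCommGroup V] [NormedSpace ℂ V] [FiniteDimensional ℂ V]
  [NormedAddCommGroup F] [NormedSpace ℂ F]

theorem isPath_iff {O : Set (ℝ × V × F)} {K : Set V} {β : ℝ → V → F} :
    IsPath O K β ↔ HolPath K β ∧ ∀ s ∈ Icc (0 : ℝ) 1, ∀ z ∈ K, (s, z, β s z) ∈ O := Iff.rfl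

theorem HolPath.mono {K K' : Set V} (h : K' ⊆ K) {β : ℝ → V → F} (hβ : HolPath K β) :
    HolPath K' β := by
  obtain ⟨U, hU, hKU, hd, hc⟩ := hβ
  exact ⟨U, hU, h.trans hKU, hd, hc⟩

theorem HolPath.congr {K : Set V} {β β' : ℝ → V → F} (hβ : HolPath K β)
    (h : ∀ᶠ z in 𝓝ˢ K, ∀ s ∈ Icc (0 : ℝ) 1, β' s z = β s z) : HolPath K β' := by
  obtain ⟨U, hU, hKU, hd, hc⟩ := hβ
  obtain ⟨W, hW, hKW, hWh⟩ := mem_nhdsSet_iff_exists.1 h
  refine ⟨U ∩ W, hU.inter hW, subset_inter hKU hKW, fun s hs => ?_, ?_⟩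
  · exact ((hd s hs).mono inter_subset_left).congr fun z hz => hWh hz.2 s hs
  · exact (hc.mono (prod_mono_right inter_subset_left)).congr fun x hx => hWh hx.2.2 x.1 hx.1

/-- holomorphic near `A` and near `B` implies holomorphic near `A ∪ B` -/
theorem HolPath.union {A B : Set V} {β : ℝ → V → F} (hA : HolPath A β) (hB : HolPath B β) :
    HolPath (A ∪ B) β := by
  obtain ⟨U, hU, hKU, hd, hc⟩ := hA
  obtain ⟨U', hU', hKU', hd', hc'⟩ := hB
  refine ⟨U ∪ U', hU.union hU', union_subset_union hKU hKU', fun s hs => ?_, ?_⟩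
  · rintro z (hz | hz)
    · exact ((hd s hs).differentiableAt (hU.mem_nhds hz)).differentiableWithinAt
    · exact ((hd' s hs).differentiableAt (hU'.mem_nhds hz)).differentiableWithinAt
  · rintro x ⟨hx1, hx | hx⟩
    · refine (hc x ⟨hx1, hx⟩).mono_of_mem_nhdsWithin ?_
      have h1 : (univ : Set ℝ) ×ˢ U ∈ 𝓝 x := (isOpen_univ.prod hU).mem_nhds ⟨trivial, hx⟩
      filter_upwards [mem_nhdsWithin_of_mem_nhds h1, self_mem_nhdsWithin] with y hy hy'
      exact ⟨hy'.1, hy.2⟩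
    · refine (hc' x ⟨hx1, hx⟩).mono_of_mem_nhdsWithin ?_
      have h1 : (univ : Set ℝ) ×ˢ U' ∈ 𝓝 x := (isOpen_univ.prod hU').mem_nhds ⟨trivial, hx⟩
      filter_upwards [mem_nhdsWithin_of_mem_nhds h1, self_mem_nhdsWithin] with y hy hy'
      exact ⟨hy'.1, hy.2⟩

theorem HolPath.add {K : Set V} {β β' : ℝ → V → F} (hβ : HolPath K β) (hβ' : HolPath K β') :
    HolPath K (fun s z => β s z + β' s z) := by
  obtain ⟨U, hU, hKU, hd, hc⟩ := hβ
  obtain ⟨U', hU', hKU', hd', hc'⟩ := hβ'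
  refine ⟨U ∩ U', hU.inter hU', subset_inter hKU hKU', fun s hs => ?_, ?_⟩
  · exact ((hd s hs).mono inter_subset_left).add ((hd' s hs).mono inter_subset_right)
  · exact (hc.mono (prod_mono_right inter_subset_left)).add
      (hc'.mono (prod_mono_right inter_subset_right))

theorem HolPath.holNear {K : Set V} {β : ℝ → V → F} (hβ : HolPath K β) {s : ℝ}
    (hs : s ∈ Icc (0 : ℝ) 1) : HolNear K (β s) := by
  obtain ⟨U, hU, hKU, hd, hc⟩ := hβ
  have : U ∈ 𝓝ˢ K := hU.mem_nhdsSet.2 hKU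
  filter_upwards [this] with z hz
  exact (hd s hs).differentiableAt (hU.mem_nhds hz)

/-- uniform continuity in `s` -/
theorem HolPath.unif {K : Set V} (hKc : IsCompact K) {β : ℝ → V → F} (hβ : HolPath K β) {ε : ℝ}
    (hε : 0 < ε) :
    ∃ δ > 0, ∀ s ∈ Icc (0 : ℝ) 1, ∀ s' ∈ Icc (0 : ℝ) 1, |s - s'| < δ → ∀ z ∈ K,
      ‖β s z - β s' z‖ < ε := by
  obtain ⟨U, hU, hKU, hd, hc⟩ := hβ
  have h1 : IsCompact (Icc (0 : ℝ) 1 ×ˢ K) := isCompact_Icc.prod hKc
  have h2 := h1.uniformContinuousOn_of_continuous (hc.mono (prod_mono_right hKU))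
  obtain ⟨δ, hδ, h⟩ := Metric.uniformContinuousOn_iff.1 h2 ε hε
  refine ⟨δ, hδ, fun s hs s' hs' hss z hz => ?_⟩
  have := h (s, z) ⟨hs, hz⟩ (s', z) ⟨hs', hz⟩ (by
    rw [Prod.dist_eq]
    simpa only [Real.dist_eq, dist_self, abs_nonneg, sup_of_le_left] using hss)
  rwa [dist_eq_norm] at this

/-- the graph of a path is inside `O` with a margin -/
theorem IsPath.tube {O : Set (ℝ × V × F)} {U K : Set V} (hO : OpenOver O U) (hKc : IsCompact K)
    (hKU : K ⊆ U) {β : ℝ → V → F} (hβ : IsPath O K β) :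
    ∃ η > 0, ∀ s ∈ Icc (0 : ℝ) 1, ∀ z ∈ K, ∀ v : F, ‖v - β s z‖ < η → (s, z, v) ∈ O := by
  obtain ⟨⟨W, hW, hKW, hd, hc⟩, hm⟩ := hβ
  have h1 : IsCompact (Icc (0 : ℝ) 1 ×ˢ K) := isCompact_Icc.prod hKc
  have key : ∃ η > 0, ∀ x ∈ Icc (0 : ℝ) 1 ×ˢ K, ∀ v : F, ‖v - β x.1 x.2‖ < η →
      x.1 ∈ Icc (0 : ℝ) 1 → (x.1, x.2, v) ∈ O := by
    refine h1.induction_on (p := fun S => ∃ η > 0, ∀ x ∈ S, ∀ v : F, ‖v - β x.1 x.2‖ < η →
      x.1 ∈ Icc (0 : ℝ) 1 → (x.1, x.2, v) ∈ O) ⟨1, one_pos, by simp only [mem_empty_iff_false, mem_Icc, and_imp, IsEmpty.forall_iff, implies_true]⟩ ?_ ?_ ?_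
    · rintro s t hst ⟨η, hη, h⟩
      exact ⟨η, hη, fun x hx => h x (hst hx)⟩
    · rintro s t ⟨η, hη, h⟩ ⟨η', hη', h'⟩
      refine ⟨min η η', lt_min hη hη', ?_⟩
      rintro x (hx | hx) v hv
      · exact h x hx v (hv.trans_le (min_le_left _ _))
      · exact h' x hx v (hv.trans_le (min_le_right _ _))
    · rintro x₀ hx₀
      have hx₀' : (x₀.1, x₀.2, β x₀.1 x₀.2) ∈ O := hm x₀.1 hx₀.1 x₀.2 hx₀.2
      have h2 := hO _ hx₀' hx₀.1 (hKU hx₀.2)
      obtain ⟨ε, hε, hb⟩ := Metric.mem_nhdsWithin_iff.1 h2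
      have h3 : ContinuousWithinAt (fun x : ℝ × V => β x.1 x.2) (Icc (0 : ℝ) 1 ×ˢ K) x₀ :=
        (hc.mono (prod_mono_right hKW)) x₀ hx₀
      have h4 : ∀ᶠ x in 𝓝[Icc (0 : ℝ) 1 ×ˢ K] x₀, dist (β x.1 x.2) (β x₀.1 x₀.2) < ε / 2 :=
        h3 (Metric.ball_mem_nhds _ (half_pos hε))
      have h5 : ∀ᶠ x in 𝓝[Icc (0 : ℝ) 1 ×ˢ K] x₀, dist x x₀ < ε :=
        mem_nhdsWithin_of_mem_nhds (Metric.ball_mem_nhds _ hε)
      refine ⟨_, h4.and h5, ε / 2, half_pos hε, ?_⟩
      rintro x ⟨hx4, hx5⟩ v hv hx1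
      refine hb ⟨?_, hx1, trivial⟩
      rw [Metric.mem_ball, Prod.dist_eq, Prod.dist_eq]
      rw [Prod.dist_eq] at hx5
      refine max_lt ((le_max_left _ _).trans_lt hx5) (max_lt ((le_max_right _ _).trans_lt hx5) ?_)
      calc dist v (β x₀.1 x₀.2) ≤ dist v (β x.1 x.2) + dist (β x.1 x.2) (β x₀.1 x₀.2) :=
            dist_triangle _ _ _
        _ < ε / 2 + ε / 2 := by
            rw [dist_eq_norm v]
            exact add_lt_add hv hx4
        _ = ε := add_halves ε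
  obtain ⟨η, hη, h⟩ := key
  exact ⟨η, hη, fun s hs z hz v hv => h (s, z) ⟨hs, hz⟩ v hv hs⟩

/-- the same for the initial map -/
theorem tube_zero {O : Set (ℝ × V × F)} {U K : Set V} (hO : OpenOver O U) (hKc : IsCompact K)
    (hKU : K ⊆ U) {b : V → F} (hb : ContinuousOn b K) (hbO : ∀ z ∈ K, ((0 : ℝ), z, b z) ∈ O) :
    ∃ η > 0, ∀ s ∈ Icc (0 : ℝ) 1, s ≤ η → ∀ z ∈ K, ∀ v : F, ‖v - b z‖ < η →
      (s, z, v) ∈ O := by
  have key : ∃ η > 0, ∀ z ∈ K, ∀ s ∈ Icc (0 : ℝ) 1, s ≤ η → ∀ v : F, ‖v - b z‖ < η →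
      (s, z, v) ∈ O := by
    refine hKc.induction_on (p := fun S => ∃ η > 0, ∀ z ∈ S, ∀ s ∈ Icc (0 : ℝ) 1, s ≤ η →
      ∀ v : F, ‖v - b z‖ < η → (s, z, v) ∈ O) ⟨1, one_pos, by simp only [mem_empty_iff_false, mem_Icc, and_imp, forall_self_imp, IsEmpty.forall_iff, implies_true]⟩ ?_ ?_ ?_
    · rintro s t hst ⟨η, hη, h⟩
      exact ⟨η, hη, fun x hx => h x (hst hx)⟩
    · rintro s t ⟨η, hη, h⟩ ⟨η', hη', h'⟩
      refine ⟨min η η', lt_min hη hη', ?_⟩
      rintro x (hx | hx) s hs hs' v hv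
      · exact h x hx s hs (hs'.trans (min_le_left _ _)) v (hv.trans_le (min_le_left _ _))
      · exact h' x hx s hs (hs'.trans (min_le_right _ _)) v (hv.trans_le (min_le_right _ _))
    · rintro z₀ hz₀
      have h2 := hO _ (hbO z₀ hz₀) (left_mem_Icc.2 zero_le_one) (hKU hz₀)
      obtain ⟨ε, hε, hb'⟩ := Metric.mem_nhdsWithin_iff.1 h2
      have h4 : ∀ᶠ x in 𝓝[K] z₀, dist (b x) (b z₀) < ε / 2 :=
        hb z₀ hz₀ (Metric.ball_mem_nhds _ (half_pos hε))
      have h5 : ∀ᶠ x in 𝓝[K] z₀, dist x z₀ < ε :=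
        mem_nhdsWithin_of_mem_nhds (Metric.ball_mem_nhds _ hε)
      refine ⟨_, h4.and h5, ε / 2, half_pos hε, ?_⟩
      rintro x ⟨hx4, hx5⟩ s hs hs' v hv
      refine hb' ⟨?_, hs, trivial⟩
      rw [Metric.mem_ball, Prod.dist_eq, Prod.dist_eq]
      refine max_lt ?_ (max_lt hx5 ?_)
      · show dist s 0 < ε
        rw [Real.dist_eq, sub_zero, abs_of_nonneg hs.1]
        linarith only [hε, hs']
      · show dist v (b z₀) < ε
        calc dist v (b z₀) ≤ dist v (b x) + dist (b x) (b z₀) := dist_triangle _ _ _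
          _ < ε / 2 + ε / 2 := by
              rw [dist_eq_norm v]
              exact add_lt_add hv hx4
          _ = ε := add_halves ε
  obtain ⟨η, hη, h⟩ := key
  exact ⟨η, hη, fun s hs hs' z hz v hv => h z hz s hs hs' v hv⟩

/-- a path over `K` is a path over a neighbourhood of `K` -/
theorem IsPath.thicken {O : Set (ℝ × V × F)} {U K : Set V} (hU : IsOpen U) (hO : OpenOver O U)
    (hKc : IsCompact K) (hKU : K ⊆ U) {β : ℝ → V → F} (hβ : IsPath O K β) :
    ∃ η > 0, ∀ K' ⊆ cthickening η K, K' ⊆ U ∧ IsPath O K' β := by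
  obtain ⟨⟨W, hW, hKW, hd, hc⟩, hm⟩ := hβ
  have key : ∀ᶠ z in 𝓝ˢ K, ∀ s ∈ Icc (0 : ℝ) 1, s ∈ Icc (0 : ℝ) 1 → (s, z, β s z) ∈ O := by
    rw [eventually_nhdsSet_iff_forall]
    intro z₀ hz₀
    refine isCompact_Icc.eventually_forall_of_forall_eventually
      (P := fun z s => s ∈ Icc (0 : ℝ) 1 → (s, z, β s z) ∈ O) fun s₀ hs₀ => ?_
    have h2 := hO _ (hm s₀ hs₀ z₀ hz₀) hs₀ (hKU hz₀)
    have h3 : ContinuousWithinAt (fun x : ℝ × V => (x.1, x.2, β x.1 x.2))
        (Icc (0 : ℝ) 1 ×ˢ W) (s₀, z₀) :=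
      continuousWithinAt_fst.prodMk (continuousWithinAt_snd.prodMk (hc _ ⟨hs₀, hKW hz₀⟩))
    have h4 : Tendsto (fun x : ℝ × V => (x.1, x.2, β x.1 x.2))
        (𝓝[Icc (0 : ℝ) 1 ×ˢ W] (s₀, z₀)) (𝓝[Icc (0 : ℝ) 1 ×ˢ univ] (s₀, z₀, β s₀ z₀)) := by
      refine tendsto_nhdsWithin_iff.2 ⟨h3, ?_⟩
      filter_upwards [self_mem_nhdsWithin] with x hx
      exact ⟨hx.1, trivial⟩
    have h5 : ∀ᶠ x in 𝓝[Icc (0 : ℝ) 1 ×ˢ W] (s₀, z₀), (x.1, x.2, β x.1 x.2) ∈ O := h4 h2
    have h6 : ∀ᶠ x in 𝓝 (s₀, z₀), x ∈ Icc (0 : ℝ) 1 ×ˢ W → (x.1, x.2, β x.1 x.2) ∈ O :=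
      eventually_nhdsWithin_iff.1 h5
    have h7 : ∀ᶠ x in 𝓝 (z₀, s₀), x.swap ∈ Icc (0 : ℝ) 1 ×ˢ W →
        (x.2, x.1, β x.2 x.1) ∈ O := by
      have := (continuous_swap (X := V) (Y := ℝ)).continuousAt (x := (z₀, s₀))
      exact this.eventually h6
    have h8 : ∀ᶠ x in 𝓝 (z₀, s₀), x.1 ∈ W :=
      continuous_fst.continuousAt.eventually (hW.mem_nhds (hKW hz₀))
    filter_upwards [h7, h8] with x hx hx' hx''
    exact hx ⟨hx'', hx'⟩
  have hall : {z | ∀ s ∈ Icc (0 : ℝ) 1, s ∈ Icc (0 : ℝ) 1 → (s, z, β s z) ∈ O} ∩ (U ∩ W) ∈ 𝓝ˢ K :=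
    inter_mem key ((hU.inter hW).mem_nhdsSet.2 (subset_inter hKU hKW))
  obtain ⟨t, ht, hKt, hts⟩ := mem_nhdsSet_iff_exists.1 hall
  obtain ⟨η, hη, hηt⟩ := hKc.exists_cthickening_subset_open ht hKt
  refine ⟨η, hη, fun K' hK' => ?_⟩
  have hK't : ∀ z ∈ K', z ∈ {z | ∀ s ∈ Icc (0 : ℝ) 1, s ∈ Icc (0 : ℝ) 1 → (s, z, β s z) ∈ O} ∩
      (U ∩ W) := fun z hz => hts (hηt (hK' hz))
  exact ⟨fun z hz => (hK't z hz).2.1, ⟨W, hW, fun z hz => (hK't z hz).2.2, hd, hc⟩,
    fun s hs z hz => (hK't z hz).1 s hs hs⟩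

theorem thicken_zero {O : Set (ℝ × V × F)} {U K : Set V} (hU : IsOpen U) (hO : OpenOver O U)
    (hKc : IsCompact K) (hKU : K ⊆ U) {b : V → F} (hb : HolNear K b)
    (hbO : ∀ z ∈ K, ((0 : ℝ), z, b z) ∈ O) :
    ∃ η > 0, cthickening η K ⊆ U ∧ HolNear (cthickening η K) b ∧
      ∀ z ∈ cthickening η K, ((0 : ℝ), z, b z) ∈ O := by
  have h0 : (0 : ℝ) ∈ Icc (0 : ℝ) 1 := left_mem_Icc.2 zero_le_one
  have key : ∀ᶠ z in 𝓝ˢ K, ((0 : ℝ), z, b z) ∈ O := by
    rw [eventually_nhdsSet_iff_forall]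
    intro z₀ hz₀
    have hd : DifferentiableAt ℂ b z₀ := (eventually_nhdsSet_iff_forall.1 hb z₀ hz₀).self_of_nhds
    have h2 := hO _ (hbO z₀ hz₀) h0 (hKU hz₀)
    have h4 : Tendsto (fun z : V => ((0 : ℝ), z, b z)) (𝓝 z₀)
        (𝓝[Icc (0 : ℝ) 1 ×ˢ univ] ((0 : ℝ), z₀, b z₀)) := by
      refine tendsto_nhdsWithin_iff.2 ⟨?_, Eventually.of_forall fun z => ⟨h0, trivial⟩⟩
      exact continuousAt_const.prodMk (continuousAt_id.prodMk hd.continuousAt)
    exact h4 h2
  obtain ⟨t, ht, hKt, hts⟩ := mem_nhdsSet_iff_exists.1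
    (inter_mem (inter_mem key (hU.mem_nhdsSet.2 hKU)) hb)
  obtain ⟨η, hη, hηt⟩ := hKc.exists_cthickening_subset_open ht hKt
  refine ⟨η, hη, fun z hz => (hts (hηt hz)).1.2, ?_, fun z hz => (hts (hηt hz)).1.1⟩
  filter_upwards [ht.mem_nhdsSet.2 hηt] with z hz
  exact (hts hz).2

theorem LiftB.trans {O : Set (ℝ × V × F)} {b : V → F} {K K₁ K₂ : Set V} (hK : K ⊆ K₁)
    (h₁ : LiftB O b K K₁) (h₂ : LiftB O b K₁ K₂) : LiftB O b K K₂ := by
  intro β hβ hb ε hε
  obtain ⟨β₁, hβ₁, hb₁, hd₁⟩ := h₁ β hβ hb (ε / 2) (half_pos hε)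
  obtain ⟨β₂, hβ₂, hb₂, hd₂⟩ := h₂ β₁ hβ₁ hb₁.symm (ε / 2) (half_pos hε)
  refine ⟨β₂, hβ₂, hb₂, fun s hs z hz => ?_⟩
  calc ‖β₂ s z - β s z‖ = ‖(β₂ s z - β₁ s z) + (β₁ s z - β s z)‖ := by rw [sub_add_sub_cancel]
    _ ≤ ‖β₂ s z - β₁ s z‖ + ‖β₁ s z - β s z‖ := norm_add_le _ _
    _ < ε / 2 + ε / 2 := add_lt_add (hd₂ s hs z (hK hz)) (hd₁ s hs z hz)
    _ = ε := add_halves ε

/-- lifting with an additional parameter implies lifting -/
theorem Lift.of_lft {O : Set (ℝ × V × F)} {C B : Set V}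
    (h : Lift (lft O) (C ×ˢ {(0 : F)}) (B ×ˢ {(0 : F)})) : Lift O C B := by
  intro β hβ b hb hbO hbβ ε hε
  obtain ⟨⟨W, hW, hKW, hd, hc⟩, hm⟩ := hβ
  have hfst : ∀ S : Set V, Tendsto (Prod.fst : V × F → V) (𝓝ˢ (S ×ˢ {(0 : F)})) (𝓝ˢ S) :=
    fun S => continuous_fst.tendsto_nhdsSet fun x hx => hx.1
  have hemb : ∀ S : Set V, Tendsto (fun z : V => (z, (0 : F))) (𝓝ˢ S) (𝓝ˢ (S ×ˢ {(0 : F)})) :=
    fun S => (continuous_id.prodMk continuous_const).tendsto_nhdsSet fun x hx => ⟨hx, rfl⟩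
  obtain ⟨β₁, ⟨⟨W₁, hW₁, hBW₁, hd₁, hc₁⟩, hm₁⟩, hb₁, hε₁⟩ :=
    h (fun s x => β s x.1) ⟨⟨W ×ˢ univ, hW.prod isOpen_univ, fun x hx => ⟨hKW hx.1, trivial⟩,
      fun s hs => (hd s hs).comp differentiableOn_fst fun x hx => hx.1,
      hc.comp (continuousOn_fst.prodMk (continuous_fst.comp continuous_snd).continuousOn)
        fun x hx => ⟨hx.1, hx.2.1⟩⟩, fun s hs x hx => hm s hs x.1 hx.1⟩ (fun x => b x.1)
      (by
        filter_upwards [(hfst B).eventually hb] with x hx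
        exact hx.comp x differentiableAt_fst)
      (fun x hx => hbO x.1 hx.1)
      (by
        filter_upwards [(hfst C).eventually hbβ] with x hx
        exact hx) ε hε
  refine ⟨fun s z => β₁ s (z, 0), ⟨⟨{z | (z, (0 : F)) ∈ W₁}, ?_, ?_, ?_, ?_⟩, ?_⟩, ?_, ?_⟩
  · exact hW₁.preimage (continuous_id.prodMk continuous_const)
  · exact fun z hz => hBW₁ ⟨hz, rfl⟩
  · exact fun s hs => (hd₁ s hs).comp
      (differentiable_id.prodMk (differentiable_const _)).differentiableOn fun z hz => hz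
  · exact hc₁.comp (continuous_fst.prodMk (continuous_snd.prodMk continuous_const)).continuousOn
      fun x hx => ⟨hx.1, hx.2⟩
  · exact fun s hs z hz => hm₁ s hs (z, 0) ⟨hz, rfl⟩
  · filter_upwards [(hemb B).eventually hb₁] with z hz
    exact hz
  · exact fun s hs z hz => hε₁ s hs (z, 0) ⟨hz, rfl⟩

end

end Vale.Agent.P290.K
end
end

section

section

set_option linter.all false

open Set Filter Metric
open scoped Topology

namespace Vale.Agent.P290.K

section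
variable {V : Type} [NormedAddCommGroup V] [NormedSpace ℂ V] [FiniteDimensional ℂ V]

omit [FiniteDimensional ℂ V] in
theorem e9_smul {K : Set V} {a : V → C2} (ha : HolNear K a) {c : ℝ → ℝ} (hc : Continuous c) :
    HolPath K (fun s z => ((c s : ℝ) : ℂ) • a z) := by
  obtain ⟨U, hU, hKU, h⟩ := mem_nhdsSet_iff_exists.1 ha
  have hcont : ContinuousOn a U := fun z hz => (h hz).continuousAt.continuousWithinAt
  refine ⟨U, hU, hKU, fun s hs z hz => ?_, ?_⟩
  · have h2 : DifferentiableAt ℂ a z := h hz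
    exact (h2.const_smul ((c s : ℝ) : ℂ)).differentiableWithinAt
  have h1 : Continuous (fun x : ℝ × V => ((c x.1 : ℝ) : ℂ)) :=
    Complex.continuous_ofReal.comp (hc.comp continuous_fst)
  exact h1.continuousOn.smul (hcont.comp continuousOn_snd (fun x hx => hx.2))

theorem e9_comp {B Bp : Set V} (hB : IsCompact B) {D : Set C2} {β₁ : ℝ → V × C2 → C2}
    {τ : ℝ → V → C2} (h1 : HolPath (Bp ×ˢ D) β₁) (hτ : HolPath B τ) (hBB : B ⊆ Bp)
    (hτD : ∀ s ∈ Icc (0 : ℝ) 1, ∀ z ∈ B, τ s z ∈ D) :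
    HolPath B (fun s z => β₁ s (z, τ s z)) := by
  obtain ⟨U₂, hU₂, hBU₂, hd₂, hc₂⟩ := h1
  obtain ⟨U₃, hU₃, hBU₃, hd₃, hc₃⟩ := id hτ
  have hO : OpenOver {x : ℝ × V × C2 | (x.2.1, x.2.2) ∈ U₂} (univ : Set V) := by
    intro x hx _ _
    apply mem_nhdsWithin_of_mem_nhds
    have hc : Continuous (fun x : ℝ × V × C2 => (x.2.1, x.2.2)) := by fun_prop
    exact (hU₂.preimage hc).mem_nhds hx
  obtain ⟨η, hη, h⟩ := IsPath.thicken isOpen_univ hO hB (subset_univ _) (β := τ)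
    ⟨hτ, fun s hs z hz => hBU₂ ⟨hBB hz, hτD s hs z hz⟩⟩
  have h' := (h _ subset_rfl).2.2
  refine ⟨U₃ ∩ thickening η B, hU₃.inter isOpen_thickening,
    subset_inter hBU₃ (self_subset_thickening hη _), ?_, ?_⟩
  · intro s hs
    refine (hd₂ s hs).comp (differentiableOn_id.prodMk ((hd₃ s hs).mono inter_subset_left)) ?_
    intro z hz
    exact h' s hs z (thickening_subset_cthickening _ _ hz.2)
  · have h3 : ContinuousOn (fun x : ℝ × V => (x.1, (x.2, τ x.1 x.2)))
        (Icc (0 : ℝ) 1 ×ˢ (U₃ ∩ thickening η B)) :=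
      continuousOn_fst.prodMk (continuousOn_snd.prodMk
        (hc₃.mono (prod_mono subset_rfl inter_subset_left)))
    refine hc₂.comp h3 ?_
    intro x hx
    exact ⟨hx.1, h' x.1 hx.1 x.2 (thickening_subset_cthickening _ _ hx.2.2)⟩

/-- gluing -/
theorem liftB_union {O : Set (ℝ × V × C2)} {b : V → C2} {U W K B : Set V} (hU : IsOpen U)
    (hO : OpenOver O U) (hK : Good K) (hB : Good B) (hKB : Convex ℝ (K ∪ B)) (hKU : K ∪ B ⊆ U)
    (hW : IsOpen W) (hBW : B ⊆ W)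
    (hloc : ∀ C' B' : Set (V × C2), Good C' → Good B' → C' ⊆ B' → B' ⊆ W ×ˢ univ →
      Lift (lft O) C' B')
    (hb : HolNear (K ∪ B) b) (hbO : ∀ z ∈ K ∪ B, ((0 : ℝ), z, b z) ∈ O) :
    LiftB O b K (K ∪ B) := by
  classical
  intro β hβ hbβ ε hε
  haveI : ProperSpace V := FiniteDimensional.proper ℂ V
  have hKBc : IsCompact (K ∪ B) := hK.1.union hB.1
  -- step 1
  obtain ⟨η₁, hη₁, h1⟩ := IsPath.thicken hU hO hK.1 (subset_union_left.trans hKU) hβ
  obtain ⟨η₂, hη₂, h2U, h2b, h2O⟩ := thicken_zero hU hO hKBc hKU hb hbO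
  obtain ⟨η₃, hη₃, h3⟩ := hB.1.exists_cthickening_subset_open hW hBW
  obtain ⟨N, hNo, hKN, hN⟩ := mem_nhdsSet_iff_exists.1 hbβ
  obtain ⟨η₄, hη₄, h4⟩ := hK.1.exists_cthickening_subset_open hNo hKN
  obtain ⟨η, hη, hle1, hle2, hle3, hle4⟩ :
      ∃ η > 0, η ≤ η₁ ∧ η ≤ η₂ ∧ η ≤ η₃ ∧ η ≤ η₄ :=
    ⟨min (min η₁ η₂) (min η₃ η₄), by (clear * - hη₁ hη₂ hη₃ hη₄; positivity),
      (min_le_left _ _).trans (min_le_left _ _), (min_le_left _ _).trans (min_le_right _ _),
      (min_le_right _ _).trans (min_le_left _ _), (min_le_right _ _).trans (min_le_right _ _)⟩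
  obtain ⟨Kp, hKp⟩ : ∃ Kp, Kp = cthickening η K := ⟨_, rfl⟩
  obtain ⟨Bp, hBp⟩ : ∃ Bp, Bp = cthickening η B := ⟨_, rfl⟩
  have hKpg : Good Kp := by
    rw [hKp]; exact ⟨hK.1.cthickening, hK.2.cthickening η⟩
  have hBpg : Good Bp := by
    rw [hBp]; exact ⟨hB.1.cthickening, hB.2.cthickening η⟩
  have hKKp : K ⊆ interior Kp := by
    rw [hKp]
    exact (self_subset_thickening hη K).trans
      (interior_maximal (thickening_subset_cthickening η K) isOpen_thickening)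
  have hBBp : B ⊆ interior Bp := by
    rw [hBp]
    exact (self_subset_thickening hη B).trans
      (interior_maximal (thickening_subset_cthickening η B) isOpen_thickening)
  have hKpath : IsPath O Kp β := (h1 Kp (by rw [hKp]; exact cthickening_mono hle1 K)).2
  have hKpU : Kp ⊆ U := (h1 Kp (by rw [hKp]; exact cthickening_mono hle1 K)).1
  have hUn : Kp ∪ Bp ⊆ cthickening η₂ (K ∪ B) := by
    rw [hKp, hBp]
    exact union_subset
      ((cthickening_mono hle2 K).trans (cthickening_subset_of_subset _ subset_union_left))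
      ((cthickening_mono hle2 B).trans (cthickening_subset_of_subset _ subset_union_right))
  have hbp : HolNear (Kp ∪ Bp) b := h2b.filter_mono (nhdsSet_mono hUn)
  have hbpO : ∀ z ∈ Kp ∪ Bp, ((0 : ℝ), z, b z) ∈ O := fun z hz => h2O z (hUn hz)
  have hBpW : Bp ⊆ W := by
    rw [hBp]; exact (cthickening_mono hle3 B).trans h3
  have hKpN : Kp ⊆ N := by
    rw [hKp]; exact (cthickening_mono hle4 K).trans h4
  have hbK : ∀ z ∈ N, b z = β 0 z := fun z hz => hN hz
  -- step 2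
  obtain ⟨ρ₁, hρ₁, ht1⟩ := IsPath.tube hO hKpg.1 hKpU hKpath
  have hbcont : ContinuousOn b (Kp ∪ Bp) := fun z hz =>
    (hbp.self_of_nhdsSet z hz).continuousAt.continuousWithinAt
  obtain ⟨ρ₂, hρ₂, ht2⟩ := tube_zero hO (hKpg.1.union hBpg.1) (hUn.trans h2U) hbcont hbpO
  obtain ⟨r, hr, hr1, hr2, hr3⟩ : ∃ r > 0, 4 * r ≤ ρ₁ ∧ 4 * r ≤ ρ₂ ∧ 4 * r ≤ ε := by
    refine ⟨min ρ₁ (min ρ₂ ε) / 4, by (clear * - hρ₁ hρ₂ hε; positivity), ?_, ?_, ?_⟩
    · have := min_le_left ρ₁ (min ρ₂ ε); linarith only [this]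
    · have := (min_le_right ρ₁ (min ρ₂ ε)).trans (min_le_left _ _); linarith only [this]
    · have := (min_le_right ρ₁ (min ρ₂ ε)).trans (min_le_right _ _); (clear * - this; linarith)
  -- step 3
  obtain ⟨Cp, hCp⟩ : ∃ Cp, Cp = Kp ∩ Bp := ⟨_, rfl⟩
  have hCpg : Good Cp := by
    rw [hCp]; exact ⟨hKpg.1.inter hBpg.1, hKpg.2.inter hBpg.2⟩
  have hCpK : Cp ⊆ Kp := by rw [hCp]; exact inter_subset_left
  have hCpB : Cp ⊆ Bp := by rw [hCp]; exact inter_subset_right
  have hKBC : K ∩ B ⊆ interior Cp := by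
    rw [hCp, interior_inter]; exact inter_subset_inter hKKp hBBp
  have hDg : Good (closedBall (0 : C2) r) := ⟨isCompact_closedBall _ _, convex_closedBall _ _⟩
  obtain ⟨δ, hδ, hns⟩ := ns_path hK hB hKB (isOpen_interior (s := Cp)) hKBC hr (r / 2)
    (by (clear * - hr; positivity))
  have hpath1 : IsPath (lft O) (Cp ×ˢ closedBall (0 : C2) r) (fun s x => β s x.1 + x.2) := by
    obtain ⟨⟨U₁, hU₁, hKU₁, hd₁, hc₁⟩, hm⟩ := hKpath
    refine ⟨⟨U₁ ×ˢ univ, hU₁.prod isOpen_univ, prod_mono (hCpK.trans hKU₁) (subset_univ _),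
      ?_, ?_⟩, ?_⟩
    · intro s hs
      exact ((hd₁ s hs).comp differentiableOn_fst (fun x hx => hx.1)).add differentiableOn_snd
    · have h5 : ContinuousOn (fun x : ℝ × (V × C2) => β x.1 x.2.1)
          (Icc (0 : ℝ) 1 ×ˢ (U₁ ×ˢ univ)) := by
        have h6 : Continuous (fun x : ℝ × (V × C2) => (x.1, x.2.1)) := by fun_prop
        exact hc₁.comp h6.continuousOn (fun x hx => ⟨hx.1, hx.2.1⟩)
      have h7 : Continuous (fun x : ℝ × (V × C2) => x.2.2) := by fun_prop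
      exact h5.add h7.continuousOn
    · rintro s hs ⟨z, t⟩ ⟨hz, ht⟩
      refine ht1 s hs z (hCpK hz) _ ?_
      have : ‖t‖ ≤ r := by simpa using ht
      simp only [add_sub_cancel_left]
      linarith only [hr, hr1, this]
  have hbt : HolNear (Bp ×ˢ closedBall (0 : C2) r) (fun x : V × C2 => b x.1 + x.2) := by
    obtain ⟨U₁, hU₁, hBU₁, hd₁⟩ := mem_nhdsSet_iff_exists.1
      (hbp.filter_mono (nhdsSet_mono (subset_union_right (s := Kp) (t := Bp))))
    refine mem_nhdsSet_iff_exists.2 ⟨U₁ ×ˢ univ, hU₁.prod isOpen_univ,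
      prod_mono hBU₁ (subset_univ _), ?_⟩
    rintro ⟨z, t⟩ ⟨hz, -⟩
    have h8 : DifferentiableAt ℂ b z := hd₁ hz
    exact (DifferentiableAt.comp (z, t) (f := Prod.fst) (g := b) h8 differentiableAt_fst).add
      differentiableAt_snd
  have hbtO : ∀ x ∈ Bp ×ˢ closedBall (0 : C2) r, ((0 : ℝ), x, b x.1 + x.2) ∈ lft O := by
    rintro ⟨z, t⟩ ⟨hz, ht⟩
    refine ht2 0 ⟨le_rfl, zero_le_one⟩ hρ₂.le z (Or.inr hz) _ ?_
    have : ‖t‖ ≤ r := by simpa only [mem_closedBall, dist_zero_right] using ht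
    simp only [add_sub_cancel_left]
    linarith only [hr, hr2, this]
  have hbeq : (fun x : V × C2 => b x.1 + x.2)
      =ᶠ[𝓝ˢ (Cp ×ˢ closedBall (0 : C2) r)] (fun s (x : V × C2) => β s x.1 + x.2) 0 := by
    have : N ×ˢ (univ : Set C2) ∈ 𝓝ˢ (Cp ×ˢ closedBall (0 : C2) r) := by
      rw [(hNo.prod isOpen_univ).mem_nhdsSet]
      exact prod_mono (hCpK.trans hKpN) (subset_univ _)
    filter_upwards [this] with x hx
    simp only [hbK x.1 hx.1]
  obtain ⟨β₁, hβ₁, hβ₁0, hβ₁δ⟩ := hloc (Cp ×ˢ closedBall (0 : C2) r)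
    (Bp ×ˢ closedBall (0 : C2) r) ⟨hCpg.1.prod hDg.1, hCpg.2.prod hDg.2⟩
    ⟨hBpg.1.prod hDg.1, hBpg.2.prod hDg.2⟩
    (prod_mono hCpB subset_rfl) (prod_mono hBpW (subset_univ _)) _ hpath1 _ hbt hbtO hbeq δ hδ
  have hsubC : interior Cp ×ˢ ball (0 : C2) r ⊆ Cp ×ˢ closedBall (0 : C2) r :=
    prod_mono interior_subset ball_subset_closedBall
  obtain ⟨α, τ, hα, hτ, hαr, hτr, hατ⟩ := hns (fun s x => β₁ s x - (β s x.1 + x.2))
    (by
      intro s hs
      obtain ⟨⟨U₁, hU₁, hKU₁, hd₁, hc₁⟩, hm⟩ := hβ₁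
      obtain ⟨⟨U₂, hU₂, hKU₂, hd₂, hc₂⟩, hm₂⟩ := hpath1
      exact ((hd₁ s hs).mono ((hsubC.trans (prod_mono hCpB subset_rfl)).trans hKU₁)).sub
        ((hd₂ s hs).mono (hsubC.trans hKU₂)))
    (by
      obtain ⟨⟨U₁, hU₁, hKU₁, hd₁, hc₁⟩, hm⟩ := hβ₁
      obtain ⟨⟨U₂, hU₂, hKU₂, hd₂, hc₂⟩, hm₂⟩ := hpath1
      exact (hc₁.mono (prod_mono subset_rfl
          ((hsubC.trans (prod_mono hCpB subset_rfl)).trans hKU₁))).sub
        (hc₂.mono (prod_mono subset_rfl (hsubC.trans hKU₂))))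
    (fun s hs x hx => (hβ₁δ s hs x (hsubC hx)).le)
  have hBBp' : B ⊆ Bp := hBBp.trans interior_subset
  have hKKp' : K ⊆ Kp := hKKp.trans interior_subset
  have hτD : ∀ s ∈ Icc (0 : ℝ) 1, ∀ z ∈ B, τ s z ∈ closedBall (0 : C2) r := by
    intro s hs z hz
    have := hτr s hs z hz
    simp only [mem_closedBall, dist_zero_right]
    linarith only [hr, this]
  -- step 4
  have hp : HolPath K (fun s z => β s z + α s z) := HolPath.add hβ.1 hα
  have hq : HolPath B (fun s z => β₁ s (z, τ s z)) := e9_comp hB.1 hβ₁.1 hτ hBBp' hτD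
  obtain ⟨u, huK, huB⟩ := exists_glue hK.1 hB.1
    (fun z => fun s : Icc (0 : ℝ) 1 => β s z + α s z)
    (fun z => fun s : Icc (0 : ℝ) 1 => β₁ s (z, τ s z)) (by
      filter_upwards [hατ] with z hz
      funext s
      have h9 := hz s s.2
      have h10 : β₁ (s : ℝ) (z, τ s z) = β s z + τ s z + (α s z - τ s z) := by
        rw [h9]; abel
      rw [h10]; abel)
  obtain ⟨β₂, hβ₂⟩ : ∃ β₂ : ℝ → V → C2, β₂ = fun s z =>
      if h : s ∈ Icc (0 : ℝ) 1 then u z ⟨s, h⟩ else 0 := ⟨_, rfl⟩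
  have h2K : ∀ᶠ z in 𝓝ˢ K, ∀ s ∈ Icc (0 : ℝ) 1, β₂ s z = β s z + α s z := by
    filter_upwards [huK] with z hz s hs
    rw [hβ₂]
    simp only [hs, dif_pos, hz]
  have h2B : ∀ᶠ z in 𝓝ˢ B, ∀ s ∈ Icc (0 : ℝ) 1, β₂ s z = β₁ s (z, τ s z) := by
    filter_upwards [huB] with z hz s hs
    rw [hβ₂]
    simp only [hs, dif_pos, hz]
  have hβ₂h : HolPath (K ∪ B) β₂ := HolPath.union (hp.congr h2K) (hq.congr h2B)
  have h2K' : ∀ z ∈ K, ∀ s ∈ Icc (0 : ℝ) 1, β₂ s z = β s z + α s z :=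
    fun z hz => h2K.self_of_nhdsSet z hz
  have h2B' : ∀ z ∈ B, ∀ s ∈ Icc (0 : ℝ) 1, β₂ s z = β₁ s (z, τ s z) :=
    fun z hz => h2B.self_of_nhdsSet z hz
  -- step 5
  have h0 : (0 : ℝ) ∈ Icc (0 : ℝ) 1 := ⟨le_rfl, zero_le_one⟩
  obtain ⟨a, ha⟩ : ∃ a : V → C2, a = fun z => β₂ 0 z - b z := ⟨_, rfl⟩
  have hahol : HolNear (K ∪ B) a := by
    have h11 := hβ₂h.holNear h0
    filter_upwards [h11, hb] with z h12 h13
    rw [ha]
    exact h12.sub h13
  have haK : ∀ z ∈ K, a z = α 0 z := by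
    intro z hz
    rw [ha]
    simp only [h2K' z hz 0 h0, hbK z (hKN hz), add_sub_cancel_left]
  have haB : ∀ z ∈ B, a z = τ 0 z := by
    intro z hz
    have h14 : β₁ 0 (z, τ 0 z) = b z + τ 0 z :=
      hβ₁0.self_of_nhdsSet (x := (z, τ 0 z)) ⟨hBBp' hz, hτD 0 h0 z hz⟩
    rw [ha]
    simp only [h2B' z hz 0 h0, h14, add_sub_cancel_left]
  have har : ∀ z ∈ K ∪ B, ‖a z‖ < r / 2 := by
    rintro z (hz | hz)
    · rw [haK z hz]; exact hαr 0 h0 z hz
    · rw [haB z hz]; exact hτr 0 h0 z hz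
  obtain ⟨δ', hδ', hun⟩ := hβ₂h.unif hKBc hr
  obtain ⟨κ, hκ, hκ1, hκ2⟩ : ∃ κ > 0, κ < δ' ∧ κ ≤ ρ₂ :=
    ⟨min (δ' / 2) ρ₂, by (clear * - hδ' hρ₂; positivity), (min_le_left _ _).trans_lt (by linarith only [hδ']), min_le_right _ _⟩
  obtain ⟨c, hc⟩ : ∃ c : ℝ → ℝ, c = fun s => max 0 (1 - s / κ) := ⟨_, rfl⟩
  have hccont : Continuous c := by rw [hc]; fun_prop
  have hc0 : c 0 = 1 := by rw [hc]; simp only [zero_div, sub_zero, zero_le_one, sup_of_le_right]
  have hcnn : ∀ s, 0 ≤ c s := by intro s; rw [hc]; exact le_max_left _ _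
  have hcle : ∀ s, 0 ≤ s → c s ≤ 1 := by
    intro s hs
    rw [hc]
    refine max_le zero_le_one ?_
    have : 0 ≤ s / κ := by (clear * - hs hκ; (clear * - hs hκ; positivity))
    linarith only [this]
  have hc1 : ∀ s, κ ≤ s → c s = 0 := by
    intro s hs
    rw [hc]
    refine max_eq_left ?_
    have : 1 ≤ s / κ := by rw [le_div_iff₀ hκ]; linarith only [hs]
    linarith
  have hcnorm : ∀ s, 0 ≤ s → ∀ v : C2, ‖((c s : ℝ) : ℂ) • v‖ ≤ ‖v‖ := by
    intro s hs v
    rw [norm_smul, Complex.norm_real, Real.norm_eq_abs, abs_of_nonneg (hcnn s)]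
    exact mul_le_of_le_one_left (norm_nonneg _) (hcle s hs)
  refine ⟨fun s z => β₂ s z + ((-c s : ℝ) : ℂ) • a z, ⟨?_, ?_⟩, ?_, ?_⟩
  · exact HolPath.add hβ₂h (e9_smul hahol hccont.neg)
  · intro s hs z hz
    have hz' : z ∈ Kp ∪ Bp := union_subset_union hKKp' hBBp' hz
    by_cases hsκ : s ≤ κ
    · refine ht2 s hs (hsκ.trans hκ2) z hz' _ ?_
      have e1 : β₂ s z + ((-c s : ℝ) : ℂ) • a z - b z
          = (β₂ s z - β₂ 0 z) + (a z - ((c s : ℝ) : ℂ) • a z) := by
        have : a z = β₂ 0 z - b z := by rw [ha]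
        push_cast
        rw [neg_smul]
        nth_rewrite 2 [this]
        abel
      have e2 : ‖β₂ s z - β₂ 0 z‖ < r := by
        refine hun s hs 0 h0 ?_ z hz
        rw [sub_zero, abs_of_nonneg hs.1]
        exact hsκ.trans_lt hκ1
      have e3 := har z hz
      have e4 := hcnorm s hs.1 (a z)
      rw [e1]
      calc ‖(β₂ s z - β₂ 0 z) + (a z - ((c s : ℝ) : ℂ) • a z)‖
          ≤ ‖β₂ s z - β₂ 0 z‖ + (‖a z‖ + ‖((c s : ℝ) : ℂ) • a z‖) :=
            (norm_add_le _ _).trans (add_le_add le_rfl (norm_sub_le _ _))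
        _ < ρ₂ := by linarith only [e4, e3, e2, hr2, hr]
    · have e5 : ((-c s : ℝ) : ℂ) • a z = 0 := by
        rw [hc1 s (not_le.1 hsκ).le]; simp
      simp only [e5, add_zero]
      rcases hz with hz | hz
      · rw [h2K' z hz s hs]
        refine ht1 s hs z (hKKp' hz) _ ?_
        rw [add_sub_cancel_left]
        have := hαr s hs z hz
        linarith only [this, hr1, hr]
      · rw [h2B' z hz s hs]
        exact hβ₁.2 s hs (z, τ s z) ⟨hBBp' hz, hτD s hs z hz⟩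
  · refine Eventually.of_forall fun z => ?_
    simp only [hc0]
    rw [ha]
    simp
  · intro s hs z hz
    have e1 : β₂ s z + ((-c s : ℝ) : ℂ) • a z - β s z = α s z - ((c s : ℝ) : ℂ) • a z := by
      rw [h2K' z hz s hs]
      push_cast
      rw [neg_smul]
      abel
    have e3 := har z (Or.inl hz)
    have e4 := hcnorm s hs.1 (a z)
    have e5 := hαr s hs z hz
    simp only [e1]
    calc ‖α s z - ((c s : ℝ) : ℂ) • a z‖ ≤ ‖α s z‖ + ‖((c s : ℝ) : ℂ) • a z‖ :=
          norm_sub_le _ _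
      _ < ε := by linarith only [e5, e4, e3, hr3, hr]

end

end Vale.Agent.P290.K
end
end

section

section

set_option linter.all false

open Set Filter Metric
open scoped Topology

namespace Vale.Agent.P290.K

section
variable {V : Type} [NormedAddCommGroup V] [NormedSpace ℂ V] [FiniteDimensional ℂ V]

theorem e11_liftB_refl (O : Set (ℝ × V × C2)) (b : V → C2) (L : Set V) : LiftB O b L L := by
  intro β hβ hb ε hε
  refine ⟨β, hβ, hb.symm, ?_⟩
  intro s _ z _
  simpa only [sub_self, norm_zero, gt_iff_lt] using hε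

theorem e11_chain (O : Set (ℝ × V × C2)) {U W S L₀ L₁ : Set V} {b : V → C2} {ρ ρ₀ : ℝ}
    (hU : IsOpen U) (hO : OpenOver O U) (hρ : ρ < ρ₀) (hWS : W ⊆ S) (hSU : S ⊆ U)
    (hb : HolNear S b) (hbO : ∀ z ∈ S, ((0 : ℝ), z, b z) ∈ O)
    (hloc : ∀ a ∈ S, ∃ z₀ r, ball a ρ₀ ⊆ ball z₀ r ∧ ∀ C B : Set (V × C2), Good C → Good B →
      C ⊆ B → B ⊆ ball z₀ r ×ˢ univ → Lift (lft O) C B)
    (h : Relation.ReflTransGen (Step W ρ) L₀ L₁) : L₀ ⊆ L₁ ∧ LiftB O b L₀ L₁ := by
  induction h with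
  | refl => exact ⟨Subset.rfl, e11_liftB_refl O b L₀⟩
  | tail h₁ h₂ ih =>
    rename_i L L'
    obtain ⟨hL, hL', hL'W, a, haW, B, hB, hBa, hLB⟩ := h₂
    obtain ⟨z₀, r, hball, hz⟩ := hloc a (hWS haW)
    subst hLB
    refine ⟨ih.1.trans subset_union_left, LiftB.trans ih.1 ih.2 ?_⟩
    have hLS : L ∪ B ⊆ S := hL'W.trans hWS
    refine liftB_union (W := ball z₀ r) hU hO hL hB hL'.2 (hLS.trans hSU) isOpen_ball ?_ hz ?_ ?_
    · intro x hx
      apply hball
      have := hBa hx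
      rw [mem_closedBall] at this
      rw [mem_ball]
      linarith only [hρ, this]
    · exact Filter.Eventually.filter_mono (nhdsSet_mono hLS) hb
    · intro z hzz
      exact hbO z (hLS hzz)

theorem e11_nonempty (O : Set (ℝ × V × C2)) {U K K' : Set V} (hU : IsOpen U)
    (hO : OpenOver O U) (hK : Good K) (hK' : Good K') (hne : K.Nonempty) (hKK' : K ⊆ K')
    (hK'U : K' ⊆ U)
    (hloc : ∀ z₀ ∈ U, ∃ r > 0, ∀ C B : Set (V × C2), Good C → Good B → C ⊆ B →
      B ⊆ ball z₀ r ×ˢ univ → Lift (lft O) C B) : Lift O K K' := by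
  intro β hβ b hb hbO hbβ ε hε
  have : ProperSpace V := FiniteDimensional.proper ℂ V
  obtain ⟨η, hη, hηU, hbη, hbOη⟩ := thicken_zero hU hO hK'.1 hK'U hb hbO
  obtain ⟨η', hη', hthick⟩ := IsPath.thicken hU hO hK.1 (hKK'.trans hK'U) hβ
  obtain ⟨N, hN, hKN, hbN⟩ := eventually_nhdsSet_iff_exists.1 hbβ
  have hcomp : IsCompact (cthickening η K') := hK'.1.cthickening
  choose! r hr hlocr using hloc
  obtain ⟨ρ₀, hρ₀, hleb⟩ := lebesgue_number_lemma_of_metric (s := cthickening η K')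
    (c := fun z₀ : cthickening η K' => ball (z₀ : V) (r z₀)) hcomp (fun _ => isOpen_ball) (by
      intro x hx
      exact mem_iUnion.2 ⟨⟨x, hx⟩, mem_ball_self (hr x (hηU hx))⟩)
  have hKW : K ⊆ thickening η K' := hKK'.trans (self_subset_thickening hη K')
  obtain ⟨L₀, L₁, hL₀, hKL₀, hL₀W₀, hL₀W, hK'L₁, hch⟩ := exists_chain (W := thickening η K')
    (W₀ := thickening η' K ∩ N) hK hK' hne hKK' isOpen_thickening
    (self_subset_thickening hη K') (isOpen_thickening.inter hN)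
    (subset_inter (self_subset_thickening hη' K) hKN) (half_pos hρ₀)
  obtain ⟨-, hlift⟩ := e11_chain O (S := cthickening η K') (ρ₀ := ρ₀) (b := b) hU hO
    (by linarith only [hρ₀]) (thickening_subset_cthickening η K') hηU hbη hbOη (by
      intro a ha
      obtain ⟨⟨z₀, hz₀⟩, hz⟩ := hleb a ha
      exact ⟨z₀, r z₀, hz, hlocr z₀ (hηU hz₀)⟩) hch
  obtain ⟨β', hβ', hβ'0, hest⟩ := hlift β
    (hthick L₀ ((hL₀W₀.trans inter_subset_left).trans (thickening_subset_cthickening η' K))).2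
    (by
      have hNL : N ∈ 𝓝ˢ L₀ := hN.mem_nhdsSet.2 (hL₀W₀.trans inter_subset_right)
      filter_upwards [hNL] with z hz using hbN z hz) ε hε
  refine ⟨β', ⟨HolPath.mono hK'L₁ hβ'.1, fun s hs z hz => hβ'.2 s hs z (hK'L₁ hz)⟩,
    hβ'0.filter_mono (nhdsSet_mono hK'L₁), fun s hs z hz => hest s hs z (hKL₀ hz)⟩

theorem e11_isPath_empty (O : Set (ℝ × V × C2)) (β : ℝ → V → C2) : IsPath O ∅ β := by
  refine ⟨⟨∅, isOpen_empty, Subset.rfl, fun s _ => differentiableOn_empty, ?_⟩, ?_⟩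
  · rw [prod_empty]
    exact continuousOn_empty _
  · intro s _ z hz
    exact absurd hz (notMem_empty z)

theorem lift_of_local (O : Set (ℝ × V × C2)) {U K K' : Set V} (hU : IsOpen U)
    (hO : OpenOver O U) (hK : Good K) (hK' : Good K') (hKK' : K ⊆ K') (hK'U : K' ⊆ U)
    (hloc : ∀ z₀ ∈ U, ∃ r > 0, ∀ C B : Set (V × C2), Good C → Good B → C ⊆ B →
      B ⊆ ball z₀ r ×ˢ univ → Lift (lft O) C B) : Lift O K K' := by
  rcases K.eq_empty_or_nonempty with hKe | hne
  · subst hKe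
    rcases K'.eq_empty_or_nonempty with hKe' | ⟨z₁, hz₁⟩
    · subst hKe'
      intro β hβ b hb hbO hbβ ε hε
      exact ⟨fun _ => b, e11_isPath_empty O _, Filter.EventuallyEq.rfl,
        fun s _ z hz => absurd hz (notMem_empty z)⟩
    · intro β hβ b hb hbO hbβ ε hε
      obtain ⟨r, hr, hl⟩ := hloc z₁ (hK'U hz₁)
      have hs : ({z₁} : Set V) ⊆ K' := singleton_subset_iff.2 hz₁
      have hgood1 : Good ({z₁} : Set V) := ⟨isCompact_singleton, convex_singleton z₁⟩
      have h1 : Lift O (∅ : Set V) {z₁} := by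
        apply Lift.of_lft
        apply hl
        · rw [empty_prod]
          exact ⟨isCompact_empty, convex_empty⟩
        · exact ⟨isCompact_singleton.prod isCompact_singleton,
            (convex_singleton z₁).prod (convex_singleton (0 : C2))⟩
        · rw [empty_prod]
          exact empty_subset _
        · rintro ⟨x, y⟩ ⟨hx, -⟩
          rw [mem_singleton_iff] at hx
          subst hx
          exact ⟨mem_ball_self hr, mem_univ _⟩
      obtain ⟨β₁, hβ₁, hβ₁0, -⟩ := h1 (fun _ => b) (e11_isPath_empty O _) b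
        (Filter.Eventually.filter_mono (nhdsSet_mono hs) hb)
        (fun z hz => hbO z (hs hz)) Filter.EventuallyEq.rfl 1 one_pos
      obtain ⟨β', hβ', hβ'0, -⟩ := e11_nonempty O hU hO hgood1 hK' (singleton_nonempty z₁) hs hK'U
        hloc β₁ hβ₁ b hb hbO hβ₁0.symm 1 one_pos
      exact ⟨β', hβ', hβ'0, fun s _ z hz => absurd hz (notMem_empty z)⟩
  · exact e11_nonempty O hU hO hK hK' hne hKK' hK'U hloc

end

end Vale.Agent.P290.K
end
end

section

section

set_option linter.all false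

open Set Filter Metric
open scoped Topology Manifold ContDiff

namespace Vale.Agent.P290.K

/-- the standard volume form of `ℂ²` -/
theorem exists_vol : Nonempty (VolForm C2) := by
  refine ⟨⟨fun _ _ => 1, fun _ _ => differentiableOn_const _, fun _ _ _ _ => one_ne_zero, ?_⟩⟩
  intro e he e' he' y hy _
  rw [chartedSpaceSelf_atlas] at he he'
  subst he
  subst he'
  have h1 : (fun z : C2 => (OpenPartialHomeomorph.refl C2) ((OpenPartialHomeomorph.refl C2).symm z)) =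
      id := rfl
  rw [h1, fderiv_id]
  simp [ContinuousLinearMap.det]

/-- solution of `fl w h f = g` for `g` near `f` -/
theorem fl_solve {V : Type} [NormedAddCommGroup V] [NormedSpace ℂ V] [FiniteDimensional ℂ V]
    {h : V → ℂ} {f : V → C2} {C : Set V} (hC : Good C) (hh : HolNear C h) (hf : HolNear C f)
    (hfP : ∀ z ∈ C, (h z, f z) ∈ Psh) (δ : ℝ) (hδ : 0 < δ) :
    ∃ η > 0, ∀ g : V → C2, HolNear C g → (∀ z ∈ C, ‖g z - f z‖ < η) →
      ∃ w : V → Fin 3 → ℂ, HolNear C w ∧ ∀ᶠ z in 𝓝ˢ C, ‖w z‖ < δ ∧ fl (w z) (h z) (f z) = g z := by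
  obtain ⟨vol⟩ := exists_vol
  set S : V × (Fin 3 → ℂ) → C2 := fun x => fl x.2 (h x.1) (f x.1) with hSd
  have hS : MHolNear C2 (C ×ˢ {(0 : Fin 3 → ℂ)}) S := by
    have h1 : Tendsto (Prod.fst : V × (Fin 3 → ℂ) → V) (𝓝ˢ (C ×ˢ {(0 : Fin 3 → ℂ)})) (𝓝ˢ C) :=
      continuous_fst.tendsto_nhdsSet fun x hx => hx.1
    have h2 : ∀ᶠ z in 𝓝ˢ C, DifferentiableAt ℂ h z ∧ DifferentiableAt ℂ f z := hh.and hf
    filter_upwards [h1.eventually h2] with x hx
    rw [mdifferentiableAt_iff_differentiableAt]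
    have h3 : DifferentiableAt ℂ (fun x : V × (Fin 3 → ℂ) => h x.1) x :=
      DifferentiableAt.comp x hx.1 differentiableAt_fst
    have h4 : DifferentiableAt ℂ (fun x : V × (Fin 3 → ℂ) => f x.1) x :=
      DifferentiableAt.comp x hx.2 differentiableAt_fst
    have h5 : DifferentiableAt ℂ (fun x : V × (Fin 3 → ℂ) => (x.2, h x.1, f x.1)) x :=
      differentiableAt_snd.prodMk (h3.prodMk h4)
    have h6 := DifferentiableAt.comp (g := fun x : (Fin 3 → ℂ) × ℂ × C2 => fl x.1 x.2.1 x.2.2) x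
      (differentiable_fl _) h5
    exact h6
  have hD : ∀ z, (fun z => fderiv ℂ (fun w : Fin 3 → ℂ => fl w (h z) (f z)) 0) z =
      mfderiv 𝓘(ℂ, Fin 3 → ℂ) 𝓘(ℂ, C2) (fun w => S (z, w)) 0 := by
    intro z
    rw [mfderiv_eq_fderiv]
  obtain ⟨P, hP, hPe⟩ := exists_projector vol hC S hS
    (fun z => fderiv ℂ (fun w : Fin 3 → ℂ => fl w (h z) (f z)) 0) hD
    (fun z hz => fl_surjective (hfP z hz))
  obtain ⟨𝒪, h𝒪, hf𝒪, hsol⟩ := exists_solution hC.isCompact S f hS
    (Eventually.of_forall fun z => fl_zero _ _) P hP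
    (fun z => fderiv ℂ (fun w : Fin 3 → ℂ => fl w (h z) (f z)) 0) hD
    (hPe.mono fun z hz => hz.1) (hPe.mono fun z hz => hz.2.1) (hPe.mono fun z hz => hz.2.2) δ hδ
  have hfc : ContinuousOn f C := fun z hz =>
    (hf.self_of_nhdsSet z hz).continuousAt.continuousWithinAt
  have hcomp : IsCompact ((fun z => (z, f z)) '' C) :=
    hC.isCompact.image_of_continuousOn (continuousOn_id.prodMk hfc)
  obtain ⟨η, hη, hsub⟩ := hcomp.exists_thickening_subset_open h𝒪 (by
    rintro _ ⟨z, hz, rfl⟩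
    exact hf𝒪 z hz)
  refine ⟨η, hη, fun g hg hgf => ?_⟩
  refine hsol g ?_ fun z hz => hsub ?_
  · filter_upwards [hg] with z hz
    rw [mdifferentiableAt_iff_differentiableAt]
    exact hz
  · rw [mem_thickening_iff]
    refine ⟨(z, f z), ⟨z, hz, rfl⟩, ?_⟩
    rw [Prod.dist_eq, dist_self, dist_eq_norm]
    exact max_lt hη (hgf z hz)

end Vale.Agent.P290.K
end
end

section

section

set_option linter.all false

open Set Filter Metric
open scoped Topology

namespace Vale.Agent.P290.K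

private theorem kd3a_tube {A B : Type} [SeminormedAddCommGroup A] [TopologicalSpace B]
    {G : Set (A × B)} (hG : IsOpen G) {S : Set B} (hS : IsCompact S) (h0 : ∀ x ∈ S, ((0 : A), x) ∈ G) :
    ∃ δ > 0, ∀ w : A, ‖w‖ < δ → ∀ x ∈ S, (w, x) ∈ G := by
  have hsub : ({0} : Set A) ×ˢ S ⊆ G := by
    rintro ⟨w, x⟩ ⟨hw, hx⟩
    have hw' : w = 0 := hw
    subst hw'
    exact h0 x hx
  obtain ⟨u, v, hu, hv, h0u, hSv, huv⟩ :=
    generalized_tube_lemma isCompact_singleton hS hG hsub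
  obtain ⟨δ, hδ, hball⟩ := Metric.isOpen_iff.1 hu 0 (h0u rfl)
  exact ⟨δ, hδ, fun w hw x hx => huv ⟨hball (by simpa using hw), hSv hx⟩⟩

private theorem kd3a_cont : Continuous (fun y : (Fin 3 → ℂ) × ℂ × C2 => ‖fl y.1 y.2.1 y.2.2 - y.2.2‖) := by
  have hfl : Continuous (fun y : (Fin 3 → ℂ) × ℂ × C2 => fl y.1 y.2.1 y.2.2) :=
    differentiable_fl.continuous
  exact (hfl.sub (continuous_snd.comp continuous_snd)).norm

private theorem kd3a_unif_fl {S : Set (ℂ × C2)} (hS : IsCompact S) {ε : ℝ} (hε : 0 < ε) :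
    ∃ δ > 0, ∀ w : Fin 3 → ℂ, ‖w‖ < δ → ∀ x ∈ S, ‖fl w x.1 x.2 - x.2‖ < ε := by
  have hopen : IsOpen {y : (Fin 3 → ℂ) × ℂ × C2 | ‖fl y.1 y.2.1 y.2.2 - y.2.2‖ < ε} :=
    isOpen_lt kd3a_cont continuous_const
  obtain ⟨δ, hδ, H⟩ := kd3a_tube hopen hS (by
    intro x hx
    rw [mem_setOf_eq]
    rw [fl_zero, sub_self, norm_zero]
    exact hε)
  refine ⟨δ, hδ, fun w hw x hx => ?_⟩
  have := H w hw x hx
  rwa [mem_setOf_eq] at this

private theorem kd3a_conv {w w' : Fin 3 → ℂ} {δ θ : ℝ} (hw : ‖w‖ < δ) (hw' : ‖w'‖ < δ)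
    (hθ : θ ∈ Icc (0 : ℝ) 1) : ‖(1 - θ : ℂ) • w + (θ : ℂ) • w'‖ < δ := by
  have h1 : ‖(1 - θ : ℂ)‖ = 1 - θ := by
    have : (1 - θ : ℂ) = ((1 - θ : ℝ) : ℂ) := by push_cast; rfl
    rw [this, Complex.norm_real, Real.norm_eq_abs, abs_of_nonneg (by linarith only [hθ.2])]
  have h2 : ‖(θ : ℂ)‖ = θ := by
    rw [Complex.norm_real, Real.norm_eq_abs, abs_of_nonneg hθ.1]
  have h3 := norm_add_le ((1 - θ : ℂ) • w) ((θ : ℂ) • w')
  rw [norm_smul, norm_smul, h1, h2] at h3
  have h4 : 0 ≤ 1 - θ := by linarith [hθ.2]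
  have h5 := hθ.1
  rcases eq_or_lt_of_le h5 with h6 | h6
  · subst h6
    simp only [sub_zero, one_mul, zero_mul, add_zero] at h3
    exact lt_of_le_of_lt h3 hw
  · linarith only [mul_lt_mul_of_pos_left hw' h6, mul_le_mul_of_nonneg_left hw.le h4, h3]

section
variable {V : Type} [NormedAddCommGroup V] [NormedSpace ℂ V] [FiniteDimensional ℂ V]

/-- partition of a path into pieces given by flows -/
theorem exists_partition {h : V → ℂ} {C : Set V} (hC : Good C) (hh : HolNear C h) {β : ℝ → V → C2}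
    (hβ : IsPath (OP h) C β) {ε : ℝ} (hε : 0 < ε) :
    ∃ (N : ℕ) (s : ℕ → ℝ) (r : ℕ → ℝ) (w w' : ℕ → V → Fin 3 → ℂ), 0 < N ∧ s 0 = 0 ∧ s N = 1 ∧
      StrictMono s ∧ (∀ j < N, r j ∈ Icc (0 : ℝ) 1) ∧
      (∀ j < N, HolNear C (w j) ∧ HolNear C (w' j)) ∧
      (∀ j < N, ∀ᶠ z in 𝓝ˢ C, fl (w j z) (h z) (β (r j) z) = β (s j) z ∧
        fl (w' j z) (h z) (β (r j) z) = β (s (j + 1)) z) ∧
      ∀ j < N, ∀ z ∈ C, ∀ θ ∈ Icc (0 : ℝ) 1, ∀ t ∈ Icc (s j) (s (j + 1)),
        ‖fl ((1 - θ : ℂ) • w j z + (θ : ℂ) • w' j z) (h z) (β (r j) z) - β t z‖ < ε := by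
  have hP : HolPath C β := hβ.1
  have hO : ∀ s ∈ Icc (0 : ℝ) 1, ∀ z ∈ C, (h z, β s z) ∈ Psh := by
    intro s hs z hz
    have h1 := hβ.2 s hs z hz
    rw [OP, mem_setOf_eq] at h1
    exact h1
  have hhc : ContinuousOn h C := by
    intro z hz
    have h1 : DifferentiableAt ℂ h z := (show ∀ᶠ z in 𝓝ˢ C, DifferentiableAt ℂ h z from hh).self_of_nhdsSet z hz
    exact h1.continuousAt.continuousWithinAt
  -- (1)
  obtain ⟨δ, hδ, hfl⟩ : ∃ δ > 0, ∀ w : Fin 3 → ℂ, ‖w‖ < δ → ∀ s ∈ Icc (0 : ℝ) 1, ∀ z ∈ C,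
      ‖fl w (h z) (β s z) - β s z‖ < ε / 2 := by
    obtain ⟨U, hU, hCU, -, hcont⟩ := hP
    have hcomp : IsCompact ((fun x : ℝ × V => (h x.2, β x.1 x.2)) '' (Icc (0 : ℝ) 1 ×ˢ C)) := by
      refine (isCompact_Icc.prod hC.1).image_of_continuousOn ?_
      refine ContinuousOn.prodMk ?_ (hcont.mono (prod_mono_right hCU))
      exact hhc.comp continuousOn_snd fun x hx => hx.2
    obtain ⟨δ, hδ, H⟩ := kd3a_unif_fl hcomp (half_pos hε)
    refine ⟨δ, hδ, fun w hw s hs z hz => ?_⟩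
    have hx : (h z, β s z) ∈ (fun x : ℝ × V => (h x.2, β x.1 x.2)) '' (Icc (0 : ℝ) 1 ×ˢ C) :=
      ⟨(s, z), ⟨hs, hz⟩, rfl⟩
    exact H w hw (h z, β s z) hx
  -- (2)
  have h2 : ∀ r : Icc (0 : ℝ) 1, ∃ η > 0, ∀ g : V → C2, HolNear C g →
      (∀ z ∈ C, ‖g z - β r z‖ < η) →
      ∃ w : V → Fin 3 → ℂ, HolNear C w ∧
        ∀ᶠ z in 𝓝ˢ C, ‖w z‖ < δ ∧ fl (w z) (h z) (β r z) = g z := by
    intro r
    exact fl_solve hC hh (hP.holNear r.2) (fun z hz => hO r r.2 z hz) δ hδ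
  choose η hη hsolve using h2
  have h3 : ∀ r : Icc (0 : ℝ) 1, ∃ κ > 0, ∀ s ∈ Icc (0 : ℝ) 1, ∀ s' ∈ Icc (0 : ℝ) 1,
      |s - s'| < κ → ∀ z ∈ C, ‖β s z - β s' z‖ < min (η r) (ε / 2) := by
    intro r
    exact hP.unif hC.1 (lt_min (hη r) (half_pos hε))
  choose κ hκ hunif using h3
  -- (3)
  obtain ⟨κ₀, hκ₀, hleb⟩ := lebesgue_number_lemma_of_metric (s := Icc (0 : ℝ) 1)
    (c := fun r : Icc (0 : ℝ) 1 => ball (r : ℝ) (κ r)) isCompact_Icc (fun r => isOpen_ball)
    (fun x hx => mem_iUnion.2 ⟨⟨x, hx⟩, mem_ball_self (hκ _)⟩)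
  obtain ⟨N, hN⟩ := exists_nat_gt (1 / κ₀)
  have hNpos : (0 : ℝ) < N := lt_trans (by (clear * - hκ₀; positivity)) hN
  have hN0 : 0 < N := by exact_mod_cast hNpos
  have hNκ : 1 / (N : ℝ) < κ₀ := by
    rw [div_lt_iff₀ hκ₀] at hN
    rw [div_lt_iff₀ hNpos]
    linarith only [hN]
  have hsIcc : ∀ j ≤ N, ((j : ℝ) / N) ∈ Icc (0 : ℝ) 1 := by
    intro j hj
    refine ⟨by (clear * - hN0; positivity), ?_⟩
    rw [div_le_one hNpos]
    exact_mod_cast hj
  have hstep : ∀ j : ℕ, (((j + 1 : ℕ) : ℝ) / N) = (j : ℝ) / N + 1 / N := by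
    intro j
    push_cast
    ring
  have hmain : ∀ j : ℕ, ∃ (r : ℝ) (w w' : V → Fin 3 → ℂ), j < N →
      (r ∈ Icc (0 : ℝ) 1) ∧ (HolNear C w ∧ HolNear C w') ∧
      (∀ᶠ z in 𝓝ˢ C, fl (w z) (h z) (β r z) = β ((j : ℝ) / N) z ∧
        fl (w' z) (h z) (β r z) = β (((j + 1 : ℕ) : ℝ) / N) z) ∧
      ∀ z ∈ C, ∀ θ ∈ Icc (0 : ℝ) 1, ∀ t ∈ Icc ((j : ℝ) / N) (((j + 1 : ℕ) : ℝ) / N),
        ‖fl ((1 - θ : ℂ) • w z + (θ : ℂ) • w' z) (h z) (β r z) - β t z‖ < ε := by
    intro j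
    by_cases hj : j < N
    swap
    · exact ⟨0, fun _ => 0, fun _ => 0, fun h => absurd h hj⟩
    obtain ⟨r, hr⟩ := hleb _ (hsIcc j hj.le)
    have hclose : ∀ t ∈ Icc ((j : ℝ) / N) (((j + 1 : ℕ) : ℝ) / N), |t - r| < κ r := by
      intro t ht
      have h1 : t ∈ ball ((j : ℝ) / N) κ₀ := by
        rw [mem_ball, Real.dist_eq, abs_lt]
        rw [hstep] at ht
        constructor
        · linarith only [ht.1, hκ₀]
        · linarith only [hNκ, ht.2]
      have h2 := hr h1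
      rwa [mem_ball, Real.dist_eq] at h2
    have htI : ∀ t ∈ Icc ((j : ℝ) / N) (((j + 1 : ℕ) : ℝ) / N), t ∈ Icc (0 : ℝ) 1 := by
      intro t ht
      exact ⟨(hsIcc j hj.le).1.trans ht.1, ht.2.trans (hsIcc (j + 1) hj).2⟩
    have hjj : (j : ℝ) / N ≤ ((j + 1 : ℕ) : ℝ) / N := by
      rw [hstep]
      have : 0 < 1 / (N : ℝ) := by (clear * - hN0; positivity)
      linarith only [this]
    have hnear : ∀ t ∈ Icc ((j : ℝ) / N) (((j + 1 : ℕ) : ℝ) / N), ∀ z ∈ C,
        ‖β t z - β r z‖ < min (η r) (ε / 2) :=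
      fun t ht z hz => hunif r t (htI t ht) r r.2 (hclose t ht) z hz
    obtain ⟨w, hw, hwe⟩ := hsolve r (β ((j : ℝ) / N)) (hP.holNear (hsIcc j hj.le))
      (fun z hz => (hnear _ (left_mem_Icc.2 hjj) z hz).trans_le (min_le_left _ _))
    obtain ⟨w', hw', hwe'⟩ := hsolve r (β (((j + 1 : ℕ) : ℝ) / N))
      (hP.holNear (hsIcc (j + 1) hj))
      (fun z hz => (hnear _ (right_mem_Icc.2 hjj) z hz).trans_le (min_le_left _ _))
    refine ⟨r, w, w', fun _ => ⟨r.2, ⟨hw, hw'⟩, ?_, ?_⟩⟩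
    · filter_upwards [hwe, hwe'] with z hz hz'
      exact ⟨hz.2, hz'.2⟩
    · intro z hz θ hθ t ht
      have e1 := (hwe.self_of_nhdsSet z hz).1
      have e2 := (hwe'.self_of_nhdsSet z hz).1
      have e3 := hfl _ (kd3a_conv e1 e2 hθ) r r.2 z hz
      have e4 := (hnear t ht z hz).trans_le (min_le_right _ _)
      have e5 := norm_sub_le_norm_sub_add_norm_sub
        (fl ((1 - θ : ℂ) • w z + (θ : ℂ) • w' z) (h z) (β r z)) (β r z) (β t z)
      rw [norm_sub_rev (β r z) (β t z)] at e5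
      linarith only [e5, e4, e3]
  choose r w w' hrw using hmain
  refine ⟨N, fun j => (j : ℝ) / N, r, w, w', hN0, by simp, div_self hNpos.ne', ?_,
    fun j hj => (hrw j hj).1, fun j hj => (hrw j hj).2.1, fun j hj => (hrw j hj).2.2.1,
    fun j hj => (hrw j hj).2.2.2⟩
  intro i j hij
  exact div_lt_div_of_pos_right (by exact_mod_cast hij) hNpos

end

end Vale.Agent.P290.K
end
end

section

section

set_option linter.all false

open Set Filter Metric
open scoped Topology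

namespace Vale.Agent.P290.K

/-- the flow piece as a function of all parameters -/
noncomputable def flPiece (x : ℝ × (Fin 3 → ℂ) × (Fin 3 → ℂ) × ℂ × C2) : C2 :=
  fl ((1 - x.1 : ℂ) • x.2.1 + (x.1 : ℂ) • x.2.2.1) x.2.2.2.1 (fi x.2.1 x.2.2.2.1 x.2.2.2.2)

theorem continuous_flPiece : Continuous flPiece := by
  have h1 : Continuous (fun x : (Fin 3 → ℂ) × ℂ × C2 => fl x.1 x.2.1 x.2.2) :=
    differentiable_fl.continuous
  have h2 : Continuous (fun x : (Fin 3 → ℂ) × ℂ × C2 => fi x.1 x.2.1 x.2.2) :=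
    differentiable_fi.continuous
  have h3 : Continuous (fun x : ℝ × (Fin 3 → ℂ) × (Fin 3 → ℂ) × ℂ × C2 =>
      fi x.2.1 x.2.2.2.1 x.2.2.2.2) :=
    h2.comp (g := fun x : (Fin 3 → ℂ) × ℂ × C2 => fi x.1 x.2.1 x.2.2)
      (f := fun x : ℝ × (Fin 3 → ℂ) × (Fin 3 → ℂ) × ℂ × C2 => (x.2.1, x.2.2.2.1, x.2.2.2.2))
      (by (clear * -; fun_prop))
  have h4 : Continuous (fun x : ℝ × (Fin 3 → ℂ) × (Fin 3 → ℂ) × ℂ × C2 =>
      (((1 - x.1 : ℂ) • x.2.1 + (x.1 : ℂ) • x.2.2.1, x.2.2.2.1,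
        fi x.2.1 x.2.2.2.1 x.2.2.2.2) : (Fin 3 → ℂ) × ℂ × C2)) := by
    refine Continuous.prodMk ?_ (Continuous.prodMk ?_ h3)
    · have : Continuous (fun x : ℝ × (Fin 3 → ℂ) × (Fin 3 → ℂ) × ℂ × C2 => (x.1 : ℂ)) :=
        Complex.continuous_ofReal.comp continuous_fst
      exact ((continuous_const.sub this).smul (by fun_prop)).add (this.smul (by fun_prop))
    · fun_prop
  have h5 := h1.comp h4
  exact h5

section
variable {V : Type} [NormedAddCommGroup V] [NormedSpace ℂ V] [FiniteDimensional ℂ V]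

/-- lifting one piece -/
theorem lift_piece {h : V → ℂ} {C B : Set V} (hC : Good C) (hB : Good B) (hCB : C ⊆ B)
    (hh : HolNear B h) {f : V → C2} (hf : HolNear C f) {w w' : V → Fin 3 → ℂ} (hw : HolNear C w)
    (hw' : HolNear C w') {ε : ℝ} (hε : 0 < ε) :
    ∃ η > 0, ∀ g : V → C2, HolNear B g → (∀ z ∈ B, (h z, g z) ∈ Psh) →
      (∀ z ∈ C, ‖g z - f z‖ < η) →
      ∃ G : ℝ → V → C2, IsPath (OP h) B G ∧ G 0 =ᶠ[𝓝ˢ B] g ∧
        ∀ θ ∈ Icc (0 : ℝ) 1, ∀ z ∈ C,
          ‖G θ z - fl ((1 - θ : ℂ) • w z + (θ : ℂ) • w' z) (h z) (fi (w z) (h z) (f z))‖ < ε := by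
  -- continuity on `C`
  have cont : ∀ {W : Type} [NormedAddCommGroup W] [NormedSpace ℂ W] {u : V → W},
      HolNear C u → ∀ z ∈ C, ContinuousAt u z := by
    intro W _ _ u hu z hz
    exact (Eventually.self_of_nhdsSet hu z hz).continuousAt
  have hhC : HolNear C h := by
    unfold HolNear at hh ⊢
    exact hh.filter_mono (nhdsSet_mono hCB)
  -- the compact graph
  set K : Set (ℝ × (Fin 3 → ℂ) × (Fin 3 → ℂ) × ℂ × C2) :=
    (fun x : ℝ × V => (x.1, w x.2, w' x.2, h x.2, f x.2)) '' (Icc (0 : ℝ) 1 ×ˢ C) with hK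
  have hKc : IsCompact K := by
    refine (isCompact_Icc.prod hC.1).image_of_continuousOn ?_
    rintro ⟨θ, z⟩ ⟨_, hz⟩
    have hz : z ∈ C := hz
    have e1 := (cont hw z hz).comp_of_eq (f := fun x : ℝ × V => x.2) (x := (θ, z))
      continuous_snd.continuousAt rfl
    have e2 := (cont hw' z hz).comp_of_eq (f := fun x : ℝ × V => x.2) (x := (θ, z))
      continuous_snd.continuousAt rfl
    have e3 := (cont hhC z hz).comp_of_eq (f := fun x : ℝ × V => x.2) (x := (θ, z))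
      continuous_snd.continuousAt rfl
    have e4 := (cont hf z hz).comp_of_eq (f := fun x : ℝ × V => x.2) (x := (θ, z))
      continuous_snd.continuousAt rfl
    have e0 : ContinuousAt (fun x : ℝ × V => x.1) (θ, z) := continuous_fst.continuousAt
    exact (e0.prodMk (e1.prodMk (e2.prodMk (e3.prodMk e4)))).continuousWithinAt
  have hunif := hKc.uniformContinuousAt_of_continuousAt flPiece
    (fun a _ => continuous_flPiece.continuousAt) (Metric.dist_mem_uniformity hε)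
  obtain ⟨δ, hδ, hδ'⟩ := Metric.mem_uniformity_dist.1 hunif
  obtain ⟨wt, hwt, hwt'⟩ := okaWeil_vec hC.1 hC.2 hw δ hδ
  obtain ⟨wu, hwu, hwu'⟩ := okaWeil_vec hC.1 hC.2 hw' δ hδ
  refine ⟨δ, hδ, fun g hg hgP hgf => ?_⟩
  refine ⟨fun θ z => flPiece (θ, wt z, wu z, h z, g z), ⟨?_, ?_⟩, ?_, ?_⟩
  · -- the path is holomorphic near `B`
    have hmem : {z | DifferentiableAt ℂ h z ∧ DifferentiableAt ℂ g z} ∈ 𝓝ˢ B := by
      have h1 : ∀ᶠ z in 𝓝ˢ B, DifferentiableAt ℂ h z := hh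
      have h2 : ∀ᶠ z in 𝓝ˢ B, DifferentiableAt ℂ g z := hg
      exact h1.and h2
    obtain ⟨U, hU, hBU, hUs⟩ := mem_nhdsSet_iff_exists.1 hmem
    refine ⟨U, hU, hBU, ?_, ?_⟩
    · intro θ _ z hz
      obtain ⟨dh, dg⟩ := hUs hz
      have d1 : DifferentiableAt ℂ (fun z => ((wt z, h z, g z) : (Fin 3 → ℂ) × ℂ × C2)) z :=
        (hwt z).prodMk (dh.prodMk dg)
      have d2 : DifferentiableAt ℂ (fun z => fi (wt z) (h z) (g z)) z := by
        have d2' := DifferentiableAt.comp z (differentiable_fi _) d1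
        exact d2'
      have d3a : DifferentiableAt ℂ (fun z => (1 - θ : ℂ) • wt z + (θ : ℂ) • wu z) z :=
        ((hwt z).const_smul (1 - θ : ℂ)).add ((hwu z).const_smul (θ : ℂ))
      have d3 : DifferentiableAt ℂ (fun z => (((1 - θ : ℂ) • wt z + (θ : ℂ) • wu z, h z,
          fi (wt z) (h z) (g z)) : (Fin 3 → ℂ) × ℂ × C2)) z :=
        d3a.prodMk (dh.prodMk d2)
      have d4 : DifferentiableAt ℂ (fun z => fl ((1 - θ : ℂ) • wt z + (θ : ℂ) • wu z) (h z)
          (fi (wt z) (h z) (g z))) z := by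
        have d4' := DifferentiableAt.comp z (differentiable_fl _) d3
        exact d4'
      exact d4.differentiableWithinAt
    · rintro ⟨θ, z⟩ ⟨_, hz⟩
      have hz : z ∈ U := hz
      obtain ⟨dh, dg⟩ := hUs hz
      have e1 := (hwt z).continuousAt.comp_of_eq (f := fun x : ℝ × V => x.2) (x := (θ, z))
        continuous_snd.continuousAt rfl
      have e2 := (hwu z).continuousAt.comp_of_eq (f := fun x : ℝ × V => x.2) (x := (θ, z))
        continuous_snd.continuousAt rfl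
      have e3 := dh.continuousAt.comp_of_eq (f := fun x : ℝ × V => x.2) (x := (θ, z))
        continuous_snd.continuousAt rfl
      have e4 := dg.continuousAt.comp_of_eq (f := fun x : ℝ × V => x.2) (x := (θ, z))
        continuous_snd.continuousAt rfl
      have e0 : ContinuousAt (fun x : ℝ × V => x.1) (θ, z) := continuous_fst.continuousAt
      have e5 := (e0.prodMk (e1.prodMk (e2.prodMk (e3.prodMk e4))))
      exact (continuous_flPiece.continuousAt.comp e5).continuousWithinAt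
  · intro θ _ z hz
    exact fl_mem_Psh (fi_mem_Psh (hgP z hz))
  · refine Eventually.of_forall fun z => ?_
    show fl _ (h z) _ = g z
    simp only [Complex.ofReal_zero, sub_zero, one_smul, zero_smul, add_zero]
    exact fl_fi _ _ _
  · intro θ hθ z hz
    have hp : ((θ, w z, w' z, h z, f z) : ℝ × (Fin 3 → ℂ) × (Fin 3 → ℂ) × ℂ × C2) ∈ K :=
      ⟨(θ, z), ⟨hθ, hz⟩, rfl⟩
    have hd : dist ((θ, w z, w' z, h z, f z) : ℝ × (Fin 3 → ℂ) × (Fin 3 → ℂ) × ℂ × C2)
        (θ, wt z, wu z, h z, g z) < δ := by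
      simp only [Prod.dist_eq, dist_self]
      refine max_lt hδ (max_lt ?_ (max_lt ?_ (max_lt hδ ?_)))
      · rw [dist_comm, dist_eq_norm]; exact hwt' z hz
      · rw [dist_comm, dist_eq_norm]; exact hwu' z hz
      · have := hgf z hz
        rw [← dist_eq_norm, dist_comm, Prod.dist_eq] at this
        exact this
    have := hδ' hd hp
    rw [← dist_eq_norm, dist_comm]
    exact this

end

end Vale.Agent.P290.K
end
end

section

section

set_option linter.all false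

open Set Filter Metric
open scoped Topology

namespace Vale.Agent.P290.K

section
variable {V : Type} [NormedAddCommGroup V] [NormedSpace ℂ V] [FiniteDimensional ℂ V]

private theorem d3_find {N : ℕ} {s : ℕ → ℝ} (hN : 0 < N) (hs0 : s 0 = 0) {t : ℝ} (ht0 : 0 ≤ t)
    (htN : t ≤ s N) : ∃ j < N, t ∈ Icc (s j) (s (j + 1)) := by
  induction N with
  | zero => exact absurd hN (lt_irrefl _)
  | succ n ih =>
    by_cases h : s n ≤ t
    · exact ⟨n, Nat.lt_succ_self n, h, htN⟩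
    · push Not at h
      rcases Nat.eq_zero_or_pos n with h0 | h0
      · subst h0
        rw [hs0] at h
        exact absurd ht0 (not_le.2 h)
      · obtain ⟨j, hj, hjt⟩ := ih h0 h.le
        exact ⟨j, hj.trans (Nat.lt_succ_self n), hjt⟩

private theorem d3_chain {h : V → ℂ} {C B : Set V} (hC : Good C) (hB : Good B) (hCB : C ⊆ B)
    (hh : HolNear B h) {f : ℕ → V → C2} {w w' : ℕ → V → Fin 3 → ℂ} {N : ℕ} {ε : ℝ} (hε : 0 < ε)
    (hf : ∀ j ≤ N, HolNear C (f j)) (hw : ∀ j < N, HolNear C (w j)) (hw' : ∀ j < N, HolNear C (w' j))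
    (hend : ∀ j < N, ∀ z ∈ C, fl (w' j z) (h z) (fi (w j z) (h z) (f j z)) = f (j + 1) z)
    (k : ℕ) (hk : k ≤ N) :
    ∃ η > 0, ∀ g : V → C2, HolNear B g → (∀ z ∈ B, (h z, g z) ∈ Psh) →
      (∀ z ∈ C, ‖g z - f k z‖ < η) →
      ∃ G : ℕ → ℝ → V → C2, (∀ j, k ≤ j → j < N → IsPath (OP h) B (G j)) ∧
        (k < N → G k 0 =ᶠ[𝓝ˢ B] g) ∧
        (∀ j, k ≤ j → j + 1 < N → G j 1 =ᶠ[𝓝ˢ B] G (j + 1) 0) ∧
        ∀ j, k ≤ j → j < N → ∀ θ ∈ Icc (0 : ℝ) 1, ∀ z ∈ C,
          ‖G j θ z - fl ((1 - θ : ℂ) • w j z + (θ : ℂ) • w' j z) (h z)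
            (fi (w j z) (h z) (f j z))‖ < ε := by
  induction hm : N - k generalizing k with
  | zero =>
    have hkN : k = N := by omega
    subst hkN
    refine ⟨1, one_pos, fun g _ _ _ => ⟨fun _ _ _ => 0, ?_, ?_, ?_, ?_⟩⟩
    · intro j h1 h2; omega
    · intro h1; omega
    · intro j h1 h2; omega
    · intro j h1 h2; omega
  | succ m ih =>
    have hkN : k < N := by omega
    obtain ⟨η', hη', hstep⟩ := ih (k + 1) hkN (by omega)
    obtain ⟨η, hη, hpiece⟩ := lift_piece (f := f k) (w := w k) (w' := w' k) hC hB hCB hh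
      (hf k hk) (hw k hkN) (hw' k hkN) (ε := min ε η') (lt_min hε hη')
    refine ⟨η, hη, fun g hg hgP hgf => ?_⟩
    obtain ⟨G0, hG0, hG00, hG0e⟩ := hpiece g hg hgP hgf
    have h1 : (1 : ℝ) ∈ Icc (0 : ℝ) 1 := ⟨zero_le_one, le_rfl⟩
    have hg1 : HolNear B (G0 1) := HolPath.holNear (isPath_iff.1 hG0).1 h1
    have hg1P : ∀ z ∈ B, (h z, G0 1 z) ∈ Psh := fun z hz => hG0.2 1 h1 z hz
    have hg1f : ∀ z ∈ C, ‖G0 1 z - f (k + 1) z‖ < η' := by
      intro z hz
      have h2 := hG0e 1 h1 z hz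
      have h3 : ((1 - (1 : ℝ) : ℂ) • w k z + ((1 : ℝ) : ℂ) • w' k z) = w' k z := by simp
      rw [h3, hend k hkN z hz] at h2
      exact lt_of_lt_of_le h2 (min_le_right _ _)
    obtain ⟨G', hG'1, hG'2, hG'3, hG'4⟩ := hstep (G0 1) hg1 hg1P hg1f
    refine ⟨fun j => if j = k then G0 else G' j, ?_, ?_, ?_, ?_⟩
    · intro j hj hjN
      by_cases hjk : j = k
      · simp only [hjk, if_true]; exact hG0
      · simp only [hjk, if_false]; exact hG'1 j (by omega) hjN
    · intro _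
      simp only [if_true]; exact hG00
    · intro j hj hjN
      have hj1 : ¬ (j + 1 = k) := by omega
      by_cases hjk : j = k
      · subst hjk
        simp only [hj1, if_true, if_false]
        exact (hG'2 (by omega)).symm
      · simp only [hj1, hjk, if_false]
        exact hG'3 j (by omega) hjN
    · intro j hj hjN θ hθ z hz
      by_cases hjk : j = k
      · subst hjk
        simp only [if_true]
        exact lt_of_lt_of_le (hG0e θ hθ z hz) (min_le_left _ _)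
      · simp only [hjk, if_false]
        exact hG'4 j (by omega) hjN θ hθ z hz

theorem lift_psh (h : V → ℂ) {C B : Set V} (hC : Good C) (hB : Good B) (hCB : C ⊆ B)
    (hh : HolNear B h) : Lift (OP h) C B := by
  intro β hβ b hb hbO hbβ ε hε
  have hhC : HolNear C h := Filter.Eventually.filter_mono (nhdsSet_mono hCB) hh
  obtain ⟨N, s, r, w, w', hN, hs0, hsN, hs, hr, hw, hfl, hpart⟩ :=
    exists_partition hC hhC hβ (half_pos hε)
  have hsmono : ∀ j ≤ N, s j ∈ Icc (0 : ℝ) 1 := by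
    intro j hj
    refine ⟨?_, ?_⟩
    · rw [← hs0]; exact hs.monotone (Nat.zero_le j)
    · rw [← hsN]; exact hs.monotone hj
  have hfi : ∀ j < N, ∀ z ∈ C, fi (w j z) (h z) (β (s j) z) = β (r j) z := by
    intro j hj z hz
    have h1 := (subset_of_mem_nhdsSet (hfl j hj) hz)
    have h2 : fl (w j z) (h z) (β (r j) z) = β (s j) z := h1.1
    rw [← h2, fi_fl]
  have hend : ∀ j < N, ∀ z ∈ C,
      fl (w' j z) (h z) (fi (w j z) (h z) (β (s j) z)) = β (s (j + 1)) z := by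
    intro j hj z hz
    rw [hfi j hj z hz]
    exact (subset_of_mem_nhdsSet (hfl j hj) hz).2
  obtain ⟨η, hη, hchain⟩ := d3_chain (f := fun j => β (s j)) (w := w) (w' := w') (N := N)
    hC hB hCB hh (half_pos hε)
    (fun j hj => HolPath.holNear (isPath_iff.1 hβ).1 (hsmono j hj))
    (fun j hj => (hw j hj).1) (fun j hj => (hw j hj).2) hend 0 (Nat.zero_le N)
  have hb0 : ∀ z ∈ C, ‖b z - β (s 0) z‖ < η := by
    intro z hz
    have h1 : b z = β 0 z := subset_of_mem_nhdsSet hbβ hz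
    rw [h1, hs0, sub_self, norm_zero]
    exact hη
  obtain ⟨G, hG1, hG2, hG3, hG4⟩ := hchain b hb (fun z hz => hbO z hz) hb0
  obtain ⟨β', hβ', hβ'0, hβ's⟩ := concat_paths (O := OP h) (B := B) hN hs0 hsN hs
    (fun x hx t => hx) (G := G) (fun j hj => hG1 j (Nat.zero_le j) hj)
    (fun j _ hj => hG3 j (Nat.zero_le j) hj)
  refine ⟨β', hβ', hβ'0.trans (hG2 hN), ?_⟩
  intro t ht z hz
  obtain ⟨j, hj, hjt⟩ := d3_find hN hs0 ht.1 (hsN.symm ▸ ht.2)
  have hlt : s j < s (j + 1) := hs (Nat.lt_succ_self j)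
  have hθ : (t - s j) / (s (j + 1) - s j) ∈ Icc (0 : ℝ) 1 := by
    refine ⟨div_nonneg (sub_nonneg.2 hjt.1) (sub_nonneg.2 hlt.le), ?_⟩
    rw [div_le_one (sub_pos.2 hlt)]
    linarith only [hjt.2]
  rw [hβ's j hj t hjt z (hCB hz)]
  have h1 := hG4 j (Nat.zero_le j) hj _ hθ z hz
  have h2 := hpart j hj z hz _ hθ t hjt
  rw [hfi j hj z hz] at h1
  have h3 := norm_sub_le_norm_sub_add_norm_sub (G j ((t - s j) / (s (j + 1) - s j)) z)
    (fl ((1 - (((t - s j) / (s (j + 1) - s j) : ℝ) : ℂ)) • w j z +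
      (((t - s j) / (s (j + 1) - s j) : ℝ) : ℂ) • w' j z) (h z) (β (r j) z)) (β t z)
  linarith only [h3, h2, h1]

end

end Vale.Agent.P290.K
end
end

section

section

open Set Filter Metric
open scoped Manifold ContDiff Topology

namespace Vale.Agent.P290.K

section

variable {lam : Fin 4 → C2} {X : Type} [TopologicalSpace X] [ChartedSpace C2 X]
  (D : KummerData lam X) {V : Type} [NormedAddCommGroup V] [NormedSpace ℂ V]

theorem holNear_pi4 {T : Set V} {E : V → (Fin 4 → ℂ)} (h : ∀ k, HolNear T fun z => E z k) :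
    HolNear T E := by
  have h1 : ∀ᶠ z in 𝓝ˢ T, ∀ k, DifferentiableAt ℂ (fun z => E z k) z :=
    eventually_all.2 h
  filter_upwards [h1] with z hz
  exact differentiableAt_pi.2 hz

/-- acting on representations gives representations -/
theorem rep_act_near {T : Set V} {x : V → ND} {g : V → ℂ × (Fin 4 → ℂ)} {f : V → X}
    (hx : HolNear T x) (hg : HolNear T g) (hne : ∀ z, (g z).1 ≠ 0)
    (h : ∀ᶠ z in 𝓝ˢ T, Pell (x z).1 ∧ Rep D (x z) (f z)) :
    HolNear T (fun z => act lam (g z) (x z)) ∧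
      ∀ᶠ z in 𝓝ˢ T, Pell (act lam (g z) (x z)).1 ∧ Rep D (act lam (g z) (x z)) (f z) := by
  constructor
  · filter_upwards [hx, hg] with z h1 h2
    exact act_differentiableAt h1 h2 (hne z)
  · filter_upwards [h] with z hz
    exact ⟨pell_act (hne z) hz.1, rep_act D (hne z) hz.2⟩

variable [FiniteDimensional ℂ V]

theorem split_convex4 {S' S'' : Set V} (h' : Good S') (h'' : Good S'')
    (hu : Convex ℝ (S' ∪ S'')) (E : V → (Fin 4 → ℂ)) (hE : HolNear (S' ∩ S'') E) :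
    ∃ E' E'' : V → (Fin 4 → ℂ), HolNear S' E' ∧ HolNear S'' E'' ∧
      E =ᶠ[𝓝ˢ (S' ∩ S'')] fun z => E' z - E'' z := by
  have h1 : ∀ k, ∃ e' e'' : V → ℂ, HolNear S' e' ∧ HolNear S'' e'' ∧
      (fun z => E z k) =ᶠ[𝓝ˢ (S' ∩ S'')] fun z => e' z - e'' z := by
    intro k
    refine split_convex h' h'' hu _ ?_
    filter_upwards [hE] with z hz
    exact (differentiableAt_pi.1 hz) k
  choose e' e'' he' he'' hee using h1
  refine ⟨fun z k => e' k z, fun z k => e'' k z, holNear_pi4 he', holNear_pi4 he'', ?_⟩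
  have h2 : ∀ᶠ z in 𝓝ˢ (S' ∩ S''), ∀ k, E z k = e' k z - e'' k z := eventually_all.2 hee
  filter_upwards [h2] with z hz
  funext k
  exact hz k

/-- Every holomorphic map from a neighbourhood of a compact convex set to the Kummer surface has a
representation. -/
theorem exists_rep [IsManifold 𝓘(ℂ, C2) 1 X] (hlam : LinearIndependent ℝ lam) {S : Set V}
    (hS : Good S) {f : V → X} (hf : MHolNear C2 S f) :
    ∃ x : V → ND, HolNear S x ∧ ∀ᶠ z in 𝓝ˢ S, Pell (x z).1 ∧ Rep D (x z) (f z) := by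
  classical
  refine hS.bisect (fun T => ∃ x : V → ND, HolNear T x ∧
    ∀ᶠ z in 𝓝ˢ T, Pell (x z).1 ∧ Rep D (x z) (f z)) ?_ ?_ ?_
  · exact ⟨fun _ => 0, by simp only [HolNear, differentiableAt_const, nhdsSet_empty, eventually_bot], by simp only [Prod.fst_zero, nhdsSet_empty, eventually_bot]⟩
  · intro z hz
    have h1 : ∀ᶠ y in 𝓝 z, MDifferentiableAt 𝓘(ℂ, V) 𝓘(ℂ, C2) f y :=
      (eventually_nhdsSet_iff_forall.1 hf) z hz
    obtain ⟨x, hx⟩ := exists_rep_near D hlam h1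
    obtain ⟨U, hU, hUo, hzU⟩ := _root_.eventually_nhds_iff.1 hx
    refine ⟨U, hUo.mem_nhds hzU, fun T _ _ hTU => ⟨x, ?_, ?_⟩⟩
    · have : U ∈ 𝓝ˢ T := hUo.mem_nhdsSet.2 hTU
      filter_upwards [this] with y hy
      exact (hU y hy).1
    · have : U ∈ 𝓝ˢ T := hUo.mem_nhdsSet.2 hTU
      filter_upwards [this] with y hy
      exact (hU y hy).2
  · rintro T hT hTS l r ⟨x', hx', hr'⟩ ⟨x'', hx'', hr''⟩
    set T' := T ∩ {x | l x ≤ r} with hT'
    set T'' := T ∩ {x | r ≤ l x} with hT''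
    have gT' : Good T' := hT.inter_le l r
    have gT'' : Good T'' := hT.inter_ge l r
    have hun : T' ∪ T'' = T := by
      rw [hT', hT'', ← inter_union_distrib_left]
      refine inter_eq_left.2 fun x _ => ?_
      exact le_total (l x) r
    have hconv : Convex ℝ (T' ∪ T'') := by rw [hun]; exact hT.2
    have m1 : 𝓝ˢ (T' ∩ T'') ≤ 𝓝ˢ T' := nhdsSet_mono inter_subset_left
    have m2 : 𝓝ˢ (T' ∩ T'') ≤ 𝓝ˢ T'' := nhdsSet_mono inter_subset_right
    -- the transition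
    obtain ⟨g, hg, hgx⟩ := exists_act D hlam (S := T' ∩ T'') (x := x') (x' := x'') (f := f)
      (hx'.filter_mono m1) (hx''.filter_mono m2)
      ((hr'.filter_mono m1).mono fun z h => h.1) ((hr''.filter_mono m2).mono fun z h => h.1)
      ((hr'.filter_mono m1).mono fun z h => h.2) ((hr''.filter_mono m2).mono fun z h => h.2)
    have hcomp : IsCompact (T' ∩ T'') := gT'.1.inter gT''.1
    obtain ⟨L, hL, hexp⟩ := exists_log hcomp (gT'.2.inter gT''.2) (ρ := fun z => (g z).1)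
      (by filter_upwards [hg] with z hz; exact hz.fst)
      (fun z hz => (hgx.self_of_nhdsSet z hz).1)
    obtain ⟨l', l'', hl', hl'', hll⟩ := split_convex gT' gT'' hconv L hL
    have hE : HolNear (T' ∩ T'') (fun z => Complex.exp (l'' z) • (g z).2) := by
      filter_upwards [hl''.filter_mono m2, hg] with z h1 h2
      exact (h1.cexp).smul h2.snd
    obtain ⟨E', E'', hE', hE'', hEE⟩ := split_convex4 gT' gT'' hconv _ hE
    -- the corrected representations
    obtain ⟨a1, a2⟩ := rep_act_near D (g := fun z => (Complex.exp (l' z), (0 : Fin 4 → ℂ)))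
      hx' (by filter_upwards [hl'] with z hz; exact hz.cexp.prodMk (differentiableAt_const _))
      (fun z => Complex.exp_ne_zero _) hr'
    obtain ⟨b1, b2⟩ := rep_act_near D (g := fun z => (Complex.exp (l'' z), (0 : Fin 4 → ℂ)))
      hx'' (by filter_upwards [hl''] with z hz; exact hz.cexp.prodMk (differentiableAt_const _))
      (fun z => Complex.exp_ne_zero _) hr''
    obtain ⟨a3, a4⟩ := rep_act_near D (g := fun z => ((1 : ℂ), E' z)) a1
      (by filter_upwards [hE'] with z hz; exact (differentiableAt_const _).prodMk hz)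
      (fun z => one_ne_zero) a2
    obtain ⟨b3, b4⟩ := rep_act_near D (g := fun z => ((1 : ℂ), E'' z)) b1
      (by filter_upwards [hE''] with z hz; exact (differentiableAt_const _).prodMk hz)
      (fun z => one_ne_zero) b2
    have hagree : (fun z => act lam ((1 : ℂ), E' z) (act lam (Complex.exp (l' z), 0) (x' z)))
        =ᶠ[𝓝ˢ (T' ∩ T'')]
        (fun z => act lam ((1 : ℂ), E'' z) (act lam (Complex.exp (l'' z), 0) (x'' z))) := by
      filter_upwards [hgx, hexp, hll, hEE] with z h1 h2 h3 h4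
      have hgne := h1.1
      have h2' : (g z).1 = Complex.exp (l' z) / Complex.exp (l'' z) := by
        rw [← Complex.exp_sub, ← h3]
        exact h2
      have hl0 : Complex.exp (l' z) ≠ 0 := Complex.exp_ne_zero _
      have hl1 : Complex.exp (l'' z) ≠ 0 := Complex.exp_ne_zero _
      rw [h1.2, act_act hgne (g' := (Complex.exp (l'' z), (0 : Fin 4 → ℂ))) hl1,
        act_act (g := (Complex.exp (l'' z) * (g z).1, Complex.exp (l'' z) • (g z).2 + 0))
          (g' := ((1 : ℂ), E'' z)) (mul_ne_zero hl1 hgne) one_ne_zero,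
        act_act (g := (Complex.exp (l' z), (0 : Fin 4 → ℂ)))
          (g' := ((1 : ℂ), E' z)) hl0 one_ne_zero]
      congr 1
      refine Prod.ext ?_ ?_
      · simp only [one_mul]
        rw [h2']
        field_simp
      · simp only [smul_zero, zero_add, add_zero, one_smul]
        rw [h4]
        abel
    obtain ⟨x, hxa, hxb⟩ := exists_glue gT'.1 gT''.1 _ _ hagree
    refine ⟨x, ?_, ?_⟩
    · show ∀ᶠ z in 𝓝ˢ T, DifferentiableAt ℂ x z
      rw [← hun, nhdsSet_union, eventually_sup]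
      constructor
      · filter_upwards [a3, ev_ev_nhdsSet hxa] with z h1 h2
        exact h1.congr_of_eventuallyEq h2
      · filter_upwards [b3, ev_ev_nhdsSet hxb] with z h1 h2
        exact h1.congr_of_eventuallyEq h2
    · rw [← hun, nhdsSet_union, eventually_sup]
      constructor
      · filter_upwards [a4, hxa] with z h1 h2
        rw [h2]
        exact h1
      · filter_upwards [b4, hxb] with z h1 h2
        rw [h2]
        exact h1

end

end Vale.Agent.P290.K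
end
end

section

section

open Set Filter Metric
open scoped Manifold ContDiff Topology

namespace Vale.Agent.P290.K

/-! ### The approximation property implies the Oka property -/

/-- Pell points close to a compact family of good points are good -/
theorem avoid_close {lam : Fin 4 → C2} (hlam : LinearIndependent ℝ lam) {V : Type}
    [TopologicalSpace V] {K : Set V} (hK : IsCompact K) {x : V → ND} (hx : ContinuousOn x K)
    (hA : ∀ z ∈ K, Avoid lam (x z)) :
    ∃ δ > 0, ∀ z ∈ K, ∀ x' : ND, Pell x'.1 → ‖x' - x z‖ ≤ δ → Avoid lam x' := by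
  have hC : IsCompact (x '' K) := hK.image_of_continuousOn hx
  have hU : {x' : ND | Pell x'.1 → Avoid lam x'} ∈ 𝓝ˢ (x '' K) := by
    rw [mem_nhdsSet_iff_forall]
    rintro _ ⟨z, hz, rfl⟩
    have h1 := avoid_open hlam (hA z hz)
    have h2 : Tendsto (fun x' : ND => (lam, x')) (𝓝 (x z)) (𝓝 (lam, x z)) :=
      (Continuous.prodMk_right lam).tendsto _
    exact h2.eventually h1
  obtain ⟨T, hTo, hCT, hT⟩ := mem_nhdsSet_iff_exists.1 hU
  obtain ⟨δ, hδ, hs⟩ := hC.exists_cthickening_subset_open hTo hCT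
  refine ⟨δ, hδ, fun z hz x' hP hd => ?_⟩
  have : x' ∈ T := hs (mem_cthickening_of_dist_le x' (x z) δ _ (mem_image_of_mem x hz)
    (by rwa [dist_eq_norm]))
  exact hT this hP

/-- dependent choice -/
theorem exists_seq_of_step {α : Type} {P : ℕ → α → Prop} {Q : ℕ → α → α → Prop}
    (h0 : ∃ a, P 0 a) (hs : ∀ n a, P n a → ∃ b, P (n + 1) b ∧ Q n a b) :
    ∃ f : ℕ → α, (∀ n, P n (f n)) ∧ ∀ n, Q n (f n) (f (n + 1)) := by
  classical
  obtain ⟨a0, ha0⟩ := h0
  choose! g hg using hs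
  let f : ℕ → α := fun n => Nat.rec a0 (fun k a => g k a) n
  have hf : ∀ n, P n (f n) := by
    intro n
    induction n with
    | zero => exact ha0
    | succ n ih => exact (hg n (f n) ih).1
  exact ⟨f, hf, fun n => (hg n (f n) (hf n)).2⟩

/-- approximation by entire maps -/
theorem Appr.entire {lam : Fin 4 → C2} (hlam : LinearIndependent ℝ lam) (h : Appr lam) {m : ℕ}
    {K : Set (Fin m → ℂ)} (hK : Good K) (hne : K.Nonempty) {R : (Fin m → ℂ) → ND}
    (hR : HolNear K R) (hP : ∀ᶠ z in 𝓝ˢ K, Pell (R z).1) (hA : ∀ z ∈ K, Avoid lam (R z)) {ε : ℝ}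
    (hε : 0 < ε) :
    ∃ R' : (Fin m → ℂ) → ND, Differentiable ℂ R' ∧ (∀ z, Pell (R' z).1) ∧
      (∀ z, Avoid lam (R' z)) ∧ ∀ z ∈ K, ‖R' z - R z‖ < ε := by
  obtain ⟨r, hr⟩ := hK.1.isBounded.subset_closedBall (0 : Fin m → ℂ)
  set B : ℕ → Set (Fin m → ℂ) := fun j => closedBall 0 (r + j) with hB
  have hBg : ∀ j, Good (B j) := fun j => ⟨isCompact_closedBall _ _, convex_closedBall _ _⟩
  have hK0 : K ⊆ B 0 := by simpa only [hB, CharP.cast_eq_zero, add_zero] using hr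
  have hBm : ∀ i j, i ≤ j → B i ⊆ B j := by
    intro i j hij
    apply closedBall_subset_closedBall
    have : (i : ℝ) ≤ j := by exact_mod_cast hij
    linarith only [this]
  have hBne : ∀ j, (B j).Nonempty := fun j => hne.mono (hK0.trans (hBm 0 j (Nat.zero_le _)))
  -- the induction
  let P : ℕ → ((Fin m → ℂ) → ND) × ℝ → Prop := fun j a =>
    0 < a.2 ∧ HolNear (B j) a.1 ∧ (∀ᶠ z in 𝓝ˢ (B j), Pell (a.1 z).1) ∧
      ∀ z ∈ B j, ∀ x' : ND, Pell x'.1 → ‖x' - a.1 z‖ ≤ a.2 → Avoid lam x'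
  let Q : ℕ → ((Fin m → ℂ) → ND) × ℝ → ((Fin m → ℂ) → ND) × ℝ → Prop := fun j a b =>
    b.2 ≤ a.2 / 2 ∧ ∀ z ∈ B j, ‖b.1 z - a.1 z‖ < a.2 / 2
  have hpt : ∀ {j : ℕ} {S : (Fin m → ℂ) → ND}, (∀ᶠ z in 𝓝ˢ (B j), Pell (S z).1) →
      ∀ z ∈ B j, Pell (S z).1 := fun hS z hz =>
    (Filter.Eventually.filter_mono (nhds_le_nhdsSet hz) hS).self_of_nhds
  have hco : ∀ {j : ℕ} {S : (Fin m → ℂ) → ND}, HolNear (B j) S → ContinuousOn S (B j) :=
    fun hS z hz => (Filter.Eventually.filter_mono (nhds_le_nhdsSet hz)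
      hS).self_of_nhds.continuousAt.continuousWithinAt
  -- choice of the radius
  have hrad : ∀ (j : ℕ) (S : (Fin m → ℂ) → ND), HolNear (B j) S → (∀ᶠ z in 𝓝ˢ (B j), Pell (S z).1) →
      (∀ z ∈ B j, Avoid lam (S z)) → ∀ t > 0, ∃ δ, δ ≤ t ∧ P j (S, δ) := by
    intro j S h1 h2 h3 t ht
    obtain ⟨δ, hδ, hδ2⟩ := avoid_close hlam (hBg j).1 (hco h1) h3
    exact ⟨min δ t, min_le_right _ _, lt_min hδ ht, h1, h2, fun z hz x' hx' hd =>
      hδ2 z hz x' hx' (hd.trans (min_le_left _ _))⟩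
  obtain ⟨R0, a1, a2, a3, a4⟩ := h m K (B 0) hK (hBg 0) hne hK0 R hR hP hA (ε / 2) (by (clear * - hε; positivity))
  obtain ⟨δ0, hδ0, hP0⟩ := hrad 0 R0 a1 a2 a3 (ε / 2) (by (clear * - hε; positivity))
  obtain ⟨f, hf, hf0, hfQ⟩ : ∃ f : ℕ → ((Fin m → ℂ) → ND) × ℝ, (∀ n, P n (f n)) ∧ f 0 = (R0, δ0) ∧
      ∀ n, Q n (f n) (f (n + 1)) := by
    have hs : ∀ (n : ℕ) (a : ((Fin m → ℂ) → ND) × ℝ), (P n a ∧ (n = 0 → a = (R0, δ0))) →
        ∃ b, (P (n + 1) b ∧ (n + 1 = 0 → b = (R0, δ0))) ∧ Q n a b := by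
      intro n a ha
      obtain ⟨⟨b1, b2, b3, b4⟩, -⟩ := ha
      have hAv : ∀ z ∈ B n, Avoid lam (a.1 z) := fun z hz =>
        b4 z hz (a.1 z) (hpt b3 z hz) (by simpa only [sub_self, norm_zero] using b1.le)
      obtain ⟨S, c1, c2, c3, c4⟩ := h m (B n) (B (n + 1)) (hBg n) (hBg (n + 1)) (hBne n)
        (hBm n (n + 1) (Nat.le_succ n)) a.1 b2 b3 hAv (a.2 / 2) (by (clear * - b1; positivity))
      obtain ⟨δ, hδ, hPδ⟩ := hrad (n + 1) S c1 c2 c3 (a.2 / 2) (by (clear * - b1; positivity))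
      exact ⟨(S, δ), ⟨hPδ, fun h => absurd h (Nat.succ_ne_zero n)⟩, hδ, c4⟩
    obtain ⟨f, hf1, hf2⟩ := exists_seq_of_step
      (P := fun n a => P n a ∧ (n = 0 → a = (R0, δ0))) (Q := Q)
      ⟨(R0, δ0), hP0, fun _ => rfl⟩ hs
    exact ⟨f, fun n => (hf1 n).1, (hf1 0).2 rfl, hf2⟩
  -- estimates
  have hpos : ∀ n, 0 < (f n).2 := fun n => (hf n).1
  have hstep : ∀ i k, ∀ z ∈ B i, ‖(f (i + k)).1 z - (f i).1 z‖ ≤ (f i).2 - (f (i + k)).2 := by
    intro i k z hz
    induction k with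
    | zero => simp
    | succ k ih =>
      have q1 := (hfQ (i + k)).1
      have q2 := (hfQ (i + k)).2 z (hBm i (i + k) (Nat.le_add_right _ _) hz)
      have e : (f (i + (k + 1))).1 z - (f i).1 z
          = ((f (i + k + 1)).1 z - (f (i + k)).1 z) + ((f (i + k)).1 z - (f i).1 z) := by
        rw [← add_assoc]; abel
      rw [e]
      refine (norm_add_le _ _).trans ?_
      rw [← add_assoc]
      linarith only [q2, q1, ih]
  have hδt : Tendsto (fun n => (f n).2) atTop (𝓝 0) := by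
    have hb : ∀ n, (f n).2 ≤ (f 0).2 * (1 / 2) ^ n := by
      intro n
      induction n with
      | zero => simp
      | succ n ih =>
        have := (hfQ n).1
        rw [pow_succ]
        linarith only [this, ih]
    have h1 : Tendsto (fun n : ℕ => (f 0).2 * (1 / 2 : ℝ) ^ n) atTop (𝓝 ((f 0).2 * 0)) :=
      (tendsto_pow_atTop_nhds_zero_of_lt_one (by norm_num) (by norm_num)).const_mul _
    rw [mul_zero] at h1
    exact squeeze_zero (fun n => (hpos n).le) hb h1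
  have hexh : ∀ z : Fin m → ℂ, ∃ i : ℕ, z ∈ ball (0 : Fin m → ℂ) (r + i) := by
    intro z
    obtain ⟨i, hi⟩ := exists_nat_gt (‖z‖ - r)
    exact ⟨i, by simp only [mem_ball, dist_zero_right]; linarith only [hi]⟩
  have hlim : ∀ z, ∃ y, Tendsto (fun n => (f n).1 z) atTop (𝓝 y) := by
    intro z
    obtain ⟨i, hi⟩ := hexh z
    have hzi : z ∈ B i := ball_subset_closedBall hi
    apply cauchySeq_tendsto_of_complete
    rw [Metric.cauchySeq_iff']
    intro e he
    obtain ⟨N, hN⟩ := (hδt.eventually (gt_mem_nhds he)).exists_forall_of_atTop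
    refine ⟨max N i, fun n hn => ?_⟩
    obtain ⟨k, rfl⟩ := Nat.exists_eq_add_of_le hn
    rw [dist_eq_norm]
    have := hstep (max N i) k z (hBm i _ (le_max_right _ _) hzi)
    have h2 := hN (max N i) (le_max_left _ _)
    have h3 := hpos (max N i + k)
    linarith only [h3, h2, this]
  choose R' hR' using hlim
  have hclose : ∀ i, ∀ z ∈ B i, ‖R' z - (f i).1 z‖ ≤ (f i).2 := by
    intro i z hz
    have h1 : Tendsto (fun k => ‖(f (i + k)).1 z - (f i).1 z‖) atTop (𝓝 ‖R' z - (f i).1 z‖) := by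
      have : Tendsto (fun k => (f (i + k)).1 z) atTop (𝓝 (R' z)) := by
        simpa only [add_comm i] using (tendsto_add_atTop_iff_nat i).2 (hR' z)
      exact (this.sub_const _).norm
    exact le_of_tendsto' h1 fun k => (hstep i k z hz).trans (by linarith only [hpos (i + k)])
  have hPR : ∀ z, Pell (R' z).1 := by
    intro z
    obtain ⟨i, hi⟩ := hexh z
    have hzi : z ∈ B i := ball_subset_closedBall hi
    intro k
    have hc : Continuous fun x : ND => x.1.2.1 k ^ 2 - x.1.1 * x.1.2.2 k ^ 2 := by (clear * -; fun_prop)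
    have h1 : Tendsto (fun n => ((f n).1 z).1.2.1 k ^ 2 - ((f n).1 z).1.1 * ((f n).1 z).1.2.2 k ^ 2)
        atTop (𝓝 ((R' z).1.2.1 k ^ 2 - (R' z).1.1 * (R' z).1.2.2 k ^ 2)) :=
      (hc.tendsto _).comp (hR' z)
    refine tendsto_nhds_unique h1 ?_
    refine tendsto_const_nhds.congr' ?_
    filter_upwards [eventually_ge_atTop i] with n hn
    exact (hpt (hf n).2.2.1 z (hBm i n hn hzi) k).symm
  refine ⟨R', ?_, hPR, ?_, ?_⟩
  · intro z
    obtain ⟨i, hi⟩ := hexh z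
    have hU : TendstoLocallyUniformlyOn (fun n => (f n).1) R' atTop
        (ball (0 : Fin m → ℂ) (r + i)) := by
      apply TendstoUniformlyOn.tendstoLocallyUniformlyOn
      rw [Metric.tendstoUniformlyOn_iff]
      intro e he
      filter_upwards [hδt.eventually (gt_mem_nhds he), eventually_ge_atTop i] with n hn hni y hy
      rw [dist_eq_norm]
      exact (hclose n y (hBm i n hni (ball_subset_closedBall hy))).trans_lt hn
    have hd := differentiableOn_of_tendstoLocallyUniformlyOn isOpen_ball hU (by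
      filter_upwards [eventually_ge_atTop i] with n hn y hy
      exact (Filter.Eventually.filter_mono (nhds_le_nhdsSet
        (hBm i n hn (ball_subset_closedBall hy))) (hf n).2.1).self_of_nhds.differentiableWithinAt)
    exact hd.differentiableAt (isOpen_ball.mem_nhds hi)
  · intro z
    obtain ⟨i, hi⟩ := hexh z
    have hzi : z ∈ B i := ball_subset_closedBall hi
    exact (hf i).2.2.2 z hzi (R' z) (hPR z) (hclose i z hzi)
  · intro z hz
    have h1 := hclose 0 z (hK0 hz)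
    rw [hf0] at h1
    have h2 := a4 z hz
    calc ‖R' z - R z‖ = ‖(R' z - R0 z) + (R0 z - R z)‖ := by congr 1; abel
      _ ≤ ‖R' z - R0 z‖ + ‖R0 z - R z‖ := norm_add_le _ _
      _ < ε := by linarith only [hδ0, h1, h2]

theorem isOka_of_appr {X : Type} [TopologicalSpace X] [ChartedSpace C2 X]
    [IsManifold 𝓘(ℂ, C2) 1 X] (lam : Fin 4 → C2) (hlam : LinearIndependent ℝ lam)
    (D : KummerData lam X) (h : Appr lam) : IsOka X := by
  intro m _ K U hK hKc hne hU hKU f hf d hd hd0 ε hε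
  obtain ⟨z₀, hz₀⟩ := id hne
  haveI : Nonempty X := ⟨f z₀⟩
  have hfn : MHolNear C2 K f := by
    have : U ∈ 𝓝ˢ K := hU.mem_nhdsSet.2 hKU
    filter_upwards [this] with z hz
    exact (hf z hz).mdifferentiableAt (hU.mem_nhds hz)
  obtain ⟨x, hx, hxR⟩ := exists_rep D hlam (S := K) ⟨hK, hKc⟩ hfn
  have hself : ∀ z ∈ K, Pell (x z).1 ∧ Rep D (x z) (f z) := fun z hz =>
    (Filter.Eventually.filter_mono (nhds_le_nhdsSet hz) hxR).self_of_nhds
  have hxA : ∀ z ∈ K, Avoid lam (x z) := by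
    intro z hz
    obtain ⟨n, a, h1, h2, -⟩ := (hself z hz).2
    exact ⟨n, a, h1, h2⟩
  have hxc : ContinuousOn x K := fun z hz =>
    (Filter.Eventually.filter_mono (nhds_le_nhdsSet hz)
      hx).self_of_nhds.continuousAt.continuousWithinAt
  obtain ⟨δ, hδ, hδ2⟩ := pt_close D hlam hK hxc (fun z hz => (hself z hz).1) hxA d hd hd0 hε
  obtain ⟨R', b1, b2, b3, b4⟩ := Appr.entire hlam h ⟨hK, hKc⟩ hne hx
    (hxR.mono fun z hz => hz.1) hxA hδ
  refine ⟨fun z => pt D (R' z), fun z => ?_, fun z hz => ?_⟩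
  · exact pt_mdifferentiableAt D hlam (b1 z) (Eventually.of_forall b2) (b3 z)
  · have h1 := (hδ2 z hz (R' z) (b2 z) (b4 z hz)).2
    have h2 : pt D (x z) = f z := (rep_pt D (hxA z hz)).unique D (hself z hz).2
    rwa [h2] at h1

end Vale.Agent.P290.K
end
end

section

section

open Set Filter Metric
open scoped Manifold ContDiff Topology

namespace Vale.Agent.P290

/-- every germ along a compact convex set factors through an entire map -/
def HasFactor (X : Type) [TopologicalSpace X] [ChartedSpace C2 X] : Prop :=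
  ∀ (V : Type) [NormedAddCommGroup V] [NormedSpace ℂ V] [FiniteDimensional ℂ V] (K : Set V),
    IsCompact K → Convex ℝ K → ∀ f : V → X, MHolNear C2 K f → Factor C2 K f

theorem HasFactor.isOka {X : Type} [TopologicalSpace X] [ChartedSpace C2 X] (h : HasFactor X) :
    IsOka X := by
  intro m _ K U hK hKc _ hU hKU f hf d hd hd0 ε hε
  have hfn : MHolNear C2 K f := by
    refine mem_nhdsSet_iff_exists.2 ⟨U, hU, hKU, fun z hz => ?_⟩
    exact (hf z hz).mdifferentiableAt (hU.mem_nhds hz)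
  exact (h _ K hK hKc f hfn).approx hK hKc d hd hd0 ε hε

section

variable {X Y C : Type} [TopologicalSpace X] [ChartedSpace C2 X] [TopologicalSpace Y]
  [ChartedSpace C2 Y] [TopologicalSpace C] [ChartedSpace ℂ C] {π : X → C} {ρ : Y → C}
  {V : Type} [NormedAddCommGroup V] [NormedSpace ℂ V]

/-- the inverse correspondence -/
def Transfer.symm (T : Transfer π ρ) : Transfer ρ π where
  A := T.A
  O := T.O
  isOpen_O := T.isOpen_O
  cover := T.cover
  γ := T.γ
  σ := T.σ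
  γ_hol := T.γ_hol
  σ_hol := T.σ_hol
  γ_ne := T.γ_ne
  γ_coc := T.γ_coc
  σ_coc := T.σ_coc
  ψ := T.ψ'
  ψ' := T.ψ
  ψ_base := T.ψ'_base
  ψ'_base := T.ψ_base
  left_inv := T.right_inv
  right_inv := T.left_inv
  ψ_hol := T.ψ'_hol
  ψ'_hol := T.ψ_hol
  ψ_trans := by
    intro a b y w ha hb
    have h1 := T.ψ'_base a y w ha
    have h2 := T.ψ_trans a b (T.ψ' a y w) w (by rw [h1]; exact ha) (by rw [h1]; exact hb)
    rw [T.right_inv a y w ha, h1] at h2
    have h3 := T.left_inv b (T.ψ' a y w) (T.γ a b (ρ y) * w + T.σ a b (ρ y))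
      (by rw [h1]; exact hb)
    rw [← h2] at h3
    exact h3.symm

theorem Transfer.diff_comp {g : V → C} {z : V} {u : C → ℂ}
    (hu : MDifferentiableAt 𝓘(ℂ) 𝓘(ℂ) u (g z)) (hg : MDifferentiableAt 𝓘(ℂ, V) 𝓘(ℂ) g z) :
    DifferentiableAt ℂ (fun z => u (g z)) z :=
  (hu.comp z hg).differentiableAt

/-- sections of the affine bundle along a map from a convex set to the base -/
theorem Transfer.exists_aff [FiniteDimensional ℂ V] (T : Transfer π ρ) {Q : Set V} (hQ : Good Q)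
    {g : V → C} (hg : ∀ᶠ z in 𝓝ˢ Q, MDifferentiableAt 𝓘(ℂ, V) 𝓘(ℂ) g z) :
    ∃ e : T.A → V → ℂ, ∀ᶠ z in 𝓝ˢ Q, ∀ a, g z ∈ T.O a → DifferentiableAt ℂ (e a) z ∧
      ∀ b, g z ∈ T.O b → e b z = T.γ a b (g z) * e a z + T.σ a b (g z) := by
  obtain ⟨R, hRo, hQR, hR⟩ := mem_nhdsSet_iff_exists.1 hg
  have hgc : ContinuousOn g R := fun z hz => (hR hz).continuousAt.continuousWithinAt
  obtain ⟨e, he⟩ := hQ.cousin_affine (fun a => R ∩ g ⁻¹' (T.O a))
    (fun a => hgc.isOpen_inter_preimage hRo (T.isOpen_O a))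
    (fun z hz => by
      obtain ⟨a, ha⟩ := T.cover (g z)
      exact mem_iUnion.2 ⟨a, hQR hz, ha⟩)
    (fun a b z => T.γ a b (g z)) (fun a b z => T.σ a b (g z))
    (fun a b z hz => ⟨Transfer.diff_comp (T.γ_hol a b _ hz.1.2 hz.2.2) (hR hz.1.1),
      T.γ_ne a b _ hz.1.2 hz.2.2⟩)
    (fun a b z hz => Transfer.diff_comp (T.σ_hol a b _ hz.1.2 hz.2.2) (hR hz.1.1))
    (fun a b c z hz => T.γ_coc a b c _ hz.1.1.2 hz.1.2.2 hz.2.2)
    (fun a b c z hz => T.σ_coc a b c _ hz.1.1.2 hz.1.2.2 hz.2.2)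
  have hRn : ∀ᶠ z in 𝓝ˢ Q, z ∈ R := mem_nhdsSet_iff_exists.2 ⟨R, hRo, hQR, fun x hx => hx⟩
  refine ⟨e, ?_⟩
  filter_upwards [he, hRn] with z h1 h2 a ha
  exact ⟨(h1 a ⟨h2, ha⟩).1, fun b hb => (h1 a ⟨h2, ha⟩).2 b ⟨h2, hb⟩⟩

/-- sections of the affine bundle along an entire map to the base -/
theorem Transfer.exists_aff_global [FiniteDimensional ℂ V] (T : Transfer π ρ)
    {g : V → C} (hg : MDifferentiable 𝓘(ℂ, V) 𝓘(ℂ) g) :
    ∃ e : T.A → V → ℂ, ∀ z, ∀ a, g z ∈ T.O a → DifferentiableAt ℂ (e a) z ∧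
      ∀ b, g z ∈ T.O b → e b z = T.γ a b (g z) * e a z + T.σ a b (g z) :=
  cousin_affine_global (fun a => g ⁻¹' (T.O a))
    (fun a => (T.isOpen_O a).preimage hg.continuous) (fun z => T.cover (g z))
    (fun a b z => T.γ a b (g z)) (fun a b z => T.σ a b (g z))
    (fun a b z hz => ⟨Transfer.diff_comp (T.γ_hol a b _ hz.1 hz.2) (hg z),
      T.γ_ne a b _ hz.1 hz.2⟩)
    (fun a b z hz => Transfer.diff_comp (T.σ_hol a b _ hz.1 hz.2) (hg z))
    (fun a b c z hz => T.γ_coc a b c _ hz.1.1 hz.1.2 hz.2)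
    (fun a b c z hz => T.σ_coc a b c _ hz.1.1 hz.1.2 hz.2)

/-- trivialisation of the linear bundle along an entire map to the base -/
theorem Transfer.exists_lin_global [FiniteDimensional ℂ V] (T : Transfer π ρ)
    {g : V → C} (hg : MDifferentiable 𝓘(ℂ, V) 𝓘(ℂ) g) :
    ∃ θ : T.A → V → ℂ, ∀ z, ∀ a, g z ∈ T.O a → DifferentiableAt ℂ (θ a) z ∧ θ a z ≠ 0 ∧
      ∀ b, g z ∈ T.O b → θ b z = T.γ a b (g z) * θ a z :=
  cousin2_global (fun a => g ⁻¹' (T.O a))
    (fun a => (T.isOpen_O a).preimage hg.continuous) (fun z => T.cover (g z))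
    (fun a b z => T.γ a b (g z))
    (fun a b z hz => ⟨Transfer.diff_comp (T.γ_hol a b _ hz.1 hz.2) (hg z),
      T.γ_ne a b _ hz.1 hz.2⟩)
    (fun a b c z hz => T.γ_coc a b c _ hz.1.1 hz.1.2 hz.2)

/-- a chosen index for every point of the base -/
noncomputable def Transfer.idx (T : Transfer π ρ) (p : C) : T.A := (T.cover p).choose

theorem Transfer.idx_mem (T : Transfer π ρ) (p : C) : p ∈ T.O (T.idx p) := (T.cover p).choose_spec

/-- the property that all germs factor is inherited by correspondents -/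
theorem HasFactor.transfer (hY : HasFactor Y) (T : Transfer π ρ)
    (hπ : MDifferentiable 𝓘(ℂ, C2) 𝓘(ℂ) π) (hρ : MDifferentiable 𝓘(ℂ, C2) 𝓘(ℂ) ρ) :
    HasFactor X := by
  intro V _ _ _ K hK hKc f hf
  have hg : ∀ᶠ z in 𝓝ˢ K, MDifferentiableAt 𝓘(ℂ, V) 𝓘(ℂ) (fun z => π (f z)) z := by
    filter_upwards [hf] with z hz
    exact (hπ (f z)).comp z hz
  obtain ⟨e, he⟩ := T.exists_aff ⟨hK, hKc⟩ hg
  -- the transferred map
  set G : V → Y := fun z => T.ψ (T.idx (π (f z))) (f z) (e (T.idx (π (f z))) z) with hG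
  have hGe : ∀ᶠ z in 𝓝ˢ K, ∀ a, π (f z) ∈ T.O a → G z = T.ψ a (f z) (e a z) := by
    filter_upwards [he] with z hz a ha
    have hi := T.idx_mem (π (f z))
    simp only [hG]
    rw [T.ψ_trans _ a _ _ hi ha, (hz _ hi).2 a ha]
  have hGb : ∀ᶠ z in 𝓝ˢ K, ρ (G z) = π (f z) := by
    filter_upwards [hGe] with z hz
    have hi := T.idx_mem (π (f z))
    rw [hz _ hi, T.ψ_base _ _ _ hi]
  have hGhol : MHolNear C2 K G := by
    filter_upwards [hf, he, eventually_eventually_nhds' hGe, hg] with z h1 h2 h3 h4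
    have hi := T.idx_mem (π (f z))
    have h5 := T.ψ_hol (T.idx (π (f z))) V f (e (T.idx (π (f z)))) z h1 (h2 _ hi).1 hi
    refine h5.congr_of_eventuallyEq ?_
    have h6 : ∀ᶠ y in 𝓝 z, π (f y) ∈ T.O (T.idx (π (f z))) :=
      h4.continuousAt.eventually ((T.isOpen_O _).mem_nhds hi)
    filter_upwards [h3, h6] with y hy1 hy2
    exact hy1 _ hy2
  obtain ⟨W, _, _, _, Ψ, c, hΨ, hc, hGc⟩ := hY V K hK hKc G hGhol
  have hρΨ : MDifferentiable 𝓘(ℂ, W) 𝓘(ℂ) (fun y => ρ (Ψ y)) := fun y =>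
    (hρ (Ψ y)).comp y (hΨ y)
  obtain ⟨e', he'⟩ := T.exists_aff_global hρΨ
  obtain ⟨θ, hθ⟩ := T.exists_lin_global hρΨ
  -- the entire map
  set Φ : W × ℂ → X := fun p => T.ψ' (T.idx (ρ (Ψ p.1))) (Ψ p.1)
    (e' (T.idx (ρ (Ψ p.1))) p.1 + θ (T.idx (ρ (Ψ p.1))) p.1 * p.2) with hΦ
  have hΦe : ∀ (y : W) (w : ℂ) a, ρ (Ψ y) ∈ T.O a →
      Φ (y, w) = T.ψ' a (Ψ y) (e' a y + θ a y * w) := by
    intro y w a ha
    have hi := T.idx_mem (ρ (Ψ y))
    simp only [hΦ]
    have h1 := T.symm.ψ_trans (T.idx (ρ (Ψ y))) a (Ψ y)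
      (e' (T.idx (ρ (Ψ y))) y + θ (T.idx (ρ (Ψ y))) y * w) hi ha
    have h2 := (he' y _ hi).2 a ha
    have h3 := (hθ y _ hi).2.2 a ha
    change T.ψ' _ _ _ = T.ψ' a _ _ at h1
    rw [h1, h2, h3]
    congr 1
    change T.γ _ _ _ * _ + T.σ _ _ _ = _
    ring
  have hΦd : MDifferentiable 𝓘(ℂ, W × ℂ) 𝓘(ℂ, C2) Φ := by
    rintro ⟨y, w⟩
    have hi := T.idx_mem (ρ (Ψ y))
    set a := T.idx (ρ (Ψ y)) with ha
    have hfst : MDifferentiableAt 𝓘(ℂ, W × ℂ) 𝓘(ℂ, W) (fun p : W × ℂ => p.1) (y, w) := by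
      apply DifferentiableAt.mdifferentiableAt
      fun_prop
    have h1 : MDifferentiableAt 𝓘(ℂ, W × ℂ) 𝓘(ℂ, C2) (fun p : W × ℂ => Ψ p.1) (y, w) :=
      MDifferentiableAt.comp (g := Ψ) (f := fun p : W × ℂ => p.1) (y, w) (hΨ y) hfst
    have h2 : DifferentiableAt ℂ (fun p : W × ℂ => e' a p.1 + θ a p.1 * p.2) (y, w) := by
      have k1 : DifferentiableAt ℂ (fun p : W × ℂ => e' a p.1) (y, w) :=
        DifferentiableAt.comp (f := fun p : W × ℂ => p.1) (g := e' a) (y, w) (he' y a hi).1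
          (by fun_prop)
      have k2 : DifferentiableAt ℂ (fun p : W × ℂ => θ a p.1) (y, w) :=
        DifferentiableAt.comp (f := fun p : W × ℂ => p.1) (g := θ a) (y, w) (hθ y a hi).1
          (by fun_prop)
      exact k1.add (k2.mul (by fun_prop))
    have h3 := T.ψ'_hol a (W × ℂ) (fun p => Ψ p.1) (fun p => e' a p.1 + θ a p.1 * p.2) (y, w)
      h1 h2 hi
    refine h3.congr_of_eventuallyEq ?_
    have h4 : ∀ᶠ p : W × ℂ in 𝓝 (y, w), ρ (Ψ p.1) ∈ T.O a :=
      (continuous_fst.tendsto (y, w)).eventually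
        ((hρΨ y).continuousAt.eventually ((T.isOpen_O a).mem_nhds hi))
    filter_upwards [h4] with p hp
    exact hΦe p.1 p.2 a hp
  -- the coordinate
  set h : V → ℂ := fun z => (e (T.idx (π (f z))) z - e' (T.idx (π (f z))) (c z)) /
    θ (T.idx (π (f z))) (c z) with hh
  have hmem : ∀ᶠ z in 𝓝ˢ K, ∀ a, π (f z) ∈ T.O a → ρ (Ψ (c z)) ∈ T.O a := by
    filter_upwards [hGc, hGb] with z h1 h2 a ha
    rw [← h1, h2]; exact ha
  have hhe : ∀ᶠ z in 𝓝ˢ K, ∀ a, π (f z) ∈ T.O a →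
      h z = (e a z - e' a (c z)) / θ a (c z) := by
    filter_upwards [he, hmem, hGc, hGb] with z h1 h2 h3 h4 a ha
    have hi := T.idx_mem (π (f z))
    have e1 := (h1 _ hi).2 a ha
    have e2 := (he' (c z) _ (h2 _ hi)).2 a (h2 a ha)
    have e3 := (hθ (c z) _ (h2 _ hi)).2.2 a (h2 a ha)
    have e4 : ρ (Ψ (c z)) = π (f z) := by rw [← h3, h4]
    have hγ := T.γ_ne _ a _ hi ha
    have hθ0 := (hθ (c z) _ (h2 _ hi)).2.1
    simp only [hh]
    rw [e1, e2, e3, e4]
    field_simp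
    ring
  refine ⟨W × ℂ, inferInstance, inferInstance, inferInstance, Φ, fun z => (c z, h z), hΦd, ?_, ?_⟩
  · filter_upwards [hc, hg, he, eventually_eventually_nhds' hhe, hmem] with z h1 h2 h3 h4 h5
    refine h1.prodMk ?_
    have hi := T.idx_mem (π (f z))
    set a := T.idx (π (f z)) with ha
    have k1 : DifferentiableAt ℂ (fun y => e' a (c y)) z :=
      DifferentiableAt.comp (f := c) (g := e' a) z (he' (c z) a (h5 a hi)).1 h1
    have k2 : DifferentiableAt ℂ (fun y => θ a (c y)) z :=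
      DifferentiableAt.comp (f := c) (g := θ a) z (hθ (c z) a (h5 a hi)).1 h1
    have k3 : DifferentiableAt ℂ (fun y => (e a y - e' a (c y)) / θ a (c y)) z := by
      simp only [div_eq_mul_inv]
      exact ((h3 a hi).1.sub k1).mul (k2.inv (hθ (c z) a (h5 a hi)).2.1)
    refine k3.congr_of_eventuallyEq ?_
    have k4 : ∀ᶠ y in 𝓝 z, π (f y) ∈ T.O a :=
      h2.continuousAt.eventually ((T.isOpen_O a).mem_nhds hi)
    filter_upwards [h4, k4] with y hy1 hy2
    exact hy1 a hy2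
  · filter_upwards [hhe, hmem, hGc, hGe] with z h1 h2 h3 h4
    have hi := T.idx_mem (π (f z))
    set a := T.idx (π (f z)) with ha
    have hθ0 := (hθ (c z) a (h2 a hi)).2.1
    rw [hΦe (c z) (h z) a (h2 a hi), h1 a hi]
    have k1 : e' a (c z) + θ a (c z) * ((e a z - e' a (c z)) / θ a (c z)) = e a z := by
      field_simp
      ring
    rw [k1, ← h3, h4 a hi, T.left_inv a _ _ hi]

end

end Vale.Agent.P290
end
end

section

section

open Set Filter Metric
open scoped Manifold ContDiff Topology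

namespace Vale.Agent.P290.K

/-! ### The Oka property of one Kummer surface implies the approximation property -/

section

variable {V : Type} [NormedAddCommGroup V] [NormedSpace ℂ V]

/-- uniform continuity near a compact set, in terms of norms -/
theorem A7_unif {A B : Type} [NormedAddCommGroup A] [NormedAddCommGroup B] {K : Set A}
    (hK : IsCompact K) {f : A → B} (hf : ∀ x ∈ K, ContinuousAt f x) {ε : ℝ} (hε : 0 < ε) :
    ∃ δ > 0, ∀ x ∈ K, ∀ y, ‖y - x‖ < δ → ‖f y - f x‖ < ε := by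
  have h1 := hK.uniformContinuousAt_of_continuousAt f hf (Metric.dist_mem_uniformity hε)
  obtain ⟨δ, hδ, h2⟩ := Metric.mem_uniformity_dist.1 h1
  refine ⟨δ, hδ, fun x hx y hy => ?_⟩
  have h3 : dist x y < δ := by rwa [dist_comm, dist_eq_norm]
  have h4 : dist (f x) (f y) < ε := h2 h3 hx
  rwa [dist_comm, dist_eq_norm] at h4

/-- the action of `(exp l, e)` -/
noncomputable def A7_act (lam : Fin 4 → C2) (w : (ℂ × (Fin 4 → ℂ)) × ND) : ND :=
  act lam (Complex.exp w.1.1, w.1.2) w.2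

theorem A7_act_diff (lam : Fin 4 → C2) : Differentiable ℂ (A7_act lam) := by
  intro w
  have h1 : DifferentiableAt ℂ (fun w : (ℂ × (Fin 4 → ℂ)) × ND => w.2) w := by (clear * -; fun_prop)
  have h2 : DifferentiableAt ℂ
      (fun w : (ℂ × (Fin 4 → ℂ)) × ND => ((Complex.exp w.1.1, w.1.2) : ℂ × (Fin 4 → ℂ))) w := by
    fun_prop
  exact act_differentiableAt (lam := lam) h1 h2 (Complex.exp_ne_zero _)

/-- a holomorphic map to the group has a logarithm -/
theorem A7_log {S : Set V} (hS : Good S) {g : V → ℂ × (Fin 4 → ℂ)} (hg : HolNear S g)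
    (hne : ∀ᶠ z in 𝓝ˢ S, (g z).1 ≠ 0) :
    ∃ p : V → ℂ × (Fin 4 → ℂ), HolNear S p ∧ ∀ᶠ z in 𝓝ˢ S, g z = (Complex.exp (p z).1, (p z).2) := by
  have h1 : HolNear S (fun z => (g z).1) := by
    filter_upwards [hg] with z hz using hz.fst
  obtain ⟨l, hl, hle⟩ := exists_log hS.1 hS.2 h1 (fun z hz => hne.self_of_nhdsSet z hz)
  refine ⟨fun z => (l z, (g z).2), ?_, ?_⟩
  · filter_upwards [hl, hg] with z hz hz' using hz.prodMk hz'.snd
  · filter_upwards [hle] with z hz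
    exact Prod.ext hz rfl

end

/-- a representation near a smaller set can be approximated by representations near a larger
set -/
theorem rep_extend {lam : Fin 4 → C2} (hlam : LinearIndependent ℝ lam) {X : Type}
    [TopologicalSpace X] [ChartedSpace C2 X] [IsManifold 𝓘(ℂ, C2) 1 X] (D : KummerData lam X)
    {V : Type} [NormedAddCommGroup V] [NormedSpace ℂ V] [FiniteDimensional ℂ V] {K K' : Set V}
    (hK : Good K) (hK' : Good K') (hKK' : K ⊆ K') {f : V → X} (hf : MHolNear C2 K' f) {x : V → ND}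
    (hx : HolNear K x) (hR : ∀ᶠ z in 𝓝ˢ K, Pell (x z).1 ∧ Rep D (x z) (f z)) {ε : ℝ}
    (hε : 0 < ε) :
    ∃ x' : V → ND, HolNear K' x' ∧ (∀ᶠ z in 𝓝ˢ K', Pell (x' z).1 ∧ Rep D (x' z) (f z)) ∧
      ∀ z ∈ K, ‖x' z - x z‖ < ε := by
  obtain ⟨y, hy, hyR⟩ := exists_rep D hlam hK' hf
  have hyK : HolNear K y := Filter.Eventually.filter_mono (nhdsSet_mono hKK') hy
  have hyRK : ∀ᶠ z in 𝓝ˢ K, Pell (y z).1 ∧ Rep D (y z) (f z) :=
    Filter.Eventually.filter_mono (nhdsSet_mono hKK') hyR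
  obtain ⟨g, hg, hgx⟩ := exists_act D hlam hyK hx (hyRK.mono fun _ h => h.1)
    (hR.mono fun _ h => h.1) (hyRK.mono fun _ h => h.2) (hR.mono fun _ h => h.2)
  obtain ⟨p, hp, hpg⟩ := A7_log hK hg (hgx.mono fun _ h => h.1)
  have hcont : ContinuousOn (fun z => (p z, y z)) K := fun z hz =>
    ((hp.self_of_nhdsSet z hz).prodMk (hyK.self_of_nhdsSet z hz)).continuousAt.continuousWithinAt
  obtain ⟨δ, hδ, hδε⟩ := A7_unif (hK.1.image_of_continuousOn hcont) (f := A7_act lam)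
    (fun w _ => (A7_act_diff lam w).continuousAt) hε
  obtain ⟨q, hq, hqp⟩ := okaWeil_vec hK.1 hK.2 hp δ hδ
  refine ⟨fun z => A7_act lam (q z, y z), ?_, ?_, ?_⟩
  · filter_upwards [hy] with z hz
    exact DifferentiableAt.comp (g := A7_act lam) (f := fun z => (q z, y z)) z
      (A7_act_diff lam _) ((hq z).prodMk hz)
  · filter_upwards [hyR] with z hz
    exact ⟨pell_act (Complex.exp_ne_zero _) hz.1, rep_act D (Complex.exp_ne_zero _) hz.2⟩
  · intro z hz
    have h1 : x z = A7_act lam (p z, y z) := by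
      rw [(hgx.self_of_nhdsSet z hz).2, hpg.self_of_nhdsSet z hz]
      rfl
    rw [h1]
    refine hδε _ ⟨z, hz, rfl⟩ _ ?_
    have h2 : ((q z, y z) : (ℂ × (Fin 4 → ℂ)) × ND) - (p z, y z) = (q z - p z, 0) := by
      rw [Prod.mk_sub_mk, sub_self]
    rw [h2, Prod.norm_def, norm_zero]
    exact max_lt (hqp z hz) hδ

/-- points with a representation are good -/
theorem A7_avoid_of_rep {lam : Fin 4 → C2} {X : Type} [TopologicalSpace X] [ChartedSpace C2 X]
    {D : KummerData lam X} {x : ND} {y : X} (h : Rep D x y) : Avoid lam x := by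
  obtain ⟨n, a, h1, h2, -⟩ := h
  exact ⟨n, a, h1, h2⟩

/-- the good set is open along a family of Pell data -/
theorem A7_avoid_near {lam : Fin 4 → C2} (hlam : LinearIndependent ℝ lam)
    {V : Type} [NormedAddCommGroup V] [NormedSpace ℂ V] {K : Set V} {R : V → ND}
    (hR : HolNear K R) (hP : ∀ᶠ z in 𝓝ˢ K, Pell (R z).1) (hA : ∀ z ∈ K, Avoid lam (R z)) :
    ∀ᶠ z in 𝓝ˢ K, Avoid lam (R z) := by
  rw [eventually_nhdsSet_iff_forall]
  intro z hz
  have h1 : ContinuousAt R z := (hR.self_of_nhdsSet z hz).continuousAt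
  have h2 : Tendsto (fun y => (lam, R y)) (𝓝 z) (𝓝 (lam, R z)) :=
    tendsto_const_nhds.prodMk_nhds h1
  have h3 := h2.eventually (avoid_open hlam (hA z hz))
  filter_upwards [h3, (eventually_nhdsSet_iff_forall.1 hP) z hz] with y h4 h5 using h4 h5

theorem A7_nonempty {lam : Fin 4 → C2} {X : Type} [TopologicalSpace X] [ChartedSpace C2 X]
    (D : KummerData lam X) {x : ND} (h : Avoid lam x) : Nonempty X := by
  obtain ⟨n, a, -, -⟩ := h
  exact ⟨D.N n (x.1.1, x.2 + Lm lam a)⟩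

/-- a ball containing the image of a compact set in its interior -/
theorem A7_ball {W : Type} [NormedAddCommGroup W] [NormedSpace ℂ W] {K : Set W}
    (hK : IsCompact K) (r : ℝ) : ∃ s, r ≤ s ∧ K ⊆ ball (0 : W) s := by
  obtain ⟨s, hs⟩ := hK.isBounded.subset_ball (0 : W)
  exact ⟨max r s, le_max_left _ _, hs.trans (ball_subset_ball (le_max_right _ _))⟩

theorem A7_good_ball {W : Type} [NormedAddCommGroup W] [NormedSpace ℂ W] [FiniteDimensional ℂ W]
    (s : ℝ) : Good (closedBall (0 : W) s) := by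
  haveI : ProperSpace W := FiniteDimensional.proper ℂ W
  exact ⟨isCompact_closedBall _ _, convex_closedBall _ _⟩

/-- last step: from a representation `x₁` of `Ψ` near a ball -/
theorem A7_core {lam : Fin 4 → C2} (hlam : LinearIndependent ℝ lam) {X : Type}
    [TopologicalSpace X] [ChartedSpace C2 X] [IsManifold 𝓘(ℂ, C2) 1 X] (D : KummerData lam X)
    {V W : Type} [NormedAddCommGroup V] [NormedSpace ℂ V] [FiniteDimensional ℂ V]
    [NormedAddCommGroup W] [NormedSpace ℂ W] [FiniteDimensional ℂ W] {K K' : Set V}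
    (hK : Good K) (hK' : Good K') {Ψ : W → X}
    (hΨ : MDifferentiable 𝓘(ℂ, W) 𝓘(ℂ, C2) Ψ) {c : V → W} (hc : HolNear K c) {s : ℝ}
    (hcs : c '' K ⊆ ball (0 : W) s) {x₁ : W → ND} (hx₁ : HolNear (closedBall (0 : W) s) x₁)
    (hR₁ : ∀ᶠ w in 𝓝ˢ (closedBall (0 : W) s), Pell (x₁ w).1 ∧ Rep D (x₁ w) (Ψ w))
    {p : V → ℂ × (Fin 4 → ℂ)} (hp : HolNear K p) {ε : ℝ} (hε : 0 < ε) :
    ∃ R' : V → ND, HolNear K' R' ∧ (∀ᶠ z in 𝓝ˢ K', Pell (R' z).1) ∧
      (∀ z ∈ K', Avoid lam (R' z)) ∧ ∀ z ∈ K, ‖R' z - A7_act lam (p z, x₁ (c z))‖ < ε := by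
  have hcK : ContinuousOn c K := fun z hz =>
    (hc.self_of_nhdsSet z hz).continuousAt.continuousWithinAt
  have hcc : IsCompact (c '' K) := hK.1.image_of_continuousOn hcK
  have hxc : ∀ w ∈ ball (0 : W) s, ContinuousAt x₁ w := fun w hw =>
    (hx₁.self_of_nhdsSet w (ball_subset_closedBall hw)).continuousAt
  have hcont : ContinuousOn (fun z => (p z, x₁ (c z))) K := by
    intro z hz
    have h1 := (hp.self_of_nhdsSet z hz).continuousAt
    have h2 : ContinuousAt (fun z => x₁ (c z)) z :=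
      ContinuousAt.comp (f := c) (g := x₁) (hxc _ (hcs ⟨z, hz, rfl⟩))
        (hc.self_of_nhdsSet z hz).continuousAt
    exact (h1.prodMk h2).continuousWithinAt
  obtain ⟨δ, hδ, hδε⟩ := A7_unif (hK.1.image_of_continuousOn hcont) (f := A7_act lam)
    (fun w _ => (A7_act_diff lam w).continuousAt) hε
  obtain ⟨η, hη, hηδ⟩ := A7_unif hcc (fun w hw => hxc w (hcs hw)) (half_pos hδ)
  obtain ⟨η', hη', hηs⟩ := hcc.exists_thickening_subset_open isOpen_ball hcs
  obtain ⟨q, hq, hqp⟩ := okaWeil_vec hK.1 hK.2 hp δ hδ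
  obtain ⟨c', hc', hcc'⟩ := okaWeil_vec hK.1 hK.2 hc (min η η') (lt_min hη hη')
  obtain ⟨t, hst, ht⟩ := A7_ball (hK'.1.image_of_continuousOn hc'.continuous.continuousOn) s
  have hΨt : MHolNear C2 (closedBall (0 : W) t) Ψ := Eventually.of_forall hΨ
  obtain ⟨x₂, hx₂, hR₂, hx₂₁⟩ := rep_extend hlam D (A7_good_ball s) (A7_good_ball t)
    (closedBall_subset_closedBall hst) hΨt hx₁ hR₁ (half_pos hδ)
  have hmaps : MapsTo c' K' (closedBall (0 : W) t) := fun z hz =>
    ball_subset_closedBall (ht ⟨z, hz, rfl⟩)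
  have htend : Tendsto c' (𝓝ˢ K') (𝓝ˢ (closedBall (0 : W) t)) :=
    hc'.continuous.tendsto_nhdsSet hmaps
  refine ⟨fun z => A7_act lam (q z, x₂ (c' z)), ?_, ?_, ?_, ?_⟩
  · filter_upwards [htend.eventually hx₂] with z hz
    have h1 : DifferentiableAt ℂ (fun z => x₂ (c' z)) z :=
      DifferentiableAt.comp (f := c') (g := x₂) z hz (hc' z)
    exact DifferentiableAt.comp (g := A7_act lam) (f := fun z => (q z, x₂ (c' z))) z
      (A7_act_diff lam _) ((hq z).prodMk h1)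
  · filter_upwards [htend.eventually hR₂] with z hz
    exact pell_act (Complex.exp_ne_zero _) hz.1
  · intro z hz
    have h1 := hR₂.self_of_nhdsSet (c' z) (hmaps hz)
    exact avoid_act (Complex.exp_ne_zero _) (A7_avoid_of_rep h1.2)
  · intro z hz
    refine hδε _ ⟨z, hz, rfl⟩ _ ?_
    have hd : ‖c' z - c z‖ < min η η' := hcc' z hz
    have h1 : ‖x₁ (c' z) - x₁ (c z)‖ < δ / 2 :=
      hηδ (c z) ⟨z, hz, rfl⟩ (c' z) (hd.trans_le (min_le_left _ _))
    have h2 : c' z ∈ ball (0 : W) s := by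
      refine hηs (mem_thickening_iff.2 ⟨c z, ⟨z, hz, rfl⟩, ?_⟩)
      rw [dist_eq_norm]
      exact hd.trans_le (min_le_right _ _)
    have h3 : ‖x₂ (c' z) - x₁ (c' z)‖ < δ / 2 := hx₂₁ _ (ball_subset_closedBall h2)
    have h4 : ‖x₂ (c' z) - x₁ (c z)‖ < δ := by
      have h5 : x₂ (c' z) - x₁ (c z) = (x₂ (c' z) - x₁ (c' z)) + (x₁ (c' z) - x₁ (c z)) := by
        abel
      rw [h5]
      refine (norm_add_le _ _).trans_lt ?_
      linarith only [h1, h3]
    have h6 : ((q z, x₂ (c' z)) : (ℂ × (Fin 4 → ℂ)) × ND) - (p z, x₁ (c z)) =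
        (q z - p z, x₂ (c' z) - x₁ (c z)) := Prod.mk_sub_mk _ _ _ _
    rw [h6, Prod.norm_def]
    exact max_lt (hqp z hz) h4

theorem appr_of_hasFactor {X : Type} [TopologicalSpace X] [ChartedSpace C2 X]
    [IsManifold 𝓘(ℂ, C2) 1 X] (lam : Fin 4 → C2) (hlam : LinearIndependent ℝ lam)
    (D : KummerData lam X) (h : HasFactor X) : Appr lam := by
  intro m K K' hK hK' hne _ R hR hP hA ε hε
  obtain ⟨z₀, hz₀⟩ := hne
  haveI : Nonempty X := A7_nonempty D (hA z₀ hz₀)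
  have hAn := A7_avoid_near hlam hR hP hA
  have hfn : MHolNear C2 K (fun z => pt D (R z)) := by
    filter_upwards [hR, eventually_eventually_nhds' hP, hAn] with z h1 h2 h3
    exact pt_mdifferentiableAt D hlam h1 h2 h3
  obtain ⟨W, _, _, _, Ψ, c, hΨ, hc, hfc⟩ := h (Fin m → ℂ) K hK.1 hK.2 _ hfn
  have hcK : ContinuousOn c K := fun z hz =>
    (hc.self_of_nhdsSet z hz).continuousAt.continuousWithinAt
  obtain ⟨s, -, hs⟩ := A7_ball (hK.1.image_of_continuousOn hcK) 0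
  have hΨs : MHolNear C2 (closedBall (0 : W) s) Ψ := Eventually.of_forall hΨ
  obtain ⟨x₁, hx₁, hR₁⟩ := exists_rep D hlam (A7_good_ball s) hΨs
  have hmaps : MapsTo c K (closedBall (0 : W) s) := fun z hz =>
    ball_subset_closedBall (hs ⟨z, hz, rfl⟩)
  have htend : Tendsto c (𝓝ˢ K) (𝓝ˢ (closedBall (0 : W) s)) := hc.tendsto hmaps
  have hx₁c : HolNear K (fun z => x₁ (c z)) := by
    filter_upwards [htend.eventually hx₁, hc] with z h1 h2
    exact DifferentiableAt.comp (f := c) (g := x₁) z h1 h2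
  have hR₁c : ∀ᶠ z in 𝓝ˢ K, Pell (x₁ (c z)).1 ∧ Rep D (x₁ (c z)) (pt D (R z)) := by
    filter_upwards [htend.eventually hR₁, hfc] with z h1 h2
    rw [h2]
    exact h1
  obtain ⟨g, hg, hgx⟩ := exists_act D hlam hx₁c hR (hR₁c.mono fun _ h => h.1) hP
    (hR₁c.mono fun _ h => h.2) (hAn.mono fun _ h => rep_pt D h)
  obtain ⟨p, hp, hpg⟩ := A7_log hK hg (hgx.mono fun _ h => h.1)
  obtain ⟨R', h1, h2, h3, h4⟩ := A7_core hlam D hK hK' hΨ hc hs hx₁ hR₁ hp hε
  refine ⟨R', h1, h2, h3, fun z hz => ?_⟩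
  have h5 : R z = A7_act lam (p z, x₁ (c z)) := by
    rw [(hgx.self_of_nhdsSet z hz).2, hpg.self_of_nhdsSet z hz]
    rfl
  rw [h5]
  exact h4 z hz

end Vale.Agent.P290.K
end
end

section

section

open Set Filter Metric
open scoped Manifold ContDiff Topology

namespace Vale.Agent.P290

variable {X J : Type} [TopologicalSpace X] [ChartedSpace C2 X]

/-- points at which two flows have independent velocities -/
def IndepSet (L L' : LineFlow C2 X) : Set X :=
  {y | ∃ (a : L.A) (b : L'.A), y ∈ L.U a ∧ y ∈ L'.U b ∧ area (vel L a y) (vel L' b y) ≠ 0}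

/-- from every point one can flow with one of the flows to a point at which it is independent of
another flow -/
def Dominating' (𝓛 : J → LineFlow C2 X) : Prop :=
  ∀ x, ∃ (i j : J) (a : (𝓛 i).A) (w : ℂ), x ∈ (𝓛 i).U a ∧
    (𝓛 i).φ a x w ∈ IndepSet (𝓛 i) (𝓛 j)

section

variable [IsManifold 𝓘(ℂ, C2) 1 X]

/-- the flow through charts is holomorphic -/
theorem flow_chart_diff (L : LineFlow C2 X) {a : L.A} {e e' : OpenPartialHomeomorph X C2}
    (he : e ∈ atlas C2 X) (he' : e' ∈ atlas C2 X) {x : X} (hx : x ∈ e.source) (hxa : x ∈ L.U a)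
    {t : ℂ} (hxt : L.φ a x t ∈ e'.source) :
    DifferentiableAt ℂ (fun p : C2 × ℂ => e' (L.φ a (e.symm p.1) p.2)) (e x, t) := by
  apply differentiableAt_chart_comp he'
  · have h1 : MDifferentiableAt 𝓘(ℂ, C2 × ℂ) 𝓘(ℂ, C2) (fun p : C2 × ℂ => e.symm p.1) (e x, t) := by
      have h2 : MDifferentiableAt 𝓘(ℂ, C2) 𝓘(ℂ, C2) e.symm (e x) :=
        mdifferentiableAt_atlas_symm he (e.map_source hx)
      have h3 : MDifferentiableAt 𝓘(ℂ, C2 × ℂ) 𝓘(ℂ, C2) (fun p : C2 × ℂ => p.1) (e x, t) := by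
        apply DifferentiableAt.mdifferentiableAt
        (clear * -; fun_prop)
      exact MDifferentiableAt.comp (g := e.symm) (f := fun p : C2 × ℂ => p.1) (e x, t) h2 h3
    apply L.φ_hol a (C2 × ℂ) (fun p => e.symm p.1) (fun p => p.2) (e x, t) h1 (by fun_prop)
    simpa [e.left_inv hx] using hxa
  · simpa [e.left_inv hx] using hxt

theorem flow_curve_diff (L : LineFlow C2 X) {a : L.A} {e' : OpenPartialHomeomorph X C2}
    (he' : e' ∈ atlas C2 X) {x : X} (hxa : x ∈ L.U a)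
    {t : ℂ} (hxt : L.φ a x t ∈ e'.source) :
    DifferentiableAt ℂ (fun s : ℂ => e' (L.φ a x s)) t := by
  apply differentiableAt_chart_comp he' _ hxt
  exact L.φ_hol a ℂ (fun _ => x) (fun s => s) t mdifferentiableAt_const differentiableAt_id hxa

theorem hasDerivAt_mul_self {e : ℂ → ℂ} (he : DifferentiableAt ℂ e 0) :
    HasDerivAt (fun w => e w * w) (e 0) 0 := by
  have := he.hasDerivAt.fun_mul (hasDerivAt_id' (0 : ℂ))
  simpa only [mul_zero, mul_one, zero_add] using this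

/-- two conjugated pieces span the tangent space -/
theorem conj_area_ne_zero (L L' : LineFlow C2 X) {x : X} {a : L.A} (hxa : x ∈ L.U a)
    {θ : L.A → ℂ} {c : ℂ} (hx₁ : L.φ a x (c * θ a) ∈ IndepSet L L') {s₀ s : ℂ → X}
    (hs₀ : ConjCurve L L x 0 θ s₀) (hs : ConjCurve L L' x c θ s) :
    area (deriv (fun w => chartAt C2 x (s₀ w)) 0) (deriv (fun w => chartAt C2 x (s w)) 0) ≠ 0 := by
  obtain ⟨a', b, ha', hb, hne⟩ := hx₁
  have hxa' : x ∈ L.U a' := (L.mem_iff hxa).1 ha'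
  set t := c * θ a with ht
  set x₁ := L.φ a x t with hx₁
  have hx₁a : x₁ ∈ L.U a := L.φ_mem _ _ _ hxa
  set e := chartAt C2 x with he
  set e₁ := chartAt C2 x₁ with he₁
  have hea : e ∈ atlas C2 X := chart_mem_atlas _ _
  have he₁a : e₁ ∈ atlas C2 X := chart_mem_atlas _ _
  have hxe : x ∈ e.source := mem_chart_source _ _
  have hxe₁ : x₁ ∈ e₁.source := mem_chart_source _ _
  -- independence with the index `a`
  have hne' : area (vel L a x₁) (vel L' b x₁) ≠ 0 := by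
    have h1 : vel L a x₁ = L.γ a a' x₁ • vel L a' x₁ := by
      have h2 : (fun w : ℂ => chartAt C2 x₁ (L.φ a x₁ w)) =
          fun w => (fun w => chartAt C2 x₁ (L.φ a' x₁ w)) (L.γ a a' x₁ * w) := by
        funext w
        rw [L.φ_trans a a' _ _ hx₁a ha']
      unfold vel
      rw [h2]
      have h3 := deriv_comp_mul_left (L.γ a a' x₁) (fun w => chartAt C2 x₁ (L.φ a' x₁ w)) 0
      rw [mul_zero] at h3
      exact h3
    rw [h1, area_smul_left]
    exact mul_ne_zero (L.γ_ne _ _ _ hx₁a ha') hne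
  -- first curve
  obtain ⟨e0, τ0, he0d, -, he00, -, hs₀e⟩ := hs₀ a a hxa (by
    rw [zero_mul, L.φ_zero _ _ hxa]; exact hxa)
  have hd₀ : deriv (fun w => e (s₀ w)) 0 = e0 0 • vel L a x := by
    have h1 : (fun w => e (s₀ w)) =ᶠ[𝓝 0] fun w => (fun s => e (L.φ a x s)) (e0 w * w) := by
      filter_upwards [hs₀e] with w hw
      rw [hw]
      simp only [zero_mul, neg_zero]
      rw [L.φ_zero _ _ hxa, L.φ_zero _ _ (L.φ_mem _ _ _ hxa)]
    rw [h1.deriv_eq]
    have h2 : HasDerivAt (fun w => e0 w * w) (e0 0) 0 := hasDerivAt_mul_self he0d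
    have h3 : HasDerivAt (fun s => e (L.φ a x s)) (vel L a x) (e0 0 * 0) := by
      rw [mul_zero]
      exact (flow_curve_diff L hea hxa (by rw [L.φ_zero _ _ hxa]; exact hxe)).hasDerivAt
    exact (HasDerivAt.scomp (h := fun w => e0 w * w) (0 : ℂ) h3 h2).deriv
  -- second curve
  obtain ⟨e', τ, he'd, hτd, he'0, hτ0, hse⟩ := hs a b hxa hb
  set Φ : C2 × ℂ → C2 := fun p => e (L.φ a (e₁.symm p.1) p.2) with hΦ
  have hback : L.φ a x₁ (-t) = x := by
    rw [hx₁, L.φ_add _ _ _ _ hxa, add_neg_cancel, L.φ_zero _ _ hxa]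
  have hΦd : DifferentiableAt ℂ Φ (e₁ x₁, -t) :=
    flow_chart_diff L he₁a hea hxe₁ hx₁a (by rw [hback]; exact hxe)
  set DΦ := fderiv ℂ Φ (e₁ x₁, -t) with hDΦ
  set A : C2 →L[ℂ] C2 := DΦ ∘L ContinuousLinearMap.inl ℂ C2 ℂ with hA
  -- `A v_i(x₁) = v_i(x)`
  have hcont₁ : ∀ (M : LineFlow C2 X) (b : M.A), x₁ ∈ M.U b → ∀ h : ℂ → ℂ, ContinuousAt h 0 →
      h 0 = 0 → ∀ᶠ w in 𝓝 (0 : ℂ), M.φ b x₁ (h w) ∈ e₁.source := by
    intro M b hb h hh h0
    have h1 : ContinuousAt (fun s => M.φ b x₁ s) (h 0) := by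
      rw [h0]
      exact (M.φ_hol b ℂ (fun _ => x₁) (fun s => s) 0 mdifferentiableAt_const differentiableAt_id
        hb).continuousAt
    have h2 : ContinuousAt (fun w => M.φ b x₁ (h w)) 0 := ContinuousAt.comp h1 hh
    refine h2.eventually (e₁.open_source.mem_nhds ?_)
    change M.φ b x₁ (h 0) ∈ e₁.source
    rw [h0, M.φ_zero _ _ hb]; exact hxe₁
  have hv₁ : A (vel L a x₁) = vel L a x := by
    have h1 : HasDerivAt (fun w => e₁ (L.φ a x₁ w)) (vel L a x₁) 0 :=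
      (flow_curve_diff L he₁a hx₁a (by rw [L.φ_zero _ _ hx₁a]; exact hxe₁)).hasDerivAt
    have h2 : HasDerivAt (fun w => ((e₁ (L.φ a x₁ w), -t) : C2 × ℂ)) (vel L a x₁, 0) 0 :=
      h1.prodMk (hasDerivAt_const _ _)
    have h3 : HasFDerivAt Φ DΦ ((fun w => ((e₁ (L.φ a x₁ w), -t) : C2 × ℂ)) 0) := by
      simp only [L.φ_zero _ _ hx₁a]
      exact hΦd.hasFDerivAt
    have h4 := h3.comp_hasDerivAt (0 : ℂ) h2
    have h5 : (Φ ∘ fun w => ((e₁ (L.φ a x₁ w), -t) : C2 × ℂ)) =ᶠ[𝓝 0]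
        fun w => e (L.φ a x w) := by
      filter_upwards [hcont₁ L a hx₁a (fun w => w) continuousAt_id rfl] with w hw
      simp only [hΦ, Function.comp, e₁.left_inv hw]
      rw [L.φ_add _ _ _ _ hx₁a, hx₁, L.φ_add _ _ _ _ hxa]
      congr 2; ring
    have h6 : deriv (fun w => e (L.φ a x w)) 0 = DΦ (vel L a x₁, 0) := by
      rw [← h5.deriv_eq]; exact h4.deriv
    rw [hA]
    simp only [ContinuousLinearMap.comp_apply, ContinuousLinearMap.inl_apply]
    rw [← h6]; rfl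
  -- `∂_s Φ = v_i(x)`
  have hvB : DΦ (0, 1) = vel L a x := by
    have h2 : HasDerivAt (fun w => ((e₁ x₁, w - t) : C2 × ℂ)) (0, 1) 0 :=
      (hasDerivAt_const _ _).prodMk ((hasDerivAt_id _).sub_const t)
    have h3 : HasFDerivAt Φ DΦ ((fun w => ((e₁ x₁, w - t) : C2 × ℂ)) 0) := by
      simp only [zero_sub]
      exact hΦd.hasFDerivAt
    have h4 := h3.comp_hasDerivAt (0 : ℂ) h2
    have h5 : (Φ ∘ fun w => ((e₁ x₁, w - t) : C2 × ℂ)) = fun w => e (L.φ a x w) := by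
      funext w
      simp only [Function.comp, hΦ, e₁.left_inv hxe₁]
      rw [hx₁, L.φ_add _ _ _ _ hxa]
      congr 2; ring
    have h6 : deriv (fun w => e (L.φ a x w)) 0 = DΦ (0, 1) := by
      rw [← h5]; exact h4.deriv
    rw [← h6]; rfl
  -- derivative of the second curve
  have hds : deriv (fun w => e (s w)) 0 = e' 0 • A (vel L' b x₁) +
      (-(c * deriv τ 0)) • vel L a x := by
    have h1 : HasDerivAt (fun w => e₁ (L'.φ b x₁ (e' w * w))) (e' 0 • vel L' b x₁) 0 := by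
      have h2 : HasDerivAt (fun w => e' w * w) (e' 0) 0 := hasDerivAt_mul_self he'd
      have h3 : HasDerivAt (fun s => e₁ (L'.φ b x₁ s)) (vel L' b x₁) (e' 0 * 0) := by
        rw [mul_zero]
        exact (flow_curve_diff L' he₁a hb (by rw [L'.φ_zero _ _ hb]; exact hxe₁)).hasDerivAt
      exact HasDerivAt.scomp (h := fun w => e' w * w) (0 : ℂ) h3 h2
    have h1' : HasDerivAt (fun w => -(c * τ w)) (-(c * deriv τ 0)) 0 :=
      (hτd.hasDerivAt.const_mul c).neg
    have h2 := h1.prodMk h1'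
    have h3 : HasFDerivAt Φ DΦ
        ((fun w => ((e₁ (L'.φ b x₁ (e' w * w)), -(c * τ w)) : C2 × ℂ)) 0) := by
      simp only [mul_zero, L'.φ_zero _ _ hb, hτ0]
      exact hΦd.hasFDerivAt
    have h4 := h3.comp_hasDerivAt (0 : ℂ) h2
    have h5 : (Φ ∘ fun w => ((e₁ (L'.φ b x₁ (e' w * w)), -(c * τ w)) : C2 × ℂ)) =ᶠ[𝓝 0]
        fun w => e (s w) := by
      filter_upwards [hse, hcont₁ L' b hb (fun w => e' w * w)
        (he'd.continuousAt.mul continuousAt_id) (by simp)] with w hw1 hw2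
      simp only [hΦ, Function.comp, e₁.left_inv hw2]
      rw [hw1]
    rw [← h5.deriv_eq, h4.deriv]
    have h6 : ((e' 0 • vel L' b x₁, -(c * deriv τ 0)) : C2 × ℂ) =
        e' 0 • (vel L' b x₁, 0) + (-(c * deriv τ 0)) • ((0 : C2), (1 : ℂ)) := by
      simp
    rw [h6, map_add, map_smul, map_smul, hvB]
    rfl
  -- `A` is invertible
  have hAdet : A.det ≠ 0 := by
    set Ψ : C2 → C2 := fun q => e₁ (L.φ a (e.symm q) t) with hΨ
    have hΨd : DifferentiableAt ℂ Ψ (e x) := by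
      have h1 := flow_chart_diff L hea he₁a hxe hxa hxe₁ (t := t)
      exact DifferentiableAt.comp (f := fun q : C2 => ((q, t) : C2 × ℂ)) (e x) h1 (by fun_prop)
    have h2 : HasFDerivAt (fun q => Φ (q, -t)) A (e₁ x₁) :=
      HasFDerivAt.comp (f := fun q : C2 => ((q, -t) : C2 × ℂ)) (e₁ x₁) hΦd.hasFDerivAt
        (hasFDerivAt_prodMk_left _ _)
    have h3 : Φ (e₁ x₁, -t) = e x := by
      simp only [hΦ, e₁.left_inv hxe₁, hback]
    have h4 : HasFDerivAt (Ψ ∘ fun q => Φ (q, -t)) (fderiv ℂ Ψ (e x) ∘L A) (e₁ x₁) := by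
      refine HasFDerivAt.comp (e₁ x₁) ?_ h2
      rw [h3]; exact hΨd.hasFDerivAt
    have h5 : (Ψ ∘ fun q => Φ (q, -t)) =ᶠ[𝓝 (e₁ x₁)] fun q => q := by
      have k1 : ∀ᶠ q in 𝓝 (e₁ x₁), q ∈ e₁.target := e₁.open_target.mem_nhds (e₁.map_source hxe₁)
      have k3 : ContinuousAt e₁.symm (e₁ x₁) := e₁.continuousAt_symm (e₁.map_source hxe₁)
      have k2 : ∀ᶠ q in 𝓝 (e₁ x₁), e₁.symm q ∈ L.U a := by
        refine k3.eventually ((L.isOpen_U a).mem_nhds ?_)
        rw [e₁.left_inv hxe₁]; exact hx₁a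
      have k4 : ∀ᶠ q in 𝓝 (e₁ x₁), L.φ a (e₁.symm q) (-t) ∈ e.source := by
        have m1 : MDifferentiableAt 𝓘(ℂ, C2) 𝓘(ℂ, C2) e₁.symm (e₁ x₁) :=
          mdifferentiableAt_atlas_symm he₁a (e₁.map_source hxe₁)
        have m2 := (L.φ_hol a C2 (fun q => e₁.symm q) (fun _ => -t) (e₁ x₁) m1
          (differentiableAt_const _) (by rw [e₁.left_inv hxe₁]; exact hx₁a)).continuousAt
        refine m2.eventually (e.open_source.mem_nhds ?_)
        change L.φ a (e₁.symm (e₁ x₁)) (-t) ∈ e.source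
        rw [e₁.left_inv hxe₁, hback]; exact hxe
      filter_upwards [k1, k2, k4] with q q1 q2 q4
      simp only [hΨ, hΦ, Function.comp]
      rw [e.left_inv q4, L.φ_add _ _ _ _ q2, neg_add_cancel, L.φ_zero _ _ q2, e₁.right_inv q1]
    have h6 : fderiv ℂ Ψ (e x) ∘L A = ContinuousLinearMap.id ℂ C2 := by
      rw [← h4.fderiv, h5.fderiv_eq]
      exact fderiv_fun_id
    intro h0
    have h7 : area ((fderiv ℂ Ψ (e x) ∘L A) E1)
        ((fderiv ℂ Ψ (e x) ∘L A) E2) = 0 := by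
      simp only [ContinuousLinearMap.comp_apply]
      rw [area_map, area_map, h0, zero_mul, mul_zero]
    rw [h6] at h7
    simp [area, E1, E2] at h7
  rw [hd₀, hds, area_smul_left, area_add_right, area_smul_right, area_smul_right, area_self,
    ← hv₁, area_map]
  simp only [mul_zero, add_zero]
  exact mul_ne_zero he00 (mul_ne_zero he'0 (mul_ne_zero hAdet hne'))

end

end Vale.Agent.P290
end
end

section

section

open Set Filter Metric
open scoped Manifold ContDiff Topology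

namespace Vale.Agent.P290

variable {X J : Type} [TopologicalSpace X] [ChartedSpace C2 X]

section

variable [IsManifold 𝓘(ℂ, C2) 1 X]

/-- change of charts for velocities -/
theorem deriv_chart_change {e e' : OpenPartialHomeomorph X C2} (he : e ∈ atlas C2 X)
    (he' : e' ∈ atlas C2 X) {s : ℂ → X} (hs : MDifferentiableAt 𝓘(ℂ) 𝓘(ℂ, C2) s 0)
    (h : s 0 ∈ e.source) (h' : s 0 ∈ e'.source) :
    deriv (fun w => e (s w)) 0 =
      fderiv ℂ (fun q => e (e'.symm q)) (e' (s 0)) (deriv (fun w => e' (s w)) 0) := by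
  have h1 : DifferentiableAt ℂ (fun w => e' (s w)) 0 := differentiableAt_chart_comp he' hs h'
  have h2 : DifferentiableAt ℂ (fun q => e (e'.symm q)) (e' (s 0)) := by
    refine differentiableAt_transition he' he (e'.map_source h') ?_
    rw [e'.left_inv h']; exact h
  have h3 := h2.hasFDerivAt.comp_hasDerivAt (0 : ℂ) h1.hasDerivAt
  have h4 : ((fun q => e (e'.symm q)) ∘ fun w => e' (s w)) =ᶠ[𝓝 0] fun w => e (s w) := by
    filter_upwards [hs.continuousAt.eventually (e'.open_source.mem_nhds h')] with w hw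
    simp only [Function.comp, e'.left_inv hw]
  rw [← h4.deriv_eq]
  exact h3.deriv

theorem vel_chart_diff (L : LineFlow C2 X) {a : L.A} {y₀ : X} (ha : y₀ ∈ L.U a)
    {e : OpenPartialHomeomorph X C2} (he : e ∈ atlas C2 X) (hy : y₀ ∈ e.source) :
    DifferentiableAt ℂ (fun q => deriv (fun w => e (L.φ a (e.symm q) w)) 0) (e y₀) := by
  apply differentiableAt_deriv_of_prod (G := fun p : C2 × ℂ => e (L.φ a (e.symm p.1) p.2))
  have h0 : ∀ᶠ q in 𝓝 (e y₀), q ∈ e.target ∧ e.symm q ∈ L.U a := by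
    have k0 : ∀ᶠ q in 𝓝 (e y₀), q ∈ e.target := e.open_target.mem_nhds (e.map_source hy)
    refine k0.and ?_
    refine (e.continuousAt_symm (e.map_source hy)).eventually ((L.isOpen_U a).mem_nhds ?_)
    rw [e.left_inv hy]; exact ha
  have h1 : Tendsto (fun p : C2 × ℂ => p.1) (𝓝 (e y₀, 0)) (𝓝 (e y₀)) := continuous_fst.tendsto _
  have h2 : ∀ᶠ p : C2 × ℂ in 𝓝 (e y₀, 0), L.φ a (e.symm p.1) p.2 ∈ e.source := by
    have k1 : MDifferentiableAt 𝓘(ℂ, C2 × ℂ) 𝓘(ℂ, C2) (fun p : C2 × ℂ => e.symm p.1)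
        (e y₀, (0 : ℂ)) := by
      have h2 : MDifferentiableAt 𝓘(ℂ, C2) 𝓘(ℂ, C2) e.symm (e y₀) :=
        mdifferentiableAt_atlas_symm he (e.map_source hy)
      have h3 : MDifferentiableAt 𝓘(ℂ, C2 × ℂ) 𝓘(ℂ, C2) (fun p : C2 × ℂ => p.1)
          (e y₀, (0 : ℂ)) := by
        apply DifferentiableAt.mdifferentiableAt
        (clear * -; fun_prop)
      exact MDifferentiableAt.comp (g := e.symm) (f := fun p : C2 × ℂ => p.1) (e y₀, (0 : ℂ)) h2 h3
    have k2 := L.φ_hol a (C2 × ℂ) (fun p => e.symm p.1) (fun p => p.2) (e y₀, (0 : ℂ)) k1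
      (by fun_prop) (by simpa [e.left_inv hy] using ha)
    refine k2.continuousAt.eventually (e.open_source.mem_nhds ?_)
    change L.φ a (e.symm (e y₀)) 0 ∈ e.source
    rw [e.left_inv hy, L.φ_zero _ _ ha]; exact hy
  filter_upwards [h1.eventually h0, h2] with p hp1 hp2
  have h3 := flow_chart_diff L he he (e.map_target hp1.1) hp1.2 (t := p.2) hp2
  rw [e.right_inv hp1.1] at h3
  exact h3

theorem isOpen_indepSet (L L' : LineFlow C2 X) : IsOpen (IndepSet L L') := by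
  rw [isOpen_iff_mem_nhds]
  rintro y₀ ⟨a, b, ha, hb, hne⟩
  set e := chartAt C2 y₀ with he
  have hea : e ∈ atlas C2 X := chart_mem_atlas _ _
  have hy : y₀ ∈ e.source := mem_chart_source _ _
  set Va : C2 → C2 := fun q => deriv (fun w => e (L.φ a (e.symm q) w)) 0 with hVa
  set Vb : C2 → C2 := fun q => deriv (fun w => e (L'.φ b (e.symm q) w)) 0 with hVb
  have hVac : ContinuousAt Va (e y₀) := (vel_chart_diff L ha hea hy).continuousAt
  have hVbc : ContinuousAt Vb (e y₀) := (vel_chart_diff L' hb hea hy).continuousAt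
  have hVa0 : Va (e y₀) = vel L a y₀ := by
    simp only [hVa, e.left_inv hy]; rfl
  have hVb0 : Vb (e y₀) = vel L' b y₀ := by
    simp only [hVb, e.left_inv hy]; rfl
  have harea : ContinuousAt (fun q => area (Va q) (Vb q)) (e y₀) := by
    unfold area
    exact (hVac.fst.mul hVbc.snd).sub (hVac.snd.mul hVbc.fst)
  have hne0 : area (Va (e y₀)) (Vb (e y₀)) ≠ 0 := by rw [hVa0, hVb0]; exact hne
  have h1 : ∀ᶠ y in 𝓝 y₀, area (Va (e y)) (Vb (e y)) ≠ 0 :=
    (e.continuousAt hy).eventually (harea.eventually_ne hne0)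
  filter_upwards [h1, e.open_source.mem_nhds hy, (L.isOpen_U a).mem_nhds ha,
    (L'.isOpen_U b).mem_nhds hb] with y k1 k2 k3 k4
  refine ⟨a, b, k3, k4, ?_⟩
  intro h0
  apply k1
  have hs : ∀ (M : LineFlow C2 X) (c : M.A), y ∈ M.U c →
      deriv (fun w => e (M.φ c (e.symm (e y)) w)) 0 =
        fderiv ℂ (fun q => e ((chartAt C2 y).symm q)) (chartAt C2 y y) (vel M c y) := by
    intro M c hc
    rw [e.left_inv k2]
    have hsd : MDifferentiableAt 𝓘(ℂ) 𝓘(ℂ, C2) (fun w => M.φ c y w) 0 :=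
      M.φ_hol c ℂ (fun _ => y) (fun s => s) 0 mdifferentiableAt_const differentiableAt_id hc
    have h00 : M.φ c y 0 = y := M.φ_zero _ _ hc
    have := deriv_chart_change hea (chart_mem_atlas C2 y) hsd (by rw [h00]; exact k2)
      (by rw [h00]; exact mem_chart_source _ _)
    rw [this]
    simp only [h00]
    rfl
  simp only [hVa, hVb]
  rw [hs L a k3, hs L' b k4, area_map, h0, mul_zero]

end

end Vale.Agent.P290
end
end

section

section

open Set Filter Metric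
open scoped Manifold ContDiff Topology

namespace Vale.Agent.P290

variable {X V J : Type} [TopologicalSpace X] [ChartedSpace C2 X]
  [NormedAddCommGroup V] [NormedSpace ℂ V]

theorem surjective_of_area {W : Type} [NormedAddCommGroup W] [NormedSpace ℂ W]
    (D : W →L[ℂ] C2) {u v : W} (h : area (D u) (D v) ≠ 0) : Function.Surjective D := by
  intro y
  refine ⟨(area y (D v) / area (D u) (D v)) • u + (area (D u) y / area (D u) (D v)) • v, ?_⟩
  rw [map_add, map_smul, map_smul]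
  ext
  · simp only [Prod.fst_add, Prod.smul_fst, smul_eq_mul]
    rw [div_mul_eq_mul_div, div_mul_eq_mul_div, ← add_div, div_eq_iff h]
    simp only [area]
    ring
  · simp only [Prod.snd_add, Prod.smul_snd, smul_eq_mul]
    rw [div_mul_eq_mul_div, div_mul_eq_mul_div, ← add_div, div_eq_iff h]
    simp only [area]
    ring

/-- the derivative of a spray in the direction of a coordinate -/
theorem mfderiv_single [IsManifold 𝓘(ℂ, C2) 1 X] {P : Type} [Fintype P] [DecidableEq P]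
    {s : (P → ℂ) → X} (hs : MDifferentiableAt 𝓘(ℂ, P → ℂ) 𝓘(ℂ, C2) s 0) (p : P) :
    (mfderiv 𝓘(ℂ, P → ℂ) 𝓘(ℂ, C2) s 0 : (P → ℂ) →L[ℂ] C2) (Pi.single p 1) =
      deriv (fun w => chartAt C2 (s 0) (s (Pi.single p w))) 0 := by
  have h1 : (mfderiv 𝓘(ℂ, P → ℂ) 𝓘(ℂ, C2) s 0 : (P → ℂ) →L[ℂ] C2) =
      fderiv ℂ (fun w => chartAt C2 (s 0) (s w)) 0 := by
    rw [hs.mfderiv]
    simp only [writtenInExtChartAt, extChartAt, OpenPartialHomeomorph.extend, modelWithCornersSelf_partialEquiv, PartialEquiv.trans_refl, OpenPartialHomeomorph.toFun_eq_coe, OpenPartialHomeomorph.coe_toPartialEquiv_symm, modelWithCornersSelf_coe, range_id, fderivWithin_univ]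
    rfl
  have h2 : DifferentiableAt ℂ (fun w => chartAt C2 (s 0) (s w)) 0 :=
    differentiableAt_chart_comp (chart_mem_atlas _ _) hs (mem_chart_source _ _)
  have h3 : HasDerivAt (fun w : ℂ => (Pi.single p w : P → ℂ)) (Pi.single p 1) 0 :=
    (ContinuousLinearMap.single ℂ (fun _ : P => ℂ) p).hasDerivAt
  have h4 : HasFDerivAt (fun w => chartAt C2 (s 0) (s w))
      (fderiv ℂ (fun w => chartAt C2 (s 0) (s w)) 0) ((fun w : ℂ => (Pi.single p w : P → ℂ)) 0) := by
    simpa only [Pi.single_zero] using h2.hasFDerivAt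
  have h5 := h4.comp_hasDerivAt (0 : ℂ) h3
  rw [h1]
  exact h5.deriv.symm

/-- maps close to `f` are reachable from `f` -/
theorem local_reach [T2Space X] [IsManifold 𝓘(ℂ, C2) 1 X] [FiniteDimensional ℂ V]
    (vol : VolForm X) (𝓛 : J → LineFlow C2 X) (hdom : Dominating' 𝓛) {K : Set V}
    (hK : IsCompact K) (hKc : Convex ℝ K) {f : V → X} (hf : MHolNear C2 K f) :
    ∃ 𝒪 : Set (V × X), IsOpen 𝒪 ∧ (∀ z ∈ K, (z, f z) ∈ 𝒪) ∧
      ∀ g : V → X, MHolNear C2 K g → (∀ z ∈ K, (z, g z) ∈ 𝒪) → Reach 𝓛 K f g := by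
  classical
  have hKg : Good K := ⟨hK, hKc⟩
  choose θ hθ hθn using fun j => exists_triv (𝓛 j) hKg hf
  -- local choice of conjugated pieces
  have hloc : ∀ z₀ ∈ K, ∃ (i j : J) (c : ℂ), ∃ N ∈ 𝓝 z₀, ∀ z ∈ N ∩ K,
      ∃ a, f z ∈ (𝓛 i).U a ∧ (𝓛 i).φ a (f z) (c * θ i a z) ∈ IndepSet (𝓛 i) (𝓛 j) := by
    intro z₀ hz₀
    obtain ⟨i, j, a, w, ha, hw⟩ := hdom (f z₀)
    have hne : θ i a z₀ ≠ 0 := (hθn i).self_of_nhdsSet z₀ hz₀ a ha
    refine ⟨i, j, w / θ i a z₀, ?_⟩
    set c := w / θ i a z₀ with hc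
    have hfd := hf.mdifferentiableAt hz₀
    have hθz := Filter.Eventually.filter_mono (nhds_le_nhdsSet hz₀) (hθ i)
    have hm : MDifferentiableAt 𝓘(ℂ, V) 𝓘(ℂ, C2) (fun z => (𝓛 i).φ a (f z) (c * θ i a z)) z₀ := by
      apply (𝓛 i).φ_hol a V f (fun z => c * θ i a z) z₀ hfd _ ha
      exact (hθz.self_of_nhds a ha).1.const_mul c
    have h1 : (𝓛 i).φ a (f z₀) (c * θ i a z₀) ∈ IndepSet (𝓛 i) (𝓛 j) := by
      have : c * θ i a z₀ = w := by rw [hc]; field_simp
      rw [this]; exact hw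
    have h2 := hm.continuousAt.eventually ((isOpen_indepSet (𝓛 i) (𝓛 j)).mem_nhds h1)
    have h3 := hfd.continuousAt.eventually (((𝓛 i).isOpen_U a).mem_nhds ha)
    exact ⟨_, h2.and h3, fun z hz => ⟨a, hz.1.2, hz.1.1⟩⟩
  choose i j c N hN hNp using hloc
  obtain ⟨t, htc⟩ := hK.elim_nhds_subcover' N hN
  obtain ⟨S, hSr, hS0, hSp⟩ := exists_composite (P := {z // z ∈ t} × Bool) 𝓛 hKg hf θ hθ
    (fun p => i p.1.1 p.1.1.2) (fun p => if p.2 then j p.1.1 p.1.1.2 else i p.1.1 p.1.1.2)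
    (fun p => if p.2 then c p.1.1 p.1.1.2 else 0)
  have hF₀ : MHolNear C2 (K ×ˢ closedBall (0 : {z // z ∈ t} × Bool → ℂ) 1)
      (fun p : V × ({z // z ∈ t} × Bool → ℂ) => f p.1) :=
    hf.comp (Eventually.of_forall fun p => by (clear * -; fun_prop)) (fun p hp => hp.1)
  have hSh := hSr.mHolNear hF₀
  have hsub : K ×ˢ {(0 : {z // z ∈ t} × Bool → ℂ)} ⊆ K ×ˢ closedBall (0 : {z // z ∈ t} × Bool → ℂ) 1 := by
    rintro ⟨z, w⟩ ⟨hz, rfl⟩
    exact ⟨hz, mem_closedBall_self zero_le_one⟩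
  set D : V → ({z // z ∈ t} × Bool → ℂ) →L[ℂ] C2 := fun z =>
    mfderiv 𝓘(ℂ, {z // z ∈ t} × Bool → ℂ) 𝓘(ℂ, C2) (fun w => S (z, w)) 0 with hD
  have hsurj : ∀ z ∈ K, Function.Surjective (D z) := by
    intro z hz
    obtain ⟨z₁, hz₁t, hz₁N⟩ := mem_iUnion₂.1 (htc hz)
    obtain ⟨a, ha, haI⟩ := hNp z₁ z₁.2 z ⟨hz₁N, hz⟩
    have hp1 := (hSp (⟨z₁, hz₁t⟩, false)).self_of_nhdsSet z hz
    have hp2 := (hSp (⟨z₁, hz₁t⟩, true)).self_of_nhdsSet z hz
    simp only [if_true] at hp2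
    simp only [Bool.false_eq_true, if_false] at hp1
    have h3 := conj_area_ne_zero (𝓛 (i z₁ z₁.2)) (𝓛 (j z₁ z₁.2)) ha haI hp1 hp2
    have hz0 : S (z, 0) = f z := hS0.self_of_nhdsSet z hz
    have hSz : MDifferentiableAt 𝓘(ℂ, {z // z ∈ t} × Bool → ℂ) 𝓘(ℂ, C2) (fun w => S (z, w)) 0 := by
      have hm : (z, (0 : {z // z ∈ t} × Bool → ℂ)) ∈ K ×ˢ closedBall (0 : {z // z ∈ t} × Bool → ℂ) 1 :=
        ⟨hz, mem_closedBall_self zero_le_one⟩
      have h4 : MDifferentiableAt 𝓘(ℂ, {z // z ∈ t} × Bool → ℂ)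
          𝓘(ℂ, V × ({z // z ∈ t} × Bool → ℂ))
          (fun w : {z // z ∈ t} × Bool → ℂ => ((z, w) : V × ({z // z ∈ t} × Bool → ℂ))) 0 := by
        apply DifferentiableAt.mdifferentiableAt
        fun_prop
      exact MDifferentiableAt.comp (g := S)
        (f := fun w : {z // z ∈ t} × Bool → ℂ => ((z, w) : V × ({z // z ∈ t} × Bool → ℂ)))
        (0 : {z // z ∈ t} × Bool → ℂ) (hSh.mdifferentiableAt hm) h4
    apply surjective_of_area (D z) (u := Pi.single (⟨z₁, hz₁t⟩, false) 1)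
      (v := Pi.single (⟨z₁, hz₁t⟩, true) 1)
    have e1 : ∀ p : {z // z ∈ t} × Bool, D z (Pi.single p 1) =
        deriv (fun w => chartAt C2 (S (z, 0)) (S (z, Pi.single p w))) 0 := fun p =>
      mfderiv_single hSz p
    rw [e1, e1, hz0]
    exact h3
  obtain ⟨Pr, hPr, hPr2⟩ := exists_projector vol hKg S (hSh.mono hsub) D (fun z => rfl) hsurj
  obtain ⟨𝒪, h𝒪o, h𝒪f, h𝒪⟩ := exists_solution hK S f (hSh.mono hsub) hS0 Pr hPr D (fun z => rfl)
    (hPr2.mono fun z hz => hz.1) (hPr2.mono fun z hz => hz.2.1) (hPr2.mono fun z hz => hz.2.2)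
    1 one_pos
  refine ⟨𝒪, h𝒪o, h𝒪f, fun g hg hg𝒪 => ?_⟩
  obtain ⟨w, hw, hwg⟩ := h𝒪 g hg hg𝒪
  have hP' : HolNear K (fun z => (z, w z)) := by
    filter_upwards [hw] with z hz
    exact differentiableAt_id.prodMk hz
  have hmaps : MapsTo (fun z => (z, w z)) K (K ×ˢ closedBall (0 : {z // z ∈ t} × Bool → ℂ) 1) := by
    intro z hz
    refine ⟨hz, ?_⟩
    rw [mem_closedBall_zero_iff]
    exact (hwg.self_of_nhdsSet z hz).1.le
  have h5 : Reach 𝓛 K ((fun p => f p.1) ∘ fun z => (z, w z)) (S ∘ fun z => (z, w z)) :=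
    Reach.comp hP' hmaps hSr
  refine h5.trans (Reach.refl ?_)
  filter_upwards [hwg] with z hz
  exact hz.2

/-- every germ along a compact convex set is reachable from a constant map -/
theorem reach_const [T2Space X] [IsManifold 𝓘(ℂ, C2) 1 X] [FiniteDimensional ℂ V]
    (vol : VolForm X) (𝓛 : J → LineFlow C2 X) (hdom : Dominating' 𝓛) {K : Set V}
    (hK : IsCompact K) (hKc : Convex ℝ K) {z₀ : V} (hz₀ : z₀ ∈ K) {f : V → X}
    (hf : MHolNear C2 K f) : Reach 𝓛 K (fun _ => f z₀) f := by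
  set h : ℝ → V → V := fun t z => z₀ + (t : ℂ) • (z - z₀) with hh
  have hmaps : ∀ t ∈ Icc (0 : ℝ) 1, MapsTo (h t) K K := by
    intro t ht z hz
    have : h t z = (1 - t) • z₀ + t • z := by
      simp only [hh, Complex.coe_smul]
      module
    rw [this]
    exact hKc hz₀ hz (by linarith only [ht.2]) ht.1 (by ring)
  have hhol : ∀ t ∈ Icc (0 : ℝ) 1, MHolNear C2 K (f ∘ h t) := fun t ht =>
    hf.comp (Eventually.of_forall fun z => by (clear * -; fun_prop)) (hmaps t ht)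
  have hfc : ContinuousOn f K := hf.continuousOn
  have key : Reach 𝓛 K (f ∘ h 0) (f ∘ h 1) := by
    have h01 : (0 : ℝ) ∈ Icc (0 : ℝ) 1 := by simp only [mem_Icc, Std.le_refl, zero_le_one, and_self]
    have h11 : (1 : ℝ) ∈ Icc (0 : ℝ) 1 := by simp only [mem_Icc, zero_le_one, Std.le_refl, and_self]
    refine (isPreconnected_Icc (a := (0 : ℝ)) (b := 1)).induction₂
      (fun s t => Reach 𝓛 K (f ∘ h s) (f ∘ h t)) ?_ ?_ ?_ h01 h11
    · intro t ht
      obtain ⟨𝒪, h𝒪o, h𝒪f, h𝒪⟩ := local_reach vol 𝓛 hdom hK hKc (hhol t ht)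
      have hcomp : ∀ᶠ s in 𝓝[Icc (0 : ℝ) 1] t, ∀ z ∈ K, (z, (f ∘ h s) z) ∈ 𝒪 := by
        have h1 : ∀ᶠ s in 𝓝 t, ∀ z ∈ K, (z, f (h s z)) ∈ 𝒪 := by
          refine hK.eventually_forall_of_forall_eventually fun z hz => ?_
          have k1 : ContinuousAt f ((fun p : ℝ × V => h p.1 p.2) (t, z)) :=
            (hf.mdifferentiableAt (hmaps t ht hz)).continuousAt
          have k2 : ContinuousAt (fun p : ℝ × V => h p.1 p.2) (t, z) := by
            simp only [hh]
            exact (continuous_const.add ((Complex.continuous_ofReal.comp continuous_fst).smul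
              (continuous_snd.sub continuous_const))).continuousAt
          have k3 : ContinuousAt (fun p : ℝ × V => ((p.2, f (h p.1 p.2)) : V × X)) (t, z) :=
            continuousAt_snd.prodMk (ContinuousAt.comp k1 k2)
          exact k3.eventually (h𝒪o.mem_nhds (h𝒪f z hz))
        exact nhdsWithin_le_nhds h1
      filter_upwards [hcomp, self_mem_nhdsWithin] with s hs hs1
      exact h𝒪 _ (hhol s hs1) hs
    · intro x y z _ _ _ h1 h2
      exact h1.trans h2
    · intro x y _ _ h1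
      exact h1.symm
  have e0 : f ∘ h 0 = fun _ => f z₀ := by
    funext z; simp only [hh, Complex.coe_smul, zero_smul, add_zero, Function.comp_apply]
  have e1 : f ∘ h 1 = f := by
    funext z; simp only [hh, Complex.coe_smul, one_smul, add_sub_cancel, Function.comp_apply]
  rwa [e0, e1] at key

/-- the abstract theorem -/
theorem isOka_of_dominating [T2Space X] [IsManifold 𝓘(ℂ, C2) 1 X]
    (vol : VolForm X) (𝓛 : J → LineFlow C2 X) (hdom : Dominating' 𝓛) : IsOka X := by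
  intro m _ K U hK hKc hKne hU hKU f hf d hd hd0 ε hε
  obtain ⟨z₀, hz₀⟩ := hKne
  have hfn : MHolNear C2 K f := by
    refine mem_nhdsSet_iff_exists.2 ⟨U, hU, hKU, fun z hz => ?_⟩
    exact (hf z hz).mdifferentiableAt (hU.mem_nhds hz)
  have h1 := reach_const vol 𝓛 hdom hK hKc hz₀ hfn
  have h2 : Factor C2 K f := (factor_const (V := Fin m → ℂ) (E := C2) (Q := K) (f z₀)).reach h1
  exact h2.approx hK hKc d hd hd0 ε hε

end Vale.Agent.P290
end
end

section

section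

open Set Filter Metric
open scoped Manifold ContDiff Topology

namespace Vale.Agent.P290

/-- holomorphic curves in a Riemann surface with vanishing derivative are constant -/
theorem const_of_deriv_zero {C : Type} [TopologicalSpace C] [ChartedSpace ℂ C]
    [IsManifold 𝓘(ℂ) 1 C] {g : ℂ → C} (hg : MDifferentiable 𝓘(ℂ) 𝓘(ℂ) g)
    (hz : ∀ w, mfderiv 𝓘(ℂ) 𝓘(ℂ) g w = 0) (w : ℂ) : g w = g 0 := by
  have hloc : IsLocallyConstant g := by
    rw [IsLocallyConstant.iff_eventually_eq]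
    intro w₀
    set t := chartAt ℂ (g w₀) with ht
    have hts : g w₀ ∈ t.source := mem_chart_source _ _
    have h1 : ∀ᶠ w in 𝓝 w₀, g w ∈ t.source :=
      (hg w₀).continuousAt.eventually (t.open_source.mem_nhds hts)
    obtain ⟨r, hr, hball⟩ := Metric.eventually_nhds_iff_ball.1 h1
    have h2 : ∀ w ∈ ball w₀ r, HasFDerivAt (fun w => t (g w)) (0 : ℂ →L[ℂ] ℂ) w := by
      intro w hw
      have h3 : MDifferentiableAt 𝓘(ℂ) 𝓘(ℂ) t (g w) :=
        mdifferentiableAt_atlas (chart_mem_atlas _ _) (hball w hw)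
      have h4 : DifferentiableAt ℂ (fun w => t (g w)) w :=
        differentiableAt_chart_comp (chart_mem_atlas _ _) (hg w) (hball w hw)
      have h5 : fderiv ℂ (fun w => t (g w)) w = 0 := by
        rw [← mfderiv_eq_fderiv]
        have h6 := mfderiv_comp w h3 (hg w)
        rw [hz w] at h6
        exact h6.trans (ContinuousLinearMap.comp_zero _)
      rw [← h5]
      exact h4.hasFDerivAt
    have h6 : ∀ w ∈ ball w₀ r, t (g w) = t (g w₀) := by
      intro w hw
      refine (convex_ball w₀ r).is_const_of_fderivWithin_eq_zero (𝕜 := ℂ) (f := fun w => t (g w))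
        (fun y hy => (h2 y hy).differentiableAt.differentiableWithinAt) ?_ hw (mem_ball_self hr)
      intro y hy
      rw [fderivWithin_of_isOpen isOpen_ball hy, (h2 y hy).fderiv]
    filter_upwards [ball_mem_nhds w₀ hr] with w hw
    exact t.injOn (hball w hw) hts (h6 w hw)
  exact hloc.apply_eq_of_preconnectedSpace w 0

theorem dominating_of_finite {X : Type} [TopologicalSpace X] [ChartedSpace C2 X] [T2Space X]
    [CompactSpace X] [IsManifold 𝓘(ℂ, C2) 1 X] (vol : VolForm X) {J : Type} {C : J → Type}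
    [∀ j, TopologicalSpace (C j)] [∀ j, ChartedSpace ℂ (C j)]
    [∀ j, IsManifold 𝓘(ℂ) 1 (C j)] (π : ∀ j, X → C j)
    (hπ : ∀ j, MDifferentiable 𝓘(ℂ, C2) 𝓘(ℂ) (π j))
    (hcrit : ∀ x, ∃ j, mfderiv 𝓘(ℂ, C2) 𝓘(ℂ) (π j) x ≠ 0)
    (hfin : ∀ x, {y | ∀ j, π j y = π j x}.Finite)
    (𝓛 : J → LineFlow C2 X) (h𝓛 : ∀ j x, ∃ a, x ∈ (𝓛 j).U a ∧ ∀ u : C2,
      vol.coef (chartAt C2 x) (chartAt C2 x x) * area (vel (𝓛 j) a x) u =
        (mfderiv 𝓘(ℂ, C2) 𝓘(ℂ) (π j) x : C2 →L[ℂ] ℂ) u) : Dominating' 𝓛 := by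
  intro x
  obtain ⟨i, hi⟩ := hcrit x
  obtain ⟨a, ha, hfa⟩ := h𝓛 i x
  have hvel : vel (𝓛 i) a x ≠ 0 := by
    intro h0
    apply hi
    ext u
    have h1 := hfa u
    rw [h0] at h1
    have h2 : area (0 : C2) u = 0 := by simp [area]
    rw [h2, mul_zero] at h1
    exact h1.symm
  by_contra hcon
  push Not at hcon
  set c : ℂ → X := fun w => (𝓛 i).φ a x w with hc
  have hcd : ∀ w, MDifferentiableAt 𝓘(ℂ) 𝓘(ℂ, C2) c w := fun w =>
    (𝓛 i).φ_hol a ℂ (fun _ => x) (fun s => s) w mdifferentiableAt_const differentiableAt_id ha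
  have hconst : ∀ j w, π j (c w) = π j (c 0) := by
    intro j
    have hgd : MDifferentiable 𝓘(ℂ) 𝓘(ℂ) (fun w => π j (c w)) := fun w =>
      (hπ j (c w)).comp w (hcd w)
    refine const_of_deriv_zero hgd fun w => ?_
    have hy : c w ∈ (𝓛 i).U a := (𝓛 i).φ_mem _ _ _ ha
    obtain ⟨b, hb, hfb⟩ := h𝓛 j (c w)
    have h1 : area (vel (𝓛 j) b (c w)) (vel (𝓛 i) a (c w)) = 0 := by
      by_contra h
      refine hcon i j a w ha ⟨a, b, hy, hb, ?_⟩
      intro h0
      apply h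
      have : area (vel (𝓛 j) b (c w)) (vel (𝓛 i) a (c w)) =
          - area (vel (𝓛 i) a (c w)) (vel (𝓛 j) b (c w)) := by simp only [area]; ring
      rw [this, h0, neg_zero]
    have h2 := hfb (vel (𝓛 i) a (c w))
    rw [h1, mul_zero] at h2
    -- the derivative of the orbit
    obtain ⟨M, hM⟩ : ∃ M : ℂ →L[ℂ] C2, M = mfderiv 𝓘(ℂ) 𝓘(ℂ, C2) c w := ⟨_, rfl⟩
    have h3 : M 1 = vel (𝓛 i) a (c w) := by
      have k1 : M = fderiv ℂ (fun s => chartAt C2 (c w) (c s)) w := by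
        rw [hM, (hcd w).mfderiv]
        simp only [writtenInExtChartAt, extChartAt, OpenPartialHomeomorph.extend, modelWithCornersSelf_partialEquiv, PartialEquiv.trans_refl, OpenPartialHomeomorph.toFun_eq_coe, OpenPartialHomeomorph.coe_toPartialEquiv_symm, modelWithCornersSelf_coe, range_id, fderivWithin_univ]
        rfl
      have k2 : (fun s : ℂ => chartAt C2 (c w) ((𝓛 i).φ a (c w) s)) =
          fun s => (fun s => chartAt C2 (c w) (c s)) (w + s) := by
        funext s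
        simp only [hc]
        rw [(𝓛 i).φ_add _ _ _ _ ha]
      have k3 : vel (𝓛 i) a (c w) = deriv (fun s => chartAt C2 (c w) (c s)) w := by
        unfold vel
        rw [k2]
        have := deriv_comp_const_add (fun s => chartAt C2 (c w) (c s)) w 0
        rw [add_zero] at this
        exact this
      rw [k3, k1]
      rfl
    obtain ⟨N, hN⟩ : ∃ N : C2 →L[ℂ] ℂ, N = mfderiv 𝓘(ℂ, C2) 𝓘(ℂ) (π j) (c w) := ⟨_, rfl⟩
    have h2' : N (vel (𝓛 i) a (c w)) = 0 := by rw [hN]; exact h2.symm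
    have h6 : ∀ s : ℂ, N (M s) = 0 := by
      intro s
      have h7 : M s = s • M 1 := by
        rw [← map_smul]; simp
      rw [h7, map_smul, h3, h2', smul_zero]
    have h4 := mfderiv_comp w (hπ j (c w)) (hcd w)
    refine h4.trans ?_
    rw [← hM, ← hN]
    exact ContinuousLinearMap.ext h6
  have h0 : c 0 = x := (𝓛 i).φ_zero _ _ ha
  have hsub : range c ⊆ {y | ∀ j, π j y = π j x} := by
    rintro _ ⟨w, rfl⟩ j
    rw [hconst j w, h0]
  have hcc : Continuous c := continuous_iff_continuousAt.2 fun w => (hcd w).continuousAt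
  have hpre : IsPreconnected (range c) := isPreconnected_range hcc
  have hss : (range c).Subsingleton := by
    by_contra hns
    exact (hpre.infinite_of_nontrivial (not_subsingleton_iff.1 hns)) ((hfin x).subset hsub)
  apply hvel
  have hcst : (fun w : ℂ => chartAt C2 x ((𝓛 i).φ a x w)) = fun _ => chartAt C2 x x := by
    funext w
    have : c w = c 0 := hss ⟨w, rfl⟩ ⟨0, rfl⟩
    rw [h0] at this
    change chartAt C2 x (c w) = _
    rw [this]
  unfold vel
  rw [hcst]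
  simp

/-- surfaces with a nowhere vanishing holomorphic 2-form and enough fibrations are Oka -/
theorem isOka_of_fibrations {X : Type} [TopologicalSpace X] [ChartedSpace C2 X] [T2Space X]
    [CompactSpace X] [IsManifold 𝓘(ℂ, C2) 1 X] (vol : VolForm X) {J : Type} {C : J → Type}
    [∀ j, TopologicalSpace (C j)] [∀ j, ChartedSpace ℂ (C j)] [∀ j, T2Space (C j)]
    [∀ j, IsManifold 𝓘(ℂ) 1 (C j)] (π : ∀ j, X → C j)
    (hπ : ∀ j, MDifferentiable 𝓘(ℂ, C2) 𝓘(ℂ) (π j))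
    (hcrit : ∀ x, ∃ j, mfderiv 𝓘(ℂ, C2) 𝓘(ℂ) (π j) x ≠ 0)
    (hfin : ∀ x, {y | ∀ j, π j y = π j x}.Finite) : IsOka X := by
  choose 𝓛 h𝓛 using fun j => exists_lineFlow vol (π j) (hπ j)
  exact isOka_of_dominating vol 𝓛 (dominating_of_finite vol π hπ hcrit hfin 𝓛 h𝓛)

end Vale.Agent.P290
end
end

section

section

open Set Filter Metric
open scoped Manifold ContDiff Topology

namespace Vale.Agent.P290

/-- the abstract theorem, factorisation form -/
theorem hasFactor_of_dominating {X J : Type} [TopologicalSpace X] [ChartedSpace C2 X]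
    [T2Space X] [IsManifold 𝓘(ℂ, C2) 1 X]
    (vol : VolForm X) (𝓛 : J → LineFlow C2 X) (hdom : Dominating' 𝓛) : HasFactor X := by
  intro V _ _ _ K hK hKc f hf
  rcases K.eq_empty_or_nonempty with rfl | ⟨z₀, hz₀⟩
  · exact (factor_const (V := V) (E := C2) (Q := ∅) (f 0)).congr (by simp only [EventuallyEq, nhdsSet_empty, eventually_bot])
  · exact (factor_const (V := V) (E := C2) (Q := K) (f z₀)).reach
      (reach_const vol 𝓛 hdom hK hKc hz₀ hf)

theorem hasFactor_of_fibrations {X : Type} [TopologicalSpace X] [ChartedSpace C2 X] [T2Space X]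
    [CompactSpace X] [IsManifold 𝓘(ℂ, C2) 1 X] (vol : VolForm X) {J : Type} {C : J → Type}
    [∀ j, TopologicalSpace (C j)] [∀ j, ChartedSpace ℂ (C j)] [∀ j, T2Space (C j)]
    [∀ j, IsManifold 𝓘(ℂ) 1 (C j)] (π : ∀ j, X → C j)
    (hπ : ∀ j, MDifferentiable 𝓘(ℂ, C2) 𝓘(ℂ) (π j))
    (hcrit : ∀ x, ∃ j, mfderiv 𝓘(ℂ, C2) 𝓘(ℂ) (π j) x ≠ 0)
    (hfin : ∀ x, {y | ∀ j, π j y = π j x}.Finite) : HasFactor X := by
  choose 𝓛 h𝓛 using fun j => exists_lineFlow vol (π j) (hπ j)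
  exact hasFactor_of_dominating vol 𝓛 (dominating_of_finite vol π hπ hcrit hfin 𝓛 h𝓛)

/-- a point at which the differential vanishes is critical -/
theorem critical_of_mfderiv {X C : Type} [TopologicalSpace X] [ChartedSpace C2 X]
    [TopologicalSpace C] [ChartedSpace ℂ C] [IsManifold 𝓘(ℂ, C2) 1 X] [IsManifold 𝓘(ℂ) 1 C]
    {π : X → C} (hπ : MDifferentiable 𝓘(ℂ, C2) 𝓘(ℂ) π) {x : X}
    (h : mfderiv 𝓘(ℂ, C2) 𝓘(ℂ) π x = 0) : Critical π x := by
  rintro e t y rfl rfl rfl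
  have h4 := (hπ x).hasMFDerivAt.2
  rw [h] at h4
  simp only [writtenInExtChartAt, mfld_simps] at h4
  have h5 : HasFDerivAt (fun z => chartAt ℂ (π x) (π ((chartAt C2 x).symm z)))
      (0 : C2 →L[ℂ] ℂ) (chartAt C2 x x) := hasFDerivWithinAt_univ.1 h4
  constructor
  · have h6 : HasDerivAt (fun s : ℂ => ((s, (chartAt C2 x x).2) : C2)) (1, 0)
        (chartAt C2 x x).1 := (hasDerivAt_id _).prodMk (hasDerivAt_const _ _)
    have h7 := HasFDerivAt.comp_hasDerivAt (f := fun s : ℂ => ((s, (chartAt C2 x x).2) : C2))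
      (chartAt C2 x x).1 h5 h6
    exact h7.deriv
  · have h6 : HasDerivAt (fun s : ℂ => (((chartAt C2 x x).1, s) : C2)) (0, 1)
        (chartAt C2 x x).2 := (hasDerivAt_const _ _).prodMk (hasDerivAt_id _)
    have h7 := HasFDerivAt.comp_hasDerivAt (f := fun s : ℂ => (((chartAt C2 x x).1, s) : C2))
      (chartAt C2 x x).2 h5 h6
    exact h7.deriv

theorem IsTwist.hasFactor_iff {X Y : K3} (h : IsTwist X Y) :
    HasFactor X.X ↔ HasFactor Y.X := by
  obtain ⟨vol, C, π, ρ, hπ, hρ, ⟨T⟩⟩ := h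
  have hX := X.isK3
  have hY := Y.isK3
  have m1 : IsManifold 𝓘(ℂ, C2) ω X.X := hX.manifold
  have m2 : IsManifold 𝓘(ℂ, C2) 1 X.X := IsManifold.of_le (n := ω) le_top
  have m3 : IsManifold 𝓘(ℂ, C2) ω Y.X := hY.manifold
  have m4 : IsManifold 𝓘(ℂ, C2) 1 Y.X := IsManifold.of_le (n := ω) le_top
  have m5 : T2Space X.X := hX.t2
  have m6 : CompactSpace X.X := hX.compact
  have m7 : IsManifold 𝓘(ℂ) 1 C.C := IsManifold.of_le (n := ω) le_top
  obtain ⟨S⟩ := T.exists_transfer hπ hρ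
  exact ⟨fun h => h.transfer S.symm hρ hπ, fun h => h.transfer S hπ hρ⟩

theorem hasFactor_iff_of_linked {X Y : K3} (h : Relation.EqvGen IsTwist X Y) :
    HasFactor X.X ↔ HasFactor Y.X := by
  induction h with
  | rel X Y h => exact h.hasFactor_iff
  | refl X => exact Iff.rfl
  | symm X Y _ ih => exact ih.symm
  | trans X Y Z _ _ ih1 ih2 => exact ih1.trans ih2

theorem isOka_of_linked (X Z : K3) (h : Relation.EqvGen IsTwist X Z) {J : Type} {C : J → RS}
    (π : ∀ j, Z.X → (C j).C) (hπ : ∀ j, MDifferentiable 𝓘(ℂ, C2) 𝓘(ℂ) (π j))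
    (hcrit : ∀ x, ∃ j, ¬ Critical (π j) x)
    (hfin : ∀ x, {y | ∀ j, π j y = π j x}.Finite) : IsOka X.X := by
  have hZ := Z.isK3
  have m1 : IsManifold 𝓘(ℂ, C2) ω Z.X := hZ.manifold
  have m2 : IsManifold 𝓘(ℂ, C2) 1 Z.X := IsManifold.of_le (n := ω) le_top
  have m5 : T2Space Z.X := hZ.t2
  have m6 : CompactSpace Z.X := hZ.compact
  have m7 : ∀ j, IsManifold 𝓘(ℂ) 1 (C j).C := fun j => IsManifold.of_le (n := ω) le_top
  obtain ⟨vol⟩ := hZ.canonical
  refine ((hasFactor_iff_of_linked h).2 ?_).isOka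
  refine hasFactor_of_fibrations vol π hπ (fun x => ?_) hfin
  obtain ⟨j, hj⟩ := hcrit x
  exact ⟨j, fun h0 => hj (critical_of_mfderiv (hπ j) h0)⟩

end Vale.Agent.P290
end
end

section

section

set_option linter.all false

open Set Filter Metric
open scoped Manifold ContDiff Topology

namespace Vale.Agent.P290.K

/-! ### Properness of the new first coordinate -/

theorem Coords.exists_bound {X Y : ℝ → Fin 4 → ℂ} (h : Coords X Y) :
    ∃ κ > 0, ∀ s ∈ Icc (0 : ℝ) 1, ∀ n : Fin 4 → ℤ, κ * ‖n‖ ≤ max ‖cx (X s) n‖ ‖cx (Y s) n‖ := by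
  have hcont : ContinuousOn (fun s : ℝ => fun k => ((X s k, Y s k) : C2)) (Icc (0:ℝ) 1) := by
    refine continuousOn_pi.2 fun k => ?_
    exact (h.lipX k).continuousOn.prodMk (h.lipY k).continuousOn
  have key : ∃ κ > 0, ∀ s ∈ Icc (0 : ℝ) 1, ∀ n : Fin 4 → ℤ, ∀ k,
      κ * |(n k : ℝ)| ≤ ‖lat (fun k => ((X s k, Y s k) : C2)) n‖ := by
    refine isCompact_Icc.induction_on (p := fun S : Set ℝ => ∃ κ > 0, ∀ s ∈ S,
      ∀ n : Fin 4 → ℤ, ∀ k,
        κ * |(n k : ℝ)| ≤ ‖lat (fun k => ((X s k, Y s k) : C2)) n‖) ?_ ?_ ?_ ?_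
    · exact ⟨1, one_pos, fun s hs => absurd hs (Set.notMem_empty s)⟩
    · rintro S S' hSS ⟨κ, hκ, hk⟩
      exact ⟨κ, hκ, fun s hs => hk s (hSS hs)⟩
    · rintro S S' ⟨κ, hκ, hk⟩ ⟨κ', hκ', hk'⟩
      refine ⟨min κ κ', lt_min hκ hκ', ?_⟩
      rintro s (hs | hs) n k
      · exact (mul_le_mul_of_nonneg_right (min_le_left _ _) (abs_nonneg _)).trans (hk s hs n k)
      · exact (mul_le_mul_of_nonneg_right (min_le_right _ _) (abs_nonneg _)).trans (hk' s hs n k)
    · intro s hs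
      obtain ⟨κ, hκ, hev⟩ := exists_lat_bound (h.li s hs)
      have := (hcont s hs).eventually hev
      exact ⟨_, this, κ, hκ, fun s' hs' => hs'⟩
  obtain ⟨κ, hκ, hk⟩ := key
  refine ⟨κ, hκ, fun s hs n => ?_⟩
  have e : ‖lat (fun k => ((X s k, Y s k) : C2)) n‖ = max ‖cx (X s) n‖ ‖cx (Y s) n‖ := by
    rw [lat_eq_cx]; rfl
  rw [← e, mul_comm, ← le_div_iff₀ hκ]
  refine (pi_norm_le_iff_of_nonneg (by (clear * - hκ; positivity))).2 fun k => ?_
  rw [le_div_iff₀ hκ, mul_comm]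
  have := hk s hs n k
  simpa only [Int.norm_eq_abs, ge_iff_le] using this

theorem f5_finite_ball (B : ℝ) : {n : Fin 4 → ℤ | ‖n‖ < B}.Finite := by
  refine (Set.finite_Icc (-(fun _ => ⌈B⌉ : Fin 4 → ℤ)) (fun _ => ⌈B⌉)).subset ?_
  intro n hn
  have hk : ∀ k, |n k| ≤ ⌈B⌉ := by
    intro k
    have h1 : ‖n k‖ ≤ ‖n‖ := norm_le_pi_norm n k
    rw [Int.norm_eq_abs] at h1
    have h2 : |(n k : ℝ)| ≤ (⌈B⌉ : ℝ) := (h1.trans (le_of_lt hn)).trans (Int.le_ceil B)
    exact_mod_cast h2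
  rw [Set.mem_Icc, Pi.le_def, Pi.le_def]
  exact ⟨fun k => (abs_le.1 (hk k)).1, fun k => (abs_le.1 (hk k)).2⟩

theorem Coords.proper {X Y : ℝ → Fin 4 → ℂ} (h : Coords X Y) {t τ : ℂ} (hτ : ‖τ‖ ≤ 1)
    (hfin : {n : Fin 4 → ℤ | ∃ s ∈ Icc (0 : ℝ) 1, 1 ≤ ‖cx (Y s) n‖ ∧
        ‖cx (X s) n + t * cx (Y s) n + τ * cx (Y s) n ^ 3‖ < (1 + ‖n‖) ^ (-9 : ℤ)}.Finite)
    (R : ℝ) : {n : Fin 4 → ℤ | ∃ s ∈ Icc (0 : ℝ) 1, ‖pp (X s) (Y s) t τ n‖ < R}.Finite := by
  obtain ⟨κ, hκ, hb⟩ := h.exists_bound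
  set T : ℝ := ‖t‖ + 1 with hT
  have hT1 : 1 ≤ T := by rw [hT]; linarith only [norm_nonneg t]
  set c : ℝ := κ / (4 * T) with hc
  have hc0 : 0 < c := by rw [hc]; (clear * - hκ; positivity)
  set F : ℝ := (Nat.factorial 15 : ℝ) with hF
  have hF0 : 0 < F := by rw [hF]; exact_mod_cast Nat.factorial_pos 15
  set N0 : ℝ := 1 + 4 * T / κ + 2 * |R| / κ + |R| * (2 ^ 9 * F) / c ^ 10 with hN0
  refine (hfin.union (f5_finite_ball N0)).subset ?_
  rintro n ⟨s, hs, hlt⟩
  by_contra hcon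
  rw [Set.mem_union, not_or] at hcon
  obtain ⟨hn1, hn2⟩ := hcon
  have hN : N0 ≤ ‖n‖ := not_lt.1 hn2
  set N : ℝ := ‖n‖ with hNdef
  set x : ℂ := cx (X s) n with hx
  set y : ℂ := cx (Y s) n with hy
  have e1 : 0 ≤ 4 * T / κ := by (clear * - hκ; positivity)
  have e2 : 0 ≤ 2 * |R| / κ := by (clear * - hκ; (clear * - hκ; positivity))
  have e3 : 0 ≤ |R| * (2 ^ 9 * F) / c ^ 10 := by (clear * - hκ; positivity)
  have hNge1 : 1 ≤ N := by linarith only [hN0, hN, e1, e2, e3]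
  have hN4 : 4 * T / κ ≤ N := by linarith only [hN0, hN, e2, e3]
  have hN2 : 2 * |R| / κ ≤ N := by linarith only [e3, e1, hN, hN0]
  have hNR : |R| * (2 ^ 9 * F) / c ^ 10 ≤ N := by linarith only [e2, e1, hN, hN0]
  have hN4' : 4 * T ≤ κ * N := by
    rw [div_le_iff₀ hκ] at hN4; linarith only [hN4]
  have hN2' : 2 * |R| ≤ κ * N := by
    rw [div_le_iff₀ hκ] at hN2; linarith only [hN2]
  have hmax : κ * N ≤ max ‖x‖ ‖y‖ := hb s hs n
  have huu : Real.exp (‖y‖ ^ 2 + 1) ≤ ‖uu y‖ := by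
    refine le_norm_uu y (n 3) ?_
    exact cx_im h hs n
  have hpp : ‖pp (X s) (Y s) t τ n‖ = ‖x + t * y + τ * y ^ 3‖ * ‖uu y‖ := by
    unfold pp
    rw [norm_mul]
  rw [hpp] at hlt
  have hy0 : 0 ≤ ‖y‖ := norm_nonneg y
  have hRle : R ≤ |R| := le_abs_self R
  have hR0 : 0 ≤ |R| := abs_nonneg R
  have huu1 : 1 ≤ ‖uu y‖ := by
    refine le_trans ?_ huu
    exact Real.one_le_exp (by (clear * -; positivity))
  by_cases hcase : T * (‖y‖ + ‖y‖ ^ 3) ≤ κ * N / 2
  · -- the case of small `y`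
    have hylt : ‖y‖ < κ * N := by
      have h1 : ‖y‖ ≤ T * (‖y‖ + ‖y‖ ^ 3) := by
        have : 0 ≤ ‖y‖ ^ 3 := by (clear * -; (clear * -; positivity))
        linarith only [mul_nonneg (sub_nonneg.2 hT1) (sub_nonneg.2 this), mul_nonneg (sub_nonneg.2 hT1) (sub_nonneg.2 hy0), mul_nonneg (sq_nonneg (‖y‖ : ℝ)) (sub_nonneg.2 hy0)]
      have h2 : 0 < κ * N := by (clear * - hκ hNge1; positivity)
      linarith only [h1, hcase, hN4', hT1]
    have hxge : κ * N ≤ ‖x‖ := by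
      rcases le_max_iff.1 hmax with h1 | h1
      · exact h1
      · exact absurd h1 (not_le.2 hylt)
    have hz : κ * N / 2 ≤ ‖x + t * y + τ * y ^ 3‖ := by
      have h1 : ‖x‖ ≤ ‖x + t * y + τ * y ^ 3‖ + ‖t * y‖ + ‖τ * y ^ 3‖ := by
        have e : x = (x + t * y + τ * y ^ 3) - t * y - τ * y ^ 3 := by ring
        calc ‖x‖ = ‖(x + t * y + τ * y ^ 3) - t * y - τ * y ^ 3‖ := by rw [← e]
          _ ≤ ‖(x + t * y + τ * y ^ 3) - t * y‖ + ‖τ * y ^ 3‖ := norm_sub_le _ _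
          _ ≤ ‖x + t * y + τ * y ^ 3‖ + ‖t * y‖ + ‖τ * y ^ 3‖ := by
            gcongr
            exact norm_sub_le _ _
      have h2 : ‖t * y‖ ≤ T * ‖y‖ := by
        rw [norm_mul]
        exact mul_le_mul_of_nonneg_right (by rw [hT]; linarith only []) hy0
      have h3 : ‖τ * y ^ 3‖ ≤ T * ‖y‖ ^ 3 := by
        rw [norm_mul, norm_pow]
        exact mul_le_mul_of_nonneg_right (hτ.trans hT1) (by (clear * -; (clear * -; positivity)))
      linarith only [h3, h2, h1, hxge, hcase]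
    have hfinal : κ * N / 2 ≤ ‖x + t * y + τ * y ^ 3‖ * ‖uu y‖ := by
      have : ‖x + t * y + τ * y ^ 3‖ * 1 ≤ ‖x + t * y + τ * y ^ 3‖ * ‖uu y‖ :=
        mul_le_mul_of_nonneg_left huu1 (norm_nonneg _)
      linarith only [this, hz, hRle, hN2', hlt]
    linarith only [hfinal, hRle, hN2', hlt]
  · -- the case of large `y`
    have hcase' : κ * N / 2 < T * (‖y‖ + ‖y‖ ^ 3) := not_le.1 hcase
    have hT0 : 0 < T := by linarith only [hT1]
    have hy1 : 1 ≤ ‖y‖ := by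
      by_contra hlt1
      have hlt1' : ‖y‖ < 1 := not_le.1 hlt1
      have h3 : ‖y‖ ^ 3 ≤ 1 := pow_le_one₀ hy0 hlt1'.le
      have : T * (‖y‖ + ‖y‖ ^ 3) ≤ T * 2 := mul_le_mul_of_nonneg_left (by linarith only [h3, hlt1']) hT0.le
      linarith only [this, hcase', hN4']
    have hz : (1 + N) ^ (-9 : ℤ) ≤ ‖x + t * y + τ * y ^ 3‖ := by
      by_contra hzlt
      exact hn1 ⟨s, hs, hy1, not_le.1 hzlt⟩
    have hy3 : c * N ≤ ‖y‖ ^ 3 := by
      have h1 : ‖y‖ ≤ ‖y‖ ^ 3 := by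
        have := pow_le_pow_right₀ hy1 (show 1 ≤ 3 by norm_num)
        simpa only [ge_iff_le, pow_one] using this
      have h2 : κ * N / 2 ≤ T * (2 * ‖y‖ ^ 3) := by
        have : T * (‖y‖ + ‖y‖ ^ 3) ≤ T * (2 * ‖y‖ ^ 3) :=
          mul_le_mul_of_nonneg_left (by linarith only [h1]) hT0.le
        linarith only [this, hcase']
      rw [hc, div_mul_eq_mul_div, div_le_iff₀ (by (clear * -; positivity))]
      linarith only [h2]
    have huu2 : (c * N) ^ 10 / F ≤ ‖uu y‖ := by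
      have h1 : (‖y‖ ^ 2) ^ 15 / (Nat.factorial 15 : ℝ) ≤ Real.exp (‖y‖ ^ 2) :=
        Real.pow_div_factorial_le_exp _ (by (clear * - hy1; positivity)) 15
      have h2 : Real.exp (‖y‖ ^ 2) ≤ Real.exp (‖y‖ ^ 2 + 1) :=
        Real.exp_le_exp.2 (by linarith only [])
      have h3 : (c * N) ^ 10 ≤ (‖y‖ ^ 3) ^ 10 :=
        pow_le_pow_left₀ (by (clear * - hκ hNge1; (clear * - hκ hNge1; positivity))) hy3 10
      have h4 : (‖y‖ ^ 3) ^ 10 = (‖y‖ ^ 2) ^ 15 := by ring
      calc (c * N) ^ 10 / F ≤ (‖y‖ ^ 2) ^ 15 / F := by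
            rw [← h4]
            exact div_le_div_of_nonneg_right h3 hF0.le
        _ ≤ Real.exp (‖y‖ ^ 2) := h1
        _ ≤ ‖uu y‖ := h2.trans huu
    have hz2 : ((2 * N) ^ 9)⁻¹ ≤ ‖x + t * y + τ * y ^ 3‖ := by
      refine le_trans ?_ hz
      rw [zpow_neg]
      have e : (1 + N) ^ (9 : ℤ) = (1 + N) ^ 9 := by norm_cast
      rw [e]
      refine inv_anti₀ (by (clear * - hNge1; positivity)) ?_
      exact pow_le_pow_left₀ (by (clear * - hNge1; positivity)) (by linarith only [hNge1]) 9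
    have hprod : c ^ 10 * N / (2 ^ 9 * F) ≤ ‖x + t * y + τ * y ^ 3‖ * ‖uu y‖ := by
      have h1 : ((2 * N) ^ 9)⁻¹ * ((c * N) ^ 10 / F) ≤
          ‖x + t * y + τ * y ^ 3‖ * ‖uu y‖ :=
        mul_le_mul hz2 huu2 (by (clear * - hκ hNge1; (clear * - hκ hNge1; positivity))) (norm_nonneg _)
      have h2 : ((2 * N) ^ 9)⁻¹ * ((c * N) ^ 10 / F) = c ^ 10 * N / (2 ^ 9 * F) := by
        have hN0' : N ≠ 0 := by linarith only [hNge1]
        (clear * - hF hc0 hN0'; field_simp)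
      rw [← h2]
      exact h1
    have hR : |R| ≤ c ^ 10 * N / (2 ^ 9 * F) := by
      rw [le_div_iff₀ (by positivity)]
      rw [div_le_iff₀ (by (clear * - hκ; positivity))] at hNR
      linarith only [hNR]
    linarith only [hR, hprod, hRle, hlt]

end Vale.Agent.P290.K
end
end

section

section

open Set Filter Metric
open scoped Manifold ContDiff Topology

namespace Vale.Agent.P290.K

/-! ### Straightening in coordinates -/

/-- `cosh (2π√ζ) - ζ` -/
noncomputable def gC (ζ : ℂ) : ℂ := Cf ζ (2 * Real.pi) - ζ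

theorem exp_gC (y : ℂ) : Complex.exp (gC (1 * y ^ 2)) = uu y := by
  unfold gC uu
  rw [one_mul, Cf_sq, mul_comm y]

theorem differentiable_gC : Differentiable ℂ gC := by
  have h : Differentiable ℂ fun ζ : ℂ => Cf ζ (2 * Real.pi) := by
    have h0 := differentiable_Cf.comp ((differentiable_id (𝕜 := ℂ) (E := ℂ)).prodMk
      (differentiable_const (2 * (Real.pi : ℂ))))
    exact h0
  exact h.sub differentiable_id

private theorem F9_cx_neg (Z : Fin 4 → ℂ) (n : Fin 4 → ℤ) : cx Z (-n) = -cx Z n := by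
  unfold cx
  rw [← Finset.sum_neg_distrib]
  apply Finset.sum_congr rfl
  intro k _
  rw [Pi.neg_apply]
  push_cast
  ring

private theorem F9_cx_zero (Z : Fin 4 → ℂ) : cx Z 0 = 0 := by
  unfold cx
  simp

private theorem F9_uu_neg (y : ℂ) : uu (-y) = uu y := by
  unfold uu
  rw [mul_neg, Complex.cosh_neg, neg_sq]

private theorem F9_pp_neg (X Y : Fin 4 → ℂ) (t τ : ℂ) (n : Fin 4 → ℤ) :
    pp X Y t τ (-n) = -pp X Y t τ n := by
  unfold pp
  rw [F9_cx_neg, F9_cx_neg, F9_uu_neg]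
  ring

private theorem F9_pp_zero (X Y : Fin 4 → ℂ) (t τ : ℂ) : pp X Y t τ 0 = 0 := by
  unfold pp
  rw [F9_cx_zero, F9_cx_zero]
  simp

private theorem F9_cont {f : ℝ → ℂ} (hf : Lip01 f) : Continuous fun s : UI => f s := by
  have h := hf.continuousOn
  rw [continuousOn_iff_continuous_domRestrict] at h
  exact h

theorem Coords.exists_straight {X Y : ℝ → Fin 4 → ℂ} (h : Coords X Y) :
    ∃ Θ Θ' : UI → ℂ × C2 → C2, IsAutFam Θ Θ' ∧
      ∀ s : UI, (∀ n : Fin 4 → ℤ, ∃ m : ℤ,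
          Θ s (1, (cx (X s) n, cx (Y s) n)) = ((m : ℂ), (0 : ℂ))) ∧
        ∀ m : ℤ, ∃ n : Fin 4 → ℤ, Θ s (1, (cx (X s) n, cx (Y s) n)) = ((m : ℂ), (0 : ℂ)) := by
  obtain ⟨t, τ, hτ, hinj, hfin⟩ := h.exists_generic
  obtain ⟨ν, hν, hν0, hνneg, hνsurj⟩ := exists_half_enum
  have hcX : ∀ n, Continuous fun s : UI => cx (X s) n := fun n => F9_cont (h.lip_cxX n)
  have hcY : ∀ n, Continuous fun s : UI => cx (Y s) n := fun n => F9_cont (h.lip_cxY n)
  have hcu : Continuous uu := by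
    unfold uu
    (clear * -; fun_prop)
  have hcp : ∀ n, Continuous fun s : UI => pp (X s) (Y s) t τ n := by
    intro n
    have h1 := hcX n
    have h2 := hcY n
    have h3 : Continuous fun s : UI => uu (cx (Y s) n) := hcu.comp h2
    unfold pp
    (clear * - hcX h2 h3; fun_prop)
  have hp0 : ∀ (s : UI) (j : ℕ), pp (X s) (Y s) t τ (ν j) ≠ 0 := by
    intro s j h0
    apply hinj s s.2 (ν j) 0 (hν0 j)
    rw [h0, F9_pp_zero]
  -- the first interpolation
  obtain ⟨g1, hg1c, hg1d, hg1⟩ := exists_interp (S := UI)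
    (fun j s => pp (X s) (Y s) t τ (ν j) ^ 2)
    (fun j s => (((j : ℂ) + 1) - cx (Y s) (ν j)) / pp (X s) (Y s) t τ (ν j))
    (fun j => (hcp (ν j)).pow 2)
    (fun j => (continuous_const.sub (hcY (ν j))).div (hcp (ν j)) (fun s => hp0 s j))
    (fun j s => pow_ne_zero 2 (hp0 s j))
    (by
      intro s i j hij heq
      rcases sq_eq_sq_iff_eq_or_eq_neg.mp heq with h1 | h1
      · exact hinj s s.2 (ν i) (ν j) (fun h2 => hij (hν h2)) h1
      · rw [← F9_pp_neg] at h1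
        exact hinj s s.2 (ν i) (-ν j) (hνneg i j) h1)
    (by
      intro R
      have h1 := h.proper hτ hfin (max 1 R)
      have h2 := h1.preimage (f := ν) hν.injOn
      obtain ⟨J, hJ⟩ := h2.bddAbove
      refine ⟨J + 1, fun j hj s => ?_⟩
      have h3 : ¬ ‖pp (X s) (Y s) t τ (ν j)‖ < max 1 R := by
        intro h4
        have h6 : j ∈ ν ⁻¹' {n : Fin 4 → ℤ | ∃ s ∈ Icc (0 : ℝ) 1,
            ‖pp (X s) (Y s) t τ n‖ < max 1 R} := ⟨s.1, s.2, h4⟩
        have h5 : j ≤ J := hJ h6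
        omega
      push Not at h3
      have h4 : 1 ≤ ‖pp (X s) (Y s) t τ (ν j)‖ := (le_max_left _ _).trans h3
      have h5 : R ≤ ‖pp (X s) (Y s) t τ (ν j)‖ := (le_max_right _ _).trans h3
      show R ≤ ‖pp (X s) (Y s) t τ (ν j) ^ 2‖
      rw [norm_pow]
      nlinarith only [h4, h5])
  -- the second interpolation
  have hj1 : ∀ j : ℕ, (j : ℂ) + 1 ≠ 0 := fun j => Nat.cast_add_one_ne_zero j
  obtain ⟨g2, hg2c, hg2d, hg2⟩ := exists_interp (S := UI)
    (fun j _ => ((j : ℂ) + 1) ^ 2)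
    (fun j s => (((j : ℂ) + 1) - pp (X s) (Y s) t τ (ν j)) / ((j : ℂ) + 1))
    (fun j => continuous_const)
    (fun j => (continuous_const.sub (hcp (ν j))).div_const _)
    (fun j s => pow_ne_zero 2 (hj1 j))
    (by
      intro s i j hij heq
      have h1 : (((i + 1) ^ 2 : ℕ) : ℂ) = (((j + 1) ^ 2 : ℕ) : ℂ) := by
        push_cast
        exact heq
      have h2 : (i + 1) ^ 2 = (j + 1) ^ 2 := Nat.cast_injective h1
      have h3 : i + 1 = j + 1 := Nat.pow_left_injective two_ne_zero h2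
      exact hij (by omega))
    (by
      intro R
      obtain ⟨J, hJ⟩ := exists_nat_ge R
      refine ⟨J, fun j hj s => ?_⟩
      have h1 : ‖((j : ℂ) + 1) ^ 2‖ = ((j : ℝ) + 1) ^ 2 := by
        rw [norm_pow]
        congr 1
        have : ((j : ℂ) + 1) = ((j + 1 : ℕ) : ℂ) := by push_cast; rfl
        rw [this, Complex.norm_natCast]
        push_cast
        rfl
      show R ≤ ‖((j : ℂ) + 1) ^ 2‖
      rw [h1]
      have h2 : (J : ℝ) ≤ j := by exact_mod_cast hj
      have h3 : (0 : ℝ) ≤ j := Nat.cast_nonneg j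
      (by_contra nlg; linarith only [nlg, mul_nonneg (sub_nonneg.2 h2) (sub_nonneg.2 h3), mul_nonneg (sub_nonneg.2 hJ) (sub_nonneg.2 h3), mul_nonneg (le_of_lt (sub_pos.2 (not_le.1 nlg))) (sub_nonneg.2 h2), mul_nonneg (le_of_lt (sub_pos.2 (not_le.1 nlg))) (sub_nonneg.2 hJ), mul_pos (sub_pos.2 (not_le.1 nlg)) (sub_pos.2 (not_le.1 nlg)), mul_nonneg (sq_nonneg (↑j + 1 : ℝ)) (sub_nonneg.2 h3), mul_nonneg (sq_nonneg (↑j + 1 : ℝ)) (le_of_lt (sub_pos.2 (not_le.1 nlg))), h2, hJ]))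
  have a1 := isAutFam_shear2 (S := UI) (fun _ ζ => t + τ * ζ) (by (clear * -; fun_prop))
    (fun _ => by (clear * -; fun_prop))
  have hgC : Continuous (gC ∘ (Prod.snd : UI × ℂ → ℂ)) :=
    differentiable_gC.continuous.comp continuous_snd
  have a2 := isAutFam_overshear (S := UI) (fun _ => gC) hgC (fun _ => differentiable_gC)
  have a3 := isAutFam_shear1 (S := UI) g1 hg1c hg1d
  have a4 := isAutFam_shear2 (S := UI) g2 hg2c hg2d
  have a5 := isAutFam_shear1 (S := UI) (fun _ _ => -1) continuous_const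
    (fun _ => differentiable_const _)
  refine ⟨_, _, (((a1.comp a2).comp a3).comp a4).comp a5, fun s => ?_⟩
  have hval : ∀ n : Fin 4 → ℤ, ∀ b a : ℂ,
      cx (Y s) n + pp (X s) (Y s) t τ n * g1 s (1 * pp (X s) (Y s) t τ n ^ 2) = b →
      pp (X s) (Y s) t τ n + b * g2 s (1 * b ^ 2) = a →
      (fun (s : UI) (x : ℂ × C2) =>
        (fun (s : UI) (x : ℂ × C2) => (x.2.1, x.2.2 + x.2.1 * (-1 : ℂ))) s
          (x.1, (fun (s : UI) (x : ℂ × C2) =>
            (fun (s : UI) (x : ℂ × C2) => (x.2.1 + x.2.2 * g2 s (x.1 * x.2.2 ^ 2), x.2.2)) s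
              (x.1, (fun (s : UI) (x : ℂ × C2) =>
                (fun (s : UI) (x : ℂ × C2) => (x.2.1, x.2.2 + x.2.1 * g1 s (x.1 * x.2.1 ^ 2))) s
                  (x.1, (fun (s : UI) (x : ℂ × C2) =>
                    (fun (s : UI) (x : ℂ × C2) =>
                      (x.2.1 * Complex.exp (gC (x.1 * x.2.2 ^ 2)), x.2.2)) s
                      (x.1, (fun (s : UI) (x : ℂ × C2) =>
                        (x.2.1 + x.2.2 * (t + τ * (x.1 * x.2.2 ^ 2)), x.2.2)) s x)) s x)) s x))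
              s x)) s
        (1, (cx (X s) n, cx (Y s) n)) = (a, b + a * (-1 : ℂ)) := by
    intro n b a hb ha
    have e1 : (cx (X s) n + cx (Y s) n * (t + τ * (1 * cx (Y s) n ^ 2))) *
        Complex.exp (gC (1 * cx (Y s) n ^ 2)) = pp (X s) (Y s) t τ n := by
      rw [exp_gC]
      unfold pp
      ring
    show (((cx (X s) n + cx (Y s) n * (t + τ * (1 * cx (Y s) n ^ 2))) *
        Complex.exp (gC (1 * cx (Y s) n ^ 2))) + (cx (Y s) n +
        ((cx (X s) n + cx (Y s) n * (t + τ * (1 * cx (Y s) n ^ 2))) *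
        Complex.exp (gC (1 * cx (Y s) n ^ 2))) * g1 s (1 * ((cx (X s) n + cx (Y s) n *
          (t + τ * (1 * cx (Y s) n ^ 2))) * Complex.exp (gC (1 * cx (Y s) n ^ 2))) ^ 2)) *
        g2 s (1 * (cx (Y s) n + ((cx (X s) n + cx (Y s) n * (t + τ * (1 * cx (Y s) n ^ 2))) *
        Complex.exp (gC (1 * cx (Y s) n ^ 2))) * g1 s (1 * ((cx (X s) n + cx (Y s) n *
          (t + τ * (1 * cx (Y s) n ^ 2))) * Complex.exp (gC (1 * cx (Y s) n ^ 2))) ^ 2)) ^ 2),
        (cx (Y s) n + ((cx (X s) n + cx (Y s) n * (t + τ * (1 * cx (Y s) n ^ 2))) *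
        Complex.exp (gC (1 * cx (Y s) n ^ 2))) * g1 s (1 * ((cx (X s) n + cx (Y s) n *
          (t + τ * (1 * cx (Y s) n ^ 2))) * Complex.exp (gC (1 * cx (Y s) n ^ 2))) ^ 2)) +
        (((cx (X s) n + cx (Y s) n * (t + τ * (1 * cx (Y s) n ^ 2))) *
        Complex.exp (gC (1 * cx (Y s) n ^ 2))) + (cx (Y s) n +
        ((cx (X s) n + cx (Y s) n * (t + τ * (1 * cx (Y s) n ^ 2))) *
        Complex.exp (gC (1 * cx (Y s) n ^ 2))) * g1 s (1 * ((cx (X s) n + cx (Y s) n *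
          (t + τ * (1 * cx (Y s) n ^ 2))) * Complex.exp (gC (1 * cx (Y s) n ^ 2))) ^ 2)) *
        g2 s (1 * (cx (Y s) n + ((cx (X s) n + cx (Y s) n * (t + τ * (1 * cx (Y s) n ^ 2))) *
        Complex.exp (gC (1 * cx (Y s) n ^ 2))) * g1 s (1 * ((cx (X s) n + cx (Y s) n *
          (t + τ * (1 * cx (Y s) n ^ 2))) * Complex.exp (gC (1 * cx (Y s) n ^ 2))) ^ 2)) ^ 2)) *
          (-1 : ℂ)) = (a, b + a * (-1 : ℂ))
    rw [e1, hb, ha]
  have v0 := hval 0 0 0 (by rw [F9_cx_zero, F9_pp_zero]; simp) (by rw [F9_pp_zero]; simp)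
  have vp : ∀ j : ℕ, _ := fun j => hval (ν j) ((j : ℂ) + 1) ((j : ℂ) + 1)
    (by
      rw [one_mul, hg1 j s]
      field_simp [hp0 s j]
      ring)
    (by
      rw [one_mul, hg2 j s]
      field_simp [hj1 j]
      ring)
  have vn : ∀ j : ℕ, _ := fun j => hval (-ν j) (-((j : ℂ) + 1)) (-((j : ℂ) + 1))
    (by
      rw [one_mul, F9_pp_neg, neg_sq, hg1 j s, F9_cx_neg]
      field_simp [hp0 s j]
      ring)
    (by
      rw [one_mul, F9_pp_neg, neg_sq, hg2 j s]
      field_simp [hj1 j]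
      ring)
  constructor
  · intro n
    by_cases hn : n = 0
    · refine ⟨0, ?_⟩
      subst hn
      refine v0.trans ?_
      simp
    · obtain ⟨j, hj | hj⟩ := hνsurj n hn
      · refine ⟨(j : ℤ) + 1, ?_⟩
        subst hj
        refine (vp j).trans ?_
        push_cast
        rw [mul_neg, mul_one, add_neg_cancel]
      · refine ⟨-((j : ℤ) + 1), ?_⟩
        subst hj
        refine (vn j).trans ?_
        push_cast
        rw [mul_neg, mul_one, add_neg_cancel]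
  · intro m
    rcases lt_trichotomy m 0 with hm | hm | hm
    · obtain ⟨j, hj⟩ : ∃ j : ℕ, m = -((j : ℤ) + 1) := ⟨(-m - 1).toNat, by (clear * - hm; omega)⟩
      refine ⟨-ν j, ?_⟩
      subst hj
      refine (vn j).trans ?_
      push_cast
      rw [mul_neg, mul_one, add_neg_cancel]
    · subst hm
      refine ⟨0, v0.trans ?_⟩
      simp only [mul_neg, mul_one, neg_zero, add_zero, Int.cast_zero]
    · obtain ⟨j, hj⟩ : ∃ j : ℕ, m = (j : ℤ) + 1 := ⟨(m - 1).toNat, by omega⟩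
      refine ⟨ν j, ?_⟩
      subst hj
      refine (vp j).trans ?_
      push_cast
      rw [mul_neg, mul_one, add_neg_cancel]

end Vale.Agent.P290.K
end
end

section

section

open Set Filter Metric
open scoped Manifold ContDiff Topology

namespace Vale.Agent.P290.K

/-! ### The straightening of a segment of lattices -/

theorem Sn_eq_zero_iff_of_ne {w c : ℂ} (hw : w ≠ 0) :
    Sn (w ^ 2) c = 0 ↔ ∃ m : ℤ, w * c = m := by
  have h1 : w * Sn (w ^ 2) c = Complex.sin (w * c * Real.pi) := by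
    unfold Sn
    have h2 := Sf_sq w (Real.pi * Complex.I * c)
    have h3 : w * (Real.pi * Complex.I * c) = (w * c * Real.pi) * Complex.I := by ring
    rw [h3, Complex.sinh_mul_I] at h2
    calc w * (-Complex.I * Sf (w ^ 2) (Real.pi * Complex.I * c))
        = -Complex.I * (w * Sf (w ^ 2) (Real.pi * Complex.I * c)) := by ring
      _ = -(Complex.I * Complex.I) * Complex.sin (w * c * Real.pi) := by rw [h2]; ring
      _ = Complex.sin (w * c * Real.pi) := by rw [Complex.I_mul_I]; ring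
  have hpi : (Real.pi : ℂ) ≠ 0 := by exact_mod_cast Real.pi_ne_zero
  constructor
  · intro h
    rw [h, mul_zero] at h1
    obtain ⟨k, hk⟩ := Complex.sin_eq_zero_iff.1 h1.symm
    exact ⟨k, mul_right_cancel₀ hpi hk⟩
  · rintro ⟨m, hm⟩
    have h2 : Complex.sin (w * c * Real.pi) = 0 :=
      Complex.sin_eq_zero_iff.2 ⟨m, by rw [hm]⟩
    rw [h2] at h1
    exact (mul_eq_zero.1 h1).resolve_left hw

theorem Sn_zero (c : ℂ) : Sn 0 c = Real.pi * c := by
  unfold Sn
  rw [Sf_zero_left]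
  calc -Complex.I * (Real.pi * Complex.I * c) = -(Complex.I * Complex.I) * (Real.pi * c) := by
        ring
    _ = Real.pi * c := by rw [Complex.I_mul_I]; ring

theorem f10_lat_neg (lam : Fin 4 → C2) (n : Fin 4 → ℤ) : lat lam (-n) = -lat lam n := by
  unfold lat
  rw [← Finset.sum_neg_distrib]
  refine Finset.sum_congr rfl fun k _ => ?_
  rw [Pi.neg_apply, Int.cast_neg, neg_smul]

theorem f10_lat_zero (lam : Fin 4 → C2) : lat lam 0 = 0 := by
  unfold lat
  refine Finset.sum_eq_zero fun k _ => ?_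
  rw [Pi.zero_apply, Int.cast_zero, zero_smul]

theorem IsAutFam.f10_zero {S : Type} [TopologicalSpace S] {Θ Θ' : S → ℂ × C2 → C2}
    (h : IsAutFam Θ Θ') (s : S) (a : ℂ) : Θ s (a, 0) = 0 := by
  have h1 := h.homog s 0 a 0
  rw [zero_smul, zero_smul] at h1
  exact h1.symm

theorem IsAutFam.f10_inj {S : Type} [TopologicalSpace S] {Θ Θ' : S → ℂ × C2 → C2}
    (h : IsAutFam Θ Θ') (s : S) {a : ℂ} {c c' : C2} (hc : Θ s (a, c) = Θ s (a, c')) :
    c = c' := by
  have h1 := h.left s (a, c)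
  have h2 := h.left s (a, c')
  simp only at h1 h2
  rw [hc] at h1
  exact h1.symm.trans h2

theorem IsAutFam.mem_PP_iff {S : Type} [TopologicalSpace S] {Θ Θ' : S → ℂ × C2 → C2}
    (h : IsAutFam Θ Θ') {lam : Fin 4 → C2} (s : S)
    (h1 : ∀ n : Fin 4 → ℤ, ∃ m : ℤ, Θ s (1, (1 / 2 : ℂ) • lat lam n) = ((m : ℂ), (0 : ℂ)))
    (h2 : ∀ m : ℤ, ∃ n : Fin 4 → ℤ, Θ s (1, (1 / 2 : ℂ) • lat lam n) = ((m : ℂ), (0 : ℂ)))
    (hlam : LinearIndependent ℝ lam) (x : ℂ × C2) : x ∈ PP lam ↔ (x.1, Θ s x) ∈ Psh := by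
  obtain ⟨a, c⟩ := x
  have hhalf : (1 / 2 : ℂ) ≠ 0 := by norm_num
  have hPsh : ((a, Θ s (a, c)) : ℂ × C2) ∈ Psh ↔
      ¬ ((Θ s (a, c)).2 = 0 ∧ Sn a (Θ s (a, c)).1 = 0) := Iff.rfl
  change (a, c) ∈ PP lam ↔ ((a, Θ s (a, c)) : ℂ × C2) ∈ Psh
  rw [hPsh]
  by_cases ha : a = 0
  · subst ha
    rw [Sn_zero]
    have hpi : (Real.pi : ℂ) ≠ 0 := by exact_mod_cast Real.pi_ne_zero
    constructor
    · rintro ⟨hc, _⟩ ⟨h3, h4⟩
      apply hc
      have h5 : Θ s (0, c) = Θ s (0, 0) := by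
        rw [h.f10_zero]
        exact Prod.ext ((mul_eq_zero.1 h4).resolve_left hpi) h3
      exact h.f10_inj s h5
    · intro hn
      refine ⟨?_, ?_⟩
      · intro hc
        apply hn
        change c = 0 at hc
        rw [hc, h.f10_zero]
        simp
      · intro w hw n hn0 heq
        change w ^ 2 = 0 at hw
        have hw0 : w = 0 := by simpa using hw
        change w • c = _ at heq
        rw [hw0, zero_smul] at heq
        have h3 : lat lam n = 0 := (smul_eq_zero.1 heq.symm).resolve_left hhalf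
        exact hn0 (lat_eq_zero hlam h3)
  · obtain ⟨w₀, hw₀⟩ := exists_sqrt a
    have hw0 : w₀ ≠ 0 := by
      rintro rfl
      apply ha
      rw [← hw₀]
      norm_num
    have hhom : w₀ • Θ s (a, c) = Θ s (1, w₀ • c) := by
      have h3 := h.homog s w₀ 1 c
      rwa [mul_one, hw₀] at h3
    have key : ((Θ s (a, c)).2 = 0 ∧ Sn a (Θ s (a, c)).1 = 0) ↔
        ∃ n : Fin 4 → ℤ, w₀ • c = (1 / 2 : ℂ) • lat lam n := by
      have h3 : Sn a (Θ s (a, c)).1 = 0 ↔ ∃ m : ℤ, w₀ * (Θ s (a, c)).1 = m := by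
        have h4 := Sn_eq_zero_iff_of_ne (c := (Θ s (a, c)).1) hw0
        rwa [hw₀] at h4
      rw [h3]
      constructor
      · rintro ⟨h4, m, hm⟩
        obtain ⟨n, hn⟩ := h2 m
        refine ⟨n, ?_⟩
        apply h.f10_inj s (a := 1)
        rw [hn, ← hhom]
        refine Prod.ext ?_ ?_
        · exact hm
        · change w₀ * (Θ s (a, c)).2 = 0
          rw [h4, mul_zero]
      · rintro ⟨n, hn⟩
        obtain ⟨m, hm⟩ := h1 n
        rw [← hn, ← hhom] at hm
        have h5 : w₀ * (Θ s (a, c)).1 = m := congrArg Prod.fst hm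
        have h6 : w₀ * (Θ s (a, c)).2 = 0 := congrArg Prod.snd hm
        exact ⟨(mul_eq_zero.1 h6).resolve_left hw0, m, h5⟩
    rw [key]
    constructor
    · rintro ⟨hc, hall⟩ ⟨n, hn⟩
      change c ≠ 0 at hc
      by_cases hn0 : n = 0
      · rw [hn0, f10_lat_zero, smul_zero] at hn
        exact hc ((smul_eq_zero.1 hn).resolve_left hw0)
      · exact hall w₀ hw₀ n hn0 hn
    · intro hno
      refine ⟨?_, ?_⟩
      · intro hc
        change c = 0 at hc
        apply hno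
        refine ⟨0, ?_⟩
        rw [hc, f10_lat_zero, smul_zero, smul_zero]
      · intro w hw n _ heq
        change w ^ 2 = a at hw
        change w • c = _ at heq
        rw [← hw₀, sq_eq_sq_iff_eq_or_eq_neg] at hw
        rcases hw with hw | hw
        · exact hno ⟨n, by rw [← hw]; exact heq⟩
        · refine hno ⟨-n, ?_⟩
          rw [f10_lat_neg, smul_neg, ← heq, hw, neg_smul, neg_neg]

theorem exists_theta (lam₀ lam₁ : Fin 4 → C2)
    (hLI : ∀ s ∈ Icc (0 : ℝ) 1, LinearIndependent ℝ (seg lam₀ lam₁ s)) :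
    ∃ Θ Θ' : ℝ → ℂ × C2 → C2,
      ContinuousOn (fun x : ℝ × (ℂ × C2) => Θ x.1 x.2) (Icc (0 : ℝ) 1 ×ˢ univ) ∧
      ContinuousOn (fun x : ℝ × (ℂ × C2) => Θ' x.1 x.2) (Icc (0 : ℝ) 1 ×ˢ univ) ∧
      (∀ s ∈ Icc (0 : ℝ) 1, Differentiable ℂ (Θ s)) ∧
      (∀ s ∈ Icc (0 : ℝ) 1, Differentiable ℂ (Θ' s)) ∧
      (∀ s ∈ Icc (0 : ℝ) 1, ∀ x : ℂ × C2, Θ' s (x.1, Θ s x) = x.2) ∧
      (∀ s ∈ Icc (0 : ℝ) 1, ∀ x : ℂ × C2, Θ s (x.1, Θ' s x) = x.2) ∧
      (∀ s ∈ Icc (0 : ℝ) 1, ∀ x : ℂ × C2,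
        x ∈ PP (seg lam₀ lam₁ s) ↔ (x.1, Θ s x) ∈ Psh) := by
  obtain ⟨A, B, hA, hB, hAB, hBA, him⟩ := exists_linear_coords lam₀ lam₁ hLI
  obtain ⟨Θt, Θt', hst, hst2⟩ := (coords_of_linear hLI hA hBA him).exists_straight
  have hcA : Continuous fun s : UI => A s :=
    continuousOn_iff_continuous_domRestrict.1 hA.continuousOn
  have hcB : Continuous fun s : UI => B s := continuousOn_iff_continuous_domRestrict.1 hB
  have hlin : IsAutFam (fun (s : UI) (x : ℂ × C2) => ((2 : ℂ) • A s) x.2)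
      (fun (s : UI) (x : ℂ × C2) => ((1 / 2 : ℂ) • B s) x.2) := by
    have hc1 : Continuous fun s : UI => (2 : ℂ) • A s := hcA.const_smul (2 : ℂ)
    have hc2 : Continuous fun s : UI => (1 / 2 : ℂ) • B s := hcB.const_smul (1 / 2 : ℂ)
    refine isAutFam_linear (fun s : UI => (2 : ℂ) • A s) (fun s : UI => (1 / 2 : ℂ) • B s)
      hc1 hc2 ?_ ?_
    · intro s c
      change (2 : ℂ) • A s ((1 / 2 : ℂ) • B s c) = c
      rw [map_smul, hAB s s.2, smul_smul]
      norm_num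
    · intro s c
      change (1 / 2 : ℂ) • B s ((2 : ℂ) • A s c) = c
      rw [map_smul, hBA s s.2, smul_smul]
      norm_num
  have hcomp := hlin.comp hst
  set P : ℝ → UI := projIcc (0 : ℝ) 1 zero_le_one with hP
  have hPc : Continuous P := continuous_projIcc
  have hval : ∀ (s : UI) (n : Fin 4 → ℤ),
      Θt s (1, ((2 : ℂ) • A s) ((1 / 2 : ℂ) • lat (seg lam₀ lam₁ s) n)) =
      Θt s (1, (cx (fun k => (A s (seg lam₀ lam₁ s k)).1) n,
        cx (fun k => (A s (seg lam₀ lam₁ s k)).2) n)) := by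
    intro s n
    congr 2
    change (2 : ℂ) • A s ((1 / 2 : ℂ) • lat (seg lam₀ lam₁ s) n) = _
    rw [map_smul, smul_smul]
    have h1 : A s (lat (seg lam₀ lam₁ s) n) =
        lat (fun k => (((A s (seg lam₀ lam₁ s k)).1, (A s (seg lam₀ lam₁ s k)).2) : C2)) n := by
      unfold lat
      rw [map_sum]
      refine Finset.sum_congr rfl fun k _ => ?_
      rw [map_smul]
    rw [h1, lat_eq_cx]
    norm_num
  refine ⟨fun s x => Θt (P s) (x.1, ((2 : ℂ) • A (P s)) x.2),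
    fun s x => ((1 / 2 : ℂ) • B (P s)) (Θt' (P s) x), ?_, ?_, ?_, ?_, ?_, ?_, ?_⟩
  · have h1 := hcomp.cont.comp
      (f := fun x : ℝ × (ℂ × C2) => ((P x.1, x.2) : UI × (ℂ × C2))) (by (clear * - hPc; fun_prop))
    exact h1.continuousOn
  · have h1 := hcomp.cont'.comp
      (f := fun x : ℝ × (ℂ × C2) => ((P x.1, x.2) : UI × (ℂ × C2))) (by fun_prop)
    exact h1.continuousOn
  · intro s _
    exact hcomp.diff (P s)
  · intro s _
    exact hcomp.diff' (P s)
  · intro s _ x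
    exact hcomp.left (P s) x
  · intro s _ x
    exact hcomp.right (P s) x
  · intro s hs x
    have hPs : P s = ⟨s, hs⟩ := projIcc_of_mem zero_le_one hs
    change x ∈ PP (seg lam₀ lam₁ s) ↔
      ((x.1, Θt (P s) (x.1, ((2 : ℂ) • A (P s)) x.2)) : ℂ × C2) ∈ Psh
    rw [hPs]
    refine hcomp.mem_PP_iff (lam := seg lam₀ lam₁ s) ⟨s, hs⟩ ?_ ?_ (hLI s hs) x
    · intro n
      obtain ⟨m, hm⟩ := (hst2 ⟨s, hs⟩).1 n
      refine ⟨m, ?_⟩
      rw [← hm]
      exact hval ⟨s, hs⟩ n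
    · intro m
      obtain ⟨n, hn⟩ := (hst2 ⟨s, hs⟩).2 m
      refine ⟨n, ?_⟩
      rw [← hn]
      exact hval ⟨s, hs⟩ n

end Vale.Agent.P290.K
end
end

section

section

end
end

section

section

open Set Filter Metric
open scoped Manifold ContDiff Topology

namespace Vale.Agent.P290.K

/-! ### Path lifting for segments of lattices from the standard model -/

/-- path lifting is invariant under fibrewise automorphisms -/
theorem lift_transfer {V F : Type} [NormedAddCommGroup V] [NormedSpace ℂ V]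
    [NormedAddCommGroup F] [NormedSpace ℂ F] {O O' : Set (ℝ × V × F)} {C B U : Set V}
    (hC : IsCompact C) (hCB : C ⊆ B) (hU : IsOpen U) (hBU : B ⊆ U) (Φ Ψ : ℝ × V × F → F)
    (hΦc : ContinuousOn Φ (Icc (0 : ℝ) 1 ×ˢ (U ×ˢ univ)))
    (hΨc : ContinuousOn Ψ (Icc (0 : ℝ) 1 ×ˢ (U ×ˢ univ)))
    (hΦd : ∀ s ∈ Icc (0 : ℝ) 1, ∀ z ∈ U, ∀ y, DifferentiableAt ℂ (fun x : V × F => Φ (s, x)) (z, y))
    (hΨd : ∀ s ∈ Icc (0 : ℝ) 1, ∀ z ∈ U, ∀ y, DifferentiableAt ℂ (fun x : V × F => Ψ (s, x)) (z, y))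
    (hΨΦ : ∀ s ∈ Icc (0 : ℝ) 1, ∀ z ∈ U, ∀ y, Ψ (s, z, Φ (s, z, y)) = y)
    (hΦΨ : ∀ s ∈ Icc (0 : ℝ) 1, ∀ z ∈ U, ∀ y, Φ (s, z, Ψ (s, z, y)) = y)
    (hO : ∀ s ∈ Icc (0 : ℝ) 1, ∀ z ∈ U, ∀ y, (s, z, y) ∈ O ↔ (s, z, Φ (s, z, y)) ∈ O')
    (h : Lift O' C B) : Lift O C B := by
  intro β hβ b hb hbO hbβ ε hε
  obtain ⟨⟨U₁, hU₁, hCU₁, hβd, hβc⟩, hβO⟩ := hβ
  have h0I : (0 : ℝ) ∈ Icc (0 : ℝ) 1 := ⟨le_rfl, zero_le_one⟩
  -- the transformed path
  have hpath : IsPath O' C (fun s z => Φ (s, z, β s z)) := by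
    refine ⟨⟨U ∩ U₁, hU.inter hU₁, subset_inter (hCB.trans hBU) hCU₁, ?_, ?_⟩, ?_⟩
    · intro s hs z hz
      have h1 : DifferentiableAt ℂ (β s) z := (hβd s hs).differentiableAt (hU₁.mem_nhds hz.2)
      have h2 : DifferentiableAt ℂ (fun z => (z, β s z)) z := differentiableAt_id.prodMk h1
      exact (DifferentiableAt.comp (f := fun z => (z, β s z)) (g := fun x : V × F => Φ (s, x)) z
        (hΦd s hs z hz.1 _) h2).differentiableWithinAt
    · refine hΦc.comp (f := fun x : ℝ × V => (x.1, x.2, β x.1 x.2)) ?_ ?_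
      · exact continuousOn_fst.prodMk (continuousOn_snd.prodMk
          (hβc.mono (prod_mono subset_rfl inter_subset_right)))
      · intro x hx
        exact ⟨hx.1, hx.2.1, mem_univ _⟩
    · intro s hs z hz
      exact (hO s hs z (hBU (hCB hz)) _).1 (hβO s hs z hz)
  have hb' : HolNear B (fun z => Φ (0, z, b z)) := by
    filter_upwards [hb, hU.mem_nhdsSet.2 hBU] with z h1 h2
    have h3 : DifferentiableAt ℂ (fun z => (z, b z)) z := differentiableAt_id.prodMk h1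
    exact DifferentiableAt.comp (f := fun z => (z, b z)) (g := fun x : V × F => Φ (0, x)) z
      (hΦd 0 h0I z h2 _) h3
  -- closeness
  obtain ⟨δ, hδ, hδc⟩ : ∃ δ > 0, ∀ s ∈ Icc (0 : ℝ) 1, ∀ z ∈ C, ∀ y,
      ‖y - Φ (s, z, β s z)‖ < δ → ‖Ψ (s, z, y) - β s z‖ < ε := by
    set T : Set (ℝ × V) := Icc (0 : ℝ) 1 ×ˢ C with hT
    have hTc : IsCompact T := isCompact_Icc.prod hC
    set D : Set (ℝ × V × F) := Icc (0 : ℝ) 1 ×ˢ (U ×ˢ univ) with hD
    have hψ : ContinuousOn (fun x : ℝ × V => Φ (x.1, x.2, β x.1 x.2)) T := by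
      refine hΦc.comp (f := fun x : ℝ × V => (x.1, x.2, β x.1 x.2)) ?_ ?_
      · exact continuousOn_fst.prodMk (continuousOn_snd.prodMk
          (hβc.mono (prod_mono subset_rfl hCU₁)))
      · intro x hx
        exact ⟨hx.1, hBU (hCB hx.2), mem_univ _⟩
    -- for every point of `T` a neighbourhood in `T` and a radius
    have hloc : ∀ x ∈ T, ∃ N ∈ 𝓝[T] x, ∃ δ > 0, ∀ x' ∈ N, ∀ y,
        ‖y - Φ (x'.1, x'.2, β x'.1 x'.2)‖ < δ → ‖Ψ (x'.1, x'.2, y) - β x'.1 x'.2‖ < ε := by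
      intro x hx
      set G : (ℝ × V) × F → F := fun q =>
        Ψ (q.1.1, q.1.2, Φ (q.1.1, q.1.2, β q.1.1 q.1.2) + q.2) - β q.1.1 q.1.2 with hG
      have hGc : ContinuousOn G (T ×ˢ univ) := by
        refine ContinuousOn.sub ?_ ?_
        · refine hΨc.comp (f := fun q : (ℝ × V) × F =>
            (q.1.1, q.1.2, Φ (q.1.1, q.1.2, β q.1.1 q.1.2) + q.2)) ?_ ?_
          · refine (continuous_fst.comp continuous_fst).continuousOn.prodMk
              ((continuous_snd.comp continuous_fst).continuousOn.prodMk ?_)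
            exact (hψ.comp continuousOn_fst fun q hq => hq.1).add continuousOn_snd
          · intro q hq
            exact ⟨hq.1.1, hBU (hCB hq.1.2), mem_univ _⟩
        · exact (hβc.mono (prod_mono subset_rfl hCU₁)).comp continuousOn_fst fun q hq => hq.1
      have h1 := hGc (x, 0) ⟨hx, mem_univ _⟩
      have h2 : G (x, 0) = 0 := by
        simp only [hG, add_zero]
        rw [hΨΦ x.1 hx.1 x.2 (hBU (hCB hx.2)), sub_self]
      rw [ContinuousWithinAt, h2] at h1
      have h3 := h1.eventually (ball_mem_nhds (0 : F) hε)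
      rw [nhdsWithin_prod_eq, nhdsWithin_univ, eventually_prod_iff] at h3
      obtain ⟨p, hp, q, hq, hpq⟩ := h3
      obtain ⟨δ, hδ, hδq⟩ := Metric.eventually_nhds_iff_ball.1 hq
      refine ⟨{x' | p x'}, hp, δ, hδ, fun x' hx' y hy => ?_⟩
      have h4 := hpq (x := x') hx' (y := y - Φ (x'.1, x'.2, β x'.1 x'.2)) (hδq _ (by
        rw [mem_ball, dist_eq_norm, sub_zero]
        exact hy))
      simp only [hG, add_sub_cancel] at h4
      rwa [dist_zero_right] at h4
    choose! N hN δ hδ hNδ using hloc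
    obtain ⟨t, htT, htc⟩ := hTc.elim_nhdsWithin_subcover N hN
    obtain ⟨δ₀, hδ₀, hδ₀t⟩ : ∃ δ₀ > 0, ∀ x ∈ t, δ₀ ≤ δ x := by
      rcases t.eq_empty_or_nonempty with h | h
      · exact ⟨1, one_pos, by simp only [h, Finset.notMem_empty, IsEmpty.forall_iff, implies_true]⟩
      · obtain ⟨x, hx, hxm⟩ := t.exists_min_image δ h
        exact ⟨δ x, hδ x (htT x hx), hxm⟩
    refine ⟨δ₀, hδ₀, fun s hs z hz y hy => ?_⟩
    obtain ⟨x, hx, hxN⟩ := mem_iUnion₂.1 (htc (show (s, z) ∈ T from ⟨hs, hz⟩))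
    exact hNδ x (htT x hx) (s, z) hxN y (hy.trans_le (hδ₀t x hx))
  obtain ⟨β', ⟨⟨U', hU', hBU', hβ'd, hβ'c⟩, hβ'O⟩, hβ'0, hβ'C⟩ := h _ hpath _ hb'
    (fun z hz => (hO 0 h0I z (hBU hz) _).1 (hbO z hz))
    (by
      filter_upwards [hbβ] with z hz
      rw [hz]) δ hδ
  refine ⟨fun s z => Ψ (s, z, β' s z), ⟨⟨U ∩ U', hU.inter hU', subset_inter hBU hBU', ?_, ?_⟩, ?_⟩,
    ?_, ?_⟩
  · intro s hs z hz
    have h1 : DifferentiableAt ℂ (β' s) z := (hβ'd s hs).differentiableAt (hU'.mem_nhds hz.2)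
    have h2 : DifferentiableAt ℂ (fun z => (z, β' s z)) z := differentiableAt_id.prodMk h1
    exact (DifferentiableAt.comp (f := fun z => (z, β' s z)) (g := fun x : V × F => Ψ (s, x)) z
      (hΨd s hs z hz.1 _) h2).differentiableWithinAt
  · refine hΨc.comp (f := fun x : ℝ × V => (x.1, x.2, β' x.1 x.2)) ?_ ?_
    · exact continuousOn_fst.prodMk (continuousOn_snd.prodMk
        (hβ'c.mono (prod_mono subset_rfl inter_subset_right)))
    · intro x hx
      exact ⟨hx.1, hx.2.1, mem_univ _⟩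
  · intro s hs z hz
    rw [hO s hs z (hBU hz), hΦΨ s hs z (hBU hz)]
    exact hβ'O s hs z hz
  · filter_upwards [hβ'0, hU.mem_nhdsSet.2 hBU] with z h1 h2
    rw [h1]
    exact hΨΦ 0 h0I z h2 _
  · intro s hs z hz
    exact hδc s hs z hz _ (hβ'C s hs z hz)

theorem liftSeg : LiftSeg := by
  intro lam₀ lam₁ hLI m K K' hK hK' hKK' σ hσ hP
  obtain ⟨U, hU, hK'U, hUp⟩ := eventually_nhdsSet_iff_exists.1 (hσ.and hP)
  refine lift_of_local (OO (seg lam₀ lam₁) σ) hU (openOver_OO lam₀ lam₁ hLI hU σ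
    (fun z hz => (hUp z hz).1.differentiableWithinAt) (fun z hz => (hUp z hz).2)) hK hK' hKK' hK'U ?_
  intro z₀ hz₀
  have hσ₀ : ∀ᶠ z in 𝓝 z₀, DifferentiableAt ℂ σ z := by
    filter_upwards [hU.mem_nhds hz₀] with z hz using (hUp z hz).1
  have hP₀ : ∀ᶠ z in 𝓝 z₀, Pell (σ z) := by
    filter_upwards [hU.mem_nhds hz₀] with z hz using (hUp z hz).2
  obtain ⟨n, a, ha, hl⟩ := exists_log_near σ z₀ hσ₀ hP₀
  obtain ⟨r, hr, hrp⟩ := Metric.eventually_nhds_iff_ball.1 (ha.and (hl.and hσ₀))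
  obtain ⟨Θ, Θ', hΘc, hΘ'c, hΘd, hΘ'd, h1, h2, h3⟩ := exists_theta lam₀ lam₁ hLI
  refine ⟨r, hr, fun C B hC hB hCB hBr => ?_⟩
  set b₀ : Set (Fin m → ℂ) := ball z₀ r with hb₀
  have hUo : IsOpen (b₀ ×ˢ (univ : Set C2)) := isOpen_ball.prod isOpen_univ
  -- logarithms and root data on the ball
  have hac : ContinuousOn a b₀ := fun z hz => (hrp z hz).1.continuousAt.continuousWithinAt
  have hσc : ContinuousOn (fun z => (σ z).1) b₀ := fun z hz =>
    (hrp z hz).2.2.continuousAt.fst.continuousWithinAt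
  have hσh : HolNear B (fun z : (Fin m → ℂ) × C2 => (σ z.1).1) := by
    filter_upwards [hUo.mem_nhdsSet.2 hBr] with z hz
    exact DifferentiableAt.comp (f := fun z : (Fin m → ℂ) × C2 => z.1) (g := fun z => (σ z).1) z
      (hrp z.1 hz.1).2.2.fst (by fun_prop)
  -- the shift
  have hsegc := continuous_seg lam₀ lam₁
  have hLc : ContinuousOn (fun x : ℝ × (Fin m → ℂ) => Lm (seg lam₀ lam₁ x.1) (a x.2))
      (Icc (0 : ℝ) 1 ×ˢ b₀) := by
    have e1 : ContinuousOn (fun x : ℝ × (Fin m → ℂ) => a x.2) (Icc (0 : ℝ) 1 ×ˢ b₀) :=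
      hac.comp continuousOn_snd fun x hx => hx.2
    unfold Lm
    refine continuousOn_finsetSum _ fun k _ => ?_
    have e2 : ContinuousOn (fun x : ℝ × (Fin m → ℂ) => a x.2 k / (2 * Real.pi * Complex.I))
        (Icc (0 : ℝ) 1 ×ˢ b₀) := (continuousOn_pi.1 e1 k).div_const _
    have e3 : ContinuousOn (fun x : ℝ × (Fin m → ℂ) => seg lam₀ lam₁ x.1 k)
        (Icc (0 : ℝ) 1 ×ˢ b₀) :=
      ((continuous_pi_iff.1 hsegc k).comp continuous_fst).continuousOn
    exact e2.smul e3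
  have hLd : ∀ s : ℝ, ∀ z ∈ b₀,
      DifferentiableAt ℂ (fun z => Lm (seg lam₀ lam₁ s) (a z)) z := fun s z hz =>
    DifferentiableAt.comp (f := a) (g := Lm (seg lam₀ lam₁ s)) z
      (differentiable_Lm _ _) (hrp z hz).1
  refine lift_transfer (U := b₀ ×ˢ (univ : Set C2))
    (O' := OP (fun z : (Fin m → ℂ) × C2 => (σ z.1).1)) hC.1 hCB hUo hBr
    (fun x => Θ x.1 ((σ x.2.1.1).1, x.2.2 + Lm (seg lam₀ lam₁ x.1) (a x.2.1.1)))
    (fun x => Θ' x.1 ((σ x.2.1.1).1, x.2.2) - Lm (seg lam₀ lam₁ x.1) (a x.2.1.1))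
    ?_ ?_ ?_ ?_ ?_ ?_ ?_ (lift_psh (fun z : (Fin m → ℂ) × C2 => (σ z.1).1) hC hB hCB hσh)
  · refine hΘc.comp (f := fun x : ℝ × ((Fin m → ℂ) × C2) × C2 =>
      (x.1, (σ x.2.1.1).1, x.2.2 + Lm (seg lam₀ lam₁ x.1) (a x.2.1.1))) ?_ ?_
    · refine continuousOn_fst.prodMk (ContinuousOn.prodMk ?_ (ContinuousOn.add ?_ ?_))
      · exact hσc.comp (f := fun x : ℝ × ((Fin m → ℂ) × C2) × C2 => x.2.1.1) (by fun_prop)
          fun x hx => hx.2.1.1
      · fun_prop
      · exact hLc.comp (f := fun x : ℝ × ((Fin m → ℂ) × C2) × C2 => (x.1, x.2.1.1)) (by fun_prop)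
          fun x hx => ⟨hx.1, hx.2.1.1⟩
    · intro x hx
      exact ⟨hx.1, mem_univ _⟩
  · refine ContinuousOn.sub ?_ ?_
    · refine hΘ'c.comp (f := fun x : ℝ × ((Fin m → ℂ) × C2) × C2 =>
        (x.1, (σ x.2.1.1).1, x.2.2)) ?_ ?_
      · refine continuousOn_fst.prodMk (ContinuousOn.prodMk ?_ ?_)
        · exact hσc.comp (f := fun x : ℝ × ((Fin m → ℂ) × C2) × C2 => x.2.1.1) (by fun_prop)
            fun x hx => hx.2.1.1
        · fun_prop
      · intro x hx
        exact ⟨hx.1, mem_univ _⟩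
    · exact hLc.comp (f := fun x : ℝ × ((Fin m → ℂ) × C2) × C2 => (x.1, x.2.1.1)) (by fun_prop)
        fun x hx => ⟨hx.1, hx.2.1.1⟩
  · rintro s hs ⟨z, t⟩ ⟨hz, -⟩ y
    have e1 : DifferentiableAt ℂ (fun x : ((Fin m → ℂ) × C2) × C2 => (σ x.1.1).1) ((z, t), y) :=
      DifferentiableAt.comp (f := fun x : ((Fin m → ℂ) × C2) × C2 => x.1.1)
        (g := fun z => (σ z).1) ((z, t), y) (hrp z hz).2.2.fst (by (clear * -; fun_prop))
    have e2 : DifferentiableAt ℂ
        (fun x : ((Fin m → ℂ) × C2) × C2 => Lm (seg lam₀ lam₁ s) (a x.1.1)) ((z, t), y) :=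
      DifferentiableAt.comp (f := fun x : ((Fin m → ℂ) × C2) × C2 => x.1.1)
        (g := fun z => Lm (seg lam₀ lam₁ s) (a z)) ((z, t), y) (hLd s z hz) (by fun_prop)
    have e3 : DifferentiableAt ℂ (fun x : ((Fin m → ℂ) × C2) × C2 => x.2) ((z, t), y) := by
      fun_prop
    exact DifferentiableAt.comp (f := fun x : ((Fin m → ℂ) × C2) × C2 =>
      ((σ x.1.1).1, x.2 + Lm (seg lam₀ lam₁ s) (a x.1.1))) (g := Θ s) ((z, t), y) (hΘd s hs _)
      (e1.prodMk (e3.add e2))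
  · rintro s hs ⟨z, t⟩ ⟨hz, -⟩ y
    have e1 : DifferentiableAt ℂ (fun x : ((Fin m → ℂ) × C2) × C2 => (σ x.1.1).1) ((z, t), y) :=
      DifferentiableAt.comp (f := fun x : ((Fin m → ℂ) × C2) × C2 => x.1.1)
        (g := fun z => (σ z).1) ((z, t), y) (hrp z hz).2.2.fst (by fun_prop)
    have e2 : DifferentiableAt ℂ
        (fun x : ((Fin m → ℂ) × C2) × C2 => Lm (seg lam₀ lam₁ s) (a x.1.1)) ((z, t), y) :=
      DifferentiableAt.comp (f := fun x : ((Fin m → ℂ) × C2) × C2 => x.1.1)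
        (g := fun z => Lm (seg lam₀ lam₁ s) (a z)) ((z, t), y) (hLd s z hz) (by (clear * -; fun_prop))
    have e3 : DifferentiableAt ℂ (fun x : ((Fin m → ℂ) × C2) × C2 => x.2) ((z, t), y) := by
      fun_prop
    exact (DifferentiableAt.comp (f := fun x : ((Fin m → ℂ) × C2) × C2 => ((σ x.1.1).1, x.2))
      (g := Θ' s) ((z, t), y) (hΘ'd s hs _) (e1.prodMk e3)).sub e2
  · rintro s hs ⟨z, t⟩ - y
    change Θ' s ((σ z).1, Θ s ((σ z).1, y + Lm (seg lam₀ lam₁ s) (a z))) -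
      Lm (seg lam₀ lam₁ s) (a z) = y
    rw [h1 s hs ((σ z).1, y + Lm (seg lam₀ lam₁ s) (a z)), add_sub_cancel_right]
  · rintro s hs ⟨z, t⟩ - y
    change Θ s ((σ z).1, Θ' s ((σ z).1, y) - Lm (seg lam₀ lam₁ s) (a z) +
      Lm (seg lam₀ lam₁ s) (a z)) = y
    rw [sub_add_cancel]
    exact h2 s hs ((σ z).1, y)
  · rintro s hs ⟨z, t⟩ ⟨hz, -⟩ y
    change Avoid (seg lam₀ lam₁ s) (σ z, y) ↔
      ((σ z).1, Θ s ((σ z).1, y + Lm (seg lam₀ lam₁ s) (a z))) ∈ Psh
    rw [avoid_iff_of_log (x := (σ z, y)) (hrp z hz).2.1]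
    exact h3 s hs ((σ z).1, y + Lm (seg lam₀ lam₁ s) (a z))

end Vale.Agent.P290.K
end
end

section

section

open Set Filter Metric
open scoped Manifold ContDiff Topology

namespace Vale.Agent.P290.K

theorem KRel_shift {n n' : Fin 4 → ℤ} {x x' : ℂ × C2} (h : KRel std n x n' x')
    (k : Fin 4 → ℤ) : KRel std (n + k) x (n' + k) x' := by
  rcases h with ⟨h1, h2, ⟨m, hm⟩, h3⟩ | ⟨h1, h2, w, w', hw, hw', m, hm⟩
  · exact Or.inl ⟨h1, h2, ⟨m, by rw [hm]; abel⟩, h3⟩
  · refine Or.inr ⟨h1, h2, w, w', hw, hw', m, ?_⟩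
    have e : ∀ a : Fin 4 → ℤ, lat std (a + k) = lat std a + lat std k := by
      intro a
      rw [lat_std, lat_std, lat_std]
      refine Prod.ext ?_ ?_
      · simp only [Pi.add_apply, Int.cast_add, Prod.fst_add]; ring
      · simp only [Pi.add_apply, Int.cast_add, Prod.snd_add]; ring
    rw [e, e, smul_add, smul_add, add_right_comm, hm]
    abel

theorem Xf_mdifferentiableAt (n : Fin 4 → ℤ) (x : ℂ × C2) :
    MDifferentiableAt 𝓘(ℂ, ℂ × C2) 𝓘(ℂ) (Xf n) x :=
  Gf_comp_mdifferentiableAt (φ := fun y : ℂ × C2 => y.1 * y.2.1 ^ 2) (two_l1_mem n) (by (clear * -; fun_prop))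

theorem Yf_mdifferentiableAt (n : Fin 4 → ℤ) (x : ℂ × C2) :
    MDifferentiableAt 𝓘(ℂ, ℂ × C2) 𝓘(ℂ) (Yf n) x :=
  Gf_comp_mdifferentiableAt (φ := fun y : ℂ × C2 => y.1 * y.2.2 ^ 2) (two_l2_mem n) (by fun_prop)

theorem exists_std_kummer : ∃ (Z : Type) (_ : TopologicalSpace Z) (_ : ChartedSpace C2 Z),
    IsManifold 𝓘(ℂ, C2) ω Z ∧ T2Space Z ∧ CompactSpace Z ∧ Nonempty (KummerData std Z) ∧
      Nonempty (VolForm Z) ∧ HasFactor Z := by
  have hT : T2Space ZZ := t2_kAtlas g_linearIndependent_std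
  have hC : CompactSpace ZZ := compactSpace_ZZ
  have hM : IsManifold 𝓘(ℂ, C2) ω ZZ := inferInstance
  have hM1 : IsManifold 𝓘(ℂ, C2) 1 ZZ := IsManifold.of_le (n := ω) le_top
  have hP1 : IsManifold 𝓘(ℂ) 1 P1 := IsManifold.of_le (n := ω) le_top
  obtain ⟨vol⟩ : Nonempty (VolForm ZZ) := (kAtlas g_linearIndependent_std).nonempty_volForm
  refine ⟨ZZ, inferInstance, inferInstance, hM, hT, hC, ⟨kData g_linearIndependent_std⟩, ⟨vol⟩, ?_⟩
  obtain ⟨fX, hfX⟩ := lift_kq g_linearIndependent_std (M := P1) Xf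
    (fun n x hx n' x' hx' h => Xf_rel hx hx' h)
  obtain ⟨fY, hfY⟩ := lift_kq g_linearIndependent_std (M := P1) Yf
    (fun n x hx n' x' hx' h => Yf_rel hx hx' h)
  have hR : ∀ k : Fin 4 → ℤ, ∃ f : ZZ → P1, ∀ n, ∀ x ∈ PP std,
      f (kq g_linearIndependent_std n x) = Rf (n + k) x := fun k =>
    lift_kq g_linearIndependent_std (M := P1) (fun n x => Rf (n + k) x)
      (fun n x hx n' x' hx' h => Rf_rel hx hx' (KRel_shift h k))
  choose fR hfR using hR
  have nb : ∀ x ∈ PP std, ∀ᶠ y in 𝓝 x, y ∈ PP std := fun x hx =>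
    (isOpen_PP g_linearIndependent_std).mem_nhds hx
  have dX : MDifferentiable 𝓘(ℂ, C2) 𝓘(ℂ) fX := by
    refine mdifferentiable_of_kq g_linearIndependent_std fX fun n x hx => ?_
    exact (Xf_mdifferentiableAt n x).congr_of_eventuallyEq
      ((nb x hx).mono fun y hy => hfX n y hy)
  have dY : MDifferentiable 𝓘(ℂ, C2) 𝓘(ℂ) fY := by
    refine mdifferentiable_of_kq g_linearIndependent_std fY fun n x hx => ?_
    exact (Yf_mdifferentiableAt n x).congr_of_eventuallyEq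
      ((nb x hx).mono fun y hy => hfY n y hy)
  have dR : ∀ k, MDifferentiable 𝓘(ℂ, C2) 𝓘(ℂ) (fR k) := by
    intro k
    refine mdifferentiable_of_kq g_linearIndependent_std (fR k) fun n x hx => ?_
    exact (Rf_mdifferentiableAt (n + k) x hx).congr_of_eventuallyEq
      ((nb x hx).mono fun y hy => hfR k n y hy)
  let π : Option (Option (Fin 4 → ℤ)) → ZZ → P1 := fun j =>
    match j with
    | none => fX
    | some none => fY
    | some (some k) => fR k
  refine hasFactor_of_fibrations vol (C := fun _ => P1) π ?_ ?_ ?_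
  · rintro (_ | _ | k)
    · exact dX
    · exact dY
    · exact dR k
  · intro z
    obtain ⟨i, v, hv, rfl⟩ := (kAtlas g_linearIndependent_std).cover z
    obtain ⟨g', hg'⟩ : ∃ g' : C2 → ZZ, g' = (kAtlas g_linearIndependent_std).g i := ⟨_, rfl⟩
    have hg : MDifferentiableAt 𝓘(ℂ, C2) 𝓘(ℂ, C2) g' v := by
      rw [hg']
      exact (kAtlas g_linearIndependent_std).mdifferentiableAt_g i hv
    have hgk : ∀ u, g' u = kq g_linearIndependent_std i.1 (sl i.2 u) := by
      rw [hg']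
      exact fun u => rfl
    rw [← hg']
    have hv' : sl i.2 v ∈ PP std := hv
    have hcont : ContinuousAt (sl i.2) v := by
      have : Continuous (sl i.2) := by
        unfold sl
        rcases i with ⟨n, b⟩
        cases b
        · simp only [Bool.false_eq_true, if_false]; fun_prop
        · simp only [if_true]; fun_prop
      exact this.continuousAt
    have nb' : ∀ᶠ u in 𝓝 v, sl i.2 u ∈ PP std := hcont.eventually (nb _ hv')
    have comp : ∀ f : ZZ → P1, MDifferentiable 𝓘(ℂ, C2) 𝓘(ℂ) f →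
        mfderiv 𝓘(ℂ, C2) 𝓘(ℂ) f (g' v) = 0 →
        mfderiv 𝓘(ℂ, C2) 𝓘(ℂ) (fun u => f (g' u)) v = 0 := by
      intro f hf h0
      have := mfderiv_comp (I := 𝓘(ℂ, C2)) (I' := 𝓘(ℂ, C2)) (I'' := 𝓘(ℂ)) v (hf (g' v)) hg
      rw [show (fun u => f (g' u)) = f ∘ g' from rfl, this, h0]
      exact ContinuousLinearMap.zero_comp _
    by_contra hcon
    push Not at hcon
    have c1 := comp fX dX (hcon none)
    have c2 := comp fY dY (hcon (some none))
    have e1 : (fun u => fX (g' u)) =ᶠ[𝓝 v] fun u => Xf i.1 (sl i.2 u) :=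
      nb'.mono fun u hu => (congrArg fX (hgk u)).trans (hfX i.1 _ hu)
    have e2 : (fun u => fY (g' u)) =ᶠ[𝓝 v] fun u => Yf i.1 (sl i.2 u) :=
      nb'.mono fun u hu => (congrArg fY (hgk u)).trans (hfY i.1 _ hu)
    rw [e1.mfderiv_eq] at c1
    rw [e2.mfderiv_eq] at c2
    rcases Xf_Yf_crit i.1 i.2 v hv' with h | h
    · exact h c1
    · exact h c2
  · intro z
    obtain ⟨n, x, hx, rfl⟩ : ∃ n, ∃ x ∈ PP std, kq g_linearIndependent_std n x = z :=
      (kData g_linearIndependent_std).cover z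
    refine (finite_fibres n x hx).subset ?_
    intro y hy
    obtain ⟨n', x', hx', rfl⟩ : ∃ n, ∃ x ∈ PP std, kq g_linearIndependent_std n x = y :=
      (kData g_linearIndependent_std).cover y
    refine ⟨n', x', hx', rfl, ?_, ?_, ?_⟩
    · have : fX _ = fX _ := hy none
      rwa [hfX n' x' hx', hfX n x hx] at this
    · have : fY _ = fY _ := hy (some none)
      rwa [hfY n' x' hx', hfY n x hx] at this
    · intro k
      have : fR k _ = fR k _ := hy (some (some k))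
      rwa [hfR k n' x' hx', hfR k n x hx] at this

end Vale.Agent.P290.K
end
end

section

section

set_option linter.all false

open Set Filter Metric
open scoped Manifold ContDiff Topology

namespace Vale.Agent.P290.K

/-- Pell data avoiding the half lattice points of any lattice can be approximated. -/
theorem appr_of_linearIndependent (lam : Fin 4 → C2) (hlam : LinearIndependent ℝ lam) :
    Appr lam := by
  obtain ⟨Z, _, _, h1, h2, _, ⟨D'⟩, _, hZ⟩ := exists_std_kummer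
  have : IsManifold 𝓘(ℂ, C2) 1 Z := IsManifold.of_le (n := ω) le_top
  exact appr_all_of_seg (apprSeg_of_liftSeg liftSeg)
    (appr_of_hasFactor std linearIndependent_std D' hZ) lam hlam

/-- Every Kummer surface is Oka. -/
theorem isOka_of_isKummer (X : Type) [TopologicalSpace X] [ChartedSpace C2 X] (hX : IsKummer X) :
    IsOka X := by
  obtain ⟨lam, hlam, ⟨D⟩⟩ := hX.kummer
  have := hX.manifold
  have := hX.t2
  have : IsManifold 𝓘(ℂ, C2) 1 X := IsManifold.of_le (n := ω) le_top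
  exact isOka_of_appr lam hlam D (appr_of_linearIndependent lam hlam)

end Vale.Agent.P290.K
end
end

section

section

open Set Filter Metric
open scoped Manifold ContDiff Topology

namespace Vale.Agent.P290.Kum

open Vale.Agent.P290.K

variable {X : Type} [TopologicalSpace X] [ChartedSpace C2 X]

theorem Etale.hasMFDerivAt {f : C2 → X} {v : C2} (h : Etale f v) :
    HasMFDerivAt 𝓘(ℂ, C2) 𝓘(ℂ, C2) f v (fderiv ℂ (fun z => chartAt C2 (f v) (f z)) v) := by
  refine ⟨h.1, ?_⟩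
  simp only [writtenInExtChartAt, extChartAt, OpenPartialHomeomorph.extend, modelWithCornersSelf_partialEquiv, PartialEquiv.trans_refl, OpenPartialHomeomorph.toFun_eq_coe, OpenPartialHomeomorph.coe_toPartialEquiv_symm, modelWithCornersSelf_coe, range_id]
  exact h.2.1.hasFDerivAt.hasFDerivWithinAt

theorem Etale.mdifferentiableAt {f : C2 → X} {v : C2} (h : Etale f v) :
    MDifferentiableAt 𝓘(ℂ, C2) 𝓘(ℂ, C2) f v := h.hasMFDerivAt.mdifferentiableAt

theorem surjective_of_det {A : C2 →L[ℂ] C2} (h : A.det ≠ 0) : Function.Surjective A := by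
  have h4 : IsUnit (LinearMap.det (A : C2 →ₗ[ℂ] C2)) := isUnit_iff_ne_zero.2 h
  have h5 : IsUnit (A : C2 →ₗ[ℂ] C2) := (LinearMap.isUnit_iff_isUnit_det _).2 h4
  exact ((Module.End.isUnit_iff _).1 h5).2

theorem Etale.surjective {f : C2 → X} {v : C2} (h : Etale f v) :
    Function.Surjective (mfderiv 𝓘(ℂ, C2) 𝓘(ℂ, C2) f v) := by
  rw [h.hasMFDerivAt.mfderiv]
  exact surjective_of_det h.2.2

/-! ### Lattices -/

theorem mem_lattice {l : Fin 4 → C2} {z : C2} :
    z ∈ AddSubgroup.closure (range l) ↔ ∃ n : Fin 4 → ℤ, lat l n = z := by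
  constructor
  · intro h
    induction h using AddSubgroup.closure_induction with
    | mem x hx =>
      obtain ⟨i, rfl⟩ := hx
      refine ⟨Pi.single i 1, ?_⟩
      simp only [lat]
      rw [Finset.sum_eq_single i]
      · simp
      · intro j _ hj; simp [hj]
      · intro hi; exact absurd (Finset.mem_univ i) hi
    | zero => exact ⟨0, g_lat_zero l⟩
    | add x y _ _ hx hy =>
      obtain ⟨n, rfl⟩ := hx
      obtain ⟨m, rfl⟩ := hy
      exact ⟨n + m, g_lat_add l n m⟩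
    | neg x _ hx =>
      obtain ⟨n, rfl⟩ := hx
      exact ⟨-n, g_lat_neg l n⟩
  · rintro ⟨n, rfl⟩
    simp only [lat]
    refine AddSubgroup.sum_mem _ fun k _ => ?_
    have h1 : (n k : ℂ) • l k = n k • l k := by
      rw [← Int.cast_smul_eq_zsmul ℂ]
    rw [h1]
    exact AddSubgroup.zsmul_mem _ (AddSubgroup.subset_closure (mem_range_self k)) _

theorem half_add_half (l : Fin 4 → C2) (n : Fin 4 → ℤ) :
    (1 / 2 : ℂ) • lat l n + (1 / 2 : ℂ) • lat l n = lat l n := by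
  rw [← add_smul]; norm_num

theorem half_mem {l : Fin 4 → C2} (n : Fin 4 → ℤ) :
    (1 / 2 : ℂ) • lat l n + (1 / 2 : ℂ) • lat l n ∈ AddSubgroup.closure (range l) := by
  rw [half_add_half]
  exact mem_lattice.2 ⟨n, rfl⟩

theorem exists_half {l : Fin 4 → C2} {a : C2} (ha : a + a ∈ AddSubgroup.closure (range l)) :
    ∃ n : Fin 4 → ℤ, (1 / 2 : ℂ) • lat l n = a := by
  obtain ⟨n, hn⟩ := mem_lattice.1 ha
  refine ⟨n, ?_⟩
  rw [hn, ← two_smul ℂ a, smul_smul]; norm_num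

theorem half_lat_sub (l : Fin 4 → C2) (n n' m : Fin 4 → ℤ) (hl : LinearIndependent ℝ l) :
    lat l m = (1 / 2 : ℂ) • lat l n' - (1 / 2 : ℂ) • lat l n ↔ n' = n + 2 • m := by
  rw [← smul_sub, ← g_lat_sub]
  constructor
  · intro h
    have h1 : lat l (2 • m) = lat l (n' - n) := by
      have h2 : lat l (2 • m) = (2 : ℂ) • lat l m := by
        rw [two_smul, g_lat_add, two_smul]
      rw [h2, h, smul_smul]; (clear * -; norm_num)
    have h3 := lat_injective hl h1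
    rw [h3]; abel
  · intro h
    have h1 : n' - n = 2 • m := by rw [h]; abel
    rw [h1, half_lat_two]

/-! ### The two descriptions of points -/

theorem dir_ne_zero (b : Bool) (u : ℂ) : dir b u ≠ 0 := by
  cases b
  · intro h; have := congrArg Prod.snd h; simp only [dir, cond_false, Prod.snd_zero, one_ne_zero] at this
  · intro h; have := congrArg Prod.fst h; simp only [dir, cond_true, Prod.fst_zero, one_ne_zero] at this

theorem dom_of {l : Fin 4 → C2} {x : ℂ × C2} (hx : x ∈ PP l) {b : Bool} {v : C2} {τ : ℂ}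
    (hτ : τ ≠ 0) (hd : dir b v.2 = τ • x.2) (hv : v.1 = x.1 / τ ^ 2) :
    Dom (AddSubgroup.closure (range l)) b v := by
  intro w hw h
  obtain ⟨n, hn⟩ := mem_lattice.1 h
  rw [hd, smul_smul] at hn
  by_contra hw0
  have h1 : (w * τ) ^ 2 = x.1 := by rw [mul_pow, hw, hv]; field_simp
  have h2 : (w * τ) • x.2 = (1 / 2 : ℂ) • lat l n := by
    rw [hn, smul_smul]; congr 1; ring
  by_cases hn0 : n = 0
  · rw [hn0, g_lat_zero, smul_zero] at h2
    rcases smul_eq_zero.1 h2 with h3 | h3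
    · exact hw0 ((mul_eq_zero.1 h3).resolve_right hτ)
    · exact hx.1 h3
  · exact hx.2 _ h1 n hn0 h2

theorem mem_PP_of_dom {l : Fin 4 → C2} (hl : LinearIndependent ℝ l) {b : Bool} {v : C2}
    (hv : Dom (AddSubgroup.closure (range l)) b v) : (v.1, dir b v.2) ∈ PP l := by
  refine ⟨dir_ne_zero b v.2, fun w hw n hn h => ?_⟩
  simp only at hw h
  have h1 : (2 * w) • dir b v.2 ∈ AddSubgroup.closure (range l) := by
    rw [mul_smul, h, smul_smul]
    refine mem_lattice.2 ⟨n, ?_⟩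
    (clear * -; norm_num)
  have h2 := hv w hw h1
  rw [h2, zero_smul] at h
  refine hn (lat_injective hl ?_)
  rw [g_lat_zero]
  rcases smul_eq_zero.1 h.symm with h3 | h3
  · norm_num at h3
  · exact h3

/-- the relation of the definition -/
def Rel (L : AddSubgroup C2) (a : C2) (b : Bool) (v : C2) (a' : C2) (b' : Bool) (v' : C2) : Prop :=
  (v.1 ≠ 0 ∧ v'.1 ≠ 0 ∧ ∃ w w' : ℂ, w ^ 2 = v.1 ∧ w' ^ 2 = v'.1 ∧
      a' + w' • dir b' v'.2 - (a + w • dir b v.2) ∈ L) ∨
    (v.1 = 0 ∧ v'.1 = 0 ∧ a' - a ∈ L ∧ ∃ t : ℂ, dir b' v'.2 = t • dir b v.2)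

theorem rel_iff {l : Fin 4 → C2} (hl : LinearIndependent ℝ l) {x x' : ℂ × C2}
    {b b' : Bool} {v v' : C2} {τ τ' : ℂ} (hτ : τ ≠ 0) (hτ' : τ' ≠ 0)
    (hd : dir b v.2 = τ • x.2) (hv : v.1 = x.1 / τ ^ 2) (hd' : dir b' v'.2 = τ' • x'.2)
    (hv' : v'.1 = x'.1 / τ' ^ 2) (n n' : Fin 4 → ℤ) :
    Rel (AddSubgroup.closure (range l)) ((1 / 2 : ℂ) • lat l n) b v ((1 / 2 : ℂ) • lat l n') b' v' ↔
      KRel l n x n' x' := by
  have e1 : v.1 = 0 ↔ x.1 = 0 := by rw [hv]; simp only [div_eq_zero_iff, ne_eq, OfNat.ofNat_ne_zero, not_false_eq_true, pow_eq_zero_iff, hτ, or_false]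
  have e2 : v'.1 = 0 ↔ x'.1 = 0 := by rw [hv']; simp [hτ']
  unfold Rel KRel
  rw [or_comm]
  refine or_congr ?_ ?_
  · refine and_congr e1 (and_congr e2 (and_congr ?_ ?_))
    · rw [mem_lattice]
      exact exists_congr fun m => half_lat_sub l n n' m hl
    · rw [hd, hd']
      constructor
      · rintro ⟨t, ht⟩
        refine ⟨τ'⁻¹ * t * τ, ?_, ?_⟩
        · refine mul_ne_zero (mul_ne_zero (inv_ne_zero hτ') ?_) hτ
          rintro rfl
          rw [zero_smul, ← hd'] at ht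
          exact dir_ne_zero b' v'.2 ht
        · rw [mul_smul, mul_smul, ← ht, smul_smul, inv_mul_cancel₀ hτ', one_smul]
      · rintro ⟨t, -, ht⟩
        refine ⟨τ' * t * τ⁻¹, ?_⟩
        rw [ht, smul_smul, smul_smul]
        congr 1
        field_simp
  · refine and_congr (not_congr e1) (and_congr (not_congr e2) ?_)
    rw [hd, hd']
    constructor
    · rintro ⟨w, w', hw, hw', h⟩
      obtain ⟨m, hm⟩ := mem_lattice.1 h
      refine ⟨w * τ, w' * τ', ?_, ?_, m, ?_⟩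
      · rw [mul_pow, hw, hv]; (clear * - hτ; field_simp)
      · rw [mul_pow, hw', hv']; (clear * - hτ'; field_simp)
      · rw [hm, mul_smul, mul_smul]; abel
    · rintro ⟨w, w', hw, hw', m, hm⟩
      refine ⟨w / τ, w' / τ', ?_, ?_, mem_lattice.2 ⟨m, ?_⟩⟩
      · rw [div_pow, hw, hv]
      · rw [div_pow, hw', hv']
      · rw [smul_smul, smul_smul, div_mul_cancel₀ _ hτ, div_mul_cancel₀ _ hτ', hm]; abel

/-! ### Slices -/

theorem exists_slice {x : ℂ × C2} (hx : x.2 ≠ 0) : ∃ (b : Bool) (α : ℂ × C2 → C2),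
    DifferentiableAt ℂ α x ∧ Function.Surjective (fderiv ℂ α x) ∧
      ∀ᶠ y in 𝓝 x, ∃ τ : ℂ, τ ≠ 0 ∧ dir b (α y).2 = τ • y.2 ∧ (α y).1 = y.1 / τ ^ 2 := by
  by_cases h : x.2.1 = 0
  · have h2 : x.2.2 ≠ 0 := fun h' => hx (Prod.ext h h')
    set α : ℂ × C2 → C2 := fun x => (x.1 * x.2.2 ^ 2, x.2.1 / x.2.2) with hα
    have hdα : DifferentiableAt ℂ α x := by
      refine DifferentiableAt.prodMk (by fun_prop) ?_
      (clear * - h2; fun_prop (disch := exact h2))
    refine ⟨false, α, hdα, ?_, ?_⟩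
    · set j : C2 → ℂ × C2 := fun v => (v.1 / x.2.2 ^ 2, (x.2.2 * v.2, x.2.2)) with hj
      have hjx : j (α x) = x := by
        refine Prod.ext ?_ (Prod.ext ?_ ?_)
        · simp only [hj, hα]; (clear * - h2; field_simp)
        · simp only [hj, hα]; (clear * - h2; field_simp)
        · simp only [hj]
      have hdj : DifferentiableAt ℂ j (α x) := by
        simp only [hj]; fun_prop
      have hid : α ∘ j = id := by
        funext v
        refine Prod.ext ?_ ?_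
        · simp only [Function.comp_apply, hα, hj, id]; field_simp
        · simp only [Function.comp_apply, hα, hj, id]; (clear * - h2; field_simp)
      have h3 : (fderiv ℂ α (j (α x))).comp (fderiv ℂ j (α x)) = ContinuousLinearMap.id ℂ C2 := by
        rw [← fderiv_comp (α x) (by rw [hjx]; exact hdα) hdj, hid, fderiv_id]
      rw [hjx] at h3
      intro y
      exact ⟨fderiv ℂ j (α x) y, congrArg (fun L => L y) h3⟩
    · have h4 : ∀ᶠ y : ℂ × C2 in 𝓝 x, y.2.2 ≠ 0 := by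
        have hc : ContinuousAt (fun y : ℂ × C2 => y.2.2) x := by fun_prop
        exact hc.eventually (isOpen_ne.mem_nhds h2)
      filter_upwards [h4] with y hy
      refine ⟨y.2.2⁻¹, inv_ne_zero hy, ?_, ?_⟩
      · ext
        · simp only [dir, hα, div_eq_inv_mul, cond_false, Prod.smul_fst, smul_eq_mul]
        · simp [dir, hy]
      · simp only [hα]; (clear * - hy; field_simp)
  · set α : ℂ × C2 → C2 := fun x => (x.1 * x.2.1 ^ 2, x.2.2 / x.2.1) with hα
    have hdα : DifferentiableAt ℂ α x := by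
      refine DifferentiableAt.prodMk (by (clear * -; fun_prop)) ?_
      (clear * - h; fun_prop (disch := exact h))
    refine ⟨true, α, hdα, ?_, ?_⟩
    · set j : C2 → ℂ × C2 := fun v => (v.1 / x.2.1 ^ 2, (x.2.1, x.2.1 * v.2)) with hj
      have hjx : j (α x) = x := by
        refine Prod.ext ?_ (Prod.ext ?_ ?_)
        · simp only [hj, hα]; field_simp
        · simp only [hj]
        · simp only [hj, hα]; field_simp
      have hdj : DifferentiableAt ℂ j (α x) := by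
        simp only [hj]; fun_prop
      have hid : α ∘ j = id := by
        funext v
        refine Prod.ext ?_ ?_
        · simp only [Function.comp_apply, hα, hj, id]; (clear * - h; field_simp)
        · simp only [Function.comp_apply, hα, hj, id]; (clear * - h; field_simp)
      have h3 : (fderiv ℂ α (j (α x))).comp (fderiv ℂ j (α x)) = ContinuousLinearMap.id ℂ C2 := by
        rw [← fderiv_comp (α x) (by rw [hjx]; exact hdα) hdj, hid, fderiv_id]
      rw [hjx] at h3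
      intro y
      exact ⟨fderiv ℂ j (α x) y, congrArg (fun L => L y) h3⟩
    · have h4 : ∀ᶠ y : ℂ × C2 in 𝓝 x, y.2.1 ≠ 0 := by
        have hc : ContinuousAt (fun y : ℂ × C2 => y.2.1) x := by fun_prop
        exact hc.eventually (isOpen_ne.mem_nhds h)
      filter_upwards [h4] with y hy
      refine ⟨y.2.1⁻¹, inv_ne_zero hy, ?_, ?_⟩
      · ext
        · simp [dir, hy]
        · simp only [dir, hα, div_eq_inv_mul, cond_true, Prod.smul_snd, smul_eq_mul]
      · simp only [hα]; field_simp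

theorem exists_rep_slice {c : C2} (hc : c ≠ 0) (s : ℂ) : ∃ (b : Bool) (v : C2) (τ : ℂ), τ ≠ 0 ∧
    dir b v.2 = τ • c ∧ v.1 = s / τ ^ 2 := by
  obtain ⟨b, α, -, -, h⟩ := exists_slice (x := (s, c)) hc
  obtain ⟨τ, h1, h2, h3⟩ := h.self_of_nhds
  exact ⟨b, _, τ, h1, h2, h3⟩

/-- from the definition to the uniform description -/
theorem Kummer.nonempty_kummerData {l : Fin 4 → C2} (hl : LinearIndependent ℝ l)
    (D : Kummer (AddSubgroup.closure (range l)) X) : Nonempty (KummerData l X) := by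
  classical
  choose B W T hT using fun (x : {x : ℂ × C2 // x.2 ≠ 0}) => exists_rep_slice x.2 x.1.1
  set N' : (Fin 4 → ℤ) → ℂ × C2 → X := fun n x =>
    if h : x.2 ≠ 0 then D.N ((1 / 2 : ℂ) • lat l n) (B ⟨x, h⟩) (W ⟨x, h⟩)
    else D.N 0 true 0 with hN'
  have key : ∀ n, ∀ x ∈ PP l, ∀ n' b v τ, τ ≠ 0 → ∀ x' ∈ PP l, dir b v.2 = τ • x'.2 →
      v.1 = x'.1 / τ ^ 2 → (N' n x = D.N ((1 / 2 : ℂ) • lat l n') b v ↔ KRel l n x n' x') := by
    intro n x hx n' b v τ hτ x' hx' hd hv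
    obtain ⟨h1, h2, h3⟩ := hT ⟨x, hx.1⟩
    have h4 : N' n x = D.N ((1 / 2 : ℂ) • lat l n) (B ⟨x, hx.1⟩) (W ⟨x, hx.1⟩) := by
      simp only [hN']; rw [dif_pos hx.1]
    rw [h4, D.rel _ _ _ _ _ _ (half_mem n) (dom_of hx h1 h2 h3) (half_mem n')
      (dom_of hx' hτ hd hv)]
    exact rel_iff hl h1 hτ h2 h3 hd hv n n'
  have hrel : ∀ n, ∀ x ∈ PP l, ∀ n', ∀ x' ∈ PP l, (N' n x = N' n' x' ↔ KRel l n x n' x') := by
    intro n x hx n' x' hx'
    obtain ⟨h1, h2, h3⟩ := hT ⟨x', hx'.1⟩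
    have h4 : N' n' x' = D.N ((1 / 2 : ℂ) • lat l n') (B ⟨x', hx'.1⟩) (W ⟨x', hx'.1⟩) := by
      simp only [hN']; rw [dif_pos hx'.1]
    rw [h4]
    exact key n x hx n' _ _ _ h1 x' hx' h2 h3
  have hloc : ∀ n, ∀ x ∈ PP l, MDifferentiableAt 𝓘(ℂ, ℂ × C2) 𝓘(ℂ, C2) (N' n) x ∧
      Function.Surjective (mfderiv 𝓘(ℂ, ℂ × C2) 𝓘(ℂ, C2) (N' n) x) := by
    intro n x hx
    obtain ⟨b, α, hα, hs, hev⟩ := exists_slice hx.1
    obtain ⟨τ, hτ, hd, hv⟩ := hev.self_of_nhds
    have het := D.etale ((1 / 2 : ℂ) • lat l n) b (α x) (half_mem n) (dom_of hx hτ hd hv)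
    have h3 : N' n =ᶠ[𝓝 x] D.N ((1 / 2 : ℂ) • lat l n) b ∘ α := by
      filter_upwards [hev, (isOpen_PP hl).mem_nhds hx] with y hy hyP
      obtain ⟨τ', hτ', hd', hv'⟩ := hy
      exact (key n y hyP n b (α y) τ' hτ' y hyP hd' hv').2 (KRel_refl l n y)
    have h2 : MDifferentiableAt 𝓘(ℂ, ℂ × C2) 𝓘(ℂ, C2) α x := hα.mdifferentiableAt
    have h1 := het.mdifferentiableAt
    refine ⟨(h1.comp x h2).congr_of_eventuallyEq h3, ?_⟩
    have h6 : mfderiv 𝓘(ℂ, ℂ × C2) 𝓘(ℂ, C2) (N' n) x =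
        (mfderiv 𝓘(ℂ, C2) 𝓘(ℂ, C2) (D.N ((1 / 2 : ℂ) • lat l n) b) (α x)).comp
          (mfderiv 𝓘(ℂ, ℂ × C2) 𝓘(ℂ, C2) α x) := by
      rw [h3.mfderiv_eq]
      exact mfderiv_comp x h1 h2
    rw [h6]
    have h7 : Function.Surjective (mfderiv 𝓘(ℂ, ℂ × C2) 𝓘(ℂ, C2) α x) := by
      rw [mfderiv_eq_fderiv]; exact hs
    exact het.surjective.comp h7
  refine ⟨⟨N', fun n x hx => (hloc n x hx).1, fun n x hx => (hloc n x hx).2, hrel, ?_⟩⟩
  intro y
  obtain ⟨a, b, v, ha, hv, rfl⟩ := D.cover y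
  obtain ⟨n, rfl⟩ := exists_half ha
  have hP := mem_PP_of_dom hl hv
  refine ⟨n, _, hP, ?_⟩
  exact (key n _ hP n b v 1 one_ne_zero _ hP (by simp) (by simp)).2 (KRel_refl l n _)

end Vale.Agent.P290.Kum
end
end

section

section

open Set Filter Metric
open scoped Manifold ContDiff Topology

namespace Vale.Agent.P290.Kum

open Vale.Agent.P290.K

theorem etale_g (A : EtaleAtlas) (i : A.I) {v : C2} (hv : v ∈ A.U i) :
    Etale (X := A.Space) (A.gS i) v := by
  obtain ⟨p, rfl, hp⟩ := A.exists_patch i hv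
  obtain ⟨q, hq⟩ := A.mem_atlas_iff.1 (chart_mem_atlas C2 (A.gS p.i v))
  have hsrc : A.gS p.i v ∈ (A.chart q).source := by
    rw [hq]; exact mem_chart_source C2 (A.gS p.i v)
  obtain ⟨φ, hφ, hev, hdet⟩ := A.trans_chart p q hp hsrc
  rw [hq] at hev
  refine ⟨A.continuousAt_gS p.i hv, ?_, ?_⟩
  · exact hφ.differentiableAt.congr_of_eventuallyEq hev
  · have h1 : fderiv ℂ (fun z => chartAt C2 (A.gS p.i v) (A.gS p.i z)) v = fderiv ℂ φ v :=
      Filter.EventuallyEq.fderiv_eq hev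
    rw [h1, hdet]
    exact one_ne_zero

theorem Etale.neg_snd {X : Type} [TopologicalSpace X] [ChartedSpace C2 X] {f : C2 → X} {v : C2}
    (h : Etale f (v.1, -v.2)) : Etale (fun z : C2 => f (z.1, -z.2)) v := by
  set j : C2 → C2 := fun z => (z.1, -z.2) with hj
  have hjd : HasFDerivAt j ((ContinuousLinearMap.fst ℂ ℂ ℂ).prod
      (-(ContinuousLinearMap.snd ℂ ℂ ℂ))) v :=
    hasFDerivAt_fst.prodMk hasFDerivAt_snd.neg
  refine ⟨?_, ?_, ?_⟩
  · exact ContinuousAt.comp (f := j) h.1 hjd.continuousAt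
  · exact DifferentiableAt.comp (f := j) v h.2.1 hjd.differentiableAt
  · have h1 : fderiv ℂ (fun z => chartAt C2 (f (v.1, -v.2)) (f (z.1, -z.2))) v =
        (fderiv ℂ (fun z => chartAt C2 (f (v.1, -v.2)) (f z)) (v.1, -v.2)).comp
          (fderiv ℂ j v) :=
      fderiv_comp (g := fun z => chartAt C2 (f (v.1, -v.2)) (f z)) (f := j) v h.2.1
        hjd.differentiableAt
    have h2 : ((fderiv ℂ (fun z => chartAt C2 (f (v.1, -v.2)) (f z)) (v.1, -v.2)).comp
        (fderiv ℂ j v)).det =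
        (fderiv ℂ (fun z => chartAt C2 (f (v.1, -v.2)) (f z)) (v.1, -v.2)).det *
          (fderiv ℂ j v).det := by
      simp only [ContinuousLinearMap.det]
      exact LinearMap.det_comp _ _
    rw [h1, h2, hjd.fderiv]
    refine mul_ne_zero h.2.2 ?_
    rw [C2_det]
    simp only [E1, ContinuousLinearMap.prod_apply, ContinuousLinearMap.coe_fst', neg_apply, ContinuousLinearMap.coe_snd', neg_zero, E2, mul_neg, mul_one, mul_zero, sub_zero, ne_eq, neg_eq_zero, one_ne_zero, not_false_eq_true]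

theorem Etale.congr {X : Type} [TopologicalSpace X] [ChartedSpace C2 X] {f g : C2 → X} {v : C2}
    (h : Etale f v) (hfg : ∀ z, g z = f z) : Etale g v := by
  have : g = f := funext hfg
  rw [this]; exact h

theorem exists_kummer {l : Fin 4 → C2} (hl : LinearIndependent ℝ l) :
    Nonempty (Kummer (AddSubgroup.closure (range l)) (kAtlas hl).Space) := by
  classical
  set ν : C2 → Fin 4 → ℤ := fun a =>
    if h : a + a ∈ AddSubgroup.closure (range l) then (exists_half h).choose else 0 with hν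
  have hνa : ∀ a, a + a ∈ AddSubgroup.closure (range l) → (1 / 2 : ℂ) • lat l (ν a) = a := by
    intro a ha
    simp only [hν]
    rw [dif_pos ha]
    exact (exists_half ha).choose_spec
  refine ⟨⟨fun a b v => kq hl (ν a) (v.1, dir b v.2), ?_, ?_, ?_⟩⟩
  · intro a b v ha hv
    have hP := mem_PP_of_dom hl hv
    cases b
    · have h1 : ((v.1, -v.2) : C2) ∈ (kAtlas hl).U (ν a, true) := by
        change sl true (v.1, -v.2) ∈ PP l
        rw [sl_true]
        simpa only [neg_neg, dir, cond_false] using hP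
      refine (etale_g (kAtlas hl) (ν a, true) h1).neg_snd.congr fun z => ?_
      change kq hl (ν a) (z.1, dir false z.2) = kq hl (ν a) (sl true (z.1, -z.2))
      rw [sl_true]
      simp only [dir, cond_false, neg_neg]
    · have h1 : v ∈ (kAtlas hl).U (ν a, false) := by
        change sl false v ∈ PP l
        rw [sl_false]
        simpa [dir] using hP
      refine (etale_g (kAtlas hl) (ν a, false) h1).congr fun z => ?_
      change kq hl (ν a) (z.1, dir true z.2) = kq hl (ν a) (sl false z)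
      rw [sl_false]
      simp only [dir, cond_true]
  · intro y
    obtain ⟨n, x, hx, rfl⟩ := exists_kq hl y
    obtain ⟨b, v, τ, hτ, hd, hv⟩ := exists_rep_slice hx.1 x.1
    have hD := dom_of hx hτ hd hv
    refine ⟨(1 / 2 : ℂ) • lat l n, b, v, half_mem n, hD, ?_⟩
    refine (kq_eq_iff hl (mem_PP_of_dom hl hD) hx).2 ?_
    rw [← rel_iff hl one_ne_zero hτ (b := b) (b' := b) (v := v) (v' := v) (by simp) (by simp only [one_pow, div_one])
      hd hv (ν ((1 / 2 : ℂ) • lat l n)) n, hνa _ (half_mem n)]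
    by_cases h0 : v.1 = 0
    · exact Or.inr ⟨h0, h0, by simp, 1, by simp⟩
    · obtain ⟨w, hw⟩ := g_exists_sqrt v.1
      exact Or.inl ⟨h0, h0, w, w, hw, hw, by simp only [one_div, sub_self, zero_mem]⟩
  · intro a b v a' b' v' ha hv ha' hv'
    refine (kq_eq_iff hl (mem_PP_of_dom hl hv) (mem_PP_of_dom hl hv')).trans ?_
    rw [← rel_iff hl one_ne_zero one_ne_zero (b := b) (b' := b') (v := v) (v' := v') (by simp)
      (by simp) (by simp) (by simp) (ν a) (ν a'), hνa a ha, hνa a' ha']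
    rfl

end Vale.Agent.P290.Kum
end
end

section

section

open Set
open scoped Manifold ContDiff Topology

namespace Vale.Agent.P290.Kum

/-- The Kummer surface of every lattice exists and is Oka. -/
theorem kummer_main (l : Fin 4 → C2) (hl : LinearIndependent ℝ l) :
    (∃ (X : Type) (_ : TopologicalSpace X) (_ : ChartedSpace C2 X), IsKummer l X) ∧
      ∀ (X : Type) [TopologicalSpace X] [ChartedSpace C2 X], IsKummer l X → IsOka X := by
  refine ⟨⟨(K.kAtlas hl).Space, inferInstance, inferInstance, inferInstance, K.t2_kAtlas hl,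
    exists_kummer hl⟩, ?_⟩
  intro X _ _ hX
  obtain ⟨D⟩ := hX.kummer
  exact K.isOka_of_isKummer X ⟨hX.manifold, hX.t2, l, hl, D.nonempty_kummerData hl⟩

end Vale.Agent.P290.Kum
end
end

section

section

open Set Filter Metric
open scoped Manifold ContDiff Topology

namespace Vale.Agent.P290.All

section
variable {X Y C : Type} [TopologicalSpace X] [ChartedSpace C2 X] [TopologicalSpace Y]
  [ChartedSpace C2 Y] [TopologicalSpace C] [ChartedSpace ℂ C]

theorem Hol.md {f : X → Y} {x : X} (h : Hol f x) :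
    MDifferentiableAt 𝓘(ℂ, C2) 𝓘(ℂ, C2) f x := by
  refine (mdifferentiableAt_iff f x).2 ⟨h.1, ?_⟩
  simp only [writtenInExtChartAt, extChartAt, OpenPartialHomeomorph.extend, modelWithCornersSelf_partialEquiv, PartialEquiv.trans_refl, OpenPartialHomeomorph.toFun_eq_coe, OpenPartialHomeomorph.coe_toPartialEquiv_symm, modelWithCornersSelf_coe, range_id]
  exact h.2.differentiableWithinAt

theorem HolC.md {π : X → C} {x : X} (h : HolC π x) :
    MDifferentiableAt 𝓘(ℂ, C2) 𝓘(ℂ) π x := by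
  refine (mdifferentiableAt_iff π x).2 ⟨h.1, ?_⟩
  simp only [writtenInExtChartAt, mfld_simps]
  exact h.2.differentiableWithinAt

theorem HolV.md {m : ℕ} {f : (Fin m → ℂ) → X} {z : Fin m → ℂ} (h : HolV f z) :
    MDifferentiableAt 𝓘(ℂ, Fin m → ℂ) 𝓘(ℂ, C2) f z := by
  refine (mdifferentiableAt_iff f z).2 ⟨h.1, ?_⟩
  simp only [writtenInExtChartAt, extChartAt, OpenPartialHomeomorph.extend, modelWithCornersSelf_partialEquiv, PartialEquiv.trans_refl, OpenPartialHomeomorph.toFun_eq_coe, OpenPartialHomeomorph.coe_toPartialEquiv_symm, modelWithCornersSelf_coe, range_id]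
  exact h.2.differentiableWithinAt

theorem HolV.of_md {m : ℕ} {f : (Fin m → ℂ) → X} {z : Fin m → ℂ}
    (h : MDifferentiableAt 𝓘(ℂ, Fin m → ℂ) 𝓘(ℂ, C2) f z) : HolV f z := by
  obtain ⟨h1, h2⟩ := (mdifferentiableAt_iff f z).1 h
  simp only [writtenInExtChartAt, extChartAt, OpenPartialHomeomorph.extend, modelWithCornersSelf_partialEquiv, PartialEquiv.trans_refl, OpenPartialHomeomorph.toFun_eq_coe, OpenPartialHomeomorph.coe_toPartialEquiv_symm, modelWithCornersSelf_coe, range_id] at h2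
  exact ⟨h1, differentiableWithinAt_univ.1 h2⟩

theorem isOka_iff (h : Vale.Agent.P290.IsOka X) : IsOka X := by
  intro m K U hm hK hKc hKne hU hKU f hf d hd hd0 ε hε
  obtain ⟨F, hF, hFK⟩ := h m hm K U hK hKc hKne hU hKU f
    (fun z hz => (hf z hz).md.mdifferentiableWithinAt) d hd hd0 ε hε
  exact ⟨F, fun z => HolV.of_md (hF z), hFK⟩

theorem HasD.md [IsManifold 𝓘(ℂ) 1 C] {S : C → ℂ} {p : C} {u : ℂ} (h : HasD S p u) :
    MDifferentiableAt 𝓘(ℂ) 𝓘(ℂ) S p := by
  have h1 : MDifferentiableAt 𝓘(ℂ) 𝓘(ℂ) (chartAt ℂ p) p :=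
    mdifferentiableAt_atlas (chart_mem_atlas ℂ p) (mem_chart_source ℂ p)
  have h2 : MDifferentiableAt 𝓘(ℂ) 𝓘(ℂ) (fun s => S ((chartAt ℂ p).symm s)) (chartAt ℂ p p) :=
    h.differentiableAt.mdifferentiableAt
  refine (h2.comp p h1).congr_of_eventuallyEq ?_
  filter_upwards [(chartAt ℂ p).open_source.mem_nhds (mem_chart_source ℂ p)] with q hq
  simp only [Function.comp_apply]
  rw [(chartAt ℂ p).left_inv hq]

theorem HasD.dS {S : C → ℂ} {p : C} {u : ℂ} (h : HasD S p u) : dS S p = u := h.deriv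

end

/-- the volume form -/
def K3.volForm (X : K3) : VolForm X.X where
  coef := X.vol
  holo e he := (X.holo e he).1
  ne_zero e he y hy := ((X.holo e he).2 y hy).1
  compat e he t ht y hy hyt := ((X.holo e he).2 y hy).2 t ht hyt

/-- the old structure -/
def K3.toK3 (X : K3) : Vale.Agent.P290.K3 where
  X := X.X
  isK3 := ⟨X.manifold, X.t2, X.compact, X.sc, ⟨X.volForm⟩⟩

/-- the old structure -/
def RS.toRS (C : RS) : Vale.Agent.P290.RS :=
  @Vale.Agent.P290.RS.mk C.C C.top C.t2 C.charts C.manifold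

theorem Twist.isTwist {X Y : K3} (T : Twist X Y) : IsTwist X.toK3 Y.toK3 := by
  have hm : IsManifold 𝓘(ℂ) ω T.C.C := T.C.manifold
  have hm1 : IsManifold 𝓘(ℂ) 1 T.C.C := IsManifold.of_le (n := ω) le_top
  refine ⟨X.volForm, T.C.toRS, T.π, T.ρ, fun x => (T.π_hol x).md, fun y => (T.ρ_hol y).md, ⟨?_⟩⟩
  exact
    { A := T.A
      O := T.O
      h := T.h
      g := T.g
      S := T.S
      isOpen := T.isOpen
      cover := T.cover
      h_hol := fun a x hx => (T.h_hol a x hx).1.md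
      g_hol := fun a y hy => (T.g_hol a y hy).1.md
      h_base := fun a x hx => (T.h_hol a x hx).2.1
      g_base := fun a y hy => (T.g_hol a y hy).2.1
      gh := fun a x hx => (T.h_hol a x hx).2.2
      hg := fun a y hy => (T.g_hol a y hy).2.2
      S_hol := fun a b p ha hb => by
        obtain ⟨u, v, hu, -, -⟩ := T.S_coc a b b p ha hb hb
        exact hu.md
      S_coc := fun a b c p ha hb hc => by
        obtain ⟨u, v, hu, hv, hw⟩ := T.S_coc a b c p ha hb hc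
        exact hw.dS.trans (congrArg₂ (· + ·) hu.dS.symm hv.dS.symm)
      trans := fun a b x ha hb => T.trans a b x ha hb }

theorem eqvGen_isTwist {X Z : K3} (h : Relation.EqvGen (fun X Y => Nonempty (Twist X Y)) X Z) :
    Relation.EqvGen IsTwist X.toK3 Z.toK3 := by
  induction h with
  | rel X Y h => exact Relation.EqvGen.rel _ _ h.some.isTwist
  | refl X => exact Relation.EqvGen.refl _
  | symm X Y _ ih => exact Relation.EqvGen.symm _ _ ih
  | trans X Y Z _ _ ih1 ih2 => exact Relation.EqvGen.trans _ _ _ ih1 ih2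

theorem Fibred.hasFactor {Z : K3} (h : Fibred Z) : HasFactor Z.X := by
  obtain ⟨J, C, π, hπ, hcrit, hfin⟩ := h
  have m1 : IsManifold 𝓘(ℂ, C2) ω Z.X := Z.manifold
  have m2 : IsManifold 𝓘(ℂ, C2) 1 Z.X := IsManifold.of_le (n := ω) le_top
  have m5 : T2Space Z.X := Z.t2
  have m6 : CompactSpace Z.X := Z.compact
  have m7 : ∀ j, IsManifold 𝓘(ℂ) ω (C j).C := fun j => (C j).manifold
  have m8 : ∀ j, IsManifold 𝓘(ℂ) 1 (C j).C := fun j => IsManifold.of_le (n := ω) le_top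
  have m9 : ∀ j, T2Space (C j).C := fun j => (C j).t2
  refine hasFactor_of_fibrations Z.volForm π (fun j x => (hπ j x).md) (fun x => ?_) hfin
  obtain ⟨j, hj⟩ := hcrit x
  exact ⟨j, fun h0 => hj (critical_of_mfderiv (fun y => (hπ j y).md) h0)⟩

theorem IsKummer.exists_kummerData {X : Type} [TopologicalSpace X] [ChartedSpace C2 X]
    (h : IsKummer X) : ∃ l : Fin 4 → C2, LinearIndependent ℝ l ∧ Nonempty (K.KummerData l X) := by
  obtain ⟨l, hl, ⟨D⟩⟩ := h
  have hD : ∀ (L : AddSubgroup C2) (a : C2) (b : Bool) (v : C2), (a + a ∈ L ∧ Kum.Dom L b v) ↔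
      Dom L a b v := by
    intro L a b v
    refine and_congr Iff.rfl (forall_congr' fun w => ?_)
    rw [two_mul]
    rfl
  refine ⟨l, hl, Kum.Kummer.nonempty_kummerData hl ⟨D.N, ?_, ?_, ?_⟩⟩
  · intro a b v ha hv
    exact D.etale a b v ((hD _ a b v).1 ⟨ha, hv⟩)
  · intro y
    obtain ⟨a, b, v, h, rfl⟩ := D.cover y
    obtain ⟨h1, h2⟩ := (hD _ a b v).2 h
    exact ⟨a, b, v, h1, h2, rfl⟩
  · intro a b v a' b' v' ha hv ha' hv'
    exact D.rel a b v a' b' v' ((hD _ a b v).1 ⟨ha, hv⟩) ((hD _ a' b' v').1 ⟨ha', hv'⟩)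

end Vale.Agent.P290.All
end
end

section

section

set_option linter.all false

open Set Filter Metric
open scoped Manifold ContDiff Topology

namespace Vale.Agent.P290.K

/-! ### A dominating spray of Pell data -/

/-- The deformation of `x = ((h, p, q), b)` with the parameter `w` -/
noncomputable def spr (x : ND) (w : Fin 3 → ℂ) : ND :=
  ((x.1.1 + w 2 * ∏ j, x.1.2.1 j ^ 2,
    fun k => x.1.2.1 k * Complex.exp (Complex.log (1 +
      w 2 * (∏ j ∈ Finset.univ.erase k, x.1.2.1 j ^ 2) * x.1.2.2 k ^ 2) / 2),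
    x.1.2.2), x.2 + (w 0, w 1))

theorem spr_zero (x : ND) : spr x 0 = x := by
  obtain ⟨⟨h, p, q⟩, b⟩ := x
  simp only [spr, Pi.zero_apply, zero_mul, add_zero, Complex.log_one, zero_div, Complex.exp_zero, mul_one]
  refine Prod.ext rfl ?_
  simp only [add_eq_left, Prod.mk_eq_zero, and_self]

theorem spr_pell {x : ND} (hx : Pell x.1) {w : Fin 3 → ℂ}
    (hw : ∀ k, ‖w 2 * (∏ j ∈ Finset.univ.erase k, x.1.2.1 j ^ 2) * x.1.2.2 k ^ 2‖ < 1) :
    Pell (spr x w).1 := by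
  intro k
  have h1 := hx k
  have h2 := hw k
  set u : ℂ := w 2 * (∏ j ∈ Finset.univ.erase k, x.1.2.1 j ^ 2) * x.1.2.2 k ^ 2 with hu
  have h3 : (1 : ℂ) + u ≠ 0 := by
    intro h
    have h4 : u = -1 := by linear_combination h
    rw [h4] at h2
    simp only [norm_neg, norm_one, lt_self_iff_false] at h2
  have h5 : Complex.exp (Complex.log (1 + u) / 2) ^ 2 = 1 + u := by
    rw [← Complex.exp_nat_mul]
    push_cast
    rw [mul_div_cancel₀ _ (two_ne_zero), Complex.exp_log h3]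
  have h6 : (∏ j, x.1.2.1 j ^ 2) = x.1.2.1 k ^ 2 * ∏ j ∈ Finset.univ.erase k, x.1.2.1 j ^ 2 :=
    (Finset.mul_prod_erase Finset.univ (fun j => x.1.2.1 j ^ 2) (Finset.mem_univ k)).symm
  change (x.1.2.1 k * Complex.exp (Complex.log (1 + u) / 2)) ^ 2 -
    (x.1.1 + w 2 * ∏ j, x.1.2.1 j ^ 2) * x.1.2.2 k ^ 2 = 4
  rw [mul_pow, h5, h6, hu]
  linear_combination h1

theorem slit_of_norm_lt {u : ℂ} (hu : ‖u‖ < 1) : 1 + u ∈ Complex.slitPlane := by
  left
  have := Complex.abs_re_le_norm u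
  have h2 := (abs_lt.1 (this.trans_lt hu)).1
  simp only [Complex.add_re, Complex.one_re, gt_iff_lt]
  linarith only [h2]

theorem spr_differentiableAt {p : ND × (Fin 3 → ℂ)}
    (hw : ∀ k, ‖p.2 2 * (∏ j ∈ Finset.univ.erase k, p.1.1.2.1 j ^ 2) * p.1.1.2.2 k ^ 2‖ < 1) :
    DifferentiableAt ℂ (fun p : ND × (Fin 3 → ℂ) => spr p.1 p.2) p := by
  have hp : ∀ k, DifferentiableAt ℂ (fun p : ND × (Fin 3 → ℂ) => p.1.1.2.1 k) p := by
    intro k
    (clear * -; fun_prop)
  have hq : ∀ k, DifferentiableAt ℂ (fun p : ND × (Fin 3 → ℂ) => p.1.1.2.2 k) p := by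
    intro k
    (clear * -; fun_prop)
  have hwd : ∀ k, DifferentiableAt ℂ (fun p : ND × (Fin 3 → ℂ) => p.2 k) p := by
    intro k
    fun_prop
  have hprod : ∀ s : Finset (Fin 4),
      DifferentiableAt ℂ (fun p : ND × (Fin 3 → ℂ) => ∏ j ∈ s, p.1.1.2.1 j ^ 2) p := by
    intro s
    induction s using Finset.induction_on with
    | empty => simp only [Finset.prod_empty]; exact differentiableAt_const _
    | insert k s hk ih =>
      simp only [Finset.prod_insert hk]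
      exact ((hp k).fun_pow 2).mul ih
  have hu : ∀ k, DifferentiableAt ℂ (fun p : ND × (Fin 3 → ℂ) =>
      p.2 2 * (∏ j ∈ Finset.univ.erase k, p.1.1.2.1 j ^ 2) * p.1.1.2.2 k ^ 2) p := by
    intro k
    exact ((hwd 2).mul (hprod _)).mul ((hq k).fun_pow 2)
  have hE : ∀ k, DifferentiableAt ℂ (fun p : ND × (Fin 3 → ℂ) =>
      Complex.exp (Complex.log (1 +
        p.2 2 * (∏ j ∈ Finset.univ.erase k, p.1.1.2.1 j ^ 2) * p.1.1.2.2 k ^ 2) / 2)) p := by
    intro k
    have h1 := ((hu k).const_add 1).clog (slit_of_norm_lt (hw k))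
    have h2 := h1.mul_const (2 : ℂ)⁻¹
    simp only [div_eq_mul_inv]
    exact h2.cexp
  refine DifferentiableAt.prodMk (DifferentiableAt.prodMk ?_ (DifferentiableAt.prodMk ?_ ?_)) ?_
  · exact (by (clear * -; fun_prop) : DifferentiableAt ℂ (fun p : ND × (Fin 3 → ℂ) => p.1.1.1) p).add
      ((hwd 2).mul (hprod _))
  · rw [differentiableAt_pi]
    intro k
    exact (hp k).mul (hE k)
  · fun_prop
  · (clear * -; fun_prop)

section
variable {lam : Fin 4 → C2} {X : Type} [TopologicalSpace X] [ChartedSpace C2 X]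
  (D : KummerData lam X)

/-- the spray is dominating at every parameter -/
theorem spr_surjective' [Nonempty X] [IsManifold 𝓘(ℂ, C2) 1 X] (hlam : LinearIndependent ℝ lam)
    {x : ND} {t : Fin 3 → ℂ} (hP : Pell x.1)
    (ht : ∀ k, ‖t 2 * (∏ j ∈ Finset.univ.erase k, x.1.2.1 j ^ 2) * x.1.2.2 k ^ 2‖ < 1)
    (hA : Avoid lam (spr x t)) :
    Function.Surjective
      (mfderiv 𝓘(ℂ, Fin 3 → ℂ) 𝓘(ℂ, C2) (fun w => pt D (spr x (t + w))) 0) := by
  obtain ⟨n, a, hlog, hPP⟩ := hA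
  obtain ⟨A, hA0, hAd, hAl⟩ := exists_log_fun hlog
  -- the parametrisation of the spray
  have hct : Continuous (fun w : Fin 3 → ℂ => t + w) := by (clear * -; fun_prop)
  have hev : ∀ᶠ w : Fin 3 → ℂ in 𝓝 0, ∀ k,
      ‖(t + w) 2 * (∏ j ∈ Finset.univ.erase k, x.1.2.1 j ^ 2) * x.1.2.2 k ^ 2‖ < 1 := by
    rw [eventually_all]
    intro k
    have hc : Continuous (fun w : Fin 3 → ℂ =>
        ‖(t + w) 2 * (∏ j ∈ Finset.univ.erase k, x.1.2.1 j ^ 2) * x.1.2.2 k ^ 2‖) := by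
      (clear * -; fun_prop)
    apply hc.continuousAt.eventually_lt_const
    simpa only [Fin.isValue, Pi.add_apply, Pi.zero_apply, add_zero, Complex.norm_mul, norm_prod, norm_pow] using     ht k
  have hsd : ∀ w : Fin 3 → ℂ, (∀ k,
      ‖(t + w) 2 * (∏ j ∈ Finset.univ.erase k, x.1.2.1 j ^ 2) * x.1.2.2 k ^ 2‖ < 1) →
      DifferentiableAt ℂ (fun w => spr x (t + w)) w := by
    intro w hw
    have h1 : DifferentiableAt ℂ (fun p : ND × (Fin 3 → ℂ) => spr p.1 p.2) (x, t + w) :=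
      spr_differentiableAt hw
    exact DifferentiableAt.comp (f := fun w : Fin 3 → ℂ => (x, t + w)) w h1 (by fun_prop)
  have hs0 : DifferentiableAt ℂ (fun w => spr x (t + w)) 0 := hsd 0 hev.self_of_nhds
  have hsc : Tendsto (fun w => (spr x (t + w)).1) (𝓝 0) (𝓝 (spr x t).1) := by
    have h1 : ContinuousAt (fun w => (spr x (t + w)).1) 0 := hs0.continuousAt.fst
    have h2 : (spr x (t + 0)).1 = (spr x t).1 := by rw [add_zero]
    rw [← h2]
    exact h1
  -- the local lift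
  set κ : (Fin 3 → ℂ) → ℂ × C2 := fun w =>
    ((spr x (t + w)).1.1, (spr x (t + w)).2 + Lm lam (A (spr x (t + w)).1)) with hκ
  have hκ0 : κ 0 = ((spr x t).1.1, (spr x t).2 + Lm lam a) := by
    simp only [hκ, add_zero, hA0]
  have hκd : DifferentiableAt ℂ κ 0 := by
    have h1 : DifferentiableAt ℂ (fun w => (spr x (t + w)).1) 0 := hs0.fst
    have h2 : DifferentiableAt ℂ A ((fun w => (spr x (t + w)).1) 0) := by
      simp only [add_zero]
      exact hAd.self_of_nhds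
    have h3 : DifferentiableAt ℂ (fun w => A (spr x (t + w)).1) 0 := h2.comp 0 h1
    have h4 : DifferentiableAt ℂ (fun w => Lm lam (A (spr x (t + w)).1)) 0 :=
      DifferentiableAt.comp (g := Lm lam) (f := fun w => A (spr x (t + w)).1) 0
        (differentiable_Lm lam _) h3
    exact h1.fst.prodMk (hs0.snd.add h4)
  have hκPP : κ 0 ∈ PP lam := by rw [hκ0]; exact hPP
  have hκev : ∀ᶠ w in 𝓝 (0 : Fin 3 → ℂ), κ w ∈ PP lam := by
    have h1 := PP_open hlam hκPP
    have h3 : ContinuousAt (fun w => (lam, κ w)) 0 :=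
      continuousAt_const.prodMk hκd.continuousAt
    exact h3.eventually h1
  have heq : (fun w => pt D (spr x (t + w))) =ᶠ[𝓝 0] fun w => D.N n (κ w) := by
    filter_upwards [hev, hκev, hsc.eventually hAl] with w h1 h2 h3
    exact Rep.pt_eq D ⟨n, A (spr x (t + w)).1, h3 (spr_pell hP h1), h2, rfl⟩
  rw [heq.mfderiv_eq]
  have hN := D.holo n _ hκPP
  have hcomp : mfderiv 𝓘(ℂ, Fin 3 → ℂ) 𝓘(ℂ, C2) (fun w => D.N n (κ w)) 0 =
      (mfderiv 𝓘(ℂ, ℂ × C2) 𝓘(ℂ, C2) (D.N n) (κ 0)).comp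
        (mfderiv 𝓘(ℂ, Fin 3 → ℂ) 𝓘(ℂ, ℂ × C2) κ 0) :=
    mfderiv_comp 0 hN hκd.mdifferentiableAt
  rw [hcomp, mfderiv_eq_fderiv]
  have hLs := D.subm n _ hκPP
  set L : (ℂ × C2) →L[ℂ] C2 := mfderiv 𝓘(ℂ, ℂ × C2) 𝓘(ℂ, C2) (D.N n) (κ 0) with hL
  -- the three partial derivatives of `κ`
  have hline : ∀ e : Fin 3 → ℂ, HasDerivAt (fun c : ℂ => κ (c • e)) (fderiv ℂ κ 0 e) 0 := by
    intro e
    have h1 : HasDerivAt (fun c : ℂ => c • e) e 0 := by
      simpa using (hasDerivAt_id (0 : ℂ)).smul_const e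
    have h2 : HasFDerivAt κ (fderiv ℂ κ 0) ((fun c : ℂ => c • e) 0) := by
      simpa only [zero_smul] using hκd.hasFDerivAt
    exact h2.comp_hasDerivAt 0 h1
  have hspr : ∀ (c : ℂ) (e : Fin 3 → ℂ), e 2 = 0 →
      spr x (t + c • e) = ((spr x t).1, (spr x t).2 + c • (e 0, e 1)) := by
    intro c e he
    simp only [spr, Pi.add_apply, Pi.smul_apply, he, smul_eq_mul, mul_zero, add_zero]
    refine Prod.ext rfl ?_
    simp only [Prod.smul_mk, smul_eq_mul]
    ext <;> simp [add_assoc]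
  have hde : ∀ e : Fin 3 → ℂ, e 2 = 0 → fderiv ℂ κ 0 e = (0, (e 0, e 1)) := by
    intro e he
    have h1 := hline e
    have h2 : (fun c : ℂ => κ (c • e)) = fun c : ℂ => κ 0 + c • ((0, (e 0, e 1)) : ℂ × C2) := by
      funext c
      rw [hκ0]
      simp only [hκ]
      rw [hspr c e he]
      simp only [hA0, Prod.smul_mk, smul_zero, Prod.mk_add_mk, add_zero]
      refine Prod.ext rfl ?_
      simp only
      abel
    rw [h2] at h1
    have h3 : HasDerivAt (fun c : ℂ => κ 0 + c • ((0, (e 0, e 1)) : ℂ × C2)) (0, (e 0, e 1)) 0 := by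
      simpa using ((hasDerivAt_id (0 : ℂ)).smul_const ((0, (e 0, e 1)) : ℂ × C2)).const_add (κ 0)
    exact h1.unique h3
  have hd2 : (fderiv ℂ κ 0 (Pi.single 2 1)).1 = ∏ j, x.1.2.1 j ^ 2 := by
    have h1 : HasDerivAt (fun c : ℂ => (κ (c • (Pi.single 2 1 : Fin 3 → ℂ))).1)
        (fderiv ℂ κ 0 (Pi.single 2 1)).1 0 :=
      (ContinuousLinearMap.fst ℂ ℂ C2).hasFDerivAt.comp_hasDerivAt 0 (hline (Pi.single 2 1))
    have h2 : (fun c : ℂ => (κ (c • (Pi.single 2 1 : Fin 3 → ℂ))).1) =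
        fun c : ℂ => x.1.1 + (t 2 + c) * ∏ j, x.1.2.1 j ^ 2 := by
      funext c
      simp only [hκ, spr, Fin.isValue, Pi.add_apply, Pi.smul_apply, Pi.single_eq_same, smul_eq_mul, mul_one, ne_eq, Fin.reduceEq, not_false_eq_true, Pi.single_eq_of_ne, mul_zero, add_zero]
    have h3 : HasDerivAt (fun c : ℂ => x.1.1 + (t 2 + c) * ∏ j, x.1.2.1 j ^ 2)
        (∏ j, x.1.2.1 j ^ 2) 0 := by
      simpa only [Fin.isValue, hasDerivAt_const_add_iff, id_eq, one_mul] using     (((hasDerivAt_id (0 : ℂ)).const_add (t 2)).mul_const (∏ j, x.1.2.1 j ^ 2)).const_add (x.1.1)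
    rw [h2] at h1
    exact h1.unique h3
  by_cases hs : (κ 0).1 = 0
  · -- over the branch locus
    have hpr : ∏ j, x.1.2.1 j ^ 2 ≠ 0 := by
      rw [Finset.prod_ne_zero_iff]
      intro k _
      have h1 := spr_pell hP ht k
      have h2 : (spr x t).1.1 = 0 := by
        rw [hκ0] at hs
        exact hs
      rw [h2, zero_mul, sub_zero] at h1
      have h3 : (spr x t).1.2.1 k = x.1.2.1 k * Complex.exp (Complex.log (1 +
        t 2 * (∏ j ∈ Finset.univ.erase k, x.1.2.1 j ^ 2) * x.1.2.2 k ^ 2) / 2) := rfl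
      intro h4
      have h5 : x.1.2.1 k = 0 := by simpa only [ne_eq, OfNat.ofNat_ne_zero, not_false_eq_true, pow_eq_zero_iff] using h4
      rw [h3, h5, zero_mul] at h1
      norm_num at h1
    intro v
    obtain ⟨⟨α, u⟩, hau⟩ := hLs v
    set β : ℂ := α / ∏ j, x.1.2.1 j ^ 2 with hβ
    set y : C2 := u - β • (fderiv ℂ κ 0 (Pi.single 2 1)).2 with hy
    refine ⟨β • (Pi.single 2 1 : Fin 3 → ℂ) + ![y.1, y.2, 0], ?_⟩
    change L (fderiv ℂ κ 0 (β • (Pi.single 2 1 : Fin 3 → ℂ) + ![y.1, y.2, 0])) = v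
    have h6 : fderiv ℂ κ 0 (β • (Pi.single 2 1 : Fin 3 → ℂ) + ![y.1, y.2, 0]) = (α, u) := by
      rw [map_add, map_smul, hde ![y.1, y.2, 0] rfl]
      refine Prod.ext ?_ ?_
      · simp only [hβ, Prod.fst_add, Prod.smul_fst, hd2, smul_eq_mul, add_zero]
        rw [div_mul_cancel₀ _ hpr]
      · simp only [Prod.snd_add, Prod.smul_snd]
        have : ((![y.1, y.2, 0] : Fin 3 → ℂ) 0, (![y.1, y.2, 0] : Fin 3 → ℂ) 1) = y := rfl
        rw [this, hy]
        abel
    rw [h6]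
    exact hau
  · -- outside the branch locus: the fibre of the scaling
    have hscale : L (-2 * (κ 0).1, (κ 0).2) = 0 := by
      have hγ : HasDerivAt (fun u : ℂ => (((κ 0).1 / u ^ 2, u • (κ 0).2) : ℂ × C2))
          (-2 * (κ 0).1, (κ 0).2) 1 := by
        have h1 : HasDerivAt (fun u : ℂ => (κ 0).1 / u ^ 2) (-2 * (κ 0).1) 1 := by
          have h2 : HasDerivAt (fun u : ℂ => u ^ 2) (2 : ℂ) 1 := by
            simpa only [Nat.cast_ofNat, Nat.add_one_sub_one, one_pow, mul_one] using hasDerivAt_pow 2 (1 : ℂ)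
          have h3 := (h2.fun_inv (by norm_num)).const_mul (κ 0).1
          simp only [div_eq_mul_inv]
          have h4 : (κ 0).1 * (-2 / (1 ^ 2) ^ 2) = -2 * (κ 0).1 := by
            rw [one_pow, one_pow, div_one, mul_comm]
          rw [h4] at h3
          exact h3
        have h2 : HasDerivAt (fun u : ℂ => u • (κ 0).2) (κ 0).2 1 := by
          simpa only [id_eq, one_smul] using (hasDerivAt_id (1 : ℂ)).smul_const (κ 0).2
        exact h1.prodMk h2
      have hγ1 : (fun u : ℂ => (((κ 0).1 / u ^ 2, u • (κ 0).2) : ℂ × C2)) 1 = κ 0 := by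
        simp
      have hcs : (fun u : ℂ => D.N n ((κ 0).1 / u ^ 2, u • (κ 0).2)) =ᶠ[𝓝 1]
          fun _ => D.N n (κ 0) := by
        filter_upwards [isOpen_ne.mem_nhds (one_ne_zero : (1 : ℂ) ≠ 0)] with u hu
        exact ((D.rel n _ hκPP n _ (PP_scale hu hκPP)).2 (KRel_scale hu n _ _)).symm
      have hN' : HasMFDerivAt 𝓘(ℂ, ℂ × C2) 𝓘(ℂ, C2) (D.N n)
          ((fun u : ℂ => (((κ 0).1 / u ^ 2, u • (κ 0).2) : ℂ × C2)) 1) L := by
        rw [hγ1]
        exact hN.hasMFDerivAt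
      have hm1 := hN'.comp (1 : ℂ) hγ.hasFDerivAt.hasMFDerivAt
      have hm2 : HasMFDerivAt 𝓘(ℂ, ℂ) 𝓘(ℂ, C2)
          (fun u : ℂ => D.N n ((κ 0).1 / u ^ 2, u • (κ 0).2)) 1
          (0 : TangentSpace 𝓘(ℂ, ℂ) (1 : ℂ) →L[ℂ] TangentSpace 𝓘(ℂ, C2) (D.N n (κ 0))) :=
        (hasMFDerivAt_const (D.N n (κ 0)) (1 : ℂ)).congr_of_eventuallyEq hcs
      have h7 := hasMFDerivAt_unique hm1 hm2
      have h8 : (L.comp (ContinuousLinearMap.toSpanSingleton ℂ
          ((-2 * (κ 0).1, (κ 0).2) : ℂ × C2))) (1 : ℂ) = (0 : ℂ →L[ℂ] C2) (1 : ℂ) :=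
        congrArg (fun T : ℂ →L[ℂ] C2 => T 1) h7
      simpa only [ContinuousLinearMap.comp_apply, ContinuousLinearMap.toSpanSingleton_apply, one_smul,     ContinuousLinearMap.zero_apply] using h8
    intro v
    obtain ⟨⟨α, u⟩, hau⟩ := hLs v
    set y : C2 := u + (α / (2 * (κ 0).1)) • (κ 0).2 with hy
    refine ⟨![y.1, y.2, 0], ?_⟩
    change L (fderiv ℂ κ 0 ![y.1, y.2, 0]) = v
    rw [hde ![y.1, y.2, 0] rfl]
    have h6 : ((0, ((![y.1, y.2, 0] : Fin 3 → ℂ) 0, (![y.1, y.2, 0] : Fin 3 → ℂ) 1)) : ℂ × C2) =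
        (α, u) + (α / (2 * (κ 0).1)) • (-2 * (κ 0).1, (κ 0).2) := by
      refine Prod.ext ?_ ?_
      · simp only [Prod.fst_add, Prod.smul_fst, smul_eq_mul]
        field_simp
        ring
      · simp only [Prod.snd_add, Prod.smul_snd]
        rfl
    rw [h6, map_add, map_smul, hscale, smul_zero, add_zero]
    exact hau

/-- the spray is dominating -/
theorem spr_surjective [Nonempty X] [IsManifold 𝓘(ℂ, C2) 1 X] (hlam : LinearIndependent ℝ lam)
    {x : ND} (hP : Pell x.1) (hA : Avoid lam x) :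
    Function.Surjective (mfderiv 𝓘(ℂ, Fin 3 → ℂ) 𝓘(ℂ, C2) (fun w => pt D (spr x w)) 0) := by
  have h1 := spr_surjective' D hlam (t := 0) hP (by intro k; simp only [Pi.zero_apply, zero_mul, norm_zero, zero_lt_one]) (by rw [spr_zero]; exact hA)
  have h2 : (fun w => pt D (spr x (0 + w))) = fun w => pt D (spr x w) := by
    funext w
    rw [zero_add]
  rw [h2] at h1
  exact h1

end

end Vale.Agent.P290.K
end
end

section

section

set_option linter.all false

open Set Filter Metric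
open scoped Manifold ContDiff Topology

namespace Vale.Agent.P290.K

/-- a property near `K × {0}` holds near `K × closedBall 0 r` -/
theorem exists_closedBall_of_eventually {V : Type} [NormedAddCommGroup V] [NormedSpace ℂ V]
    {K : Set V} (hK : IsCompact K) {Q : V × (Fin 3 → ℂ) → Prop}
    (h : ∀ z ∈ K, ∀ᶠ p in 𝓝 (z, (0 : Fin 3 → ℂ)), Q p) :
    ∃ r > 0, ∀ᶠ p in 𝓝ˢ (K ×ˢ closedBall (0 : Fin 3 → ℂ) r), Q p := by
  have h1 : {p | Q p} ∈ 𝓝ˢ (K ×ˢ {(0 : Fin 3 → ℂ)}) := by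
    rw [mem_nhdsSet_iff_forall]
    rintro ⟨z, t⟩ ⟨hz, ht⟩
    obtain rfl : t = 0 := ht
    exact h z hz
  rw [mem_nhdsSet_iff_exists] at h1
  obtain ⟨W, hWo, hW1, hW2⟩ := h1
  obtain ⟨U, T, hUo, hTo, hU, hT, hUT⟩ := generalized_tube_lemma hK isCompact_singleton hWo hW1
  have hT0 : (0 : Fin 3 → ℂ) ∈ T := hT rfl
  obtain ⟨r, hr, hrT⟩ := Metric.isOpen_iff.1 hTo 0 hT0
  refine ⟨r / 2, half_pos hr, ?_⟩
  have h2 : U ×ˢ T ∈ 𝓝ˢ (K ×ˢ closedBall (0 : Fin 3 → ℂ) (r / 2)) := by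
    refine (hUo.prod hTo).mem_nhdsSet.2 ?_
    exact prod_mono hU ((closedBall_subset_ball (half_lt_self hr)).trans hrT)
  filter_upwards [h2] with p hp
  exact hW2 (hUT hp)

section
variable {lam : Fin 4 → C2} {X : Type} [TopologicalSpace X] [ChartedSpace C2 X]
  (D : KummerData lam X) {V : Type} [NormedAddCommGroup V] [NormedSpace ℂ V]
  [FiniteDimensional ℂ V]

/-- a family of Pell data around a given one, dominating at every point -/
theorem exists_spray [Nonempty X] [IsManifold 𝓘(ℂ, C2) 1 X] (hlam : LinearIndependent ℝ lam)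
    {K : Set V} (hK : Good K) {x : V → ND} (hx : HolNear K x) (hP : ∀ᶠ z in 𝓝ˢ K, Pell (x z).1)
    (hA : ∀ z ∈ K, Avoid lam (x z)) :
    ∃ r > 0, ∃ S : V × (Fin 3 → ℂ) → ND, HolNear (K ×ˢ closedBall 0 r) S ∧
      (∀ᶠ p in 𝓝ˢ (K ×ˢ closedBall (0 : Fin 3 → ℂ) r), Pell (S p).1) ∧
      (∀ p ∈ K ×ˢ closedBall (0 : Fin 3 → ℂ) r, Avoid lam (S p)) ∧
      (∀ᶠ z in 𝓝ˢ K, S (z, 0) = x z) ∧
      ∀ p ∈ K ×ˢ closedBall (0 : Fin 3 → ℂ) r, Function.Surjective
        (mfderiv 𝓘(ℂ, Fin 3 → ℂ) 𝓘(ℂ, C2) (fun w => pt D (S (p.1, p.2 + w))) 0) := by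
  have key : ∀ z ∈ K, ∀ᶠ p in 𝓝 (z, (0 : Fin 3 → ℂ)), (∀ k, ‖p.2 2 *
      (∏ j ∈ Finset.univ.erase k, (x p.1).1.2.1 j ^ 2) * (x p.1).1.2.2 k ^ 2‖ < 1) ∧
      DifferentiableAt ℂ x p.1 ∧ Pell (x p.1).1 ∧ Avoid lam (spr (x p.1) p.2) := by
    intro z hz
    have hxz : ∀ᶠ y in 𝓝 z, DifferentiableAt ℂ x y := mem_nhdsSet_iff_forall.1 hx z hz
    have hPz : ∀ᶠ y in 𝓝 z, Pell (x y).1 := mem_nhdsSet_iff_forall.1 hP z hz
    have hfst : Tendsto (fun p : V × (Fin 3 → ℂ) => p.1) (𝓝 (z, 0)) (𝓝 z) :=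
      continuous_fst.tendsto (z, 0)
    have hxc : ContinuousAt (fun p : V × (Fin 3 → ℂ) => x p.1) (z, 0) :=
      ContinuousAt.comp (g := x) (f := fun p : V × (Fin 3 → ℂ) => p.1) (x := (z, 0))
        hxz.self_of_nhds.continuousAt continuousAt_fst
    have h1 : ∀ᶠ p in 𝓝 (z, (0 : Fin 3 → ℂ)), ∀ k, ‖p.2 2 *
        (∏ j ∈ Finset.univ.erase k, (x p.1).1.2.1 j ^ 2) * (x p.1).1.2.2 k ^ 2‖ < 1 := by
      have hg : ∀ k, Continuous (fun y : ND × (Fin 3 → ℂ) => ‖y.2 2 *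
          (∏ j ∈ Finset.univ.erase k, y.1.1.2.1 j ^ 2) * y.1.1.2.2 k ^ 2‖) := by
        intro k
        (clear * -; fun_prop)
      have hh : ContinuousAt (fun p : V × (Fin 3 → ℂ) => (x p.1, p.2)) (z, 0) :=
        hxc.prodMk continuousAt_snd
      rw [eventually_all]
      intro k
      have hc : ContinuousAt (fun p : V × (Fin 3 → ℂ) => ‖p.2 2 *
          (∏ j ∈ Finset.univ.erase k, (x p.1).1.2.1 j ^ 2) * (x p.1).1.2.2 k ^ 2‖) (z, 0) :=
        ContinuousAt.comp (g := fun y : ND × (Fin 3 → ℂ) => ‖y.2 2 *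
          (∏ j ∈ Finset.univ.erase k, y.1.1.2.1 j ^ 2) * y.1.1.2.2 k ^ 2‖)
          (f := fun p : V × (Fin 3 → ℂ) => (x p.1, p.2)) (hg k).continuousAt hh
      apply hc.eventually_lt_const
      simp only [Pi.zero_apply, zero_mul, norm_zero, zero_lt_one]
    have h2 : ∀ᶠ p in 𝓝 (z, (0 : Fin 3 → ℂ)), Pell (spr (x p.1) p.2).1 → 
        Avoid lam (spr (x p.1) p.2) := by
      have h3 : Avoid lam (spr (x z) 0) := by rw [spr_zero]; exact hA z hz
      have h4 := avoid_open hlam h3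
      have h5 : ContinuousAt (fun y : ND × (Fin 3 → ℂ) => spr y.1 y.2) (x z, 0) :=
        (spr_differentiableAt (by intro k; simp only [Pi.zero_apply, zero_mul, norm_zero, zero_lt_one])).continuousAt
      have h6 : ContinuousAt (fun p : V × (Fin 3 → ℂ) => spr (x p.1) p.2) (z, 0) :=
        ContinuousAt.comp (g := fun y : ND × (Fin 3 → ℂ) => spr y.1 y.2)
          (f := fun p : V × (Fin 3 → ℂ) => (x p.1, p.2)) h5 (hxc.prodMk continuousAt_snd)
      have h7 : ContinuousAt (fun p : V × (Fin 3 → ℂ) => (lam, spr (x p.1) p.2)) (z, 0) :=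
        continuousAt_const.prodMk h6
      exact h7.eventually h4
    filter_upwards [h1, hfst.eventually hxz, hfst.eventually hPz, h2] with p e1 e2 e3 e4
    exact ⟨e1, e2, e3, e4 (spr_pell e3 e1)⟩
  obtain ⟨r, hr, hQ⟩ := exists_closedBall_of_eventually hK.isCompact key
  have hQs := hQ.self_of_nhdsSet
  refine ⟨r, hr, fun p => spr (x p.1) p.2, ?_, ?_, ?_, ?_, ?_⟩
  · change ∀ᶠ p in 𝓝ˢ (K ×ˢ closedBall (0 : Fin 3 → ℂ) r),
      DifferentiableAt ℂ (fun p : V × (Fin 3 → ℂ) => spr (x p.1) p.2) p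
    filter_upwards [hQ] with p hp
    obtain ⟨h1, h2, -, -⟩ := hp
    have h5 : DifferentiableAt ℂ (fun y : ND × (Fin 3 → ℂ) => spr y.1 y.2) (x p.1, p.2) :=
      spr_differentiableAt (p := (x p.1, p.2)) h1
    have h6 : DifferentiableAt ℂ (fun p : V × (Fin 3 → ℂ) => x p.1) p :=
      DifferentiableAt.comp (g := x) (f := fun p : V × (Fin 3 → ℂ) => p.1) p h2
        differentiableAt_fst
    exact DifferentiableAt.comp (g := fun y : ND × (Fin 3 → ℂ) => spr y.1 y.2)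
      (f := fun p : V × (Fin 3 → ℂ) => (x p.1, p.2)) p h5 (h6.prodMk differentiableAt_snd)
  · filter_upwards [hQ] with p hp
    obtain ⟨h1, -, h3, -⟩ := hp
    change Pell (spr (x p.1) p.2).1
    exact spr_pell (x := x p.1) (w := p.2) h3 h1
  · intro p hp
    exact (hQs p hp).2.2.2
  · exact Eventually.of_forall fun z => spr_zero _
  · intro p hp
    obtain ⟨h1, -, h3, h4⟩ := hQs p hp
    have h5 := spr_surjective' D hlam (x := x p.1) (t := p.2) h3 h1 h4
    exact h5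

end

end Vale.Agent.P290.K
end
end

section

section

set_option linter.all false

open Set Filter Metric
open scoped Manifold ContDiff Topology

namespace Vale.Agent.P290.K

section
variable {lam : Fin 4 → C2} {X : Type} [TopologicalSpace X] [ChartedSpace C2 X]
  (D : KummerData lam X) {V : Type} [NormedAddCommGroup V] [NormedSpace ℂ V]
  [FiniteDimensional ℂ V]

include D in
/-- `Avoid` is an open condition along a holomorphic family of Pell data -/
private theorem avoid_near (hlam : LinearIndependent ℝ lam) {W : Type} [TopologicalSpace W]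
    {Q : Set W} {S : W → ND} (hS : ∀ᶠ p in 𝓝ˢ Q, ContinuousAt S p)
    (hP : ∀ᶠ p in 𝓝ˢ Q, Pell (S p).1) (hA : ∀ p ∈ Q, Avoid lam (S p)) :
    ∀ᶠ p in 𝓝ˢ Q, Avoid lam (S p) := by
  rw [eventually_nhdsSet_iff_forall] at hS hP ⊢
  intro p hp
  obtain ⟨Φ, hΦ⟩ := exists_pt_near D hlam (hA p hp)
  filter_upwards [hP p hp, (hS p hp).self_of_nhds.eventually hΦ] with q h1 h2
  exact Rep.avoid D (h2.2 h1)

/-- points of nearby Pell data are close, in the sense of a neighbourhood of the graph -/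
private theorem graph_close [Nonempty X] (hlam : LinearIndependent ℝ lam) {W : Type}
    [NormedAddCommGroup W] {Q : Set W} (hQ : IsCompact Q) {S : W → ND}
    (hS : ContinuousOn S Q) (hP : ∀ p ∈ Q, Pell (S p).1) (hA : ∀ p ∈ Q, Avoid lam (S p))
    (O : Set (W × X)) (hO : IsOpen O) (hgr : ∀ p ∈ Q, (p, pt D (S p)) ∈ O) :
    ∃ η > 0, ∀ p ∈ Q, ∀ x' : ND, Pell x'.1 → ‖x' - S p‖ < η → (p, pt D x') ∈ O := by
  have key : ∀ s : Q, ∃ c : Set (W × ND), IsOpen c ∧ ((s : W), S s) ∈ c ∧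
      ∀ x ∈ c, Pell x.2.1 → (x.1, pt D x.2) ∈ O := by
    intro s
    obtain ⟨Φ, hΦ⟩ := exists_pt_near D hlam (hA s s.2)
    have hcΦ : ContinuousAt Φ (S s) := hΦ.self_of_nhds.1.continuousAt
    have h0 : pt D (S s) = Φ (S s) := Rep.pt_eq D (hΦ.self_of_nhds.2 (hP s s.2))
    have h1 : ContinuousAt (fun x : W × ND => (x.1, Φ x.2)) ((s : W), S s) :=
      continuousAt_fst.prodMk (ContinuousAt.comp (f := fun p : W × ND => p.2)
        (x := ((s : W), S s)) hcΦ continuousAt_snd)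
    have h2 : ∀ᶠ x : W × ND in 𝓝 ((s : W), S s), (x.1, Φ x.2) ∈ O := by
      apply h1.eventually
      apply hO.mem_nhds
      have := hgr s s.2
      rw [h0] at this
      exact this
    have h3 : ∀ᶠ x : W × ND in 𝓝 ((s : W), S s), Pell x.2.1 → Rep D x.2 (Φ x.2) := by
      have h4 : Tendsto (fun x : W × ND => x.2) (𝓝 ((s : W), S s)) (𝓝 (S s)) :=
        continuousAt_snd
      exact (h4.eventually hΦ).mono fun x hx => hx.2
    obtain ⟨c, hc1, hc2, hc3⟩ := _root_.mem_nhds_iff.1 (inter_mem h2 h3)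
    refine ⟨c, hc2, hc3, fun x hx hx2 => ?_⟩
    obtain ⟨h5, h6⟩ := hc1 hx
    rw [Rep.pt_eq D (h6 hx2)]
    exact h5
  choose c hc1 hc2 hc3 using key
  obtain ⟨δ, hδ, hL⟩ := lebesgue_number_lemma_of_metric (s := (fun p => (p, S p)) '' Q) (c := c)
    (hQ.image_of_continuousOn (continuousOn_id.prodMk hS)) hc1 (by
      rintro _ ⟨z, hz, rfl⟩
      exact mem_iUnion.2 ⟨⟨z, hz⟩, hc2 ⟨z, hz⟩⟩)
  refine ⟨δ, hδ, fun p hp x' hx'P hx' => ?_⟩
  obtain ⟨s, hs⟩ := hL (p, S p) (mem_image_of_mem _ hp)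
  have h1 : (p, x') ∈ c s := by
    apply hs
    rw [mem_ball, Prod.dist_eq]
    simp only [dist_self]
    rw [dist_eq_norm]
    exact max_lt hδ hx'
  exact hc3 s (p, x') h1 hx'P

/-- maps near the spray are reparametrisations of the spray -/
theorem exists_reparam [Nonempty X] [T2Space X] [IsManifold 𝓘(ℂ, C2) 1 X] (vol : VolForm X)
    (hlam : LinearIndependent ℝ lam) {Q : Set (V × (Fin 3 → ℂ))} (hQ : Good Q)
    {S : V × (Fin 3 → ℂ) → ND} (hS : HolNear Q S) (hP : ∀ᶠ p in 𝓝ˢ Q, Pell (S p).1)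
    (hA : ∀ p ∈ Q, Avoid lam (S p))
    (hsurj : ∀ p ∈ Q, Function.Surjective
      (mfderiv 𝓘(ℂ, Fin 3 → ℂ) 𝓘(ℂ, C2) (fun w => pt D (S (p.1, p.2 + w))) 0))
    {δ : ℝ} (hδ : 0 < δ) :
    ∃ η > 0, ∀ R : V × (Fin 3 → ℂ) → ND, HolNear Q R → (∀ᶠ p in 𝓝ˢ Q, Pell (R p).1) →
      (∀ p ∈ Q, Avoid lam (R p)) → (∀ p ∈ Q, ‖R p - S p‖ < η) →
      ∃ w : V × (Fin 3 → ℂ) → (Fin 3 → ℂ), HolNear Q w ∧
        ∀ᶠ p in 𝓝ˢ Q, ‖w p‖ < δ ∧ pt D (S (p.1, p.2 + w p)) = pt D (R p) := by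
  have hSc : ∀ᶠ p in 𝓝ˢ Q, ContinuousAt S p := hS.mono fun p hp => hp.continuousAt
  have hAn : ∀ᶠ p in 𝓝ˢ Q, Avoid lam (S p) := avoid_near D hlam hSc hP hA
  set Sh : (V × (Fin 3 → ℂ)) × (Fin 3 → ℂ) → X := fun x => pt D (S (x.1.1, x.1.2 + x.2)) with hSh
  set m : (V × (Fin 3 → ℂ)) × (Fin 3 → ℂ) → V × (Fin 3 → ℂ) := fun x => (x.1.1, x.1.2 + x.2)
    with hm
  have hmd : Differentiable ℂ m := by
    intro x
    have h1 : DifferentiableAt ℂ (fun x : (V × (Fin 3 → ℂ)) × (Fin 3 → ℂ) => x.1) x :=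
      differentiableAt_fst
    exact h1.fst.prodMk (h1.snd.add differentiableAt_snd)
  have hmc : Continuous m := hmd.continuous
  have hmt : Tendsto m (𝓝ˢ (Q ×ˢ {(0 : Fin 3 → ℂ)})) (𝓝ˢ Q) := by
    apply hmc.tendsto_nhdsSet
    rintro ⟨p, w⟩ ⟨hp, hw⟩
    have hw' : w = 0 := hw
    subst hw'
    simpa only [hm, add_zero, Prod.mk.eta] using hp
  have hall : ∀ᶠ p in 𝓝ˢ Q, DifferentiableAt ℂ S p ∧ (∀ᶠ q in 𝓝 p, Pell (S q).1) ∧
      Avoid lam (S p) := hS.and (hP.eventually_nhdsSet.and hAn)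
  have hShol : MHolNear C2 (Q ×ˢ {(0 : Fin 3 → ℂ)}) Sh := by
    filter_upwards [hmt.eventually hall] with x hx
    obtain ⟨h1, h2, h3⟩ := hx
    exact pt_mdifferentiableAt D hlam (x := fun x => S (m x)) (h1.comp x (hmd x))
      (hmc.continuousAt.eventually h2) h3
  set DD : V × (Fin 3 → ℂ) → (Fin 3 → ℂ) →L[ℂ] C2 := fun p =>
    mfderiv 𝓘(ℂ, Fin 3 → ℂ) 𝓘(ℂ, C2) (fun w => Sh (p, w)) 0 with hDD
  obtain ⟨P, hPh, hPP⟩ := exists_projector (V := V × (Fin 3 → ℂ)) vol hQ Sh hShol DD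
    (fun z => rfl) (fun z hz => hsurj z hz)
  obtain ⟨O, hO1, hO2, hO3⟩ := exists_solution (E := C2) (K := Q) hQ.isCompact Sh
    (fun p => pt D (S p)) hShol (Eventually.of_forall fun p => by simp only [hSh, add_zero, Prod.mk.eta])
    P hPh DD (fun z => rfl) (hPP.mono fun z hz => hz.1) (hPP.mono fun z hz => hz.2.1)
    (hPP.mono fun z hz => hz.2.2) δ hδ
  have hScon : ContinuousOn S Q := fun p hp =>
    (subset_of_mem_nhdsSet hSc hp : ContinuousAt S p).continuousWithinAt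
  obtain ⟨η, hη, hcl⟩ := graph_close D hlam hQ.isCompact hScon
    (fun p hp => subset_of_mem_nhdsSet hP hp) hA O hO1 hO2
  refine ⟨η, hη, fun R hR hRP hRA hRS => ?_⟩
  have hRc : ∀ᶠ p in 𝓝ˢ Q, ContinuousAt R p := hR.mono fun p hp => hp.continuousAt
  have hRAn : ∀ᶠ p in 𝓝ˢ Q, Avoid lam (R p) := avoid_near D hlam hRc hRP hRA
  have hg : MHolNear C2 Q (fun p => pt D (R p)) := by
    filter_upwards [hR, hRP.eventually_nhdsSet, hRAn] with p h1 h2 h3
    exact pt_mdifferentiableAt D hlam h1 h2 h3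
  exact hO3 (fun p => pt D (R p)) hg fun p hp =>
    hcl p hp (R p) (subset_of_mem_nhdsSet hRP hp) (hRS p hp)

end

end Vale.Agent.P290.K
end
end

section

section

set_option linter.all false

open Set Filter Metric
open scoped Manifold ContDiff Topology

namespace Vale.Agent.P290.K

/-- approximation by entire Pell data on arbitrary spaces -/
theorem Appr.entire' {lam : Fin 4 → C2} (hlam : LinearIndependent ℝ lam) (h : Appr lam) {W : Type}
    [NormedAddCommGroup W] [NormedSpace ℂ W] [FiniteDimensional ℂ W]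
    {K : Set W} (hK : Good K) (hne : K.Nonempty) {R : W → ND}
    (hR : HolNear K R) (hP : ∀ᶠ z in 𝓝ˢ K, Pell (R z).1) (hA : ∀ z ∈ K, Avoid lam (R z)) {ε : ℝ}
    (hε : 0 < ε) :
    ∃ R' : W → ND, Differentiable ℂ R' ∧ (∀ z, Pell (R' z).1) ∧
      (∀ z, Avoid lam (R' z)) ∧ ∀ z ∈ K, ‖R' z - R z‖ < ε := by
  set m := Module.finrank ℂ W with hm
  let e : W ≃L[ℂ] (Fin m → ℂ) := ContinuousLinearEquiv.ofFinrankEq (by simp only [Module.finrank_fintype_fun_eq_card, hm, Fintype.card_fin])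
  have hK' : Good (e '' K) := by
    refine ⟨hK.1.image e.continuous, ?_⟩
    have := hK.2.linear_image (((e : W →L[ℂ] (Fin m → ℂ)).restrictScalars ℝ :
      W →L[ℝ] (Fin m → ℂ)) : W →ₗ[ℝ] (Fin m → ℂ))
    exact this
  have hmaps : MapsTo e.symm (e '' K) K := by
    rintro _ ⟨z, hz, rfl⟩
    simpa only [ContinuousLinearEquiv.symm_apply_apply] using hz
  have htend : Tendsto e.symm (𝓝ˢ (e '' K)) (𝓝ˢ K) := e.symm.continuous.tendsto_nhdsSet hmaps
  obtain ⟨R', h1, h2, h3, h4⟩ := Appr.entire hlam h (K := e '' K) hK' (hne.image _)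
    (R := fun y => R (e.symm y))
    (by
      filter_upwards [htend.eventually hR] with y hy
      exact DifferentiableAt.comp (g := R) (f := e.symm) y hy e.symm.differentiableAt)
    (htend.eventually hP) (by
      rintro _ ⟨z, hz, rfl⟩
      simpa using hA z hz) hε
  refine ⟨fun z => R' (e z), h1.comp e.differentiable, fun z => h2 _, fun z => h3 _, ?_⟩
  intro z hz
  have := h4 (e z) (mem_image_of_mem _ hz)
  simpa only [gt_iff_lt, ContinuousLinearEquiv.symm_apply_apply] using this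

theorem hasFactor_of_isKummer (X : Type) [TopologicalSpace X] [ChartedSpace C2 X]
    (hX : IsKummer X) (vol : VolForm X) : HasFactor X := by
  obtain ⟨lam, hlam, ⟨D⟩⟩ := hX.kummer
  have hm := hX.manifold
  have := hX.t2
  have : IsManifold 𝓘(ℂ, C2) 1 X := IsManifold.of_le (n := ω) le_top
  intro V _ _ _ K hKc hKv f hf
  have hne : Nonempty X := ⟨f 0⟩
  have hK : Good K := ⟨hKc, hKv⟩
  rcases K.eq_empty_or_nonempty with rfl | hKne
  · exact (factor_const (f 0)).congr (by simp only [EventuallyEq, nhdsSet_empty, eventually_bot])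
  obtain ⟨x, hx, hxP⟩ := exists_rep D hlam hK hf
  have hxP1 : ∀ᶠ z in 𝓝ˢ K, Pell (x z).1 := hxP.mono fun z hz => hz.1
  have hxR : ∀ᶠ z in 𝓝ˢ K, Rep D (x z) (f z) := hxP.mono fun z hz => hz.2
  have hxA : ∀ z ∈ K, Avoid lam (x z) := fun z hz =>
    Rep.avoid D (hxR.self_of_nhdsSet z hz)
  obtain ⟨r, hr, S, hS, hSP, hSA, hS0, hSs⟩ := exists_spray D hlam hK hx hxP1 hxA
  have hQ : Good (K ×ˢ closedBall (0 : Fin 3 → ℂ) r) := hK.prod (good_closedBall_pi r)
  obtain ⟨η, hη, hrep⟩ := exists_reparam D vol hlam hQ hS hSP hSA hSs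
    (δ := r / 8) (by (clear * - hr; positivity))
  have hQne : (K ×ˢ closedBall (0 : Fin 3 → ℂ) r).Nonempty :=
    hKne.prod ⟨0, mem_closedBall_self hr.le⟩
  obtain ⟨R, hRd, hRP, hRA, hRS⟩ := Appr.entire' hlam (appr_of_linearIndependent lam hlam) hQ hQne
    hS hSP hSA hη
  obtain ⟨w, hw, hwS⟩ := hrep R (Eventually.of_forall fun p => hRd p)
    (Eventually.of_forall hRP) (fun p _ => hRA p) hRS
  obtain ⟨t, ht, htw⟩ := exists_hol_fixed hK hr hw (hwS.mono fun p hp => hp.1)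
  have hc : HolNear K (fun z => (z, t z)) := by
    filter_upwards [ht] with z hz
    exact differentiableAt_id.prodMk hz
  have hcm : MapsTo (fun z => (z, t z)) K (K ×ˢ closedBall (0 : Fin 3 → ℂ) r) := by
    intro z hz
    refine ⟨hz, ?_⟩
    have := (htw.self_of_nhdsSet z hz).1
    simpa only [mem_closedBall, dist_zero_right, ge_iff_le] using this.le
  refine ⟨V × (Fin 3 → ℂ), inferInstance, inferInstance, inferInstance, fun p => pt D (R p),
    fun z => (z, t z), ?_, hc, ?_⟩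
  · intro p
    exact pt_mdifferentiableAt D hlam (hRd p) (Eventually.of_forall hRP) (hRA p)
  · filter_upwards [hxR, hS0, htw, (hc.tendsto hcm).eventually hwS] with z h1 h2 h3 h4
    have h5 : pt D (S (z, t z + w (z, t z))) = pt D (R (z, t z)) := h4.2
    rw [h3.2, h2] at h5
    rw [← h5]
    exact (Rep.pt_eq D h1).symm

/-- A K3 surface linked by Tate-Shafarevich twists to a Kummer surface is Oka. -/
theorem isOka_of_linked_kummer (X Z : K3) (h : Relation.EqvGen IsTwist X Z)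
    (hZ : IsKummer Z.X) : IsOka X.X := by
  obtain ⟨vol⟩ := Z.isK3.canonical
  exact ((hasFactor_iff_of_linked h).2 (hasFactor_of_isKummer Z.X hZ vol)).isOka

end Vale.Agent.P290.K
end
end

section

section

open Set
open scoped Manifold ContDiff Topology

namespace Vale.Agent.P290.All

theorem isOka_of_isKummer {X : Type} [TopologicalSpace X] [ChartedSpace C2 X]
    [IsManifold 𝓘(ℂ, C2) ω X] [T2Space X] (h : IsKummer X) : IsOka X := by
  obtain ⟨l, hl, hD⟩ := h.exists_kummerData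
  exact isOka_iff (K.isOka_of_isKummer X ⟨inferInstance, inferInstance, l, hl, hD⟩)

theorem isOka_of_linked (X Z : K3)
    (h : Relation.EqvGen (fun X Y => Nonempty (Twist X Y)) X Z)
    (hZ : Fibred Z ∨ IsKummer Z.X) : IsOka X.X := by
  have m1 : IsManifold 𝓘(ℂ, C2) ω Z.X := Z.manifold
  have m5 : T2Space Z.X := Z.t2
  have h1 : HasFactor Z.X := by
    rcases hZ with hZ | hZ
    · exact hZ.hasFactor
    · obtain ⟨l, hl, hD⟩ := hZ.exists_kummerData
      exact K.hasFactor_of_isKummer Z.X ⟨m1, m5, l, hl, hD⟩ Z.volForm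
  have h2 : HasFactor X.X := (hasFactor_iff_of_linked (eqvGen_isTwist h)).2 h1
  have m2 : IsManifold 𝓘(ℂ, C2) ω X.X := X.manifold
  have m3 : IsManifold 𝓘(ℂ, C2) 1 X.X := IsManifold.of_le (n := ω) le_top
  exact isOka_iff h2.isOka

end Vale.Agent.P290.All
end
end
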